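import Mathlib

/-!
# P147: random walk in iid random environment, basic definitions

A trajectory is recorded by its steps.  `pw μ x π` is the annealed probability that the walk
started at `x` takes the steps `π`.
-/

namespace Vale.Agent.P147

open MeasureTheory Finset
open scoped ENNReal

/-- The lattice `ℤ^d`. -/
abbrev Site (d : ℕ) := Fin d → ℤ

/-- The `2d` coordinate unit steps `± eᵢ`. -/
abbrev Step (d : ℕ) := Fin d × Bool

/-- The vector of a step. -/
def vec {d : ℕ} (e : Step d) : Site d := Pi.single e.1 (if e.2 then 1 else -1)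

/-- Transition rows: probability vectors on the unit steps. -/
abbrev Row (d : ℕ) := {q : Step d → ℝ // (∀ e, 0 ≤ q e) ∧ ∑ e, q e = 1}

/-- Environments. -/
abbrev Env (d : ℕ) := Site d → Row d

/-- Trajectories of the walk started at `0`, recorded by their steps. -/
abbrev Traj (d : ℕ) := ℕ → Step d

/-- The position at time `n`. -/
def site {d : ℕ} (t : Traj d) (n : ℕ) : Site d := ∑ k ∈ Finset.range n, vec (t k)

/-- The iid environment law with marginal `μ`. -/
noncomputable def envLaw {d : ℕ} (μ : Measure (Row d)) : Measure (Env d) :=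
  Measure.infinitePi fun _ => μ

/-- Quenched probability that the walk started at `x` takes the steps `π`. -/
noncomputable def qw {d : ℕ} (ω : Env d) : Site d → List (Step d) → ℝ≥0∞
  | _, [] => 1
  | x, e :: π => ENNReal.ofReal ((ω x).1 e) * qw ω (x + vec e) π

/-- Annealed probability that the walk started at `x` takes the steps `π`. -/
noncomputable def pw {d : ℕ} (μ : Measure (Row d)) (x : Site d) (π : List (Step d)) : ℝ≥0∞ :=
  ∫⁻ ω, qw ω x π ∂envLaw μ

/-- The event that a trajectory begins with the steps `π`. -/
def cyl {d : ℕ} (π : List (Step d)) : Set (Traj d) :=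
  {t | List.ofFn (fun k : Fin π.length => t k) = π}

/-- `P` is the annealed law of the walk started at `0`. -/
def IsAnnealed {d : ℕ} (μ : Measure (Row d)) (P : Measure (Traj d)) : Prop :=
  IsProbabilityMeasure P ∧ ∀ π : List (Step d), P (cyl π) = pw μ 0 π

/-- Elliptic one-site laws. -/
def Elliptic {d : ℕ} (μ : Measure (Row d)) : Prop := ∀ᵐ q ∂μ, ∀ e, 0 < q.1 e

/-- Displacement of a path. -/
def disp {d : ℕ} (π : List (Step d)) : Site d := (π.map vec).sum

/-- Departure sites of a path started at `x`. -/
def deps {d : ℕ} : Site d → List (Step d) → Finset (Site d)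
  | _, [] => ∅
  | x, e :: π => insert x (deps (x + vec e) π)

/-- The linear functional `x ↦ ℓ ⬝ x`. -/
noncomputable def height {d : ℕ} (l : Fin d → ℝ) : Site d →+ ℝ where
  toFun x := ∑ i, l i * (x i : ℝ)
  map_zero' := by simp
  map_add' x y := by simp [mul_add, Finset.sum_add_distrib]

/-- Law of a sum of `n` independent `ν`-distributed displacements. -/
noncomputable def conv {d : ℕ} (ν : Site d → ℝ≥0∞) : ℕ → Site d → ℝ≥0∞
  | 0, x => if x = 0 then 1 else 0
  | n + 1, x => ∑' y, ν y * conv ν n (x - y)

end Vale.Agent.P147
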