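import Mathlib

/-!
# P147: the fair binomial law

Pointwise bounds for `C(n,k) / 2^n` and the integer sum of their common envelope
`√N / (N + x²)`, `N = n + 1`.
-/

namespace Vale.Agent.P147

open Finset
open scoped ENNReal

/-- The fair binomial weights. -/
noncomputable def bw (n k : ℕ) : ℝ := (n.choose k : ℝ) / 2 ^ n

lemma bw_nonneg (n k : ℕ) : 0 ≤ bw n k := by
  unfold bw; positivity

/-- Pascal's rule as a recursion for weighted sums. -/
lemma sum_choose_mul_succ {R : Type*} [CommSemiring R] (n : ℕ) (F : ℕ → R) :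
    ∑ k ∈ range (n + 2), ((n + 1).choose k : R) * F k
      = ∑ k ∈ range (n + 1), (n.choose k : R) * (F k + F (k + 1)) := by
  rw [sum_range_succ' _ (n + 1)]
  simp only [Nat.choose_succ_succ', Nat.cast_add, add_mul, sum_add_distrib, mul_add,
    Nat.choose_zero_right]
  rw [sum_range_succ' (fun k => (n.choose k : R) * F k) n,
    sum_range_succ (fun k => (n.choose (k + 1) : R) * F (k + 1)) n]
  simp only [Nat.choose_succ_self, Nat.cast_zero, zero_mul, add_zero, Nat.choose_zero_right]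
  ring

lemma centralBinom_sq_le (m : ℕ) : m.centralBinom ^ 2 * (3 * m + 1) ≤ 16 ^ m := by
  induction m with
  | zero => simp
  | succ m ih =>
    have h := Nat.succ_mul_centralBinom_succ m
    refine Nat.le_of_mul_le_mul_left ?_ (show 0 < (m + 1) ^ 2 by positivity)
    calc (m + 1) ^ 2 * ((m + 1).centralBinom ^ 2 * (3 * (m + 1) + 1))
        = ((m + 1) * (m + 1).centralBinom) ^ 2 * (3 * m + 4) := by ring
      _ = m.centralBinom ^ 2 * (4 * ((2 * m + 1) ^ 2 * (3 * m + 4))) := by rw [h]; ring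
      _ ≤ m.centralBinom ^ 2 * (4 * (4 * (m + 1) ^ 2 * (3 * m + 1))) := by
          gcongr m.centralBinom ^ 2 * (4 * ?_)
          nlinarith [Nat.zero_le m]
      _ = (m.centralBinom ^ 2 * (3 * m + 1)) * (16 * (m + 1) ^ 2) := by ring
      _ ≤ 16 ^ m * (16 * (m + 1) ^ 2) := by gcongr
      _ = (m + 1) ^ 2 * 16 ^ (m + 1) := by ring

/-- All fair binomial weights are `O(1/√n)`. -/
lemma bw_le_inv_sqrt (n k : ℕ) : bw n k ≤ 2 / √(n + 1 : ℕ) := by
  have hsq : (n.choose k) ^ 2 * (n + 1) ≤ 4 * 4 ^ n := by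
    obtain ⟨m, rfl | rfl⟩ := Nat.even_or_odd' n
    · have h1 : (2 * m).choose k ≤ m.centralBinom := Nat.choose_le_centralBinom k m
      calc (2 * m).choose k ^ 2 * (2 * m + 1) ≤ m.centralBinom ^ 2 * (3 * m + 1) := by
            gcongr; omega
        _ ≤ 16 ^ m := centralBinom_sq_le m
        _ = 4 ^ (2 * m) := by rw [pow_mul]; norm_num
        _ ≤ 4 * 4 ^ (2 * m) := by omega
    · have h1 : (2 * m + 1).choose k ≤ 2 * m.centralBinom := by
        cases k with
        | zero => simp; exact le_mul_of_one_le_right' (Nat.centralBinom_pos m) |>.trans' (by omega)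
        | succ j =>
          rw [Nat.choose_succ_succ']
          have a := Nat.choose_le_centralBinom j m
          have b := Nat.choose_le_centralBinom (j + 1) m
          omega
      calc (2 * m + 1).choose k ^ 2 * (2 * m + 1 + 1)
          ≤ (2 * m.centralBinom) ^ 2 * (4 * (3 * m + 1)) := by gcongr; omega
        _ = 16 * (m.centralBinom ^ 2 * (3 * m + 1)) := by ring
        _ ≤ 16 * 16 ^ m := by gcongr; exact centralBinom_sq_le m
        _ = 4 * 4 ^ (2 * m + 1) := by rw [pow_succ, pow_mul]; ring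
  have hR : (n.choose k : ℝ) ^ 2 * ((n + 1 : ℕ) : ℝ) ≤ (2 * 2 ^ n) ^ 2 := by
    have : ((2 : ℝ) * 2 ^ n) ^ 2 = ((4 * 4 ^ n : ℕ) : ℝ) := by
      push_cast
      rw [mul_pow, ← pow_mul, mul_comm n 2, pow_mul]; norm_num
    rw [this]; exact_mod_cast hsq
  have hs : 0 < √((n + 1 : ℕ) : ℝ) := Real.sqrt_pos.2 (by positivity)
  rw [bw, div_le_div_iff₀ (by positivity) hs]
  refine (pow_le_pow_iff_left₀ (by positivity) (by positivity) two_ne_zero).1 ?_
  rwa [mul_pow, Real.sq_sqrt (by positivity)]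

lemma sum_choose_mul_sq (n : ℕ) :
    ∑ k ∈ range (n + 1), (n.choose k : ℤ) * (2 * (k : ℤ) - n) ^ 2 = (n : ℤ) * 2 ^ n := by
  induction n with
  | zero => simp
  | succ n ih =>
    show ∑ k ∈ range (n + 2), _ = _
    rw [sum_choose_mul_succ n (fun k : ℕ => (2 * (k : ℤ) - (n + 1 : ℕ)) ^ 2)]
    have h2 : ∑ k ∈ range (n + 1), (n.choose k : ℤ) = 2 ^ n := by
      exact_mod_cast Nat.sum_range_choose n
    calc ∑ k ∈ range (n + 1), (n.choose k : ℤ) *
          ((2 * (k : ℤ) - (n + 1 : ℕ)) ^ 2 + (2 * ((k + 1 : ℕ) : ℤ) - (n + 1 : ℕ)) ^ 2)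
        = ∑ k ∈ range (n + 1), (2 * ((n.choose k : ℤ) * (2 * k - n) ^ 2)
            + 2 * (n.choose k : ℤ)) := sum_congr rfl fun k _ => by push_cast; ring
      _ = _ := by rw [sum_add_distrib, ← mul_sum, ← mul_sum, ih, h2]; push_cast; ring

lemma choose_le_choose_of_le_half {n a b : ℕ} (hab : a ≤ b) (hb : 2 * b ≤ n) :
    n.choose a ≤ n.choose b := by
  induction b, hab using Nat.le_induction with
  | base => exact le_rfl
  | succ b _ ih =>
    exact (ih (by omega)).trans (Nat.choose_le_succ_of_lt_half_left (by omega))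

lemma choose_mul_cube_le {n k : ℕ} (hk : 2 * k ≤ n) :
    (n.choose k : ℤ) * ((n : ℤ) - 2 * k) ^ 3 ≤ 16 * (n * 2 ^ n) := by
  set e := n - 2 * k with he
  have hez : ((n : ℤ) - 2 * k) = (e : ℤ) := by omega
  rw [hez]
  set t := e / 4 with ht
  have hsub : Icc k (k + t) ⊆ range (n + 1) := by
    intro j hj; simp only [mem_Icc] at hj; simp only [mem_range]; omega
  have hpt : ∀ j ∈ Icc k (k + t),
      (n.choose k : ℤ) * (e : ℤ) ^ 2 ≤ 4 * ((n.choose j : ℤ) * (2 * j - n) ^ 2) := by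
    intro j hj
    rw [mem_Icc] at hj
    have h1 : (n.choose k : ℤ) ≤ n.choose j := by
      exact_mod_cast choose_le_choose_of_le_half hj.1 (by omega)
    have h2 : (e : ℤ) ≤ 2 * ((n : ℤ) - 2 * j) := by omega
    calc (n.choose k : ℤ) * (e : ℤ) ^ 2 ≤ n.choose j * (2 * ((n : ℤ) - 2 * j)) ^ 2 := by
          gcongr
      _ = _ := by ring
  have h3 : ((t : ℤ) + 1) * ((n.choose k : ℤ) * (e : ℤ) ^ 2) ≤ 4 * (n * 2 ^ n) := by
    calc ((t : ℤ) + 1) * ((n.choose k : ℤ) * (e : ℤ) ^ 2)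
        = ∑ _j ∈ Icc k (k + t), (n.choose k : ℤ) * (e : ℤ) ^ 2 := by
          rw [sum_const, Nat.card_Icc, nsmul_eq_mul]
          congr 1
          omega
      _ ≤ ∑ j ∈ Icc k (k + t), 4 * ((n.choose j : ℤ) * (2 * j - n) ^ 2) := sum_le_sum hpt
      _ ≤ ∑ j ∈ range (n + 1), 4 * ((n.choose j : ℤ) * (2 * j - n) ^ 2) :=
          sum_le_sum_of_subset_of_nonneg hsub fun _ _ _ => by positivity
      _ = _ := by rw [← mul_sum, sum_choose_mul_sq]
  calc (n.choose k : ℤ) * (e : ℤ) ^ 3 = (e : ℤ) * ((n.choose k : ℤ) * (e : ℤ) ^ 2) := by ring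
    _ ≤ (4 * ((t : ℤ) + 1)) * ((n.choose k : ℤ) * (e : ℤ) ^ 2) := by gcongr; omega
    _ ≤ _ := by linarith [h3]

/-- The envelope of the fair binomial weights. -/
lemma bw_le_envelope {n k : ℕ} (hk : k ≤ n) :
    bw n k * (((n + 1 : ℕ) : ℝ) + ((k : ℝ) - n / 2) ^ 2) ≤ 4 * √(n + 1 : ℕ) := by
  wlog hk2 : 2 * k ≤ n generalizing k
  · have := this (k := n - k) (by omega) (by omega)
    have e : bw n (n - k) = bw n k := by rw [bw, bw, Nat.choose_symm hk]
    rw [e, Nat.cast_sub hk] at this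
    convert this using 3; ring
  set N : ℝ := ((n + 1 : ℕ) : ℝ) with hN
  have hN0 : 0 < N := by positivity
  have hb := bw_nonneg n k
  have hs : 0 < √N := Real.sqrt_pos.2 hN0
  have h1 : bw n k * N ≤ 2 * √N := by
    have := bw_le_inv_sqrt n k
    rw [← hN, le_div_iff₀ hs] at this
    calc bw n k * N = bw n k * √N * √N := by rw [mul_assoc, Real.mul_self_sqrt hN0.le]
      _ ≤ 2 * √N := by gcongr
  set x : ℝ := (n : ℝ) / 2 - k with hx
  have hx0 : 0 ≤ x := by
    have : (2 * (k : ℝ)) ≤ n := by exact_mod_cast hk2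
    rw [hx]; linarith
  rw [show ((k : ℝ) - n / 2) ^ 2 = x ^ 2 by rw [hx]; ring, mul_add]
  suffices bw n k * x ^ 2 ≤ 2 * √N by linarith
  rcases le_or_gt x √N with hle | hgt
  · refine le_trans ?_ h1
    gcongr
    calc x ^ 2 ≤ √N ^ 2 := by gcongr
      _ = N := Real.sq_sqrt hN0.le
  · have h3 : bw n k * x ^ 3 ≤ 2 * N := by
      have := choose_mul_cube_le hk2
      have hR : (n.choose k : ℝ) * ((n : ℝ) - 2 * k) ^ 3 ≤ 16 * (n * 2 ^ n) := by exact_mod_cast this
      rw [bw, div_mul_eq_mul_div, div_le_iff₀ (by positivity)]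
      have : x ^ 3 = ((n : ℝ) - 2 * k) ^ 3 / 8 := by rw [hx]; ring
      rw [this, hN]; push_cast
      nlinarith [show (0 : ℝ) < 2 ^ n by positivity]
    have : bw n k * x ^ 2 * √N ≤ 2 * √N * √N := by
      calc bw n k * x ^ 2 * √N ≤ bw n k * x ^ 2 * x := by gcongr
        _ = bw n k * x ^ 3 := by ring
        _ ≤ 2 * N := h3
        _ = _ := by rw [mul_assoc, Real.mul_self_sqrt hN0.le]
    exact le_of_mul_le_mul_right this hs

lemma sum_inv_sq_le {A : ℝ} (hA : 1 ≤ A) (M : ℕ) :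
    ∑ j ∈ range M, 2 * A / (A + j) ^ 2 ≤ 4 := by
  have key : ∀ M : ℕ, ∑ j ∈ range M, 2 * A / (A + j) ^ 2 ≤ 4 * A * (1 / A - 1 / (A + M)) := by
    intro M
    induction M with
    | zero => simp
    | succ M ih =>
      rw [sum_range_succ]
      have hM : 0 < A + M := by positivity
      have step : 2 * A / (A + M) ^ 2 ≤ 4 * A * (1 / (A + M) - 1 / (A + (M + 1))) := by
        have : 1 / (A + (M : ℝ)) - 1 / (A + (M + 1)) = 1 / ((A + M) * (A + (M + 1))) := by
          field_simp; ring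
        rw [this, ← mul_div_assoc, mul_one, div_le_div_iff₀ (by positivity) (by positivity)]
        nlinarith [show (1 : ℝ) ≤ A + M by linarith [(Nat.cast_nonneg M : (0 : ℝ) ≤ M)]]
      push_cast
      linarith [step, ih]
  refine (key M).trans ?_
  have : 0 ≤ 1 / (A + (M : ℝ)) := by positivity
  have hA0 : 0 < A := by linarith
  calc 4 * A * (1 / A - 1 / (A + M)) ≤ 4 * A * (1 / A) := by gcongr; linarith
    _ = 4 := by field_simp

/-- The envelope has bounded sum over the integers. -/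
lemma tsum_envelope_le {N : ℝ} (hN : 1 ≤ N) (z : ℝ) :
    ∑' s : ℤ, ENNReal.ofReal (√N / (N + ((s : ℝ) - z) ^ 2)) ≤ ENNReal.ofReal 10 := by
  have hA : 1 ≤ √N := Real.one_le_sqrt.2 hN
  have hN0 : 0 < N := by linarith
  set A := √N with hAdef
  have hsq : N = A ^ 2 := (Real.sq_sqrt hN0.le).symm
  have hterm : ∀ (j : ℕ) (x : ℝ), (j : ℝ) ≤ |x| → A / (N + x ^ 2) ≤ 2 * A / (A + j) ^ 2 := by
    intro j x hx
    rw [div_le_div_iff₀ (by positivity) (by positivity), hsq]
    have : (j : ℝ) ^ 2 ≤ x ^ 2 := by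
      rw [← sq_abs x]; gcongr
    nlinarith [sq_nonneg (A - j), mul_nonneg (show 0 ≤ A by linarith) (show 0 ≤ A by linarith)]
  have hside : ∀ f : ℕ → ℝ, (∀ j : ℕ, (j : ℝ) ≤ |f j|) →
      ∑' j : ℕ, ENNReal.ofReal (A / (N + f j ^ 2)) ≤ ENNReal.ofReal 4 := by
    intro f hf
    rw [ENNReal.tsum_eq_iSup_nat]
    refine iSup_le fun M => ?_
    rw [← ENNReal.ofReal_sum_of_nonneg fun j _ => by positivity]
    exact ENNReal.ofReal_le_ofReal ((sum_le_sum fun j _ => hterm j _ (hf j)).trans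
      (sum_inv_sq_le hA M))
  set b := ⌊z⌋ with hb
  have hb1 : (b : ℝ) ≤ z := Int.floor_le z
  have hb2 : z < b + 1 := Int.lt_floor_add_one z
  rw [← (Equiv.addRight b).tsum_eq (fun s : ℤ => ENNReal.ofReal (A / (N + ((s : ℝ) - z) ^ 2))),
    tsum_of_nat_of_neg_add_one ENNReal.summable ENNReal.summable,
    tsum_eq_zero_add' (f := fun n : ℕ => ENNReal.ofReal _) ENNReal.summable]
  simp only [Equiv.coe_addRight]
  have e0 : ENNReal.ofReal (A / (N + (((((0 : ℕ) : ℤ) + b : ℤ) : ℝ) - z) ^ 2)) ≤ ENNReal.ofReal 2 := by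
    refine ENNReal.ofReal_le_ofReal ((hterm 0 _ (by simp)).trans ?_)
    rw [Nat.cast_zero, add_zero, div_le_iff₀ (by positivity)]
    nlinarith
  have e1 := hside (fun j : ℕ => ((((j + 1 : ℕ) : ℤ) + b : ℤ) : ℝ) - z) (fun j => by
    refine le_trans ?_ (le_abs_self _); push_cast; linarith)
  have e2 := hside (fun j : ℕ => (((-((j : ℤ) + 1)) + b : ℤ) : ℝ) - z) (fun j => by
    refine le_trans ?_ (neg_le_abs _); push_cast; linarith)
  refine (add_le_add (add_le_add e0 e1) e2).trans (le_of_eq ?_)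
  rw [← ENNReal.ofReal_add (by norm_num) (by norm_num),
    ← ENNReal.ofReal_add (by norm_num) (by norm_num)]
  norm_num

end Vale.Agent.P147
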