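import Mathlib
import Vale.Agent.P147.Defs
import Vale.Agent.P147.LocalBinom

/-!
# P147: smoothing by sums of iid displacements

`local_bound`: a sum of `n` iid vectors with four affinely independent atoms puts mass at most
`C / n` on any weight having total mass at most one in each unit height bin.
`height_lower`: the height of a sum of nonnegative, not identically zero, iid heights is at least
`c n` outside probability `C / n`.
-/

namespace Vale.Agent.P147

open Finset
open scoped ENNReal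

variable {d : ℕ}

/-- The shift operator of a weight. -/
noncomputable def shOp (α : Site d → ℝ≥0∞) (f : Site d → ℝ≥0∞) (v : Site d) : ℝ≥0∞ :=
  ∑' y, α y * f (v + y)

lemma shOp_mono (α : Site d → ℝ≥0∞) : Monotone (shOp α) :=
  fun _ _ h v => ENNReal.tsum_le_tsum fun y => mul_le_mul_right (h (v + y)) _

lemma shOp_add (α : Site d → ℝ≥0∞) (f g : Site d → ℝ≥0∞) :
    shOp α (f + g) = shOp α f + shOp α g := by
  funext v; simp only [shOp, Pi.add_apply, mul_add, ENNReal.tsum_add]

lemma shOp_smul (α : Site d → ℝ≥0∞) (c : ℝ≥0∞) (f : Site d → ℝ≥0∞) :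
    shOp α (c • f) = c • shOp α f := by
  funext v
  simp only [shOp, Pi.smul_apply, smul_eq_mul, ← ENNReal.tsum_mul_left]
  exact tsum_congr fun y => mul_left_comm _ _ _

lemma shOp_comm (α β : Site d → ℝ≥0∞) : Function.Commute (shOp α) (shOp β) := by
  intro f
  funext v
  simp only [shOp, ← ENNReal.tsum_mul_left]
  rw [ENNReal.tsum_comm]
  refine tsum_congr fun z => tsum_congr fun y => ?_
  rw [add_right_comm, mul_left_comm]

lemma shOp_const (α : Site d → ℝ≥0∞) (c : ℝ≥0∞) :
    shOp α (fun _ => c) = fun _ => (∑' y, α y) * c := by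
  funext v; simp only [shOp, ENNReal.tsum_mul_right]

lemma shOp_iterate_translate (α : Site d → ℝ≥0∞) (n : ℕ) (f : Site d → ℝ≥0∞) (u v : Site d) :
    (shOp α)^[n] (fun x => f (x + u)) v = (shOp α)^[n] f (v + u) := by
  induction n generalizing v with
  | zero => rfl
  | succ n ih =>
    rw [Function.iterate_succ_apply', Function.iterate_succ_apply']
    simp only [shOp]
    exact tsum_congr fun y => by rw [ih, add_right_comm]

/-- Integrating against the law of the sum is iterating the shift operator. -/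
lemma conv_pairing (ν : Site d → ℝ≥0∞) (n : ℕ) (f : Site d → ℝ≥0∞) :
    ∑' x, conv ν n x * f x = (shOp ν)^[n] f 0 := by
  induction n generalizing f with
  | zero =>
    rw [tsum_eq_single 0 (fun x hx => by simp [conv, hx])]
    simp [conv]
  | succ n ih =>
    rw [Function.iterate_succ_apply']
    simp only [conv, shOp, ← ENNReal.tsum_mul_right, zero_add]
    rw [ENNReal.tsum_comm]
    refine tsum_congr fun y => ?_
    have h1 := ih fun x => f (x + y)
    rw [shOp_iterate_translate, zero_add] at h1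
    rw [← h1, ← ENNReal.tsum_mul_left,
      ← (Equiv.addRight y).tsum_eq (fun x => ν y * conv ν n (x - y) * f x)]
    refine tsum_congr fun x => ?_
    simp only [Equiv.coe_addRight, add_sub_cancel_right, mul_assoc]

/-- The fair law on two points. -/
noncomputable def pairLaw (a b : Site d) (y : Site d) : ℝ≥0∞ := if y = a ∨ y = b then 2⁻¹ else 0

lemma shOp_pairLaw {a b : Site d} (hab : a ≠ b) (f : Site d → ℝ≥0∞) (v : Site d) :
    shOp (pairLaw a b) f v = 2⁻¹ * (f (v + a) + f (v + b)) := by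
  rw [shOp, tsum_eq_sum (s := {a, b}) (fun y hy => by
    simp only [mem_insert, mem_singleton, not_or] at hy
    simp [pairLaw, hy.1, hy.2]), sum_pair hab]
  simp [pairLaw, mul_add]

lemma shOp_pairLaw_iterate {a b : Site d} (hab : a ≠ b) (n : ℕ) (f : Site d → ℝ≥0∞)
    (v : Site d) :
    (shOp (pairLaw a b))^[n] f v
      = 2⁻¹ ^ n * ∑ k ∈ range (n + 1), (n.choose k : ℝ≥0∞) * f (v + n • a + k • (b - a)) := by
  induction n generalizing v with
  | zero => simp
  | succ n ih =>
    rw [Function.iterate_succ_apply', shOp_pairLaw hab, ih, ih,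
      sum_choose_mul_succ n (fun k => f (v + (n + 1) • a + k • (b - a))), pow_succ',
      ← mul_add, ← sum_add_distrib, ← mul_assoc]
    congr 1
    refine sum_congr rfl fun k _ => ?_
    rw [mul_add]
    congr 3 <;> (simp only [succ_nsmul]; abel)

lemma ofReal_bw (n k : ℕ) : ENNReal.ofReal (bw n k) = 2⁻¹ ^ n * (n.choose k : ℝ≥0∞) := by
  rw [bw, ENNReal.ofReal_div_of_pos (by positivity), ENNReal.ofReal_natCast,
    ENNReal.ofReal_pow (by norm_num), ENNReal.ofReal_ofNat, ENNReal.div_eq_inv_mul,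
    ENNReal.inv_pow]

/-- The product of three fair binomial laws, in height coordinates. -/
lemma bw_prod_le {n : ℕ} {k : Fin 3 → ℕ} (hk : ∀ i, k i ≤ n) {c : Fin 3 → ℝ} {K e : ℝ}
    (hK : 1 + ∑ i, |c i| ≤ K) (he : |e - ∑ i, c i * ((k i : ℝ) - n / 2)| ≤ 1) :
    bw n (k 0) * bw n (k 1) * bw n (k 2)
      ≤ 48 * K ^ 2 / ((n + 1 : ℕ) : ℝ) * (√(n + 1 : ℕ) / (((n + 1 : ℕ) : ℝ) + e ^ 2)) := by
  set N : ℝ := ((n + 1 : ℕ) : ℝ) with hN
  have hN1 : 1 ≤ N := by rw [hN]; exact_mod_cast Nat.le_add_left 1 n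
  set x : Fin 3 → ℝ := fun i => (k i : ℝ) - n / 2 with hx
  obtain ⟨i₀, hi₀⟩ := Finite.exists_max fun i => |x i|
  have hK1 : 1 ≤ K := le_trans (by simp [sum_nonneg]) hK
  have hec : |e| ≤ K * |x i₀| + 1 := by
    have h1 : |∑ i, c i * x i| ≤ (∑ i, |c i|) * |x i₀| := by
      rw [sum_mul]
      refine (abs_sum_le_sum_abs _ _).trans (sum_le_sum fun i _ => ?_)
      rw [abs_mul]
      exact mul_le_mul_of_nonneg_left (hi₀ i) (abs_nonneg _)
    have h2 := abs_add_le (e - ∑ i, c i * x i) (∑ i, c i * x i)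
    rw [sub_add_cancel] at h2
    have h3 : (∑ i, |c i|) * |x i₀| ≤ K * |x i₀| := by gcongr; linarith
    linarith
  have hden : N + e ^ 2 ≤ 3 * K ^ 2 * (N + x i₀ ^ 2) := by
    have : e ^ 2 ≤ (K * |x i₀| + 1) ^ 2 := by rw [← sq_abs e]; gcongr
    have h4 : (K * |x i₀| + 1) ^ 2 ≤ 2 * (K ^ 2 * x i₀ ^ 2) + 2 := by
      nlinarith [sq_nonneg (K * |x i₀| - 1), sq_abs (x i₀)]
    nlinarith [sq_nonneg (x i₀), mul_le_mul hK1 hK1 zero_le_one (by linarith)]
  have hA : ∀ i, bw n (k i) ≤ 2 / √N := fun i => bw_le_inv_sqrt n (k i)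
  have hB : bw n (k i₀) ≤ 12 * K ^ 2 * √N / (N + e ^ 2) := by
    rw [le_div_iff₀ (by positivity)]
    calc bw n (k i₀) * (N + e ^ 2) ≤ bw n (k i₀) * (3 * K ^ 2 * (N + x i₀ ^ 2)) := by
          gcongr; exact bw_nonneg _ _
      _ = 3 * K ^ 2 * (bw n (k i₀) * (N + x i₀ ^ 2)) := by ring
      _ ≤ 3 * K ^ 2 * (4 * √N) :=
          mul_le_mul_of_nonneg_left (bw_le_envelope (hk i₀)) (by positivity)
      _ = _ := by ring
  have hprod : ∀ p q r : Fin 3, bw n (k p) * bw n (k q) * bw n (k r) ≤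
      (2 / √N) * (2 / √N) * bw n (k r) := fun p q r => by
    gcongr <;> first | exact bw_nonneg _ _ | exact hA _
  have hmain : bw n (k 0) * bw n (k 1) * bw n (k 2) ≤ (2 / √N) * (2 / √N) * bw n (k i₀) := by
    fin_cases i₀
    · calc _ = bw n (k 1) * bw n (k 2) * bw n (k 0) := by ring
        _ ≤ _ := hprod 1 2 0
    · calc _ = bw n (k 2) * bw n (k 0) * bw n (k 1) := by ring
        _ ≤ _ := hprod 2 0 1
    · exact hprod 0 1 2
  refine hmain.trans ?_
  calc (2 / √N) * (2 / √N) * bw n (k i₀) ≤ (2 / √N) * (2 / √N) * (12 * K ^ 2 * √N / (N + e ^ 2)) := by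
        gcongr
    _ = _ := by
        rw [div_mul_div_comm, Real.mul_self_sqrt (by linarith)]
        field_simp
        ring

/-- Smoothing by the uniform law on a three-dimensional cube. -/
lemma cube_bound (h : Site d →+ ℝ) (a₀ : Site d) (a : Fin 3 → Site d)
    (hli : Function.Injective fun k : Fin 3 → ℤ => ∑ i, k i • (a i - a₀))
    (hab : ∀ i, a₀ ≠ a i) (n : ℕ) (g : Site d → ℝ≥0∞)
    (hg : ∀ s : ℤ, ∑' x, (if ⌊h x⌋ = s then g x else 0) ≤ 1) (v : Site d) :
    (shOp (pairLaw a₀ (a 0)) ∘ shOp (pairLaw a₀ (a 1)) ∘ shOp (pairLaw a₀ (a 2)))^[n] g v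
      ≤ ENNReal.ofReal (480 * (1 + ∑ i, |h (a i - a₀)|) ^ 2 / ((n + 1 : ℕ) : ℝ)) := by
  set K := 1 + ∑ i, |h (a i - a₀)| with hK
  rw [(((shOp_comm _ _).comp_right (shOp_comm _ _))).comp_iterate, (shOp_comm _ _).comp_iterate]
  simp only [Function.comp_apply, shOp_pairLaw_iterate (hab _), mul_sum]
  set N : ℝ := ((n + 1 : ℕ) : ℝ) with hN
  have hN1 : 1 ≤ N := by rw [hN]; exact_mod_cast Nat.le_add_left 1 n
  set w : Site d := v + n • a₀ + n • a₀ + n • a₀ with hw
  set u : Fin 3 → Site d := fun i => a i - a₀ with hu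
  set pt : ℕ × ℕ × ℕ → Site d := fun p => w + p.1 • u 0 + p.2.1 • u 1 + p.2.2 • u 2 with hpt
  set z : ℝ := h w + ∑ i, h (u i) * ((n : ℝ) / 2) with hz
  set ψ : ℤ → ℝ≥0∞ := fun s =>
    ENNReal.ofReal (48 * K ^ 2 / N) * ENNReal.ofReal (√N / (N + ((s : ℝ) - z) ^ 2)) with hψ
  set box := range (n + 1) ×ˢ range (n + 1) ×ˢ range (n + 1) with hbox
  calc _ = ∑ p ∈ box, ENNReal.ofReal (bw n p.1 * bw n p.2.1 * bw n p.2.2) * g (pt p) := by
        rw [hbox, sum_product]
        refine sum_congr rfl fun i _ => ?_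
        rw [sum_product]
        refine sum_congr rfl fun j _ => sum_congr rfl fun k _ => ?_
        rw [ENNReal.ofReal_mul (mul_nonneg (bw_nonneg _ _) (bw_nonneg _ _)),
          ENNReal.ofReal_mul (bw_nonneg _ _), ofReal_bw, ofReal_bw, ofReal_bw]
        have : v + n • a₀ + i • (a 0 - a₀) + n • a₀ + j • (a 1 - a₀) + n • a₀ + k • (a 2 - a₀)
            = pt (i, j, k) := by simp only [hpt, hw, hu]; abel
        rw [this]; ring
    _ ≤ ∑ p ∈ box, ψ ⌊h (pt p)⌋ * g (pt p) := by
        refine sum_le_sum fun p hp => mul_le_mul_left ?_ _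
        simp only [hbox, mem_product, mem_range] at hp
        simp only [hψ]
        rw [← ENNReal.ofReal_mul (by positivity)]
        refine ENNReal.ofReal_le_ofReal ?_
        refine bw_prod_le (k := ![p.1, p.2.1, p.2.2]) (c := fun i => h (u i)) ?_ le_rfl ?_
        · intro i; fin_cases i <;> simp <;> omega
        · have h1 : h (pt p) = z + ∑ i, h (u i) * (((![p.1, p.2.1, p.2.2] i : ℕ) : ℝ) - n / 2) := by
            simp only [hpt, hz, map_add, map_nsmul]
            simp only [Fin.sum_univ_three, nsmul_eq_mul]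
            simp only [Matrix.cons_val_zero, Matrix.cons_val_one, Matrix.cons_val]
            ring
          have f1 := Int.floor_le (h (pt p))
          have f2 := Int.lt_floor_add_one (h (pt p))
          rw [abs_le]; constructor <;> linarith
    _ = ∑ x ∈ box.image pt, ψ ⌊h x⌋ * g x := by
        rw [sum_image]
        intro p _ q _ hpq
        have := @hli ![(p.1 : ℤ), p.2.1, p.2.2] ![(q.1 : ℤ), q.2.1, q.2.2] (by
          simp only [hpt, add_assoc, add_right_inj] at hpq
          simp only [Fin.sum_univ_three, Matrix.cons_val_zero, Matrix.cons_val_one,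
            Matrix.cons_val, natCast_zsmul, add_assoc]
          exact hpq)
        obtain ⟨x1, y1, z1⟩ := p
        obtain ⟨x2, y2, z2⟩ := q
        have e0 := congrFun this 0
        have e1 := congrFun this 1
        have e2 := congrFun this 2
        simp at e0 e1 e2
        simp [e0, e1, e2]
    _ ≤ ∑' x, ψ ⌊h x⌋ * g x := ENNReal.sum_le_tsum _
    _ = ∑' s : ℤ, ψ s * ∑' x, (if ⌊h x⌋ = s then g x else 0) := by
        simp only [← ENNReal.tsum_mul_left]
        rw [ENNReal.tsum_comm]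
        refine tsum_congr fun x => ?_
        rw [tsum_eq_single ⌊h x⌋ (fun s hs => by simp [Ne.symm hs])]
        simp
    _ ≤ ∑' s : ℤ, ψ s := ENNReal.tsum_le_tsum fun s => mul_le_of_le_one_right' (hg s)
    _ ≤ ENNReal.ofReal (48 * K ^ 2 / N) * ENNReal.ofReal 10 := by
        rw [hψ, ENNReal.tsum_mul_left]; gcongr; exact tsum_envelope_le hN1 z
    _ = _ := by rw [← ENNReal.ofReal_mul (by positivity)]; congr 1; ring

/-- Splitting off a multiple of the fair law on two atoms. -/
lemma exists_pair_split (ν : Site d → ℝ≥0∞) {a b : Site d} {c : ℝ≥0∞}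
    (ha : c ≤ ν a) (hb : c ≤ ν b) :
    ∃ r : Site d → ℝ≥0∞, ∀ f, shOp ν f = (2 * c) • shOp (pairLaw a b) f + shOp r f := by
  refine ⟨fun y => ν y - (if y = a ∨ y = b then c else 0), fun f => funext fun v => ?_⟩
  simp only [Pi.add_apply, Pi.smul_apply, smul_eq_mul, shOp, ← ENNReal.tsum_mul_left,
    ← ENNReal.tsum_add, ← mul_assoc, ← add_mul]
  refine tsum_congr fun y => ?_
  congr 1
  by_cases h : y = a ∨ y = b
  · have hc : c ≤ ν y := by rcases h with rfl | rfl <;> assumption
    rw [pairLaw, if_pos h, if_pos h, mul_comm 2 c, mul_assoc,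
      ENNReal.mul_inv_cancel two_ne_zero ENNReal.ofNat_ne_top, mul_one,
      add_tsub_cancel_of_le hc]
  · simp [pairLaw, h]

/-- The abstract mixing induction: if `T = w P + L` with `L 1 = 1 - w`, and `Pⁱ g ≤ B / (i+1)`,
then `Tᵐ g ≤ B / (1 + w m / 2)`. -/
lemma mix_bound {X : Type*} (T P L : (X → ℝ≥0∞) → X → ℝ≥0∞) {w q : ℝ} (hw : 0 ≤ w) (hq : 0 ≤ q)
    (hwq : w + q = 1) (hT : ∀ f, T f = ENNReal.ofReal w • P f + L f)
    (hTmono : Monotone T) (hTadd : ∀ f g, T (f + g) = T f + T g)
    (hTsmul : ∀ (c : ℝ≥0∞) f, T (c • f) = c • T f) (hLT : Function.Commute L T)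
    (hLmono : Monotone L)
    (hL : ∀ c : ℝ≥0∞, L (fun _ => c) = fun _ => ENNReal.ofReal q * c) (g : X → ℝ≥0∞) {B : ℝ}
    (hB : 0 ≤ B) (hP : ∀ (i : ℕ) x, P^[i] g x ≤ ENNReal.ofReal (B / ((i : ℝ) + 1))) :
    ∀ (m i : ℕ) x, T^[m] (P^[i] g) x ≤ ENNReal.ofReal (B / ((i : ℝ) + 1 + w * m / 2)) := by
  have _hTmono := hTmono
  intro m
  induction m with
  | zero => intro i x; simpa using hP i x
  | succ m ih =>
    intro i x
    have hadd : ∀ (j : ℕ) f g, T^[j] (f + g) = T^[j] f + T^[j] g := fun j => by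
      induction j with
      | zero => simp
      | succ j ihj => intro f g; rw [Function.iterate_succ_apply', ihj, hTadd,
          Function.iterate_succ_apply', Function.iterate_succ_apply']
    have hsmul : ∀ (j : ℕ) (c : ℝ≥0∞) f, T^[j] (c • f) = c • T^[j] f := fun j => by
      induction j with
      | zero => simp
      | succ j ihj => intro c f; rw [Function.iterate_succ_apply', ihj, hTsmul,
          Function.iterate_succ_apply']
    rw [Function.iterate_succ_apply, hT, hadd, hsmul, ← (hLT.iterate_right m).eq,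
      ← Function.iterate_succ_apply' P i g]
    set s : ℝ := (i : ℝ) + 1 + w * m / 2 with hs
    have hs1 : 1 ≤ s := by
      have := mul_nonneg hw (Nat.cast_nonneg (α := ℝ) m)
      have : (0 : ℝ) ≤ i := Nat.cast_nonneg i
      rw [hs]; linarith
    have h1 : T^[m] (P^[i + 1] g) x ≤ ENNReal.ofReal (B / (s + 1)) := by
      refine (ih (i + 1) x).trans (le_of_eq ?_)
      rw [hs]; push_cast; ring_nf
    have h2 : L (T^[m] (P^[i] g)) x ≤ ENNReal.ofReal q * ENNReal.ofReal (B / s) := by
      have := hLmono (show T^[m] (P^[i] g) ≤ fun _ => ENNReal.ofReal (B / s) from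
        fun y => ih i y) x
      rwa [hL] at this
    simp only [Pi.add_apply, Pi.smul_apply, smul_eq_mul]
    refine (add_le_add (mul_le_mul_right h1 _) h2).trans ?_
    rw [← ENNReal.ofReal_mul hw, ← ENNReal.ofReal_mul hq,
      ← ENNReal.ofReal_add (mul_nonneg hw (div_nonneg hB (by linarith)))
        (mul_nonneg hq (div_nonneg hB (by linarith)))]
    refine ENNReal.ofReal_le_ofReal ?_
    have key : w / (s + 1) + q / s ≤ 1 / (s + w / 2) := by
      rw [div_add_div _ _ (by positivity) (by positivity),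
        div_le_div_iff₀ (by positivity) (by positivity)]
      obtain rfl : q = 1 - w := by linarith
      nlinarith [mul_nonneg hw (show 0 ≤ s - (1 - w) by linarith)]
    have hden : (i : ℝ) + 1 + w * ((m + 1 : ℕ) : ℝ) / 2 = s + w / 2 := by
      rw [hs]; push_cast; ring
    rw [hden]
    calc w * (B / (s + 1)) + q * (B / s) = B * (w / (s + 1) + q / s) := by ring
      _ ≤ B * (1 / (s + w / 2)) := by gcongr
      _ = _ := by ring

/-- Frozen: smoothing of a sum of iid vectors with four affinely independent atoms. -/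
theorem local_bound {d : ℕ} (ν : Site d → ℝ≥0∞) (hν : ∑' x, ν x = 1) (h : Site d →+ ℝ)
    (a₀ : Site d) (a : Fin 3 → Site d) (ha₀ : ν a₀ ≠ 0) (ha : ∀ i, ν (a i) ≠ 0)
    (hli : Function.Injective fun k : Fin 3 → ℤ => ∑ i, k i • (a i - a₀))
    (h1 : h (a 0 - a₀) = 1) :
    ∃ C : ℝ≥0∞, C ≠ ⊤ ∧ ∀ n : ℕ, 0 < n → ∀ g : Site d → ℝ≥0∞,
      (∀ s : ℤ, ∑' x, (if ⌊h x⌋ = s then g x else 0) ≤ 1) →
      ∑' x, conv ν n x * g x ≤ C / n := by
  have _h1 := h1
  have hab : ∀ i, a₀ ≠ a i := by
    intro i he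
    have hp : (Pi.single i (1 : ℤ) : Fin 3 → ℤ) = 0 := hli (by
      show ∑ j, (Pi.single i (1 : ℤ) : Fin 3 → ℤ) j • (a j - a₀) = ∑ j, (0 : ℤ) • (a j - a₀)
      rw [sum_eq_single i (fun j _ hj => by simp [hj]) (by simp)]
      simp [he])
    simpa using congrFun hp i
  set c : ℝ≥0∞ := min (ν a₀) (univ.inf fun i => ν (a i)) with hc
  have hc0 : c ≠ 0 := by
    rw [hc, ← pos_iff_ne_zero, lt_min_iff, Finset.lt_inf_iff (by simp)]
    exact ⟨pos_iff_ne_zero.2 ha₀, fun i _ => pos_iff_ne_zero.2 (ha i)⟩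
  choose r hr using fun i => exists_pair_split ν (a := a₀) (b := a i) (min_le_left _ _)
    ((min_le_right _ _).trans (Finset.inf_le (f := fun i => ν (a i)) (mem_univ i)))
  rw [← hc] at hr
  set T := shOp ν with hT
  set P : Fin 3 → (Site d → ℝ≥0∞) → Site d → ℝ≥0∞ := fun i => shOp (pairLaw a₀ (a i)) with hP
  set α := 2 * c with hα
  have hαle : α ≤ 1 := by
    calc α = c + c := two_mul c
      _ ≤ ν a₀ + ν (a 0) := add_le_add (min_le_left _ _) ((min_le_right _ _).trans
          (Finset.inf_le (f := fun i => ν (a i)) (mem_univ 0)))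
      _ = ∑ y ∈ {a₀, a 0}, ν y := (sum_pair (hab 0)).symm
      _ ≤ _ := (ENNReal.sum_le_tsum _).trans hν.le
  set L : (Site d → ℝ≥0∞) → Site d → ℝ≥0∞ := fun f =>
    (α * α) • P 0 (P 1 (shOp (r 2) f)) + α • P 0 (shOp (r 1) (T f)) + shOp (r 0) (T (T f))
    with hL
  have hT3 : ∀ f, T (T (T f)) = (α ^ 3) • (P 0 ∘ P 1 ∘ P 2) f + L f := by
    intro f
    have e2 : T f = α • P 2 f + shOp (r 2) f := hr 2 f
    calc T (T (T f)) = α • P 0 (T (T f)) + shOp (r 0) (T (T f)) := hr 0 _
      _ = α • P 0 (α • P 1 (T f) + shOp (r 1) (T f)) + shOp (r 0) (T (T f)) := by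
          congr 3; exact hr 1 (T f)
      _ = α • P 0 (α • P 1 (α • P 2 f + shOp (r 2) f) + shOp (r 1) (T f))
          + shOp (r 0) (T (T f)) := by congr 6
      _ = _ := by
          simp only [hP, hL, Function.comp_apply, shOp_add, shOp_smul, smul_add, smul_smul]
          rw [show α ^ 3 = α * α * α by ring, ← mul_assoc]
          abel
  set w : ℝ := (α ^ 3).toReal with hw
  have hα3 : α ^ 3 ≤ 1 := pow_le_one₀ zero_le hαle
  have hαtop : α ^ 3 ≠ ⊤ := ne_top_of_le_ne_top ENNReal.one_ne_top hα3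
  have hw0 : 0 < w := ENNReal.toReal_pos (pow_ne_zero _ (mul_ne_zero two_ne_zero hc0)) hαtop
  have hw1 : w ≤ 1 := by simpa [hw] using ENNReal.toReal_mono ENNReal.one_ne_top hα3
  have hwE : ENNReal.ofReal w = α ^ 3 := ENNReal.ofReal_toReal hαtop
  have hPconst : ∀ i e, P i (fun _ => e) = fun _ => e := fun i e => by
    funext v
    simp only [hP, shOp_pairLaw (hab i), ← two_mul, ← mul_assoc,
      ENNReal.inv_mul_cancel two_ne_zero ENNReal.ofNat_ne_top, one_mul]
  have hTconst : ∀ e, T (fun _ => e) = fun _ => e := fun e => by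
    rw [hT, shOp_const, hν]; simp
  have hLsmul : ∀ (e : ℝ≥0∞) f, L (e • f) = e • L f := fun e f => by
    simp only [hL, hP, hT, shOp_smul, smul_add, smul_comm e]
  have hLone : L (fun _ => 1) = fun _ => ENNReal.ofReal (1 - w) := by
    funext v
    have h3 := congrFun (hT3 fun _ => 1) v
    simp only [Function.comp_apply, hTconst, hPconst, Pi.add_apply, Pi.smul_apply,
      smul_eq_mul, mul_one] at h3
    refine (ENNReal.add_right_inj hαtop).1 (h3.symm.trans ?_)
    rw [← hwE, ← ENNReal.ofReal_add hw0.le (by linarith)]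
    simp
  have hLmono : Monotone L := fun f g hfg v => by
    simp only [hL, hP, Pi.add_apply, Pi.smul_apply, smul_eq_mul]
    exact add_le_add (add_le_add
      (mul_le_mul_right ((shOp_mono _) ((shOp_mono _) (shOp_mono _ hfg)) v) _)
      (mul_le_mul_right ((shOp_mono _) ((shOp_mono _) (shOp_mono _ hfg)) v) _))
      ((shOp_mono _) ((shOp_mono _) (shOp_mono _ hfg)) v)
  set K : ℝ := 480 * (1 + ∑ i, |h (a i - a₀)|) ^ 2 with hK
  refine ⟨ENNReal.ofReal (6 * K / w), ENNReal.ofReal_ne_top, fun n hn g hg => ?_⟩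
  rw [conv_pairing, ← hT]
  obtain ⟨m, e, he, rfl⟩ : ∃ m e, e < 3 ∧ n = e + 3 * m :=
    ⟨n / 3, n % 3, Nat.mod_lt _ (by norm_num), (Nat.mod_add_div n 3).symm⟩
  have hmix := mix_bound (fun f => T (T (T f))) (P 0 ∘ P 1 ∘ P 2) L hw0.le
    (by linarith : (0 : ℝ) ≤ 1 - w) (by ring) (fun f => by rw [hwE]; exact hT3 f)
    (fun f g hfg => shOp_mono ν (shOp_mono ν (shOp_mono ν hfg)))
    (fun f g => by simp only [hT, shOp_add]) (fun b f => by simp only [hT, shOp_smul])
    (fun f => by
      have cP : ∀ i f, P i (T f) = T (P i f) := fun i => shOp_comm _ _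
      have cR : ∀ i f, shOp (r i) (T f) = T (shOp (r i) f) := fun i => shOp_comm _ _
      simp only [hL, hT, shOp_add, shOp_smul]
      simp only [← hT, cR, cP])
    hLmono
    (fun b => by
      have : (fun _ : Site d => b) = b • fun _ => (1 : ℝ≥0∞) := by funext; simp
      rw [this, hLsmul, hLone]; funext; simp [mul_comm])
    g (B := K) (by positivity)
    (fun i x => by simpa [hK, hP] using cube_bound h a₀ a hli hab i g hg x) m 0
  have hit : ∀ j f, (fun f => T (T (T f)))^[j] f = T^[3 * j] f := fun j f => by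
    rw [Function.iterate_mul]; rfl
  rw [Function.iterate_add_apply]
  have hle : ∀ (e : ℕ) (f : Site d → ℝ≥0∞) b, (∀ x, f x ≤ b) → ∀ x, T^[e] f x ≤ b := by
    intro e
    induction e with
    | zero => intro f b hb x; exact hb x
    | succ e ihe =>
      intro f b hb x
      rw [Function.iterate_succ_apply]
      refine ihe _ b (fun y => ?_) x
      calc T f y ≤ T (fun _ => b) y := shOp_mono ν (fun z => hb z) y
        _ = b := by rw [hTconst]
  refine hle e _ _ (fun x => ?_) 0
  rw [← hit]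
  refine (hmix x).trans ?_
  rw [← ENNReal.ofReal_natCast, ← ENNReal.ofReal_div_of_pos (by positivity)]
  refine ENNReal.ofReal_le_ofReal ?_
  rw [div_div, Nat.cast_zero, zero_add, div_le_div_iff₀ (by positivity) (by positivity)]
  have hK0 : 0 ≤ K := by positivity
  have he3 : (e : ℝ) + 3 * m ≤ 3 * (m + 1) := by
    have : (e : ℝ) ≤ 2 := by exact_mod_cast (by omega : e ≤ 2)
    linarith
  push_cast
  calc K * (w * ((e : ℝ) + 3 * m)) ≤ K * (w * (3 * (m + 1))) := by gcongr
    _ ≤ 6 * K * (1 + w * m / 2) := by nlinarith [mul_le_mul_of_nonneg_left hw1 hK0]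

/-- Frozen: the height of such a sum grows linearly. -/
theorem height_lower {d : ℕ} (ν : Site d → ℝ≥0∞) (hν : ∑' x, ν x = 1) (h : Site d →+ ℝ)
    (hpos : ∀ x, ν x ≠ 0 → 0 ≤ h x) (a : Site d) (ha : ν a ≠ 0) (h1 : 0 < h a) :
    ∃ c : ℝ, ∃ C : ℝ≥0∞, 0 < c ∧ C ≠ ⊤ ∧ ∀ n : ℕ, 0 < n →
      ∑' x, (if h x < c * n then conv ν n x else 0) ≤ C / n := by
  set Z : ℝ≥0∞ := ∑' y, ν y * ENNReal.ofReal (Real.exp (-h y)) with hZdef
  have hterm : ∀ y, ν y * ENNReal.ofReal (Real.exp (-h y)) ≤ ν y := by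
    intro y
    by_cases h0 : ν y = 0
    · simp [h0]
    · exact mul_le_of_le_one_right'
        (ENNReal.ofReal_le_one.2 (Real.exp_le_one_iff.2 (by linarith [hpos y h0])))
  have hatop : ν a ≠ ⊤ := ne_top_of_le_ne_top ENNReal.one_ne_top ((ENNReal.le_tsum a).trans hν.le)
  have hZ1 : Z < 1 := by
    rw [← hν]
    refine ENNReal.tsum_lt_tsum (i := a) ?_ hterm ?_
    · exact ne_top_of_le_ne_top ENNReal.one_ne_top ((ENNReal.tsum_le_tsum hterm).trans hν.le)
    · calc ν a * ENNReal.ofReal (Real.exp (-h a)) < ν a * 1 :=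
            ENNReal.mul_lt_mul_right ha hatop
              (ENNReal.ofReal_lt_one.2 (Real.exp_lt_one_iff.2 (by linarith)))
        _ = ν a := mul_one _
  have hZtop : Z ≠ ⊤ := hZ1.ne_top
  have hZ0 : 0 < Z := lt_of_lt_of_le (pos_iff_ne_zero.2 (mul_ne_zero ha
    (ENNReal.ofReal_pos.2 (Real.exp_pos _)).ne')) (ENNReal.le_tsum a)
  set c : ℝ := -Real.log Z.toReal / 2 with hc
  have hc0 : 0 < c := by
    have := Real.log_neg (ENNReal.toReal_pos hZ0.ne' hZtop)
      (by simpa using (ENNReal.toReal_lt_toReal hZtop ENNReal.one_ne_top).2 hZ1)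
    rw [hc]; linarith
  refine ⟨c, ENNReal.ofReal (1 / c), hc0, ENNReal.ofReal_ne_top, fun n hn => ?_⟩
  set e : Site d → ℝ≥0∞ := fun x => ENNReal.ofReal (Real.exp (-h x)) with he
  have hT : shOp ν e = Z • e := by
    funext v
    simp only [he, shOp, Pi.smul_apply, smul_eq_mul, hZdef, ← ENNReal.tsum_mul_right]
    refine tsum_congr fun y => ?_
    rw [map_add, neg_add, Real.exp_add, ENNReal.ofReal_mul (Real.exp_pos _).le]
    ring
  have hiter : ∀ m, (shOp ν)^[m] e = Z ^ m • e := by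
    intro m
    induction m with
    | zero => simp
    | succ m ih => rw [Function.iterate_succ_apply', ih, shOp_smul, hT, smul_smul, pow_succ]
  calc ∑' x, (if h x < c * n then conv ν n x else 0)
      ≤ ∑' x, conv ν n x * (ENNReal.ofReal (Real.exp (c * n)) * e x) := by
        refine ENNReal.tsum_le_tsum fun x => ?_
        split_ifs with hx
        · refine le_mul_of_one_le_right' ?_
          rw [he, ← ENNReal.ofReal_mul (Real.exp_pos _).le, ← Real.exp_add,
            ENNReal.one_le_ofReal]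
          exact Real.one_le_exp (by linarith)
        · exact zero_le
    _ = ENNReal.ofReal (Real.exp (c * n)) * ∑' x, conv ν n x * e x := by
        rw [← ENNReal.tsum_mul_left]; exact tsum_congr fun x => mul_left_comm _ _ _
    _ = ENNReal.ofReal (Real.exp (c * n)) * Z ^ n := by
        rw [conv_pairing, hiter]; simp [he]
    _ = ENNReal.ofReal (Real.exp (-(c * n))) := by
        have : Z = ENNReal.ofReal (Real.exp (-(2 * c))) := by
          rw [hc, show -(2 * (-Real.log Z.toReal / 2)) = Real.log Z.toReal by ring,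
            Real.exp_log (ENNReal.toReal_pos hZ0.ne' hZtop), ENNReal.ofReal_toReal hZtop]
        rw [this, ← ENNReal.ofReal_pow (Real.exp_pos _).le, ← ENNReal.ofReal_mul (Real.exp_pos _).le,
          ← Real.exp_nat_mul, ← Real.exp_add]
        congr 2; ring
    _ ≤ ENNReal.ofReal (1 / c) / n := by
        rw [← ENNReal.ofReal_natCast n, ← ENNReal.ofReal_div_of_pos (by positivity)]
        refine ENNReal.ofReal_le_ofReal ?_
        rw [div_div, Real.exp_neg, ← one_div]
        gcongr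
        linarith [Real.add_one_le_exp (c * n)]

end Vale.Agent.P147
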