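import Mathlib
import Vale.Agent.P147.Defs

/-!
# P147: annealed path weights and the annealed law

The annealed weight of a path is multiplicative over disjoint departure sets, translation
invariant, and decreasing under extension.  The annealed law exists.
-/

namespace Vale.Agent.P147

open MeasureTheory Finset ProbabilityTheory
open scoped ENNReal

variable {d : ℕ}

/-! ## Paths -/

@[simp] theorem disp_nil : disp ([] : List (Step d)) = 0 := by simp [disp]

@[simp] theorem disp_cons (e : Step d) (π : List (Step d)) :
    disp (e :: π) = vec e + disp π := by simp [disp]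

@[simp] theorem disp_append (π ρ : List (Step d)) : disp (π ++ ρ) = disp π + disp ρ := by
  simp [disp]

@[simp] theorem deps_nil (x : Site d) : deps x ([] : List (Step d)) = ∅ := rfl

theorem deps_cons (x : Site d) (e : Step d) (π : List (Step d)) :
    deps x (e :: π) = insert x (deps (x + vec e) π) := rfl

theorem deps_append (π ρ : List (Step d)) (x : Site d) :
    deps x (π ++ ρ) = deps x π ∪ deps (x + disp π) ρ := by
  induction π generalizing x with
  | nil => simp
  | cons e π ih =>
    rw [List.cons_append, deps_cons, deps_cons, ih, disp_cons, add_assoc, Finset.insert_union]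

theorem deps_shift (π : List (Step d)) (x a : Site d) :
    deps (x + a) π = (deps x π).image (· + a) := by
  induction π generalizing x with
  | nil => simp
  | cons e π ih =>
    rw [deps_cons, deps_cons, image_insert, ← ih (x + vec e), add_right_comm x a]

theorem mem_deps {π : List (Step d)} {x y : Site d} :
    y ∈ deps x π ↔ ∃ k < π.length, x + disp (π.take k) = y := by
  induction π generalizing x with
  | nil => simp
  | cons e π ih =>
    rw [deps_cons, mem_insert, ih]
    constructor
    · rintro (rfl | ⟨k, hk, rfl⟩)
      · exact ⟨0, by simp, by simp⟩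
      · exact ⟨k + 1, by simpa using hk, by simp [add_assoc]⟩
    · rintro ⟨k, hk, rfl⟩
      cases k with
      | zero => left; simp
      | succ k => exact .inr ⟨k, by simpa using hk, by simp [add_assoc]⟩

/-! ## Quenched weights -/

theorem qw_append (ω : Env d) (π ρ : List (Step d)) (x : Site d) :
    qw ω x (π ++ ρ) = qw ω x π * qw ω (x + disp π) ρ := by
  induction π generalizing x with
  | nil => simp [qw]
  | cons e π ih => simp [qw, ih, add_assoc, mul_assoc]

theorem Row.apply_le_one (q : Row d) (e : Step d) : q.1 e ≤ 1 :=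
  (single_le_sum (f := fun i => q.1 i) (fun i _ => q.2.1 i) (mem_univ e)).trans_eq q.2.2

theorem qw_le_one (ω : Env d) (π : List (Step d)) (x : Site d) : qw ω x π ≤ 1 := by
  induction π generalizing x with
  | nil => simp [qw]
  | cons e π ih =>
    simp only [qw]
    exact mul_le_one' (ENNReal.ofReal_le_one.2 (Row.apply_le_one _ _)) (ih _)

theorem sum_qw_single (ω : Env d) (x : Site d) : ∑ e, qw ω x [e] = 1 := by
  simp only [qw, mul_one]
  rw [← ENNReal.ofReal_sum_of_nonneg fun e _ => (ω x).2.1 e, (ω x).2.2, ENNReal.ofReal_one]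

theorem qw_shift (ω : Env d) (π : List (Step d)) (x a : Site d) :
    qw ω (x + a) π = qw (fun y => ω (y + a)) x π := by
  induction π generalizing x with
  | nil => simp [qw]
  | cons e π ih => simp only [qw]; rw [← ih, add_right_comm x a]

theorem measurable_row_apply (e : Step d) :
    Measurable fun q : Row d => ENNReal.ofReal (q.1 e) :=
  ENNReal.measurable_ofReal.comp ((measurable_pi_apply e).comp measurable_subtype_coe)

theorem measurable_qw (π : List (Step d)) (x : Site d) :
    Measurable fun ω : Env d => qw ω x π := by
  induction π generalizing x with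
  | nil => simp [qw]
  | cons e π ih =>
    simp only [qw]
    exact ((measurable_row_apply e).comp (measurable_pi_apply x)).mul (ih _)

/-- The σ-algebra of the rows in `F`. -/
def rowSigma (F : Set (Site d)) : MeasurableSpace (Env d) :=
  ⨆ y ∈ F, MeasurableSpace.comap (fun ω => ω y) inferInstance

theorem measurable_qw_rowSigma (π : List (Step d)) (x : Site d) (F : Set (Site d))
    (hF : (deps x π : Set (Site d)) ⊆ F) :
    Measurable[rowSigma F] fun ω : Env d => qw ω x π := by
  induction π generalizing x with
  | nil => simp only [qw]; exact measurable_const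
  | cons e π ih =>
    simp only [qw]
    rw [deps_cons, coe_insert, Set.insert_subset_iff] at hF
    have h1 : Measurable[rowSigma F] fun ω : Env d => ω x :=
      Measurable.of_comap_le (le_iSup₂_of_le x hF.1 le_rfl)
    exact ((measurable_row_apply e).comp h1).mul (ih _ hF.2)

/-! ## Annealed weights -/

variable (μ : Measure (Row d)) [IsProbabilityMeasure μ]

instance : IsProbabilityMeasure (envLaw μ) := by unfold envLaw; infer_instance

theorem indep_rowSigma {F G : Set (Site d)} (h : Disjoint F G) :
    Indep (rowSigma F) (rowSigma G) (envLaw μ) :=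
  indep_iSup_of_disjoint (fun y => (measurable_pi_apply y).comap_le)
    ((iIndepFun_iff_iIndep _ _ _).1
      (iIndepFun_infinitePi (P := fun _ : Site d => μ) (X := fun _ q => q)
        fun _ => measurable_id)) h

@[simp] theorem pw_nil (x : Site d) : pw μ x [] = 1 := by simp [pw, qw]

theorem pw_le_one (x : Site d) (π : List (Step d)) : pw μ x π ≤ 1 := by
  calc pw μ x π ≤ ∫⁻ _ω, 1 ∂envLaw μ := lintegral_mono fun ω => qw_le_one ω π x
    _ = 1 := by simp

theorem pw_ne_top (x : Site d) (π : List (Step d)) : pw μ x π ≠ ⊤ :=
  ne_top_of_le_ne_top ENNReal.one_ne_top (pw_le_one μ x π)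

theorem pw_append_of_disjoint {x : Site d} {π ρ : List (Step d)}
    (h : Disjoint (deps x π) (deps (x + disp π) ρ)) :
    pw μ x (π ++ ρ) = pw μ x π * pw μ (x + disp π) ρ := by
  simp only [pw, qw_append]
  exact lintegral_mul_eq_lintegral_mul_lintegral_of_independent_measurableSpace
    (iSup₂_le fun y _ => (measurable_pi_apply y).comap_le)
    (iSup₂_le fun y _ => (measurable_pi_apply y).comap_le)
    (indep_rowSigma μ (Finset.disjoint_coe.2 h))
    (measurable_qw_rowSigma π x _ subset_rfl)
    (measurable_qw_rowSigma ρ _ _ subset_rfl)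

theorem pw_append_le_left (x : Site d) (π ρ : List (Step d)) :
    pw μ x (π ++ ρ) ≤ pw μ x π :=
  lintegral_mono fun ω => by
    rw [qw_append]; exact mul_le_of_le_one_right' (qw_le_one ω ρ _)

theorem pw_append_le_right (x : Site d) (π ρ : List (Step d)) :
    pw μ x (π ++ ρ) ≤ pw μ (x + disp π) ρ :=
  lintegral_mono fun ω => by
    rw [qw_append]; exact mul_le_of_le_one_left' (qw_le_one ω π _)

theorem sum_pw_append (x : Site d) (π : List (Step d)) :
    ∑ e, pw μ x (π ++ [e]) = pw μ x π := by
  simp only [pw, qw_append]
  rw [← lintegral_finsetSum (μ := envLaw μ) univ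
    (f := fun e ω => qw ω x π * qw ω (x + disp π) [e])
    fun e _ => (measurable_qw π x).mul (measurable_qw _ _)]
  simp [← mul_sum, sum_qw_single]

theorem map_shift_envLaw (a : Site d) :
    (envLaw μ).map (fun ω y => ω (y + a)) = envLaw μ := by
  refine Measure.eq_infinitePi _ fun s t ht => ?_
  have hm : Measurable fun (ω : Env d) (y : Site d) => ω (y + a) :=
    measurable_pi_lambda _ fun y => measurable_pi_apply _
  rw [Measure.map_apply hm (.pi s.countable_toSet fun i _ => ht i)]
  have : (fun (ω : Env d) y => ω (y + a)) ⁻¹' Set.pi s t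
      = Set.pi (s.map (Equiv.addRight a).toEmbedding : Set (Site d))
          fun y => t (y - a) := by
    ext ω
    simp only [Set.mem_preimage, Set.mem_pi, Finset.mem_coe, mem_map_equiv,
      Equiv.addRight_symm, Equiv.coe_addRight, ← sub_eq_add_neg]
    exact ⟨fun h i hi => by simpa using h (i - a) hi,
      fun h i hi => by simpa using h (i + a) (by simpa using hi)⟩
  rw [this, envLaw, Measure.infinitePi_pi _ fun i _ => ht _, prod_map]
  simp

theorem pw_shift (x a : Site d) (π : List (Step d)) : pw μ (x + a) π = pw μ x π := by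
  calc pw μ (x + a) π = ∫⁻ ω, qw (fun y => ω (y + a)) x π ∂envLaw μ := by
        simp only [pw, qw_shift]
    _ = ∫⁻ ω, qw ω x π ∂(envLaw μ).map (fun ω y => ω (y + a)) :=
        (lintegral_map (measurable_qw π x)
          (measurable_pi_lambda (fun (ω : Env d) (y : Site d) => ω (y + a))
            fun y => measurable_pi_apply _)).symm
    _ = pw μ x π := by rw [map_shift_envLaw]; rfl

theorem pw_start (x : Site d) (π : List (Step d)) : pw μ x π = pw μ 0 π := by
  simpa using pw_shift μ 0 x π

theorem pw_pos (hμ : Elliptic μ) (x : Site d) (π : List (Step d)) : pw μ x π ≠ 0 := by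
  have hall : ∀ π : List (Step d), ∀ x, ∀ᵐ ω ∂envLaw μ, qw ω x π ≠ 0 := by
    intro π
    induction π with
    | nil => simp [qw]
    | cons e π ih =>
      intro x
      have hx : ∀ᵐ ω ∂envLaw μ, 0 < (ω x).1 e := by
        have := (measurePreserving_eval_infinitePi (fun _ : Site d => μ) x).quasiMeasurePreserving
          |>.ae (hμ.mono fun q hq => hq e)
        exact this
      filter_upwards [hx, ih (x + vec e)] with ω h1 h2
      simp only [qw, mul_ne_zero_iff]
      exact ⟨by simpa [ENNReal.ofReal_eq_zero] using h1, h2⟩
  intro h0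
  rw [pw, lintegral_eq_zero_iff (measurable_qw π x)] at h0
  obtain ⟨ω, h1, h2⟩ := (h0.and (hall π x)).exists
  exact h2 h1

/-! ## Existence of the annealed law -/

/-- The interval of the unit segment that selects the step `e` from the row `q`. -/
noncomputable def stepLo (q : Row d) (e : Step d) : ℝ :=
  ∑ e' ∈ univ.filter fun e' => Fintype.equivFin (Step d) e' < Fintype.equivFin (Step d) e, q.1 e'

/-- The set of uniform variables selecting `e`. -/
def selSet (q : Row d) (e : Step d) : Set ℝ := Set.Ioc (stepLo q e) (stepLo q e + q.1 e)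

theorem stepLo_add_le {q : Row d} {e e' : Step d}
    (h : Fintype.equivFin (Step d) e < Fintype.equivFin (Step d) e') :
    stepLo q e + q.1 e ≤ stepLo q e' := by
  rw [stepLo, stepLo, ← sum_insert (s := univ.filter _) (a := e) (f := fun e' => q.1 e')
    (by simp) |>.trans (add_comm _ _)]
  refine sum_le_sum_of_subset_of_nonneg ?_ fun i _ _ => q.2.1 i
  intro i hi
  simp only [mem_insert, mem_filter, mem_univ, true_and] at hi ⊢
  rcases hi with rfl | hi
  · exact h
  · exact hi.trans h

theorem selSet_unique {q : Row d} {u : ℝ} {e e' : Step d} (h : u ∈ selSet q e)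
    (h' : u ∈ selSet q e') : e = e' := by
  rcases lt_trichotomy (Fintype.equivFin (Step d) e) (Fintype.equivFin (Step d) e') with
    hlt | heq | hgt
  · exact absurd (h.2.trans (stepLo_add_le hlt)) (not_le.2 h'.1)
  · exact (Fintype.equivFin (Step d)).injective heq
  · exact absurd (h'.2.trans (stepLo_add_le hgt)) (not_le.2 h.1)

open Classical in
/-- Select a step from a row with a uniform variable. -/
noncomputable def sel [NeZero d] (p : Row d × ℝ) : Step d :=
  if h : ∃ e, p.2 ∈ selSet p.1 e then h.choose else (0, true)

theorem sel_of_mem [NeZero d] {q : Row d} {u : ℝ} {e : Step d} (h : u ∈ selSet q e) :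
    sel (q, u) = e := by
  have h' : ∃ e, u ∈ selSet q e := ⟨e, h⟩
  rw [sel, dif_pos h']
  exact selSet_unique h'.choose_spec h

theorem selSet_exists {q : Row d} {u : ℝ} (h0 : 0 < u) (h1 : u ≤ 1) : ∃ e, u ∈ selSet q e := by
  classical
  obtain ⟨e0, -⟩ : ∃ e : Step d, e ∈ univ := by
    by_contra! hne
    have := q.2.2
    rw [sum_eq_zero fun e he => absurd he (hne e)] at this
    exact zero_ne_one this
  haveI : Nonempty (Step d) := ⟨e0⟩
  obtain ⟨e, he, hmax⟩ := (univ.filter fun e => stepLo q e < u).exists_max_image
    (fun e => Fintype.equivFin (Step d) e) (by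
      obtain ⟨m, -, hm⟩ := (univ : Finset (Step d)).exists_min_image
        (fun e => Fintype.equivFin (Step d) e) univ_nonempty
      refine ⟨m, mem_filter.2 ⟨mem_univ _, ?_⟩⟩
      rw [stepLo, sum_eq_zero fun i hi => absurd (mem_filter.1 hi).2 (not_lt.2 (hm i (mem_univ i)))]
      exact h0)
  refine ⟨e, (mem_filter.1 he).2, ?_⟩
  by_cases hlast : ∃ e', Fintype.equivFin (Step d) e < Fintype.equivFin (Step d) e'
  · obtain ⟨e', he', hmin⟩ := (univ.filter fun e' =>
        Fintype.equivFin (Step d) e < Fintype.equivFin (Step d) e').exists_min_image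
      (fun e => Fintype.equivFin (Step d) e) (by simpa [Finset.Nonempty] using hlast)
    have hle : stepLo q e' ≤ stepLo q e + q.1 e := by
      rw [stepLo, stepLo, add_comm, ← sum_insert (f := fun e' => q.1 e') (by simp)]
      refine sum_le_sum_of_subset_of_nonneg (fun i hi => ?_) fun i _ _ => q.2.1 i
      simp only [mem_filter, mem_univ, true_and] at hi
      simp only [mem_insert, mem_filter, mem_univ, true_and]
      by_contra! hc
      have hlt : Fintype.equivFin (Step d) e < Fintype.equivFin (Step d) i :=
        lt_of_le_of_ne hc.2 fun hh => hc.1 ((Fintype.equivFin (Step d)).injective hh).symm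
      exact absurd (hmin i (by simpa using hlt)) (not_le.2 hi)
    refine le_trans ?_ hle
    by_contra! hc
    exact absurd (hmax e' (by simpa using hc)) (not_le.2 (mem_filter.1 he').2)
  · push_neg at hlast
    have : stepLo q e + q.1 e = 1 := by
      rw [stepLo, add_comm, ← sum_insert (f := fun e' => q.1 e') (by simp)]
      refine Eq.trans (sum_congr (Finset.ext fun i => ?_) fun _ _ => rfl) q.2.2
      simp only [mem_insert, mem_filter, mem_univ, true_and, iff_true]
      rcases (hlast i).lt_or_eq with h | h
      · exact .inr h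
      · exact .inl ((Fintype.equivFin (Step d)).injective h)
    linarith

theorem sel_eq_iff [NeZero d] {q : Row d} {u : ℝ} (h0 : 0 < u) (h1 : u ≤ 1) (e : Step d) :
    sel (q, u) = e ↔ u ∈ selSet q e := by
  obtain ⟨e', he'⟩ := selSet_exists (q := q) h0 h1
  rw [sel_of_mem he']
  exact ⟨fun h => h ▸ he', fun h => selSet_unique he' h⟩

theorem measurable_sel [NeZero d] : Measurable (sel (d := d)) := by
  have hm : ∀ e, MeasurableSet {p : Row d × ℝ | p.2 ∈ selSet p.1 e} := by
    intro e
    have h1 : Measurable fun p : Row d × ℝ => stepLo p.1 e := by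
      unfold stepLo
      exact Finset.measurable_sum _ fun i _ =>
        (measurable_pi_apply i).comp (measurable_subtype_coe.comp measurable_fst)
    have h2 : Measurable fun p : Row d × ℝ => p.1.1 e :=
      (measurable_pi_apply e).comp (measurable_subtype_coe.comp measurable_fst)
    exact (measurableSet_lt h1 measurable_snd).inter
      (measurableSet_le measurable_snd (h1.add h2))
  refine measurable_to_countable' fun e => ?_
  have : sel ⁻¹' {e} = {p : Row d × ℝ | p.2 ∈ selSet p.1 e} ∪
      ((⋂ e', {p : Row d × ℝ | p.2 ∈ selSet p.1 e'}ᶜ) ∩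
        {_p | ((0, true) : Step d) = e}) := by
    ext ⟨q, u⟩
    simp only [Set.mem_preimage, Set.mem_singleton_iff, Set.mem_union, Set.mem_setOf_eq,
      Set.mem_inter_iff, Set.mem_iInter, Set.mem_compl_iff]
    by_cases h : ∃ e', u ∈ selSet q e'
    · obtain ⟨e', he'⟩ := h
      rw [sel_of_mem he']
      exact ⟨fun h => .inl (h ▸ he'),
        fun h => h.elim (selSet_unique he') fun h => absurd he' (h.1 e')⟩
    · push_neg at h
      rw [sel, dif_neg (fun ⟨e', he'⟩ => h e' he')]
      exact ⟨fun he => .inr ⟨h, he⟩, fun h' => h'.elim (fun h'' => absurd h'' (h e)) (·.2)⟩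
  rw [this]
  exact (hm e).union ((MeasurableSet.iInter fun e' => (hm e').compl).inter (.const _))

/-- Position of the walk driven by the environment `ω` and the uniform variables `u`. -/
noncomputable def posU [NeZero d] (p : Env d × (ℕ → ℝ)) : ℕ → Site d
  | 0 => 0
  | n + 1 => posU p n + vec (sel (p.1 (posU p n), p.2 n))

/-- Trajectory of that walk. -/
noncomputable def trajU [NeZero d] (p : Env d × (ℕ → ℝ)) : Traj d :=
  fun n => sel (p.1 (posU p n), p.2 n)

theorem site_trajU [NeZero d] (p : Env d × (ℕ → ℝ)) (n : ℕ) : site (trajU p) n = posU p n := by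
  induction n with
  | zero => simp [site, posU]
  | succ n ih => rw [site, sum_range_succ, ← site, ih, posU, trajU]

theorem measurable_posU [NeZero d] (n : ℕ) :
    Measurable fun p : Env d × (ℕ → ℝ) => posU p n := by
  induction n with
  | zero => simp [posU]
  | succ n ih =>
    simp only [posU]
    have hev : Measurable fun p : Env d × (ℕ → ℝ) => p.1 (posU p n) :=
      (measurable_from_prod_countable_left (f := fun q : Env d × Site d => q.1 q.2)
        fun y => measurable_pi_apply y).comp (measurable_fst.prodMk ih)
    exact ih.add ((measurable_of_countable vec).comp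
      (measurable_sel.comp (hev.prodMk ((measurable_pi_apply n).comp measurable_snd))))

theorem measurable_trajU [NeZero d] : Measurable (trajU (d := d)) := by
  refine measurable_pi_lambda _ fun n => ?_
  have hev : Measurable fun p : Env d × (ℕ → ℝ) => p.1 (posU p n) :=
    (measurable_from_prod_countable_left (f := fun q : Env d × Site d => q.1 q.2)
      fun y => measurable_pi_apply y).comp (measurable_fst.prodMk (measurable_posU n))
  exact measurable_sel.comp (hev.prodMk ((measurable_pi_apply n).comp measurable_snd))

theorem mem_cyl {π : List (Step d)} {t : Traj d} :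
    t ∈ cyl π ↔ ∀ k, ∀ h : k < π.length, t k = π[k] := by
  constructor
  · intro ht k hk
    have ht' : List.ofFn (fun k : Fin π.length => t k) = π := ht
    simp [← List.getElem_of_eq ht' (by simpa using hk)]
  · intro ht
    exact List.ext_getElem (by simp) fun k h1 h2 => by simp [ht k h2]

theorem mem_cyl_cons {e : Step d} {π : List (Step d)} {t : Traj d} :
    t ∈ cyl (e :: π) ↔ t 0 = e ∧ (fun k => t (k + 1)) ∈ cyl π := by
  simp only [mem_cyl]
  constructor
  · exact fun h => ⟨h 0 (by simp), fun k hk => h (k + 1) (by simpa using hk)⟩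
  · rintro ⟨h0, h⟩ k hk
    cases k with
    | zero => exact h0
    | succ k => exact h k (by simpa using hk)

/-- The uniform law of one selection variable. -/
noncomputable def uLaw : Measure ℝ := volume.restrict (Set.Ioc 0 1)

instance : IsProbabilityMeasure uLaw := ⟨by simp [uLaw]⟩

theorem uLaw_selSet (q : Row d) (e : Step d) :
    uLaw (selSet q e) = ENNReal.ofReal (q.1 e) := by
  have h0 : 0 ≤ stepLo q e := sum_nonneg fun i _ => q.2.1 i
  have h1 : stepLo q e + q.1 e ≤ 1 := by
    rw [stepLo, add_comm, ← sum_insert (f := fun e' => q.1 e') (by simp)]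
    exact (sum_le_univ_sum_of_nonneg (f := fun e' => q.1 e') q.2.1).trans_eq q.2.2
  rw [selSet, uLaw, Measure.restrict_apply measurableSet_Ioc,
    Set.inter_eq_left.2 (Set.Ioc_subset_Ioc h0 h1), Real.volume_Ioc]
  simp

theorem trajU_mem_cyl [NeZero d] (π : List (Step d)) (ω : Env d) (u : ℕ → ℝ)
    (hu : ∀ n, 0 < u n ∧ u n ≤ 1) :
    trajU (ω, u) ∈ cyl π ↔
      ∀ k, ∀ h : k < π.length, u k ∈ selSet (ω (disp (π.take k))) π[k] := by
  rw [mem_cyl]
  have hstep : ∀ k, (∀ j, j < k → ∀ h : j < π.length, trajU (ω, u) j = π[j]) → k ≤ π.length →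
      posU (ω, u) k = disp (π.take k) := by
    intro k
    induction k with
    | zero => simp [posU]
    | succ k ih =>
      intro hk hlen
      rw [posU, List.take_add_one, List.getElem?_eq_getElem (by omega), Option.toList_some,
        disp_append, disp_cons, disp_nil, add_zero, ← ih (fun j hj => hk j (by omega)) (by omega)]
      exact congrArg _ (congrArg vec (hk k (by omega) (by omega)))
  constructor
  · intro h k hk
    have := h k hk
    rw [trajU, hstep k (fun j _ hj => h j hj) hk.le] at this
    exact (sel_eq_iff (hu k).1 (hu k).2 _).1 this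
  · intro h k
    induction k using Nat.strong_induction_on with
    | _ k ih =>
      intro hk
      rw [trajU, hstep k (fun j hj hj' => ih j hj hj') hk.le]
      exact (sel_eq_iff (hu k).1 (hu k).2 _).2 (h k hk)

theorem qw_eq_prod (ω : Env d) (π : List (Step d)) (x : Site d) :
    qw ω x π = ∏ k : Fin π.length, ENNReal.ofReal ((ω (x + disp (π.take k))).1 π[k.1]) := by
  induction π generalizing x with
  | nil => simp [qw]
  | cons e π ih =>
    rw [qw, ih]
    simp only [List.length_cons, Fin.prod_univ_succ]
    simp [add_assoc]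

theorem exists_isAnnealed [NeZero d] : ∃ P, IsAnnealed μ P := by
  let Q : Measure (Env d × (ℕ → ℝ)) := (envLaw μ).prod (Measure.infinitePi fun _ => uLaw)
  haveI : IsProbabilityMeasure Q := by infer_instance
  refine ⟨Q.map trajU, Measure.isProbabilityMeasure_map measurable_trajU.aemeasurable, fun π => ?_⟩
  have hc : MeasurableSet (cyl π) := by
    have : cyl π = ⋂ k : Fin π.length, (fun t : Traj d => t k) ⁻¹' {π[k.1]} := by
      ext t
      simp only [mem_cyl, Set.mem_iInter, Set.mem_preimage, Set.mem_singleton_iff]
      exact ⟨fun h k => h k k.2, fun h k hk => h ⟨k, hk⟩⟩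
    rw [this]
    exact MeasurableSet.iInter fun k => (measurable_pi_apply _) (measurableSet_singleton _)
  rw [Measure.map_apply measurable_trajU hc,
    Measure.prod_apply (measurable_trajU hc)]
  refine lintegral_congr fun ω => ?_
  classical
  let J : ℕ → Set ℝ := fun k =>
    if h : k < π.length then selSet (ω (disp (π.take k))) π[k] else Set.univ
  have hae : Prod.mk ω ⁻¹' (trajU ⁻¹' cyl π) =ᵐ[Measure.infinitePi fun _ : ℕ => uLaw]
      Set.pi (range π.length : Set ℕ) J := by
    have hu : ∀ᵐ u ∂Measure.infinitePi (fun _ : ℕ => uLaw), ∀ n, 0 < u n ∧ u n ≤ 1 := by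
      refine ae_all_iff.2 fun n => ?_
      have h1 : ∀ᵐ v ∂uLaw, 0 < v ∧ v ≤ 1 := ae_restrict_mem measurableSet_Ioc
      exact (measurePreserving_eval_infinitePi (fun _ : ℕ => uLaw) n).quasiMeasurePreserving.ae h1
    filter_upwards [hu] with u hu
    change (trajU (ω, u) ∈ cyl π) = (u ∈ Set.pi _ J)
    rw [trajU_mem_cyl π ω u hu, Set.mem_pi, eq_iff_iff]
    constructor
    · intro h k hk
      have hk' : k < π.length := by simpa using hk
      simpa [J, hk'] using h k hk'
    · intro h k hk
      simpa [J, hk] using h k (by simpa using hk)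
  rw [measure_congr hae, Measure.infinitePi_pi, qw_eq_prod,
    ← Fin.prod_univ_eq_prod_range (fun k => uLaw (J k)) π.length]
  · refine prod_congr rfl fun k _ => ?_
    simp [J, k.2, uLaw_selSet]
  · intro k _
    simp only [J]
    split_ifs
    exacts [measurableSet_Ioc, .univ]

end Vale.Agent.P147
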