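import Mathlib
import Vale.Agent.P147.Env

/-!
# P147: consequences of the cylinder description of the annealed law
-/

namespace Vale.Agent.P147

open MeasureTheory Finset Filter
open scoped ENNReal Topology

variable {d : ℕ}

/-- Forget the first `n` steps. -/
def shiftT (n : ℕ) (t : Traj d) : Traj d := fun k => t (k + n)

theorem measurable_shiftT (n : ℕ) : Measurable (shiftT (d := d) n) :=
  measurable_pi_lambda _ fun k => measurable_pi_apply (k + n)

@[simp] theorem cyl_nil : cyl ([] : List (Step d)) = Set.univ := by ext t; simp [mem_cyl]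

theorem measurableSet_cyl (π : List (Step d)) : MeasurableSet (cyl π) := by
  have : cyl π = ⋂ k : Fin π.length, (fun t : Traj d => t k) ⁻¹' {π[k.1]} := by
    ext t
    simp only [mem_cyl, Set.mem_iInter, Set.mem_preimage, Set.mem_singleton_iff]
    exact ⟨fun h k => h k k.2, fun h k hk => h ⟨k, hk⟩⟩
  rw [this]
  exact MeasurableSet.iInter fun k => measurable_pi_apply _ (measurableSet_singleton _)

theorem cyl_append (π ρ : List (Step d)) :
    cyl (π ++ ρ) = cyl π ∩ shiftT π.length ⁻¹' cyl ρ := by
  ext t
  simp only [Set.mem_inter_iff, Set.mem_preimage, mem_cyl, shiftT, List.length_append]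
  constructor
  · intro h
    refine ⟨fun k hk => ?_, fun k hk => ?_⟩
    · rw [h k (by omega), List.getElem_append_left hk]
    · rw [h (k + π.length) (by omega), List.getElem_append_right (by omega)]
      simp
  · rintro ⟨h1, h2⟩ k hk
    by_cases hk1 : k < π.length
    · rw [h1 k hk1, List.getElem_append_left hk1]
    · rw [List.getElem_append_right (by omega)]
      have := h2 (k - π.length) (by omega)
      rwa [Nat.sub_add_cancel (by omega)] at this

theorem mem_cyl_ofFn_self (n : ℕ) (t : Traj d) :
    t ∈ cyl (List.ofFn fun k : Fin n => t k) := by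
  rw [mem_cyl]; intro k hk; simp

theorem site_zero (t : Traj d) : site t 0 = 0 := by simp [site]

theorem site_succ (t : Traj d) (n : ℕ) : site t (n + 1) = site t n + vec (t n) := by
  simp [site, sum_range_succ]

theorem site_shiftT (t : Traj d) (n k : ℕ) :
    site t (n + k) = site t n + site (shiftT n t) k := by
  induction k with
  | zero => simp [site_zero]
  | succ k ih => rw [← Nat.add_assoc, site_succ, site_succ, ih, add_assoc, shiftT, Nat.add_comm k n]

theorem site_of_mem_cyl {π : List (Step d)} {t : Traj d} (ht : t ∈ cyl π) {k : ℕ}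
    (hk : k ≤ π.length) : site t k = disp (π.take k) := by
  induction k with
  | zero => simp [site_zero]
  | succ k ih =>
    rw [site_succ, ih (by omega), (mem_cyl.1 ht) k (by omega),
      List.take_succ_eq_append_getElem (show k < π.length by omega), disp_append, disp_cons,
      disp_nil, add_zero]

theorem measurable_site (n : ℕ) : Measurable fun t : Traj d => site t n := by
  unfold site
  exact Finset.measurable_sum _ fun k _ =>
    (measurable_of_countable vec).comp (measurable_pi_apply k)

/-! ## Comparing measures on cylinders -/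

theorem isOpen_eq_iUnion_cyl {U : Set (Traj d)} (hU : IsOpen U) :
    U = ⋃ n, ⋃ f ∈ {f : Fin n → Step d | cyl (List.ofFn f) ⊆ U}, cyl (List.ofFn f) := by
  refine Set.Subset.antisymm (fun t ht => ?_) (Set.iUnion_subset fun n =>
    Set.iUnion₂_subset fun f hf => hf)
  obtain ⟨s, u, hu, hsub⟩ := isOpen_pi_iff.1 hU t ht
  refine Set.mem_iUnion.2 ⟨s.sup id + 1, Set.mem_iUnion₂.2 ⟨fun k => t k, fun y hy => ?_,
    mem_cyl_ofFn_self _ t⟩⟩
  refine hsub fun i hi => ?_
  have hi' : i < s.sup id + 1 := Nat.lt_succ_of_le (le_sup (f := id) hi)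
  rw [mem_cyl] at hy
  have := hy i (by simpa using hi')
  simp only [List.getElem_ofFn] at this
  rw [this]
  exact (hu i hi).2

theorem measure_le_of_cyl {m₁ m₂ : Measure (Traj d)} [IsFiniteMeasure m₂]
    (h : ∀ π, m₁ (cyl π) ≤ m₂ (cyl π)) : m₁ ≤ m₂ := by
  classical
  refine Measure.le_intro fun E hE _ => ?_
  refine ENNReal.le_of_forall_pos_le_add fun ε hε _ => ?_
  obtain ⟨U, hEU, hU, hlt⟩ := E.exists_isOpen_lt_add (μ := m₂) (measure_ne_top m₂ E)
    (ε := ε) (by exact_mod_cast hε.ne')
  refine ((measure_mono hEU).trans ?_).trans hlt.le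
  set A : ℕ → Set (Traj d) := fun n =>
    ⋃ f ∈ {f : Fin n → Step d | cyl (List.ofFn f) ⊆ U}, cyl (List.ofFn f) with hA
  have hmono : Monotone A := by
    refine monotone_nat_of_le_succ fun n => Set.iUnion₂_subset fun f hf t ht => ?_
    refine Set.mem_iUnion₂.2 ⟨fun k => t k, fun y hy => hf ?_, mem_cyl_ofFn_self _ t⟩
    rw [mem_cyl] at hy ht ⊢
    intro k hk
    have hk' : k < n := by simpa using hk
    have h1 := hy k (by simp; omega)
    have h2 := ht k hk
    simp only [List.getElem_ofFn] at h1 h2 ⊢
    rw [h1, h2]
  have hdis : ∀ n, Pairwise fun f g : Fin n → Step d =>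
      Disjoint (cyl (List.ofFn f)) (cyl (List.ofFn g)) := by
    intro n f g hfg
    refine Set.disjoint_left.2 fun t htf htg => hfg ?_
    funext k
    have h1 := (mem_cyl.1 htf) k (by simp)
    have h2 := (mem_cyl.1 htg) k (by simp)
    simp only [List.getElem_ofFn] at h1 h2
    simpa using h1.symm.trans h2
  have key : ∀ n, m₁ (A n) ≤ m₂ (A n) := by
    intro n
    have hfin : {f : Fin n → Step d | cyl (List.ofFn f) ⊆ U}.Finite := Set.toFinite _
    simp only [hA]
    rw [← hfin.coe_toFinset]
    simp only [Finset.mem_coe]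
    rw [measure_biUnion_finset ((hdis n).set_pairwise _) fun f _ => measurableSet_cyl _,
      measure_biUnion_finset ((hdis n).set_pairwise _) fun f _ => measurableSet_cyl _]
    exact sum_le_sum fun f _ => h _
  calc m₁ U = m₁ (⋃ n, A n) := by rw [← isOpen_eq_iUnion_cyl hU]
    _ = ⨆ n, m₁ (A n) := hmono.measure_iUnion
    _ ≤ ⨆ n, m₂ (A n) := iSup_mono key
    _ = m₂ (⋃ n, A n) := hmono.measure_iUnion.symm
    _ = m₂ U := by rw [← isOpen_eq_iUnion_cyl hU]

variable {μ : Measure (Row d)} [IsProbabilityMeasure μ] {P : Measure (Traj d)}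

/-- The future after the prefix `π` is dominated by the law of a fresh walk. -/
theorem IsAnnealed.measure_cyl_inter_le (hP : IsAnnealed μ P) (π : List (Step d))
    (E : Set (Traj d)) (hE : MeasurableSet E) :
    P (cyl π ∩ shiftT π.length ⁻¹' E) ≤ P E := by
  haveI := hP.1
  have h : (P.restrict (cyl π)).map (shiftT π.length) ≤ P := by
    refine measure_le_of_cyl fun ρ => ?_
    rw [Measure.map_apply (measurable_shiftT _) (measurableSet_cyl ρ),
      Measure.restrict_apply (measurable_shiftT _ (measurableSet_cyl ρ)), Set.inter_comm,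
      ← cyl_append, hP.2, hP.2]
    exact (pw_append_le_right μ 0 π ρ).trans_eq (pw_start μ _ ρ)
  calc P (cyl π ∩ shiftT π.length ⁻¹' E)
      = (P.restrict (cyl π)).map (shiftT π.length) E := by
        rw [Measure.map_apply (measurable_shiftT _) hE,
          Measure.restrict_apply (measurable_shiftT _ hE), Set.inter_comm]
    _ ≤ P E := h E

/-- The departure sites of the future avoid the departure sites of the prefix `π`. -/
def Avoid (π : List (Step d)) : Set (Traj d) :=
  {t | ∀ k, disp π + site t k ∉ deps 0 π}

theorem measurableSet_avoid (π : List (Step d)) : MeasurableSet (Avoid π) := by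
  have : Avoid π = ⋂ k, (fun t : Traj d => site t k) ⁻¹'
      {x | disp π + x ∉ deps 0 π} := by ext t; simp [Avoid]
  rw [this]
  exact MeasurableSet.iInter fun k => measurable_site k (Set.to_countable _).measurableSet

/-- The future after `π` is fresh as long as it avoids the departure sites of `π`. -/
theorem IsAnnealed.measure_cyl_inter_eq (hP : IsAnnealed μ P) (π : List (Step d))
    (E : Set (Traj d)) (hE : MeasurableSet E) (hav : E ⊆ Avoid π) :
    P (cyl π ∩ shiftT π.length ⁻¹' E) = pw μ 0 π * P E := by
  classical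
  haveI := hP.1
  set m₁ := (P.restrict (cyl π)).map (shiftT π.length) with hm₁
  set m₂ := pw μ 0 π • P with hm₂
  haveI : IsFiniteMeasure m₁ := by rw [hm₁]; infer_instance
  haveI : IsFiniteMeasure m₂ := Measure.smul_finite _ (pw_ne_top μ 0 π)
  let A : ℕ → Set (Traj d) := fun n => {t | ∀ k < n, disp π + site t k ∉ deps 0 π}
  have hAm : ∀ n, MeasurableSet (A n) := by
    intro n
    have : A n = ⋂ k ∈ range n, (fun t : Traj d => site t k) ⁻¹'
        {x | disp π + x ∉ deps 0 π} := by ext t; simp [A]
    rw [this]
    exact .biInter (Set.to_countable _) fun k _ =>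
      measurable_site k (Set.to_countable _).measurableSet
  have hanti : Antitone A := fun a b hab t ht k hk => ht k (lt_of_lt_of_le hk hab)
  have hav_eq : Avoid π = ⋂ n, A n := by
    ext t
    simp only [Avoid, A, Set.mem_setOf_eq, Set.mem_iInter]
    exact ⟨fun h n k _ => h k, fun h k => h (k + 1) k (by omega)⟩
  have hcyl : ∀ (n : ℕ) (ρ : List (Step d)), n ≤ ρ.length → cyl ρ ⊆ A n → n = ρ.length →
      m₁ (cyl ρ) = m₂ (cyl ρ) := by
    intro n ρ hn hsub hn'
    rw [hm₁, Measure.map_apply (measurable_shiftT _) (measurableSet_cyl ρ),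
      Measure.restrict_apply (measurable_shiftT _ (measurableSet_cyl ρ)), Set.inter_comm,
      ← cyl_append, hP.2, hm₂, Measure.smul_apply, smul_eq_mul, hP.2,
      pw_append_of_disjoint, pw_start μ (0 + disp π) ρ]
    refine Finset.disjoint_right.2 fun y hy => ?_
    obtain ⟨k, hk, rfl⟩ := mem_deps.1 hy
    by_cases hne : (cyl ρ).Nonempty
    · obtain ⟨t, ht⟩ := hne
      have := hsub ht k (hn' ▸ hk)
      rwa [site_of_mem_cyl ht hk.le, ← zero_add (disp π)] at this
    · exfalso
      haveI : Nonempty (Step d) := ⟨ρ[0]'(by omega)⟩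
      exact hne ⟨fun j => if h : j < ρ.length then ρ[j] else Classical.arbitrary _,
        mem_cyl.2 fun j hj => by simp [hj]⟩
  have hres : m₁.restrict (Avoid π) = m₂.restrict (Avoid π) := by
    have key : ∀ ρ, m₁ (cyl ρ ∩ Avoid π) = m₂ (cyl ρ ∩ Avoid π) := by
      intro ρ
      have hfin : ∀ n, ρ.length ≤ n → m₁ (cyl ρ ∩ A n) = m₂ (cyl ρ ∩ A n) := by
        intro n hn
        let S := {f : Fin n → Step d | cyl (List.ofFn f) ⊆ cyl ρ ∩ A n}
        have hU : cyl ρ ∩ A n = ⋃ f ∈ S.toFinite.toFinset, cyl (List.ofFn f) := by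
          ext t
          simp only [Set.mem_iUnion, Set.Finite.mem_toFinset, exists_prop]
          constructor
          · rintro ⟨h1, h2⟩
            refine ⟨fun k => t k, fun y hy => ⟨?_, fun k hk => ?_⟩, mem_cyl_ofFn_self _ t⟩
            · rw [mem_cyl] at h1 hy ⊢
              intro k hk
              have := hy k (by simp; omega)
              simp only [List.getElem_ofFn] at this
              rw [this, h1 k hk]
            · rw [site_of_mem_cyl hy (by simp; omega),
                ← site_of_mem_cyl (mem_cyl_ofFn_self n t) (by simp; omega)]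
              exact h2 k hk
          · rintro ⟨f, hf, ht⟩
            exact hf ht
        have hdis : (S.toFinite.toFinset : Set (Fin n → Step d)).PairwiseDisjoint
            fun f => cyl (List.ofFn f) := by
          intro f _ g _ hfg
          refine Set.disjoint_left.2 fun t htf htg => hfg ?_
          funext k
          have h1 := (mem_cyl.1 htf) k (by simp)
          have h2 := (mem_cyl.1 htg) k (by simp)
          simp only [List.getElem_ofFn] at h1 h2
          simpa using h1.symm.trans h2
        rw [hU, measure_biUnion_finset hdis fun f _ => measurableSet_cyl _,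
          measure_biUnion_finset hdis fun f _ => measurableSet_cyl _]
        refine sum_congr rfl fun f hf => hcyl n _ (by simp) ?_ (by simp)
        exact fun t ht => ((Set.Finite.mem_toFinset _).1 hf ht).2
      have h1 : Tendsto (fun n => m₁ (cyl ρ ∩ A n)) atTop (𝓝 (m₁ (cyl ρ ∩ Avoid π))) := by
        rw [hav_eq, Set.inter_iInter]
        exact tendsto_measure_iInter_atTop
          (fun n => ((measurableSet_cyl ρ).inter (hAm n)).nullMeasurableSet)
          (fun a b hab => Set.inter_subset_inter_right _ (hanti hab)) ⟨0, measure_ne_top _ _⟩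
      have h2 : Tendsto (fun n => m₂ (cyl ρ ∩ A n)) atTop (𝓝 (m₂ (cyl ρ ∩ Avoid π))) := by
        rw [hav_eq, Set.inter_iInter]
        exact tendsto_measure_iInter_atTop
          (fun n => ((measurableSet_cyl ρ).inter (hAm n)).nullMeasurableSet)
          (fun a b hab => Set.inter_subset_inter_right _ (hanti hab)) ⟨0, measure_ne_top _ _⟩
      exact tendsto_nhds_unique_of_eventuallyEq h1 h2
        ((eventually_ge_atTop ρ.length).mono hfin)
    refine le_antisymm (measure_le_of_cyl fun ρ => ?_) (measure_le_of_cyl fun ρ => ?_) <;>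
      rw [Measure.restrict_apply (measurableSet_cyl ρ),
        Measure.restrict_apply (measurableSet_cyl ρ), key]
  have h := congrFun (congrArg (fun m : Measure (Traj d) => (m : Set (Traj d) → ℝ≥0∞)) hres) E
  simp only [Measure.restrict_apply hE, Set.inter_eq_left.2 hav] at h
  rw [hm₁, Measure.map_apply (measurable_shiftT _) hE,
    Measure.restrict_apply (measurable_shiftT _ hE), Set.inter_comm] at h
  rw [h, hm₂, Measure.smul_apply, smul_eq_mul]

end Vale.Agent.P147
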