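import Mathlib
import Vale.Agent.P147.Markov

/-!
# P147: regeneration blocks in the direction of an additive functional `h`
-/

namespace Vale.Agent.P147

open MeasureTheory Finset Filter
open scoped ENNReal Topology

variable {d : ℕ}

/-- The trajectory stays in the half space `0 ≤ h` and escapes to `h = ∞`. -/
def Esc (h : Site d →+ ℝ) : Set (Traj d) :=
  {t | (∀ k, 0 ≤ h (site t k)) ∧ Tendsto (fun k => h (site t k)) atTop atTop}

/-- `n` is a cut (regeneration) time of the trajectory. -/
def IsCut (h : Site d →+ ℝ) (t : Traj d) (n : ℕ) : Prop :=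
  (∀ k < n, h (site t k) < h (site t n)) ∧ ∀ k, n ≤ k → h (site t n) ≤ h (site t k)

/-- A finite path that is exactly one regeneration block. -/
def IsBlock (h : Site d →+ ℝ) (π : List (Step d)) : Prop :=
  π ≠ [] ∧ (∀ k < π.length, 0 ≤ h (disp (π.take k)) ∧ h (disp (π.take k)) < h (disp π)) ∧
    ∀ n, 0 < n → n < π.length →
      ¬ ((∀ k < n, h (disp (π.take k)) < h (disp (π.take n))) ∧
        ∀ k, n ≤ k → k ≤ π.length → h (disp (π.take n)) ≤ h (disp (π.take k)))

open Classical in
/-- The law of one block. -/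
noncomputable def bwgt (μ : Measure (Row d)) (h : Site d →+ ℝ) (π : List (Step d)) : ℝ≥0∞ :=
  if IsBlock h π then pw μ 0 π else 0

/-- Expectation over `n` independent blocks. -/
noncomputable def ex (μ : Measure (Row d)) (h : Site d →+ ℝ) :
    ℕ → (List (List (Step d)) → ℝ≥0∞) → ℝ≥0∞
  | 0, F => F []
  | n + 1, F => ∑' π, bwgt μ h π * ex μ h n fun ws => F (π :: ws)

/-! ## Cylinders -/

theorem cyl_disjoint_of_length_eq {π ρ : List (Step d)} (hl : π.length = ρ.length) (hne : π ≠ ρ) :
    Disjoint (cyl π) (cyl ρ) := by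
  refine Set.disjoint_left.2 fun t h1 h2 => hne ?_
  exact List.ext_getElem hl fun k hk hk' => ((mem_cyl.1 h1) k hk).symm.trans ((mem_cyl.1 h2) k hk')

theorem measurableSet_esc (h : Site d →+ ℝ) : MeasurableSet (Esc h) := by
  have hm : ∀ k, Measurable fun t : Traj d => h (site t k) := fun k =>
    (measurable_of_countable h).comp (measurable_site k)
  have : Esc h = (⋂ k, {t | 0 ≤ h (site t k)}) ∩
      ⋂ j : ℕ, ⋃ n, ⋂ k, {t | n ≤ k → (j : ℝ) ≤ h (site t k)} := by
    ext t
    simp only [Esc, Set.mem_setOf_eq, Set.mem_inter_iff, Set.mem_iInter, Set.mem_iUnion]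
    refine and_congr_right fun _ => ⟨fun ht j => ?_, fun ht => ?_⟩
    · exact eventually_atTop.1 (ht.eventually_ge_atTop (j : ℝ))
    · refine tendsto_atTop.2 fun r => eventually_atTop.2 ?_
      obtain ⟨j, hj⟩ := exists_nat_ge r
      obtain ⟨n, hn⟩ := ht j
      exact ⟨n, fun k hk => hj.trans (hn k hk)⟩
  rw [this]
  refine (MeasurableSet.iInter fun k => measurableSet_le measurable_const (hm k)).inter
    (MeasurableSet.iInter fun j => MeasurableSet.iUnion fun n => MeasurableSet.iInter fun k => ?_)
  by_cases hk : n ≤ k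
  · simpa [hk] using measurableSet_le measurable_const (hm k)
  · simp [hk]

theorem measurableSet_isCut (h : Site d →+ ℝ) (n : ℕ) :
    MeasurableSet {t : Traj d | IsCut h t n} := by
  have hm : ∀ k, Measurable fun t : Traj d => h (site t k) := fun k =>
    (measurable_of_countable h).comp (measurable_site k)
  have : {t : Traj d | IsCut h t n} = (⋂ k ∈ range n, {t | h (site t k) < h (site t n)}) ∩
      ⋂ k : {k // n ≤ k}, {t | h (site t n) ≤ h (site t k)} := by
    ext t; simp [IsCut]
  rw [this]
  exact (MeasurableSet.biInter (Set.to_countable _) fun k _ =>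
    measurableSet_lt (hm k) (hm n)).inter
    (MeasurableSet.iInter fun k => measurableSet_le (hm n) (hm k.1))

/-! ## Lists of blocks -/

variable {h : Site d →+ ℝ}

theorem IsBlock.pos {π : List (Step d)} (hπ : IsBlock h π) : 0 < h (disp π) := by
  have := hπ.2.1 0 (List.length_pos_iff.2 hπ.1)
  simp at this
  linarith

theorem flatten_disp_nonneg {ws : List (List (Step d))} (hws : ∀ π ∈ ws, IsBlock h π) :
    0 ≤ h (disp ws.flatten) := by
  induction ws with
  | nil => simp
  | cons π ws ih =>
    rw [List.flatten_cons, disp_append, map_add]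
    have h1 := (hws π (by simp)).pos
    have h2 := ih fun q hq => hws q (by simp [hq])
    linarith

theorem flatten_range {ws : List (List (Step d))} (hws : ∀ π ∈ ws, IsBlock h π) {k : ℕ}
    (hk : k < ws.flatten.length) :
    0 ≤ h (disp (ws.flatten.take k)) ∧ h (disp (ws.flatten.take k)) < h (disp ws.flatten) := by
  induction ws generalizing k with
  | nil => simp at hk
  | cons π ws ih =>
    have h1 := hws π (by simp)
    have h2 : ∀ q ∈ ws, IsBlock h q := fun q hq => hws q (by simp [hq])
    rw [List.flatten_cons] at hk ⊢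
    rw [List.take_append, disp_append, disp_append, map_add, map_add]
    by_cases hk1 : k < π.length
    · rw [show k - π.length = 0 by omega]
      have h3 := h1.2.1 k hk1
      have h4 := flatten_disp_nonneg h2
      simp only [List.take_zero, disp_nil, map_zero, add_zero]
      constructor <;> linarith [h3.1, h3.2]
    · rw [List.take_of_length_le (by omega)]
      have h3 := ih h2 (k := k - π.length) (by rw [List.length_append] at hk; omega)
      have h4 := h1.pos
      constructor <;> linarith [h3.1, h3.2]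

theorem esc_subset_avoid {π : List (Step d)}
    (hπ : ∀ k < π.length, h (disp (π.take k)) < h (disp π)) : Esc h ⊆ Avoid π := by
  intro t ht k hk
  obtain ⟨j, hj, hjeq⟩ := mem_deps.1 hk
  have h1 := congrArg h hjeq
  simp only [zero_add, map_add] at h1
  linarith [hπ j hj, ht.1 k]

theorem mem_esc_of_cut {π : List (Step d)} {t : Traj d} (ht : t ∈ cyl π)
    (hπ : ∀ k < π.length, 0 ≤ h (disp (π.take k)) ∧ h (disp (π.take k)) < h (disp π))
    (hs : shiftT π.length t ∈ Esc h) (h0 : 0 ≤ h (disp π)) :
    t ∈ Esc h ∧ IsCut h t π.length := by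
  have hL : site t π.length = disp π := by
    rw [site_of_mem_cyl ht le_rfl, List.take_length]
  have hfut : ∀ k, π.length ≤ k →
      h (site t k) = h (disp π) + h (site (shiftT π.length t) (k - π.length)) := by
    intro k hk
    rw [← map_add, ← hL, ← site_shiftT, Nat.add_sub_cancel' hk]
  refine ⟨⟨fun k => ?_, ?_⟩, fun k hk => ?_, fun k hk => ?_⟩
  · rcases lt_or_ge k π.length with hk | hk
    · rw [site_of_mem_cyl ht hk.le]; exact (hπ k hk).1
    · rw [hfut k hk]; linarith [hs.1 (k - π.length)]
  · refine tendsto_atTop.2 fun r => ?_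
    obtain ⟨n, hn⟩ := eventually_atTop.1 (hs.2.eventually_ge_atTop (r - h (disp π)))
    refine eventually_atTop.2 ⟨n + π.length, fun k hk => ?_⟩
    rw [hfut k (by omega)]
    linarith [hn (k - π.length) (by omega)]
  · rw [hL, site_of_mem_cyl ht hk.le]; exact (hπ k hk).2
  · rw [hL, hfut k hk]; linarith [hs.1 (k - π.length)]

theorem shiftT_mem_esc {t : Traj d} {n : ℕ} (ht : t ∈ Esc h) (hn : IsCut h t n) :
    shiftT n t ∈ Esc h := by
  have hk : ∀ k, h (site (shiftT n t) k) = h (site t (n + k)) - h (site t n) := by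
    intro k; rw [site_shiftT, map_add]; ring
  refine ⟨fun k => ?_, ?_⟩
  · rw [hk]; linarith [hn.2 (n + k) (by omega)]
  · refine tendsto_atTop.2 fun r => ?_
    obtain ⟨m, hm⟩ := eventually_atTop.1 (ht.2.eventually_ge_atTop (r + h (site t n)))
    refine eventually_atTop.2 ⟨m, fun k hk' => ?_⟩
    rw [hk]
    linarith [hm (n + k) (by omega)]

/-- The first cut after time zero carves out a block. -/
theorem isBlock_of_first_cut {π : List (Step d)} {t : Traj d} (ht : t ∈ cyl π) (hesc : t ∈ Esc h)
    (hne : π ≠ []) (hcut : IsCut h t π.length)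
    (hfirst : ∀ n, 0 < n → n < π.length → ¬ IsCut h t n) : IsBlock h π := by
  have hs : ∀ k, k ≤ π.length → site t k = disp (π.take k) := fun k hk => site_of_mem_cyl ht hk
  have hL : site t π.length = disp π := by rw [hs _ le_rfl, List.take_length]
  refine ⟨hne, fun k hk => ⟨?_, ?_⟩, fun n hn0 hn hbad => hfirst n hn0 hn ⟨fun k hk => ?_,
    fun k hk => ?_⟩⟩
  · rw [← hs k hk.le]; exact hesc.1 k
  · rw [← hs k hk.le, ← hL]; exact hcut.1 k hk
  · rw [hs k (by omega), hs n hn.le]; exact hbad.1 k hk
  · rcases le_or_gt k π.length with hk' | hk'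
    · rw [hs k hk', hs n hn.le]; exact hbad.2 k hk hk'
    · refine le_trans ?_ (hcut.2 k hk'.le)
      rw [hL, hs n hn.le]
      simpa using hbad.2 π.length hn.le le_rfl

theorem not_isCut_inside {π : List (Step d)} {t : Traj d} (hπ : IsBlock h π) (ht : t ∈ cyl π)
    {n : ℕ} (h0 : 0 < n) (hn : n < π.length) : ¬ IsCut h t n := by
  intro hc
  refine hπ.2.2 n h0 hn ⟨fun k hk => ?_, fun k hk hk' => ?_⟩
  · rw [← site_of_mem_cyl ht (by omega), ← site_of_mem_cyl ht hn.le]; exact hc.1 k hk
  · rw [← site_of_mem_cyl ht hk', ← site_of_mem_cyl ht hn.le]; exact hc.2 k hk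

variable {μ : Measure (Row d)} [IsProbabilityMeasure μ] {P : Measure (Traj d)}

open Classical in
/-- Product weight of a list of blocks. -/
noncomputable def bprod (μ : Measure (Row d)) (h : Site d →+ ℝ) (ws : List (List (Step d))) :
    ℝ≥0∞ := (ws.map (bwgt μ h)).prod

theorem pw_flatten {ws : List (List (Step d))} (hws : ∀ π ∈ ws, IsBlock h π) :
    pw μ 0 ws.flatten = bprod μ h ws := by
  induction ws with
  | nil => simp [bprod]
  | cons π ws ih =>
    have h1 := hws π (by simp)
    have h2 : ∀ q ∈ ws, IsBlock h q := fun q hq => hws q (by simp [hq])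
    rw [List.flatten_cons, pw_append_of_disjoint, zero_add, pw_start μ (disp π) ws.flatten, ih h2]
    · simp [bprod, bwgt, h1]
    · rw [Finset.disjoint_left]
      intro y hy hy'
      obtain ⟨i, hi, rfl⟩ := mem_deps.1 hy
      obtain ⟨j, hj, hjeq⟩ := mem_deps.1 hy'
      have h3 := congrArg h hjeq
      simp only [zero_add, map_add] at h3
      linarith [(h1.2.1 i hi).2, (flatten_range h2 hj).1]

/-- The future after finitely many blocks is fresh. -/
theorem IsAnnealed.measure_flatten_inter (hP : IsAnnealed μ P) {ws : List (List (Step d))}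
    (hws : ∀ π ∈ ws, IsBlock h π) {E : Set (Traj d)} (hE : MeasurableSet E) :
    P (cyl ws.flatten ∩ shiftT ws.flatten.length ⁻¹' (Esc h ∩ E))
      = bprod μ h ws * P (Esc h ∩ E) := by
  rw [hP.measure_cyl_inter_eq _ _ ((measurableSet_esc h).inter hE)
    (Set.inter_subset_left.trans (esc_subset_avoid fun k hk => (flatten_range hws hk).2)),
    pw_flatten hws]

/-- Escape has positive probability once transience has. -/
theorem IsAnnealed.esc_pos (hP : IsAnnealed μ P)
    (hA : P {t | Tendsto (fun k => h (site t k)) atTop atTop} ≠ 0) : P (Esc h) ≠ 0 := by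
  intro h0
  refine hA (measure_mono_null (t := ⋃ (n : ℕ) (f : Fin n → Step d),
    cyl (List.ofFn f) ∩ shiftT n ⁻¹' Esc h) (fun t ht => ?_) ?_)
  · simp only [Set.mem_setOf_eq] at ht
    obtain ⟨N, hN⟩ := eventually_atTop.1 (ht.eventually_ge_atTop (h (site t 0)))
    obtain ⟨n, hn, hmin⟩ := (range (N + 1)).exists_min_image (fun k => h (site t k)) (by simp)
    have hglob : ∀ k, h (site t n) ≤ h (site t k) := by
      intro k
      rcases lt_or_ge k (N + 1) with hk | hk
      · exact hmin k (mem_range.2 hk)
      · exact (hmin 0 (by simp)).trans (hN k (by omega))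
    have hk : ∀ k, h (site (shiftT n t) k) = h (site t (n + k)) - h (site t n) := by
      intro k; rw [site_shiftT, map_add]; ring
    refine Set.mem_iUnion₂.2 ⟨n, fun k => t k, mem_cyl_ofFn_self n t, fun k => ?_, ?_⟩
    · rw [hk]; linarith [hglob (n + k)]
    · refine tendsto_atTop.2 fun r => ?_
      obtain ⟨m, hm⟩ := eventually_atTop.1 (ht.eventually_ge_atTop (r + h (site t n)))
      refine eventually_atTop.2 ⟨m, fun k hk' => ?_⟩
      rw [hk]
      linarith [hm (n + k) (by omega)]
  · refine measure_iUnion_null fun n => measure_iUnion_null fun f => ?_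
    have := hP.measure_cyl_inter_le (List.ofFn f) (Esc h) (measurableSet_esc h)
    simp only [List.length_ofFn, h0, nonpos_iff_eq_zero] at this
    exact this

/-- Almost surely an escaping trajectory has a cut after time zero. -/
theorem IsAnnealed.noCut_null (hP : IsAnnealed μ P) (hd : P (Esc h) ≠ 0) :
    P {t | t ∈ Esc h ∧ ∀ n, 0 < n → ¬ IsCut h t n} = 0 := by
  classical
  haveI := hP.1
  set B := {t | t ∈ Esc h ∧ ∀ n, 0 < n → ¬ IsCut h t n} with hB
  have hBm : MeasurableSet B := by
    have : B = Esc h ∩ ⋂ n : {n : ℕ // 0 < n}, {t | IsCut h t n}ᶜ := by ext t; simp [hB]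
    rw [this]
    exact (measurableSet_esc h).inter (MeasurableSet.iInter fun n => (measurableSet_isCut h _).compl)
  have key : ∀ ε : ℝ≥0∞, ε ≠ 0 → P B * P (Esc h) ≤ ε + ε + ε := by
    intro ε hε
    obtain ⟨U, hBU, hU, hlt⟩ := B.exists_isOpen_lt_add (μ := P) (measure_ne_top P B) (ε := ε) hε
    let A : ℕ → Set (Traj d) := fun n =>
      ⋃ f ∈ {f : Fin n → Step d | cyl (List.ofFn f) ⊆ U}, cyl (List.ofFn f)
    have hAU : ∀ n, A n ⊆ U := fun n => Set.iUnion₂_subset fun f hf => hf
    have hmono : Monotone A := by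
      refine monotone_nat_of_le_succ fun n => Set.iUnion₂_subset fun f hf t ht => ?_
      refine Set.mem_iUnion₂.2 ⟨fun k => t k, fun y hy => hf ?_, mem_cyl_ofFn_self _ t⟩
      rw [mem_cyl] at hy ht ⊢
      intro k hk
      have hk' : k < n := by simpa using hk
      have h1 := hy k (by simp; omega)
      have h2 := ht k hk
      simp only [List.getElem_ofFn] at h1 h2 ⊢
      rw [h1, h2]
    have hlim : Tendsto (fun n => P (A n)) atTop (𝓝 (P U)) := by
      have := tendsto_measure_iUnion_atTop (μ := P) hmono
      rwa [← isOpen_eq_iUnion_cyl hU] at this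
    rcases eq_or_ne (P U) 0 with hU0 | hU0
    · rw [measure_mono_null hBU hU0, zero_mul]; exact bot_le
    obtain ⟨n, hn⟩ := (hlim.eventually
      (eventually_gt_nhds (ENNReal.sub_lt_self (measure_ne_top P U) hU0 hε))).exists
    -- stopped paths
    let Q : Set (List (Step d)) := {π | n < π.length ∧ cyl (π.take n) ⊆ U ∧
      (∀ k < π.length, h (disp (π.take k)) < h (disp π)) ∧
      ∀ j, n < j → j < π.length → ∃ k < j, h (disp (π.take j)) ≤ h (disp (π.take k))}
    have hQsame : ∀ π ∈ Q, ∀ ρ ∈ Q, ∀ t, t ∈ cyl π → t ∈ cyl ρ → π.length ≤ ρ.length := by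
      intro π hπ ρ hρ t htπ htρ
      by_contra! hlt
      obtain ⟨k, hk, hle⟩ := hπ.2.2.2 ρ.length hρ.1 hlt
      rw [← site_of_mem_cyl htπ hlt.le, ← site_of_mem_cyl htπ (by omega)] at hle
      rw [site_of_mem_cyl htρ le_rfl, site_of_mem_cyl htρ hk.le, List.take_length] at hle
      linarith [hρ.2.2.1 k hk]
    have hQdis : Pairwise fun π ρ : Q => Disjoint (cyl π.1) (cyl ρ.1) := by
      rintro ⟨π, hπ⟩ ⟨ρ, hρ⟩ hne
      refine Set.disjoint_left.2 fun t h1 h2 => ?_
      have hl := le_antisymm (hQsame π hπ ρ hρ t h1 h2) (hQsame ρ hρ π hπ t h2 h1)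
      exact Set.disjoint_left.1 (cyl_disjoint_of_length_eq hl fun h => hne (Subtype.ext h)) h1 h2
    have hsum : (∑' π : Q, P (cyl π.1)) * P (Esc h) ≤ ε := by
      have heq : ∀ π : Q, P (cyl π.1) * P (Esc h) = P (cyl π.1 ∩ shiftT π.1.length ⁻¹' Esc h) := by
        intro π
        rw [hP.measure_cyl_inter_eq _ _ (measurableSet_esc h) (esc_subset_avoid π.2.2.2.1), hP.2]
      calc (∑' π : Q, P (cyl π.1)) * P (Esc h)
          = ∑' π : Q, P (cyl π.1 ∩ shiftT π.1.length ⁻¹' Esc h) := by
            rw [← ENNReal.tsum_mul_right]; exact tsum_congr heq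
        _ = P (⋃ π : Q, cyl π.1 ∩ shiftT π.1.length ⁻¹' Esc h) := by
            refine (measure_iUnion (fun π ρ hne => (hQdis hne).mono Set.inter_subset_left
              Set.inter_subset_left) fun π => (measurableSet_cyl _).inter
              (measurable_shiftT _ (measurableSet_esc h))).symm
        _ ≤ P (U \ B) := by
            refine measure_mono (Set.iUnion_subset fun π t ht => ?_)
            obtain ⟨ht1, ht2⟩ := ht
            refine ⟨?_, fun hBt => ?_⟩
            · refine π.2.2.1 (mem_cyl.2 fun k hk => ?_)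
              simp only [List.length_take, lt_min_iff] at hk
              rw [(mem_cyl.1 ht1) k hk.2, List.getElem_take]
            · have hcut : IsCut h t π.1.length := by
                refine ⟨fun k hk => ?_, fun k hk => ?_⟩
                · rw [site_of_mem_cyl ht1 hk.le, site_of_mem_cyl ht1 le_rfl, List.take_length]
                  exact π.2.2.2.1 k hk
                · have := ht2.1 (k - π.1.length)
                  rw [← Nat.add_sub_cancel' hk, site_shiftT, map_add]
                  linarith
              exact hBt.2 _ (by have := π.2.1; omega) hcut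
        _ ≤ ε := by
            rw [measure_sdiff hBU hBm.nullMeasurableSet (measure_ne_top P B)]
            exact tsub_le_iff_left.2 hlt.le
    have hcov : B ∩ A n ⊆ ⋃ π : Q, cyl π.1 := by
      rintro t ⟨ht, htA⟩
      simp only [A, Set.mem_iUnion₂] at htA
      obtain ⟨f, hf, htf⟩ := htA
      have hex : ∃ j, n < j ∧ ∀ k < j, h (site t k) < h (site t j) := by
        obtain ⟨m, hm, hmax⟩ := (range (n + 1)).exists_max_image (fun k => h (site t k)) (by simp)
        have hex1 : ∃ j, h (site t m) < h (site t j) := by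
          obtain ⟨j, hj⟩ := (ht.1.2.eventually_gt_atTop (h (site t m))).exists
          exact ⟨j, hj⟩
        refine ⟨Nat.find hex1, ?_, fun k hk => ?_⟩
        · by_contra! hle
          exact absurd (Nat.find_spec hex1) (not_lt.2 (hmax _ (mem_range.2 (by omega))))
        · exact lt_of_le_of_lt (not_lt.1 (Nat.find_min hex1 hk)) (Nat.find_spec hex1)
      set j := Nat.find hex with hj
      have hjs := Nat.find_spec hex
      refine Set.mem_iUnion.2 ⟨⟨List.ofFn fun k : Fin j => t k, ?_⟩, mem_cyl_ofFn_self j t⟩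
      have htc := mem_cyl_ofFn_self j t
      have hst : ∀ k ≤ j, disp ((List.ofFn fun k : Fin j => t k).take k) = site t k := by
        intro k hk; exact (site_of_mem_cyl htc (by simpa using hk)).symm
      have hend : disp (List.ofFn fun k : Fin j => t k) = site t j := by
        have := hst j le_rfl; rwa [List.take_of_length_le (by simp)] at this
      refine ⟨(List.length_ofFn (f := fun k : Fin j => t k)).symm ▸ hjs.1, ?_, fun k hk => ?_, fun i hni hi => ?_⟩
      · intro y hy
        refine hf (mem_cyl.2 fun k hk => ?_)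
        have hk' : k < n := by simpa using hk
        have h1 := (mem_cyl.1 hy) k (by simp; omega)
        have h2 := (mem_cyl.1 htf) k hk
        rw [h1, ← h2]
        simp
      · have hk' : k < j := by simpa using hk
        rw [hst k hk'.le, hend]; exact hjs.2 k hk'
      · have hi' : i < j := by simpa using hi
        have := Nat.find_min hex hi'
        push Not at this
        obtain ⟨k, hk, hle⟩ := this hni
        exact ⟨k, hk, by rw [hst i hi'.le, hst k (by omega)]; exact hle⟩
    have hBA : P B ≤ ε + P (B ∩ A n) := by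
      calc P B = P (B ∩ A n) + P (B \ A n) := by
            rw [measure_inter_add_sdiff]
            exact MeasurableSet.biUnion (Set.to_countable _) fun f _ => measurableSet_cyl _
        _ ≤ P (B ∩ A n) + P (U \ A n) := by gcongr
        _ ≤ P (B ∩ A n) + ε := by
            gcongr
            rw [measure_sdiff (hAU n) (MeasurableSet.biUnion (Set.to_countable _)
              fun f _ => measurableSet_cyl _).nullMeasurableSet (measure_ne_top P _)]
            rw [tsub_le_iff_left]
            have := tsub_le_iff_right.1 hn.le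
            exact this
        _ = ε + P (B ∩ A n) := add_comm _ _
    calc P B * P (Esc h) ≤ (ε + ∑' π : Q, P (cyl π.1)) * P (Esc h) := by
          gcongr
          exact hBA.trans (by gcongr; exact (measure_mono hcov).trans (measure_iUnion_le _))
      _ ≤ ε * 1 + ε := by
          rw [add_mul]; gcongr; exact prob_le_one
      _ ≤ ε + ε + ε := by rw [mul_one]; exact le_self_add
  have hzero : P B * P (Esc h) = 0 := by
    refine le_antisymm (ENNReal.le_of_forall_pos_le_add fun ε hε _ => ?_) bot_le
    rw [zero_add]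
    refine (key ((ε : ℝ≥0∞) / 3) (by simp [hε.ne'])).trans ?_
    rw [ENNReal.add_thirds]
  exact (mul_eq_zero.1 hzero).resolve_right hd

/-- The block weights sum to one. -/
theorem IsAnnealed.tsum_bwgt (hP : IsAnnealed μ P) (hd : P (Esc h) ≠ 0) :
    ∑' π, bwgt μ h π = 1 := by
  classical
  haveI := hP.1
  let Bl : Set (List (Step d)) := {π | IsBlock h π}
  have h1 : ∑' π, bwgt μ h π = ∑' π : Bl, pw μ 0 π.1 := by
    rw [tsum_subtype Bl fun π => pw μ 0 π]
    exact tsum_congr fun π => by simp [bwgt, Bl, Set.indicator_apply]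
  have heq : ∀ π : Bl, P (cyl π.1 ∩ shiftT π.1.length ⁻¹' Esc h) = pw μ 0 π.1 * P (Esc h) :=
    fun π => hP.measure_cyl_inter_eq _ _ (measurableSet_esc h)
      (esc_subset_avoid fun k hk => (π.2.2.1 k hk).2)
  have hdis : Pairwise fun π ρ : Bl =>
      Disjoint (cyl π.1 ∩ shiftT π.1.length ⁻¹' Esc h) (cyl ρ.1 ∩ shiftT ρ.1.length ⁻¹' Esc h) := by
    have hle : ∀ π ρ : Bl, ∀ t, t ∈ cyl π.1 ∩ shiftT π.1.length ⁻¹' Esc h →
        t ∈ cyl ρ.1 → ρ.1.length ≤ π.1.length := by
      intro π ρ t ht htρ
      by_contra! hlt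
      exact not_isCut_inside ρ.2 htρ (List.length_pos_iff.2 π.2.1) hlt
        (mem_esc_of_cut ht.1 π.2.2.1 ht.2 π.2.pos.le).2
    rintro π ρ hne
    refine Set.disjoint_left.2 fun t h1 h2 => ?_
    have hl := le_antisymm (hle ρ π t h2 h1.1) (hle π ρ t h1 h2.1)
    exact Set.disjoint_left.1 (cyl_disjoint_of_length_eq hl fun h => hne (Subtype.ext h)) h1.1 h2.1
  have hU : P (⋃ π : Bl, cyl π.1 ∩ shiftT π.1.length ⁻¹' Esc h) = P (Esc h) := by
    refine le_antisymm (measure_mono (Set.iUnion_subset fun π t ht =>
      (mem_esc_of_cut ht.1 π.2.2.1 ht.2 π.2.pos.le).1)) ?_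
    refine le_trans (measure_mono (t := (⋃ π : Bl, cyl π.1 ∩ shiftT π.1.length ⁻¹' Esc h) ∪
      {t | t ∈ Esc h ∧ ∀ n, 0 < n → ¬ IsCut h t n}) fun t ht => ?_) ?_
    · by_cases hex : ∃ n, 0 < n ∧ IsCut h t n
      · left
        have hs := Nat.find_spec hex
        have hb : IsBlock h (List.ofFn fun k : Fin (Nat.find hex) => t k) := by
          refine isBlock_of_first_cut (mem_cyl_ofFn_self _ t) ht ?_ (by simpa using hs.2) ?_
          · exact fun hnil => by
              have := congrArg List.length hnil
              simp at this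
          · intro m hm hm' hc
            exact Nat.find_min hex (by simpa using hm') ⟨hm, hc⟩
        refine Set.mem_iUnion.2 ⟨⟨_, hb⟩, mem_cyl_ofFn_self _ t, ?_⟩
        simpa using shiftT_mem_esc ht hs.2
      · right
        push Not at hex
        exact ⟨ht, hex⟩
    · refine (measure_union_le _ _).trans ?_
      rw [hP.noCut_null hd, add_zero]
  rw [measure_iUnion hdis fun π => (measurableSet_cyl _).inter
    (measurable_shiftT _ (measurableSet_esc h)), tsum_congr heq, ENNReal.tsum_mul_right, ← h1] at hU
  exact (ENNReal.mul_left_inj hd (measure_ne_top P _)).1 (hU.trans (one_mul _).symm)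

end Vale.Agent.P147
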