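import Mathlib
import Vale.Agent.P147.Blocks

/-!
# P147: expectations over independent blocks, and their link with the trajectory
-/

namespace Vale.Agent.P147

open MeasureTheory Finset Filter
open scoped ENNReal Topology

variable {d : ℕ} {μ : Measure (Row d)} {h : Site d →+ ℝ}

theorem bwgt_eq_zero {π : List (Step d)} (hπ : ¬ IsBlock h π) : bwgt μ h π = 0 := by
  simp [bwgt, hπ]

theorem bprod_cons (π : List (Step d)) (ws : List (List (Step d))) :
    bprod μ h (π :: ws) = bwgt μ h π * bprod μ h ws := by simp [bprod]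

theorem bprod_eq_zero {ws : List (List (Step d))} (hws : ¬ ∀ π ∈ ws, IsBlock h π) :
    bprod μ h ws = 0 := by
  push Not at hws
  obtain ⟨π, hπ, hb⟩ := hws
  exact List.prod_eq_zero_iff.2 (List.mem_map.2 ⟨π, hπ, bwgt_eq_zero hb⟩)

@[simp] theorem ex_zero (F : List (List (Step d)) → ℝ≥0∞) : ex μ h 0 F = F [] := rfl

theorem ex_succ (n : ℕ) (F : List (List (Step d)) → ℝ≥0∞) :
    ex μ h (n + 1) F = ∑' π, bwgt μ h π * ex μ h n fun ws => F (π :: ws) := rfl

theorem ex_mono_of {n : ℕ} {F G : List (List (Step d)) → ℝ≥0∞}
    (hFG : ∀ ws, ws.length = n → (∀ π ∈ ws, IsBlock h π) → F ws ≤ G ws) :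
    ex μ h n F ≤ ex μ h n G := by
  induction n generalizing F G with
  | zero => exact hFG [] rfl (by simp)
  | succ n ih =>
    refine ENNReal.tsum_le_tsum fun π => ?_
    by_cases hπ : IsBlock h π
    · gcongr
      exact ih fun ws hl hb => hFG _ (by simp [hl]) (by simpa [hπ] using hb)
    · simp [bwgt_eq_zero hπ]

theorem ex_congr_of {n : ℕ} {F G : List (List (Step d)) → ℝ≥0∞}
    (hFG : ∀ ws, ws.length = n → (∀ π ∈ ws, IsBlock h π) → F ws = G ws) :
    ex μ h n F = ex μ h n G :=
  le_antisymm (ex_mono_of fun ws a b => (hFG ws a b).le) (ex_mono_of fun ws a b => (hFG ws a b).ge)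

theorem ex_mono {n : ℕ} {F G : List (List (Step d)) → ℝ≥0∞} (hFG : ∀ ws, F ws ≤ G ws) :
    ex μ h n F ≤ ex μ h n G := ex_mono_of fun ws _ _ => hFG ws

theorem ex_add (n : ℕ) (F G : List (List (Step d)) → ℝ≥0∞) :
    ex μ h n (fun ws => F ws + G ws) = ex μ h n F + ex μ h n G := by
  induction n generalizing F G with
  | zero => rfl
  | succ n ih => simp only [ex_succ, ih, mul_add, ENNReal.tsum_add]

theorem ex_const_mul (n : ℕ) (c : ℝ≥0∞) (F : List (List (Step d)) → ℝ≥0∞) :
    ex μ h n (fun ws => c * F ws) = c * ex μ h n F := by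
  induction n generalizing F with
  | zero => rfl
  | succ n ih => simp only [ex_succ, ih, mul_left_comm _ c, ENNReal.tsum_mul_left]

theorem ex_mul_const (n : ℕ) (c : ℝ≥0∞) (F : List (List (Step d)) → ℝ≥0∞) :
    ex μ h n (fun ws => F ws * c) = ex μ h n F * c := by
  simp only [mul_comm _ c, ex_const_mul]

theorem ex_tsum {ι : Type*} (n : ℕ) (F : ι → List (List (Step d)) → ℝ≥0∞) :
    ex μ h n (fun ws => ∑' i, F i ws) = ∑' i, ex μ h n (F i) := by
  induction n generalizing F with
  | zero => rfl
  | succ n ih => simp only [ex_succ, ih, ← ENNReal.tsum_mul_left]; exact ENNReal.tsum_comm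

theorem ex_sum {ι : Type*} (s : Finset ι) (n : ℕ) (F : ι → List (List (Step d)) → ℝ≥0∞) :
    ex μ h n (fun ws => ∑ i ∈ s, F i ws) = ∑ i ∈ s, ex μ h n (F i) := by
  classical
  induction s using Finset.induction_on with
  | empty =>
    simp only [sum_empty]
    have := ex_const_mul (μ := μ) (h := h) n 0 fun _ => 0
    simpa using this
  | insert a s ha ih => simp only [sum_insert ha, ex_add, ih]

theorem ex_const (hb : ∑' π, bwgt μ h π = 1) (n : ℕ) (c : ℝ≥0∞) :
    ex μ h n (fun _ => c) = c := by
  induction n with
  | zero => rfl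
  | succ n ih => rw [ex_succ]; simp [ih, ENNReal.tsum_mul_right, hb]

theorem ex_append (m n : ℕ) (F : List (List (Step d)) → ℝ≥0∞) :
    ex μ h (m + n) F = ex μ h m fun u => ex μ h n fun v => F (u ++ v) := by
  induction m generalizing F with
  | zero => simp
  | succ m ih =>
    rw [Nat.succ_add, ex_succ, ex_succ]
    simp only [ih, List.cons_append]

open Classical in
theorem ex_eq_tsum (n : ℕ) (F : List (List (Step d)) → ℝ≥0∞) :
    ex μ h n F = ∑' ws, if ws.length = n then bprod μ h ws * F ws else 0 := by
  induction n generalizing F with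
  | zero =>
    rw [tsum_eq_single ([] : List (List (Step d))) fun ws hws => by simp [List.length_eq_zero_iff, hws]]
    simp [bprod]
  | succ n ih =>
    rw [ex_succ]
    simp only [ih, ← ENNReal.tsum_mul_left, mul_ite, mul_zero, ← mul_assoc, ← bprod_cons]
    rw [← ENNReal.tsum_prod (f := fun π ws => if ws.length = n then
      bprod μ h (π :: ws) * F (π :: ws) else 0)]
    let cons' : List (Step d) × List (List (Step d)) → List (List (Step d)) := fun p => p.1 :: p.2
    have hinj : Function.Injective cons' := fun p q hpq => by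
      simp only [cons', List.cons.injEq] at hpq; exact Prod.ext hpq.1 hpq.2
    rw [← hinj.tsum_eq (f := fun ws => if ws.length = n + 1 then bprod μ h ws * F ws else 0)]
    · simp [cons']
    · intro ws hws
      cases ws with
      | nil => simp at hws
      | cons π ws => exact ⟨(π, ws), rfl⟩

variable [IsProbabilityMeasure μ] {P : Measure (Traj d)}

/-- The event that the trajectory starts with the blocks `ws` and then escapes. -/
def blockEvent (h : Site d →+ ℝ) (ws : List (List (Step d))) : Set (Traj d) :=
  cyl ws.flatten ∩ shiftT ws.flatten.length ⁻¹' Esc h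

theorem measurableSet_blockEvent (ws : List (List (Step d))) :
    MeasurableSet (blockEvent h ws) :=
  (measurableSet_cyl _).inter (measurable_shiftT _ (measurableSet_esc h))

theorem mem_blockEvent_cons {π : List (Step d)} {ws : List (List (Step d))} {t : Traj d} :
    t ∈ blockEvent h (π :: ws) ↔ t ∈ cyl π ∧ shiftT π.length t ∈ blockEvent h ws := by
  simp only [blockEvent, List.flatten_cons, cyl_append, List.length_append, Set.mem_inter_iff,
    Set.mem_preimage]
  have : shiftT ws.flatten.length (shiftT π.length t)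
      = shiftT (π.length + ws.flatten.length) t := by
    funext k
    simp only [shiftT]
    congr 1
    omega
  rw [this, and_assoc]

theorem blockEvent_subset {ws : List (List (Step d))} (hws : ∀ π ∈ ws, IsBlock h π) :
    blockEvent h ws ⊆ Esc h := fun _ ht =>
  (mem_esc_of_cut ht.1 (fun _ hk => flatten_range hws hk) ht.2 (flatten_disp_nonneg hws)).1

theorem blockEvent_unique {ws vs : List (List (Step d))} (hl : ws.length = vs.length)
    (hws : ∀ π ∈ ws, IsBlock h π) (hvs : ∀ π ∈ vs, IsBlock h π) {t : Traj d}
    (h1 : t ∈ blockEvent h ws) (h2 : t ∈ blockEvent h vs) : ws = vs := by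
  induction ws generalizing vs t with
  | nil => exact (List.length_eq_zero_iff.1 hl.symm).symm
  | cons π ws ih =>
    cases vs with
    | nil => simp at hl
    | cons ρ vs =>
      have hπ := hws π (by simp)
      have hρ := hvs ρ (by simp)
      have hws' : ∀ q ∈ ws, IsBlock h q := fun q hq => hws q (by simp [hq])
      have hvs' : ∀ q ∈ vs, IsBlock h q := fun q hq => hvs q (by simp [hq])
      rw [mem_blockEvent_cons] at h1 h2
      have c1 := (mem_esc_of_cut h1.1 hπ.2.1 (blockEvent_subset hws' h1.2) hπ.pos.le).2
      have c2 := (mem_esc_of_cut h2.1 hρ.2.1 (blockEvent_subset hvs' h2.2) hρ.pos.le).2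
      have hlen : π.length = ρ.length := by
        rcases lt_trichotomy π.length ρ.length with hlt | heq | hgt
        · exact absurd c1 (not_isCut_inside hρ h2.1 (List.length_pos_iff.2 hπ.1) hlt)
        · exact heq
        · exact absurd c2 (not_isCut_inside hπ h1.1 (List.length_pos_iff.2 hρ.1) hgt)
      have heq : π = ρ := by
        by_contra hne
        exact Set.disjoint_left.1 (cyl_disjoint_of_length_eq hlen hne) h1.1 h2.1
      subst heq
      rw [ih (by simpa using hl) hws' hvs' h1.2 h2.2]

theorem IsAnnealed.measure_blockEvent (hP : IsAnnealed μ P) {ws : List (List (Step d))}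
    (hws : ∀ π ∈ ws, IsBlock h π) : P (blockEvent h ws) = bprod μ h ws * P (Esc h) := by
  have := hP.measure_flatten_inter hws (E := Set.univ) MeasurableSet.univ
  simpa [blockEvent] using this

/-- Decomposition of an event inside `Esc` along its first `n` blocks. -/
theorem IsAnnealed.measure_eq_ex (hP : IsAnnealed μ P) (hd : P (Esc h) ≠ 0) (n : ℕ)
    {G : Set (Traj d)} (hG : G ⊆ Esc h) (hGm : MeasurableSet G) :
    P G = ∑' ws : {ws : List (List (Step d)) | ws.length = n ∧ ∀ π ∈ ws, IsBlock h π},
      P (G ∩ blockEvent h ws.1) := by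
  classical
  haveI := hP.1
  set S := {ws : List (List (Step d)) | ws.length = n ∧ ∀ π ∈ ws, IsBlock h π} with hS
  have hdis : Pairwise fun ws vs : S => Disjoint (blockEvent h ws.1) (blockEvent h vs.1) :=
    fun ws vs hne => Set.disjoint_left.2 fun t h1 h2 => hne <| Subtype.ext <|
      blockEvent_unique (ws.2.1.trans vs.2.1.symm) ws.2.2 vs.2.2 h1 h2
  have htot : P (⋃ ws : S, blockEvent h ws.1) = P (Esc h) := by
    rw [measure_iUnion hdis fun ws => measurableSet_blockEvent _]
    calc ∑' ws : S, P (blockEvent h ws.1) = ∑' ws : S, bprod μ h ws.1 * P (Esc h) :=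
          tsum_congr fun ws => hP.measure_blockEvent ws.2.2
      _ = (∑' ws : S, bprod μ h ws.1) * P (Esc h) := ENNReal.tsum_mul_right
      _ = (ex μ h n fun _ => 1) * P (Esc h) := by
          congr 1
          rw [ex_eq_tsum, tsum_subtype S (bprod μ h)]
          refine tsum_congr fun ws => ?_
          by_cases hb : ∀ π ∈ ws, IsBlock h π
          · by_cases hl : ws.length = n
            · rw [Set.indicator_of_mem (show ws ∈ S from ⟨hl, hb⟩), if_pos hl, mul_one]
            · rw [Set.indicator_of_notMem (show ws ∉ S from fun hm => hl hm.1), if_neg hl]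
          · rw [Set.indicator_of_notMem (show ws ∉ S from fun hm => hb hm.2), bprod_eq_zero hb]
            simp
      _ = P (Esc h) := by rw [ex_const (hP.tsum_bwgt hd), one_mul]
  have hnull : P (G \ ⋃ ws : S, blockEvent h ws.1) = 0 := by
    refine measure_mono_null (Set.sdiff_subset_sdiff_left hG) ?_
    rw [measure_sdiff (Set.iUnion_subset fun ws => blockEvent_subset ws.2.2)
      (MeasurableSet.iUnion fun ws => measurableSet_blockEvent _).nullMeasurableSet
      (measure_ne_top P _), htot, tsub_self]
  refine le_antisymm ?_ ?_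
  · calc P G ≤ P ((⋃ ws : S, G ∩ blockEvent h ws.1) ∪ (G \ ⋃ ws : S, blockEvent h ws.1)) := by
          refine measure_mono fun t ht => ?_
          by_cases hm : t ∈ ⋃ ws : S, blockEvent h ws.1
          · obtain ⟨ws, hw⟩ := Set.mem_iUnion.1 hm
            exact .inl (Set.mem_iUnion.2 ⟨ws, ht, hw⟩)
          · exact .inr ⟨ht, hm⟩
      _ ≤ P (⋃ ws : S, G ∩ blockEvent h ws.1) + 0 := by rw [← hnull]; exact measure_union_le _ _
      _ ≤ _ := by rw [add_zero]; exact measure_iUnion_le _
  · refine (tsum_meas_le_meas_iUnion_of_disjoint₀ P (fun ws => ?_) ?_).trans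
      (measure_mono (μ := P) (Set.iUnion_subset fun ws => Set.inter_subset_left))
    · exact (hGm.inter (measurableSet_blockEvent _)).nullMeasurableSet
    · exact fun ws vs hne => ((hdis hne).mono Set.inter_subset_right Set.inter_subset_right).aedisjoint

end Vale.Agent.P147
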