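import Mathlib
import Vale.Agent.P147.Ex

/-!
# P147: elementary blocks and renewal counts
-/

namespace Vale.Agent.P147

open MeasureTheory Finset Filter
open scoped ENNReal Topology

variable {d : ℕ} {μ : Measure (Row d)} {h : Site d →+ ℝ}

/-- Steps change `h` by at most one. -/
def UnitSteps (h : Site d →+ ℝ) : Prop := ∀ e : Step d, |h (vec e)| ≤ 1

open Classical in
/-- Number of partial block sums of `ws` (empty sum included), shifted by `o`, in the bin `s`. -/
noncomputable def cnt (h : Site d →+ ℝ) (s : ℤ) : ℝ → List (List (Step d)) → ℕ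
  | o, [] => if ⌊o⌋ = s then 1 else 0
  | o, π :: ws => (if ⌊o⌋ = s then 1 else 0) + cnt h s (o + h (disp π)) ws

/-- The expected number of sites of one block. -/
noncomputable def meanSites (μ : Measure (Row d)) (h : Site d →+ ℝ) : ℝ≥0∞ :=
  ∑' π, bwgt μ h π * (deps 0 π).card

/-- Law of the displacement of one block. -/
noncomputable def blockLaw (μ : Measure (Row d)) (h : Site d →+ ℝ) (x : Site d) : ℝ≥0∞ :=
  ∑' π, if disp π = x then bwgt μ h π else 0

theorem isBlock_singleton {e : Step d} (he : 0 < h (vec e)) : IsBlock h [e] := by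
  refine ⟨by simp, fun k hk => ?_, fun n hn0 hn => ?_⟩
  · have : k = 0 := by simpa using hk
    subst this
    simpa using he
  · simp at hn; omega

theorem cnt_eq_zero_of_lt {s : ℤ} {o : ℝ} {ws : List (List (Step d))}
    (hws : ∀ π ∈ ws, IsBlock h π) (ho : s < ⌊o⌋) : cnt h s o ws = 0 := by
  induction ws generalizing o with
  | nil => simp [cnt, ho.ne']
  | cons π ws ih =>
    simp only [cnt, if_neg ho.ne', zero_add]
    exact ih (fun q hq => hws q (by simp [hq]))
      (ho.trans_le (Int.floor_le_floor (by linarith [(hws π (by simp)).pos])))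

variable [IsProbabilityMeasure μ]

/-- The renewal counts in a bin have bounded first and second moments. -/
theorem ex_cnt_le (hb : ∑' π, bwgt μ h π = 1) {e : Step d} (he : h (vec e) = 1) (n : ℕ) (o : ℝ)
    (s : ℤ) :
    ex μ h n (fun ws => (cnt h s o ws : ℝ≥0∞)) ≤ (bwgt μ h [e])⁻¹ ∧
    ex μ h n (fun ws => (cnt h s o ws : ℝ≥0∞) ^ 2)
      ≤ 2 * (bwgt μ h [e])⁻¹ * (bwgt μ h [e])⁻¹ := by
  classical
  set p := bwgt μ h [e] with hp
  have hp1 : p ≤ 1 := hb ▸ ENNReal.le_tsum [e]
  have hinv : 1 ≤ p⁻¹ := ENNReal.one_le_inv.2 hp1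
  induction n generalizing o with
  | zero =>
    simp only [ex_zero, cnt]
    split_ifs
    · refine ⟨by simpa using hinv, ?_⟩
      simp only [Nat.cast_one, one_pow]
      exact one_le_mul (one_le_mul (by norm_num) hinv) hinv
    · simp
  | succ n ih =>
    by_cases ho : ⌊o⌋ = s
    · have hzero : ex μ h n (fun ws => (cnt h s (o + h (disp [e])) ws : ℝ≥0∞)) = 0 ∧
          ex μ h n (fun ws => (cnt h s (o + h (disp [e])) ws : ℝ≥0∞) ^ 2) = 0 := by
        have hgt : s < ⌊o + h (disp [e])⌋ := by
          simp [he, ← ho]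
        constructor
        · rw [ex_congr_of (G := fun _ => 0) fun ws _ hws => by
              rw [cnt_eq_zero_of_lt hws hgt, Nat.cast_zero], ex_const hb]
        · rw [ex_congr_of (G := fun _ => 0) fun ws _ hws => by
              rw [cnt_eq_zero_of_lt hws hgt, Nat.cast_zero, zero_pow (by norm_num)], ex_const hb]
      have hsplit : ∀ (F : List (Step d) → ℝ≥0∞) (B : ℝ≥0∞), F [e] = 0 → (∀ π, F π ≤ B) →
          ∑' π, bwgt μ h π * F π ≤ (1 - p) * B := by
        intro F B h0 hB
        have hcomp : ∑' π, (if π = [e] then 0 else bwgt μ h π) = 1 - p := by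
          have := ENNReal.tsum_eq_add_tsum_ite (f := bwgt μ h) [e]
          rw [hb] at this
          refine ENNReal.eq_sub_of_add_eq (ne_top_of_le_ne_top ENNReal.one_ne_top hp1) ?_
          rw [this, hp, add_comm]
          congr 1
          exact tsum_congr fun π => by split_ifs <;> rfl
        calc ∑' π, bwgt μ h π * F π ≤ ∑' π, (if π = [e] then 0 else bwgt μ h π) * B := by
              refine ENNReal.tsum_le_tsum fun π => ?_
              split_ifs with hπ
              · simp [hπ, h0]
              · exact mul_le_mul' le_rfl (hB π)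
          _ = (1 - p) * B := by rw [ENNReal.tsum_mul_right, hcomp]
      by_cases hp0 : p = 0
      · simp [hp0]
      have hpp : p * p⁻¹ = 1 :=
        ENNReal.mul_inv_cancel hp0 (ne_top_of_le_ne_top ENNReal.one_ne_top hp1)
      have hq : (1 - p) + p = 1 := tsub_add_cancel_of_le hp1
      have h1X : 1 + (1 - p) * p⁻¹ = p⁻¹ := by
        calc 1 + (1 - p) * p⁻¹ = (p + (1 - p)) * p⁻¹ := by rw [add_mul, hpp]
          _ = p⁻¹ := by rw [add_comm p, hq, one_mul]
      constructor
      · simp only [ex_succ, cnt, if_pos ho, Nat.cast_add, Nat.cast_one]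
        simp only [ex_add, ex_const hb, mul_add, ENNReal.tsum_add, mul_one, hb]
        refine le_trans (add_le_add le_rfl (hsplit _ _ hzero.1 fun π => (ih (o + h (disp π))).1)) ?_
        exact h1X.le
      · simp only [ex_succ, cnt, if_pos ho, Nat.cast_add, Nat.cast_one]
        have hsq : ∀ x : ℝ≥0∞, (1 + x) ^ 2 = 1 + (2 * x + x ^ 2) := fun x => by ring
        simp only [hsq, ex_add, ex_const hb, mul_add, ENNReal.tsum_add, mul_one, hb, ex_const_mul,
          mul_left_comm _ (2 : ℝ≥0∞), ENNReal.tsum_mul_left]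
        refine le_trans (add_le_add le_rfl (add_le_add
          (mul_le_mul' le_rfl (hsplit _ _ hzero.1 fun π => (ih (o + h (disp π))).1))
          (hsplit _ _ hzero.2 fun π => (ih (o + h (disp π))).2))) ?_
        calc (1 : ℝ≥0∞) + (2 * ((1 - p) * p⁻¹) + (1 - p) * (2 * p⁻¹ * p⁻¹))
            ≤ 2 + (2 * ((1 - p) * p⁻¹) + (1 - p) * (2 * p⁻¹ * p⁻¹)) := by
              gcongr; norm_num
          _ = 2 * ((p + (1 - p)) * p⁻¹) + (1 - p) * (2 * p⁻¹ * p⁻¹) := by
              rw [add_mul, hpp, mul_add, mul_one, add_assoc]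
          _ = 2 * p⁻¹ * ((p + (1 - p)) * p⁻¹) := by
              rw [add_mul p, hpp]
              nth_rewrite 1 [h1X]
              ring
          _ = 2 * p⁻¹ * p⁻¹ := by rw [add_comm p, hq, one_mul]
    · constructor
      · simp only [ex_succ, cnt, if_neg ho, zero_add]
        calc ∑' π, bwgt μ h π * ex μ h n (fun ws => (cnt h s (o + h (disp π)) ws : ℝ≥0∞))
            ≤ ∑' π, bwgt μ h π * p⁻¹ := ENNReal.tsum_le_tsum fun π => mul_le_mul' le_rfl (ih _).1
          _ = p⁻¹ := by rw [ENNReal.tsum_mul_right, hb, one_mul]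
      · simp only [ex_succ, cnt, if_neg ho, zero_add]
        calc ∑' π, bwgt μ h π * ex μ h n (fun ws => (cnt h s (o + h (disp π)) ws : ℝ≥0∞) ^ 2)
            ≤ ∑' π, bwgt μ h π * (2 * p⁻¹ * p⁻¹) :=
              ENNReal.tsum_le_tsum fun π => mul_le_mul' le_rfl (ih _).2
          _ = 2 * p⁻¹ * p⁻¹ := by rw [ENNReal.tsum_mul_right, hb, one_mul]

open Classical in
theorem sum_ex_bin_eq (hb : ∑' π, bwgt μ h π = 1) (n : ℕ) (o : ℝ) (s : ℤ) :
    ∑ i ∈ range (n + 1), ex μ h i (fun ws => if ⌊o + h (disp ws.flatten)⌋ = s then 1 else 0)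
      = ex μ h n (fun ws => (cnt h s o ws : ℝ≥0∞)) := by
  induction n generalizing o with
  | zero => simp [cnt]
  | succ n ih =>
    rw [sum_range_succ']
    simp only [ex_succ, ex_zero, cnt, List.flatten_nil, disp_nil, map_zero, add_zero,
      Nat.cast_add, ex_add, mul_add, ENNReal.tsum_add, ex_const hb, ENNReal.tsum_mul_right, hb,
      one_mul, List.flatten_cons, disp_append, map_add, ← add_assoc]
    rw [← Summable.tsum_finsetSum fun i _ => ENNReal.summable]
    simp only [← mul_sum, ih]
    rw [add_comm]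
    congr 1
    split_ifs <;> simp

open Classical in
/-- Expected number of block sums in a bin, over all numbers of blocks. -/
theorem tsum_ex_bin_le (hb : ∑' π, bwgt μ h π = 1) {e : Step d} (he : h (vec e) = 1) (o : ℝ)
    (s : ℤ) :
    ∑' n, ex μ h n (fun ws => if ⌊o + h (disp ws.flatten)⌋ = s then 1 else 0)
      ≤ (bwgt μ h [e])⁻¹ := by
  refine ENNReal.summable.tsum_le_of_sum_range_le fun n => ?_
  cases n with
  | zero => simp
  | succ n => rw [sum_ex_bin_eq hb]; exact (ex_cnt_le hb he n o s).1

omit [IsProbabilityMeasure μ] in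
/-- The height of a block is at most twice its number of sites. -/
theorem block_height_le (hu : UnitSteps h) {π : List (Step d)} (hπ : IsBlock h π) :
    h (disp π) ≤ 2 * (deps 0 π).card := by
  classical
  have h0 : (0 : Site d) ∈ deps 0 π :=
    mem_deps.2 ⟨0, List.length_pos_iff.2 hπ.1, by simp⟩
  have hcard : (1 : ℝ) ≤ (deps 0 π).card := by exact_mod_cast card_pos.2 ⟨0, h0⟩
  rcases lt_or_ge (h (disp π)) 1 with hlt | hge
  · linarith
  set m := ⌊h (disp π)⌋₊ with hm
  have hsub : range m ⊆ (deps 0 π).image fun y => ⌊h y⌋₊ := by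
    intro j hj
    have hjm : (j : ℝ) + 1 ≤ h (disp π) := by
      have h1 : ((j + 1 : ℕ) : ℝ) ≤ (m : ℝ) := by exact_mod_cast mem_range.1 hj
      push_cast at h1
      linarith [Nat.floor_le hπ.pos.le]
    have hex : ∃ k, k ≤ π.length ∧ (j : ℝ) ≤ h (disp (π.take k)) :=
      ⟨π.length, le_rfl, by rw [List.take_length]; linarith⟩
    set k := Nat.find hex with hk
    obtain ⟨hkle, hkj⟩ : k ≤ π.length ∧ (j : ℝ) ≤ h (disp (π.take k)) := Nat.find_spec hex
    have hlt : h (disp (π.take k)) < j + 1 := by
      rcases Nat.eq_zero_or_pos k with h0 | hpos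
      · rw [h0]; simp; positivity
      · have := Nat.find_min hex (show k - 1 < k by omega)
        simp only [show k - 1 ≤ π.length by omega, true_and, not_le] at this
        rw [show k = k - 1 + 1 by omega,
          List.take_succ_eq_append_getElem (show k - 1 < π.length by omega), disp_append,
          disp_cons, disp_nil, add_zero, map_add]
        linarith [(abs_le.1 (hu (π[k - 1]'(by omega)))).2]
    have hklt : k < π.length := by
      rcases hkle.lt_or_eq with h1 | h1
      · exact h1
      · rw [h1, List.take_length] at hlt; linarith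
    refine mem_image.2 ⟨_, mem_deps.2 ⟨k, hklt, rfl⟩, ?_⟩
    rw [zero_add, Nat.floor_eq_iff ((Nat.cast_nonneg j).trans hkj)]
    exact ⟨hkj, hlt⟩
  have hle : (m : ℝ) ≤ (deps 0 π).card := by
    have := (card_le_card hsub).trans card_image_le
    rw [card_range] at this
    exact_mod_cast this
  linarith [Nat.lt_floor_add_one (h (disp π))]

theorem ex_disp_eq_conv (n : ℕ) (x : Site d) :
    ex μ h n (fun ws => if disp ws.flatten = x then 1 else 0) = conv (blockLaw μ h) n x := by
  classical
  induction n generalizing x with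
  | zero => simp [conv, eq_comm]
  | succ n ih =>
    simp only [ex_succ, conv, blockLaw, ← ENNReal.tsum_mul_right, ite_mul, zero_mul]
    rw [ENNReal.tsum_comm]
    refine tsum_congr fun π => ?_
    rw [tsum_eq_single (disp π) fun y hy => by rw [if_neg (fun hh => hy hh.symm)], if_pos rfl, ← ih]
    congr 1
    refine ex_congr_of fun ws _ _ => ?_
    simp only [List.flatten_cons, disp_append, eq_sub_iff_add_eq']

theorem tsum_blockLaw (hb : ∑' π, bwgt μ h π = 1) : ∑' x, blockLaw μ h x = 1 := by
  classical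
  simp only [blockLaw]
  rw [ENNReal.tsum_comm]
  simpa using hb

end Vale.Agent.P147
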