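import Mathlib
import Vale.Agent.P147.Renewal

/-!
# P147: the two sided setting and the avoidance probabilities
-/

namespace Vale.Agent.P147

open MeasureTheory Finset Filter
open scoped ENNReal Topology

variable {d : ℕ}

/-- Hypotheses that the main argument refutes. -/
structure Setup (d : ℕ) where
  /-- one site law -/
  μ : Measure (Row d)
  prob : IsProbabilityMeasure μ
  ell : Elliptic μ
  /-- annealed law -/
  P : Measure (Traj d)
  ann : IsAnnealed μ P
  /-- the height -/
  h : Site d →+ ℝ
  three : 3 ≤ d
  unit : UnitSteps h
  /-- a step of height one -/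
  e₀ : Step d
  he₀ : h (vec e₀) = 1
  escP : P (Esc h) ≠ 0
  escM : P (Esc (-h)) ≠ 0

instance (S : Setup d) : IsProbabilityMeasure S.μ := S.prob

/-- The trajectory translated to start at `x` departs from a site of `W`. -/
def Hits (x : Site d) (W : Finset (Site d)) : Set (Traj d) :=
  {t | ∃ k, x + site t k ∈ W}

/-- Departure sites of the blocks `ws`, put so that the top point is the origin. -/
def topSites (ws : List (List (Step d))) : Finset (Site d) :=
  deps (-disp ws.flatten) ws.flatten

/-- Probability that a descending escape from `D` avoids `n` ascending blocks below the origin. -/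
noncomputable def Setup.avoid (S : Setup d) (D : Site d) (n : ℕ) : ℝ≥0∞ :=
  ex S.μ S.h n fun ws => S.P (Esc (-S.h) \ Hits D (topSites ws))

open Classical in
/-- Tail of the height of one descending block. -/
noncomputable def Setup.tailM (S : Setup d) (r : ℝ) : ℝ≥0∞ :=
  ∑' π, if r < (-S.h) (disp π) then bwgt S.μ (-S.h) π else 0

theorem hits_shift (a x : Site d) (W : Finset (Site d)) :
    Hits (x + a) (W.image (· + a)) = Hits x W := by
  ext t
  simp [Hits, add_right_comm x a]

theorem measurableSet_hits (x : Site d) (W : Finset (Site d)) : MeasurableSet (Hits x W) := by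
  have : Hits x W = ⋃ k, (fun t : Traj d => site t k) ⁻¹' {y | x + y ∈ W} := by
    ext t; simp [Hits]
  rw [this]
  exact MeasurableSet.iUnion fun k => measurable_site k (Set.to_countable _).measurableSet

theorem length_le_flatten {h : Site d →+ ℝ} {ws : List (List (Step d))}
    (hws : ∀ π ∈ ws, IsBlock h π) : ws.length ≤ ws.flatten.length := by
  induction ws with
  | nil => simp
  | cons π ws ih =>
    rw [List.flatten_cons, List.length_append, List.length_cons]
    have := ih fun q hq => hws q (by simp [hq])
    have := List.length_pos_iff.2 (hws π (by simp)).1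
    omega

variable {μ : Measure (Row d)} [IsProbabilityMeasure μ] {P : Measure (Traj d)} {h : Site d →+ ℝ}

open Classical in
/-- First moment bound for hitting a finite set, over the blocks. -/
theorem IsAnnealed.hit_le (hP : IsAnnealed μ P) (hd : P (Esc h) ≠ 0) (x : Site d)
    (W : Finset (Site d)) :
    P (Esc h ∩ Hits x W) ≤ P (Esc h) * ∑' n, ex μ h n fun us =>
      ∑' π, if Disjoint (deps (x + disp us.flatten) π) W then 0 else bwgt μ h π := by
  haveI := hP.1
  set R : ℕ → ℝ≥0∞ := fun n => ex μ h n fun us =>
    ∑' π, if Disjoint (deps (x + disp us.flatten) π) W then 0 else bwgt μ h π with hR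
  have hb := hP.tsum_bwgt hd
  let I : List (List (Step d)) → ℝ≥0∞ := fun ws =>
    if Disjoint (deps x ws.flatten) W then 0 else 1
  have hI : ∀ m, ex μ h m I ≤ ∑ i ∈ range m, R i := by
    intro m
    induction m with
    | zero => simp [I]
    | succ m ih =>
      rw [sum_range_succ, ex_append m 1]
      refine le_trans ?_ (add_le_add ih le_rfl)
      rw [hR, ← ex_add]
      refine ex_mono fun us => ?_
      simp only [ex_succ, ex_zero]
      calc ∑' π, bwgt μ h π * I (us ++ [π])
          ≤ ∑' π, (bwgt μ h π * I us
              + if Disjoint (deps (x + disp us.flatten) π) W then 0 else bwgt μ h π) := by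
            refine ENNReal.tsum_le_tsum fun π => ?_
            by_cases h1 : Disjoint (deps x us.flatten) W
            · by_cases h2 : Disjoint (deps (x + disp us.flatten) π) W
              · simp [I, deps_append, Finset.disjoint_union_left, h1, h2]
              · simp [I, deps_append, Finset.disjoint_union_left, h1, h2]
            · simp [I, deps_append, Finset.disjoint_union_left, h1]
        _ = _ := by rw [ENNReal.tsum_add, ENNReal.tsum_mul_right, hb, one_mul]
  set G : ℕ → Set (Traj d) := fun n => Esc h ∩ {t | ∃ k < n, x + site t k ∈ W} with hG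
  have hGu : Esc h ∩ Hits x W = ⋃ n, G n := by
    ext t
    simp only [hG, Hits, Set.mem_inter_iff, Set.mem_setOf_eq, Set.mem_iUnion]
    exact ⟨fun ⟨a, k, hk⟩ => ⟨k + 1, a, k, by omega, hk⟩, fun ⟨n, a, k, _, hk⟩ => ⟨a, k, hk⟩⟩
  have hmono : Monotone G := fun a b hab t ⟨ht, k, hk, hw⟩ => ⟨ht, k, lt_of_lt_of_le hk hab, hw⟩
  rw [hGu, hmono.measure_iUnion]
  refine iSup_le fun n => ?_
  have hGm : MeasurableSet (G n) := by
    refine (measurableSet_esc h).inter ?_
    have : {t : Traj d | ∃ k < n, x + site t k ∈ W}
        = ⋃ k ∈ range n, (fun t : Traj d => site t k) ⁻¹' {y | x + y ∈ W} := by ext t; simp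
    rw [this]
    exact MeasurableSet.biUnion (Set.to_countable _) fun k _ =>
      measurable_site k (Set.to_countable _).measurableSet
  rw [hP.measure_eq_ex hd n Set.inter_subset_left hGm]
  let T : Set (List (List (Step d))) := {ws | ws.length = n ∧ ∀ π ∈ ws, IsBlock h π}
  calc ∑' ws : T, P (G n ∩ blockEvent h ws.1)
      ≤ ∑' ws : T, bprod μ h ws.1 * I ws.1 * P (Esc h) := by
        refine ENNReal.tsum_le_tsum fun ws => ?_
        by_cases hdj : Disjoint (deps x ws.1.flatten) W
        · have : G n ∩ blockEvent h ws.1 = ∅ := by
            refine Set.eq_empty_iff_forall_notMem.2 fun t ⟨⟨_, k, hk, hw⟩, htc, _⟩ => ?_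
            have hlen := length_le_flatten ws.2.2
            rw [ws.2.1] at hlen
            exact Finset.disjoint_left.1 hdj (mem_deps.2 ⟨k, by omega,
              by rw [site_of_mem_cyl htc (by omega)]⟩) hw
          simp [this]
        · calc P (G n ∩ blockEvent h ws.1) ≤ P (blockEvent h ws.1) :=
                measure_mono Set.inter_subset_right
            _ = _ := by rw [hP.measure_blockEvent ws.2.2]; simp [I, hdj]
    _ = (∑' ws : T, bprod μ h ws.1 * I ws.1) * P (Esc h) := ENNReal.tsum_mul_right
    _ ≤ ex μ h n I * P (Esc h) := by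
        gcongr
        rw [ex_eq_tsum, tsum_subtype T fun ws => bprod μ h ws * I ws]
        refine ENNReal.tsum_le_tsum fun ws => ?_
        by_cases hm : ws ∈ T
        · rw [Set.indicator_of_mem hm, if_pos hm.1]
        · rw [Set.indicator_of_notMem hm]; exact bot_le
    _ ≤ _ := by
        rw [mul_comm]
        gcongr
        exact (hI n).trans (ENNReal.sum_le_tsum _)

end Vale.Agent.P147
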