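import Mathlib
import Vale.Agent.P147.Setup
import Vale.Agent.P147.Local

/-!
# P147: elementary blocks, smoothing and linear growth of sums of blocks

The block law has four affinely independent atoms, so the abstract bounds of `Local` apply.
-/

namespace Vale.Agent.P147

open MeasureTheory Finset Filter
open scoped ENNReal Topology

variable {d : ℕ}

theorem vec_not (i : Fin d) (b : Bool) : vec (i, !b) = -vec (i, b) := by
  cases b <;> ext j <;> simp [vec, Pi.single_apply] <;> split_ifs <;> simp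

theorem vec_apply_ne {e : Step d} {i : Fin d} (hi : i ≠ e.1) : vec e i = 0 := by simp [vec, hi]

theorem vec_apply_sign (i : Fin d) (b : Bool) : vec (i, b) i = if b then 1 else -1 := by
  simp [vec]

theorem exists_two_axes (hd : 3 ≤ d) (a : Fin d) : ∃ i j : Fin d, i ≠ a ∧ j ≠ a ∧ i ≠ j := by
  have hc : 1 < (univ.erase a).card := by
    rw [card_erase_of_mem (mem_univ a), card_univ, Fintype.card_fin]; omega
  obtain ⟨i, hi, j, hj, hij⟩ := one_lt_card.1 hc
  exact ⟨i, j, ne_of_mem_erase hi, ne_of_mem_erase hj, hij⟩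

theorem exists_sign (h : Site d →+ ℝ) (i : Fin d) : ∃ b, 0 ≤ h (vec (i, b)) := by
  rcases le_total 0 (h (vec (i, true))) with h' | h'
  · exact ⟨true, h'⟩
  · exact ⟨!true, by rw [vec_not, map_neg]; linarith⟩

theorem isBlock_pair {h : Site d →+ ℝ} {f e : Step d} (hf : h (vec f) = 0) (he : 0 < h (vec e)) :
    IsBlock h [f, e] := by
  refine ⟨by simp, fun k hk => ?_, fun n hn0 hn hbad => ?_⟩
  · simp only [List.length_cons, List.length_nil] at hk
    interval_cases k <;> simp [hf, he]
  · obtain rfl : n = 1 := by simp only [List.length_cons, List.length_nil] at hn; omega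
    have := hbad.1 0 one_pos
    simp [hf] at this

theorem isBlock_bump {h : Site d →+ ℝ} {e : Step d} (he : h (vec e) = 1) :
    IsBlock h [e, (e.1, !e.2), e, e] := by
  have hn' : h (vec (e.1, !e.2)) = -1 := by rw [vec_not, map_neg, Prod.mk.eta, he]
  refine ⟨by simp, fun k hk => ?_, fun n hn0 hn hbad => ?_⟩
  · simp only [List.length_cons, List.length_nil] at hk
    interval_cases k <;> simp [he, hn']
  · simp only [List.length_cons, List.length_nil] at hn
    interval_cases n
    · have := hbad.2 2 (by norm_num) (by norm_num)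
      norm_num [he, hn'] at this
    · have := hbad.1 0 (by norm_num)
      norm_num [he, hn'] at this
    · have := hbad.1 1 (by norm_num)
      norm_num [he, hn'] at this

/-- An elementary block along a nonnegative axis step `f`. -/
theorem exists_lateral {h : Site d →+ ℝ} {f e : Step d} (hf : 0 ≤ h (vec f))
    (he : 0 < h (vec e)) (hne : f.1 ≠ e.1) : ∃ g, IsBlock h g ∧ disp g f.1 = vec f f.1 ∧
      (∀ i, i ≠ f.1 → i ≠ e.1 → disp g i = 0) ∧
      (∀ r < g.length, h (disp (g.take r)) = 0 ∧ (disp (g.take r) f.1 = 0 ∧ r = 0 ∨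
        disp (g.take r) f.1 = vec f f.1)) := by
  rcases hf.lt_or_eq with hpos | h0
  · refine ⟨[f], isBlock_singleton hpos, by simp, fun i hi _ => by simp [vec_apply_ne hi],
      fun r hr => ?_⟩
    obtain rfl : r = 0 := by simpa using hr
    simp
  · refine ⟨[f, e], isBlock_pair h0.symm he, by simp [vec_apply_ne hne],
      fun i hi hi' => by simp [vec_apply_ne hi, vec_apply_ne hi'], fun r hr => ?_⟩
    simp only [List.length_cons, List.length_nil] at hr
    interval_cases r <;> simp [← h0]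

variable (S : Setup d)

theorem Setup.bwgt_ne_zero {π : List (Step d)} (hπ : IsBlock S.h π) : bwgt S.μ S.h π ≠ 0 := by
  simp [bwgt, hπ, pw_pos S.μ S.ell]

theorem Setup.blockLaw_ne_zero {π : List (Step d)} (hπ : IsBlock S.h π) :
    blockLaw S.μ S.h (disp π) ≠ 0 := fun h0 =>
  S.bwgt_ne_zero hπ (by simpa using ENNReal.tsum_eq_zero.1 h0 π)

theorem Setup.smoothing (S : Setup d) :
    ∃ C : ℝ≥0∞, C ≠ ⊤ ∧ ∀ n : ℕ, 0 < n → ∀ g : Site d → ℝ≥0∞,
      (∀ s : ℤ, ∑' x, (if ⌊S.h x⌋ = s then g x else 0) ≤ 1) →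
      ∑' x, conv (blockLaw S.μ S.h) n x * g x ≤ C / n := by
  obtain ⟨i, j, hi, hj, hij⟩ := exists_two_axes S.three S.e₀.1
  obtain ⟨bi, hbi⟩ := exists_sign S.h i
  obtain ⟨bj, hbj⟩ := exists_sign S.h j
  obtain ⟨gi, gib, gii, gi0, -⟩ :=
    exists_lateral hbi (show 0 < S.h (vec S.e₀) by rw [S.he₀]; exact one_pos) hi
  obtain ⟨gj, gjb, gjj, gj0, -⟩ :=
    exists_lateral hbj (show 0 < S.h (vec S.e₀) by rw [S.he₀]; exact one_pos) hj
  have he : IsBlock S.h [S.e₀] := isBlock_singleton (by rw [S.he₀]; exact one_pos)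
  have hbump := isBlock_bump S.he₀
  have hdb : disp [S.e₀, (S.e₀.1, !S.e₀.2), S.e₀, S.e₀] = vec S.e₀ + vec S.e₀ := by
    simp [vec_not]
  refine local_bound (blockLaw S.μ S.h) (tsum_blockLaw (S.ann.tsum_bwgt S.escP)) S.h
    (vec S.e₀) ![vec S.e₀ + vec S.e₀, disp gi, disp gj] ?_ ?_ ?_ ?_
  · simpa using S.blockLaw_ne_zero he
  · intro k; fin_cases k
    · simpa [hdb] using S.blockLaw_ne_zero hbump
    · simpa using S.blockLaw_ne_zero gib
    · simpa using S.blockLaw_ne_zero gjb
  · intro k k' hk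
    have hne : ∀ {f : Fin d} (b : Bool), vec (f, b) f ≠ 0 := fun b => by
      rw [vec_apply_sign]; split_ifs <;> norm_num
    have e1 := congrFun hk i
    have e2 := congrFun hk j
    have e3 := congrFun hk S.e₀.1
    have hii : disp gi i = vec (i, bi) i := gii
    have hjj : disp gj j = vec (j, bj) j := gjj
    simp [Fin.sum_univ_three, vec_apply_ne hi, hii, gj0 i hij hi, hne] at e1
    simp [Fin.sum_univ_three, vec_apply_ne hj, hjj, gi0 j (Ne.symm hij) hj, hne] at e2
    simp [Fin.sum_univ_three, e1, e2] at e3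
    have h3 : k 0 = k' 0 := e3.resolve_right (by
      have := hne (f := S.e₀.1) S.e₀.2
      rwa [Prod.mk.eta] at this)
    funext l; fin_cases l <;> assumption
  · simp [S.he₀]

theorem Setup.middle_span (S : Setup d) :
    ∃ c : ℝ, ∃ C : ℝ≥0∞, 0 < c ∧ C ≠ ⊤ ∧ ∀ n : ℕ, 0 < n →
      ex S.μ S.h n (fun M => if S.h (disp M.flatten) < c * n then 1 else 0) ≤ C / n := by
  have he : IsBlock S.h [S.e₀] := isBlock_singleton (by rw [S.he₀]; exact one_pos)
  have hpos : ∀ x, blockLaw S.μ S.h x ≠ 0 → 0 ≤ S.h x := by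
    intro x hx
    simp only [blockLaw, ne_eq, ENNReal.tsum_eq_zero, not_forall] at hx
    obtain ⟨π, hπ⟩ := hx
    by_cases hd : disp π = x
    · by_cases hb : IsBlock S.h π
      · exact hd ▸ hb.pos.le
      · simp [bwgt_eq_zero hb] at hπ
    · simp [hd] at hπ
  obtain ⟨c, C, hc, hC, hle⟩ := height_lower (blockLaw S.μ S.h)
    (tsum_blockLaw (S.ann.tsum_bwgt S.escP)) S.h hpos (vec S.e₀)
    (by simpa using S.blockLaw_ne_zero he) (by rw [S.he₀]; exact one_pos)
  refine ⟨c, C, hc, hC, fun n hn => le_trans (le_of_eq ?_) (hle n hn)⟩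
  calc ex S.μ S.h n (fun M => if S.h (disp M.flatten) < c * n then 1 else 0)
      = ex S.μ S.h n (fun M => ∑' x, (if S.h x < c * n then 1 else 0)
          * (if disp M.flatten = x then 1 else 0)) := by
        refine ex_congr_of fun M _ _ => ?_
        rw [tsum_eq_single (disp M.flatten) fun x hx => by rw [if_neg (Ne.symm hx), mul_zero]]
        simp
    _ = _ := by
        rw [ex_tsum]
        refine tsum_congr fun x => ?_
        rw [ex_const_mul, ex_disp_eq_conv]
        split_ifs <;> simp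

end Vale.Agent.P147
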