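import Mathlib
import Vale.Agent.P147.Renewal

/-!
# P147: linear range forces blocks with finitely many expected sites
-/

namespace Vale.Agent.P147

open MeasureTheory Finset Filter
open scoped ENNReal Topology

variable {d : ℕ}

/-- Escape with a range growing at most linearly in the height. -/
def LinEsc {d : ℕ} (h : Site d →+ ℝ) : Set (Traj d) :=
  {t | Tendsto (fun k => h (site t k)) atTop atTop ∧
    ∃ c : ℝ, 0 < c ∧ ∀ᶠ n in atTop, c * (((Finset.range n).image (site t)).card : ℝ) ≤ h (site t n)}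

/-- The total number of sites of a list of blocks. -/
def sitesSum (ws : List (List (Step d))) : ℕ := (ws.map fun π => (deps 0 π).card).sum

variable {μ : Measure (Row d)} {h : Site d →+ ℝ}

theorem IsCut.shift {t : Traj d} {n m : ℕ} (hc : IsCut h t (n + m)) :
    IsCut h (shiftT n t) m := by
  have hk : ∀ k, h (site (shiftT n t) k) = h (site t (n + k)) - h (site t n) := fun k => by
    rw [site_shiftT, map_add]; ring
  refine ⟨fun k hk' => ?_, fun k hk' => ?_⟩
  · rw [hk, hk]; linarith [hc.1 (n + k) (by omega)]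
  · rw [hk, hk]; linarith [hc.2 (n + k) (by omega)]

theorem disp_le_of_cnt_eq_zero {ws : List (List (Step d))} {t : Traj d} {m : ℕ} {o : ℝ} {s : ℤ}
    (hws : ∀ π ∈ ws, IsBlock h π) (ht : t ∈ blockEvent h ws) (hc : IsCut h t m)
    (hs : ⌊o + h (site t m)⌋ = s) (h0 : cnt h s o ws = 0) :
    h (disp ws.flatten) ≤ h (site t m) := by
  induction ws generalizing t m o with
  | nil =>
    rcases Nat.eq_zero_or_pos m with rfl | hm
    · simp [site_zero]
    · have := hc.1 0 hm
      simp only [site_zero, map_zero] at this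
      simpa using this.le
  | cons π ws ih =>
    simp only [cnt, Nat.add_eq_zero_iff, ite_eq_right_iff, one_ne_zero, imp_false] at h0
    rw [mem_blockEvent_cons] at ht
    have hπ := hws π (by simp)
    rcases Nat.eq_zero_or_pos m with rfl | hm
    · exact absurd (by simpa [site_zero] using hs) h0.1
    have hle : π.length ≤ m := not_lt.1 fun hlt => not_isCut_inside hπ ht.1 hm hlt hc
    obtain ⟨j, rfl⟩ := Nat.exists_eq_add_of_le hle
    have hsite : h (site t (π.length + j)) = h (disp π) + h (site (shiftT π.length t) j) := by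
      rw [site_shiftT, map_add, site_of_mem_cyl ht.1 le_rfl, List.take_length]
    rw [hsite, ← add_assoc] at hs
    have := ih (fun q hq => hws q (by simp [hq])) ht.2 hc.shift hs h0.2
    rw [List.flatten_cons, disp_append, map_add, hsite]
    linarith

theorem card_deps_flatten {ws : List (List (Step d))} (hws : ∀ π ∈ ws, IsBlock h π) :
    (deps 0 ws.flatten).card = sitesSum ws := by
  classical
  induction ws with
  | nil => simp [sitesSum]
  | cons π ws ih =>
    have h1 := hws π (by simp)
    have h2 : ∀ q ∈ ws, IsBlock h q := fun q hq => hws q (by simp [hq])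
    rw [List.flatten_cons, deps_append, card_union_of_disjoint, deps_shift ws.flatten 0 (disp π),
      card_image_of_injective _ (add_left_injective _), ih h2]
    · simp [sitesSum]
    · rw [Finset.disjoint_left]
      intro y hy hy'
      obtain ⟨i, hi, rfl⟩ := mem_deps.1 hy
      obtain ⟨j, hj, hjeq⟩ := mem_deps.1 hy'
      have h3 := congrArg h hjeq
      simp only [zero_add, map_add] at h3
      linarith [(h1.2.1 i hi).2, (flatten_range h2 hj).1]

theorem image_site_eq_deps {π : List (Step d)} {t : Traj d} (ht : t ∈ cyl π) :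
    (range π.length).image (site t) = deps 0 π := by
  classical
  ext y
  simp only [mem_image, mem_range, mem_deps, zero_add]
  constructor
  · rintro ⟨k, hk, rfl⟩; exact ⟨k, hk, (site_of_mem_cyl ht hk.le).symm⟩
  · rintro ⟨k, hk, rfl⟩; exact ⟨k, hk, site_of_mem_cyl ht hk.le⟩

theorem length_le_flatten_of_blocks {ws : List (List (Step d))} (hws : ∀ π ∈ ws, IsBlock h π) :
    ws.length ≤ ws.flatten.length := by
  induction ws with
  | nil => simp
  | cons π ws ih =>
    have h1 := List.length_pos_iff.2 (hws π (by simp)).1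
    have h2 := ih fun q hq => hws q (by simp [hq])
    simp only [List.length_cons, List.flatten_cons, List.length_append]
    omega

open Classical in
theorem sum_bins {x : ℝ} (hx : 0 ≤ x) (L : ℕ) :
    (∑ j ∈ range L, if ⌊x⌋ = (j : ℤ) then (1 : ℝ≥0∞) else 0) = if x < (L : ℝ) then 1 else 0 := by
  obtain ⟨m, hm⟩ := Int.eq_ofNat_of_zero_le (Int.floor_nonneg.2 hx)
  simp only [hm, Nat.cast_inj, sum_ite_eq, mem_range]
  have : m < L ↔ x < (L : ℝ) := by
    rw [← Nat.cast_lt (α := ℤ), ← hm, Int.floor_lt, Int.cast_natCast]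
  simp [this]

variable [IsProbabilityMeasure μ] {P : Measure (Traj d)}

/-- A stopped path shows that every bin contains a cut with probability at least `P(Esc)^2`. -/
theorem IsAnnealed.cut_in_bin (hP : IsAnnealed μ P) (hu : UnitSteps h) (L : ℕ) :
    P (Esc h) * P (Esc h)
      ≤ P (Esc h ∩ ⋃ m, {t | IsCut h t m} ∩ {t | ⌊h (site t m)⌋ = (L : ℤ)}) := by
  classical
  have := hP.1
  set T : ℝ := (L : ℝ) with hT
  let Q : Set (List (Step d)) := {π | (∀ k < π.length, 0 ≤ h (disp (π.take k)) ∧
    h (disp (π.take k)) < T) ∧ T ≤ h (disp π)}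
  have hsame : ∀ π ρ : Q, ∀ t, t ∈ cyl π.1 → t ∈ cyl ρ.1 → π.1.length ≤ ρ.1.length := by
    intro π ρ t htπ htρ
    by_contra! hlt
    have h1 := (π.2.1 _ hlt).2
    rw [← site_of_mem_cyl htπ hlt.le, site_of_mem_cyl htρ le_rfl, List.take_length] at h1
    linarith [ρ.2.2]
  have hdis : Pairwise fun π ρ : Q => Disjoint (cyl π.1) (cyl ρ.1) := by
    intro π ρ hne
    refine Set.disjoint_left.2 fun t h1 h2 => ?_
    have hl := le_antisymm (hsame π ρ t h1 h2) (hsame ρ π t h2 h1)
    exact Set.disjoint_left.1 (cyl_disjoint_of_length_eq hl fun h => hne (Subtype.ext h)) h1 h2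
  have hcov : P (Esc h) ≤ ∑' π : Q, P (cyl π.1) := by
    refine (measure_mono (t := ⋃ π : Q, cyl π.1) fun t ht => ?_).trans (measure_iUnion_le _)
    obtain ⟨n, hn⟩ := (ht.2.eventually_ge_atTop T).exists
    have hex : ∃ j, T ≤ h (site t j) := ⟨n, hn⟩
    have htc := mem_cyl_ofFn_self (Nat.find hex) t
    set π0 := List.ofFn fun k : Fin (Nat.find hex) => t k with hπ0
    have hlen : π0.length = Nat.find hex := List.length_ofFn
    have hQ : π0 ∈ Q := by
      refine ⟨fun k hk => ?_, ?_⟩
      · rw [← site_of_mem_cyl htc hk.le]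
        exact ⟨ht.1 k, not_le.1 (Nat.find_min hex (hlen ▸ hk))⟩
      · have := site_of_mem_cyl htc le_rfl
        rw [List.take_length, hlen] at this
        rw [← this]; exact Nat.find_spec hex
    exact Set.mem_iUnion.2 ⟨⟨π0, hQ⟩, htc⟩
  have hlast : ∀ π : Q, ∀ k < π.1.length, h (disp (π.1.take k)) < h (disp π.1) :=
    fun π k hk => (π.2.1 k hk).2.trans_le π.2.2
  have hbin : ∀ π : Q, ⌊h (disp π.1)⌋ = (L : ℤ) := by
    intro π
    have h2 := π.2.2
    rw [Int.floor_eq_iff, Int.cast_natCast]
    refine ⟨h2, ?_⟩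
    rcases List.eq_nil_or_concat π.1 with hnil | ⟨ρ, e, hρ⟩
    · rw [hnil] at h2 ⊢
      simp only [disp_nil, map_zero] at h2 ⊢
      positivity
    · have h1 := (π.2.1 ρ.length (by simp [hρ])).2
      simp only [hρ, List.concat_eq_append, List.take_left, disp_append, disp_cons, disp_nil,
        add_zero, map_add] at h1 ⊢
      linarith [(abs_le.1 (hu e)).2]
  calc P (Esc h) * P (Esc h) ≤ (∑' π : Q, P (cyl π.1)) * P (Esc h) := by gcongr
    _ = ∑' π : Q, P (cyl π.1 ∩ shiftT π.1.length ⁻¹' Esc h) := by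
        rw [← ENNReal.tsum_mul_right]
        refine tsum_congr fun π => ?_
        rw [hP.measure_cyl_inter_eq _ _ (measurableSet_esc h) (esc_subset_avoid (hlast π)), hP.2]
    _ = P (⋃ π : Q, cyl π.1 ∩ shiftT π.1.length ⁻¹' Esc h) :=
        (measure_iUnion (fun π ρ hne => (hdis hne).mono Set.inter_subset_left
          Set.inter_subset_left) fun π => (measurableSet_cyl _).inter
          (measurable_shiftT _ (measurableSet_esc h))).symm
    _ ≤ _ := by
        refine measure_mono (Set.iUnion_subset fun π t ht => ?_)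
        have h0 : 0 ≤ h (disp π.1) := le_trans (Nat.cast_nonneg L) π.2.2
        obtain ⟨he, hc⟩ := mem_esc_of_cut ht.1
          (fun k hk => ⟨(π.2.1 k hk).1, hlast π k hk⟩) ht.2 h0
        refine ⟨he, Set.mem_iUnion.2 ⟨π.1.length, hc, ?_⟩⟩
        show ⌊h (site t π.1.length)⌋ = _
        rw [site_of_mem_cyl ht.1 le_rfl, List.take_length]
        exact hbin π

open Classical in
theorem IsAnnealed.measure_le_ex (hP : IsAnnealed μ P) (hd : P (Esc h) ≠ 0) (n : ℕ)
    {G : Set (Traj d)} (hG : G ⊆ Esc h) (hGm : MeasurableSet G)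
    (F : List (List (Step d)) → ℝ≥0∞)
    (hF : ∀ ws, ws.length = n → (∀ π ∈ ws, IsBlock h π) → ∀ t ∈ G ∩ blockEvent h ws, 1 ≤ F ws) :
    P G ≤ ex μ h n F * P (Esc h) := by
  rw [hP.measure_eq_ex hd n hG hGm, ex_eq_tsum, ← ENNReal.tsum_mul_right]
  refine le_trans (ENNReal.tsum_le_tsum fun ws => ?_)
    (ENNReal.tsum_comp_le_tsum_of_injective Subtype.val_injective _)
  rw [if_pos ws.2.1, mul_assoc, mul_comm (F ws.1), ← mul_assoc, ← hP.measure_blockEvent ws.2.2]
  rcases (G ∩ blockEvent h ws.1).eq_empty_or_nonempty with he | ⟨t, ht⟩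
  · simp [he]
  · exact (measure_mono Set.inter_subset_right).trans
      (le_mul_of_one_le_right' (hF _ ws.2.1 ws.2.2 t ht))

/-- The renewal function grows at least linearly. -/
theorem IsAnnealed.renewal_lower (hP : IsAnnealed μ P) (hd : P (Esc h) ≠ 0) (hu : UnitSteps h)
    {e : Step d} (he : h (vec e) = 1) (hp : bwgt μ h [e] ≠ 0) (L : ℕ) :
    (L : ℝ≥0∞) * P (Esc h)
      ≤ ∑' i, ex μ h i (fun ws => if h (disp ws.flatten) < (L : ℝ) then 1 else 0) := by
  classical
  have := hP.1
  have hb := hP.tsum_bwgt hd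
  set u : ℕ → ℝ≥0∞ := fun i =>
    ex μ h i fun ws => if h (disp ws.flatten) < (L : ℝ) then 1 else 0 with hudef
  have hu_eq : ∀ i, u i = ∑ j ∈ range L,
      ex μ h i fun ws => if ⌊(0 : ℝ) + h (disp ws.flatten)⌋ = (j : ℤ) then 1 else 0 := fun i => by
    rw [← ex_sum]
    exact ex_congr_of fun ws _ hws => by
      simp only [zero_add, sum_bins (flatten_disp_nonneg hws)]
  have hsum : ∑' i, u i ≠ ⊤ := by
    simp only [hu_eq]
    rw [Summable.tsum_finsetSum fun _ _ => ENNReal.summable]
    refine (ENNReal.sum_lt_top.2 fun j _ => ?_).ne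
    exact lt_of_le_of_lt (tsum_ex_bin_le hb he 0 j) (ENNReal.inv_lt_top.2 (pos_iff_ne_zero.2 hp))
  have hbound : ∀ n, (L : ℝ≥0∞) * P (Esc h) ≤ ∑' i, u i + L * u n := by
    intro n
    have hj : ∀ j ∈ range L, P (Esc h) ≤
        ex μ h n (fun ws => (cnt h (j : ℤ) 0 ws : ℝ≥0∞)) + u n := by
      intro j hj
      refine (ENNReal.mul_le_mul_iff_left hd (measure_ne_top P _)).1
        ((hP.cut_in_bin hu j).trans ?_)
      rw [hudef, ← ex_add]
      refine hP.measure_le_ex hd n Set.inter_subset_left
        ((measurableSet_esc h).inter (MeasurableSet.iUnion fun m => (measurableSet_isCut h m).inter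
          (((measurable_of_countable h).comp (measurable_site m)).floor
            (measurableSet_singleton _)))) _ fun ws _ hws t ht => ?_
      obtain ⟨⟨-, ht2⟩, htb⟩ := ht
      obtain ⟨m, hc, hm⟩ := Set.mem_iUnion.1 ht2
      replace hm : ⌊h (site t m)⌋ = (j : ℤ) := hm
      by_cases h0 : cnt h (j : ℤ) 0 ws = 0
      · have hle := disp_le_of_cnt_eq_zero hws htb hc (o := 0) (by simpa using hm) h0
        rw [Int.floor_eq_iff, Int.cast_natCast] at hm
        have hjL : (j : ℝ) + 1 ≤ L := by exact_mod_cast mem_range.1 hj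
        rw [if_pos (by linarith)]
        exact le_add_self
      · refine le_trans ?_ le_self_add
        exact_mod_cast Nat.one_le_iff_ne_zero.2 h0
    calc (L : ℝ≥0∞) * P (Esc h) = ∑ _j ∈ range L, P (Esc h) := by simp
      _ ≤ ∑ j ∈ range L, (ex μ h n (fun ws => (cnt h (j : ℤ) 0 ws : ℝ≥0∞)) + u n) :=
          sum_le_sum hj
      _ = ∑ i ∈ range (n + 1), u i + L * u n := by
          simp only [hu_eq, sum_add_distrib, sum_const, card_range, nsmul_eq_mul]
          rw [sum_comm]
          simp only [sum_ex_bin_eq hb]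
      _ ≤ _ := by gcongr; exact ENNReal.sum_le_tsum _
  have hlim : Tendsto (fun n => ∑' i, u i + (L : ℝ≥0∞) * u n) atTop (𝓝 (∑' i, u i)) := by
    have h1 := ENNReal.Tendsto.const_mul (ENNReal.tendsto_atTop_zero_of_tsum_ne_top hsum)
      (Or.inr (ENNReal.natCast_ne_top L))
    simpa using tendsto_const_nhds.add h1
  exact ge_of_tendsto' hlim hbound

omit [IsProbabilityMeasure μ] in
/-- Truncated Wald inequality. -/
theorem wald_le {L M : ℝ} (hM : 0 ≤ M) (hb : ∑' π, bwgt μ h π = 1) (n : ℕ) (o : ℝ) :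
    (∑ i ∈ range n, ex μ h i (fun ws => if o + h (disp ws.flatten) < L then 1 else 0))
      * (∑' π, bwgt μ h π * ENNReal.ofReal (min (h (disp π)) M))
      ≤ ENNReal.ofReal (L + M - o) := by
  classical
  induction n generalizing o with
  | zero => simp
  | succ n ih =>
    rw [sum_range_succ']
    simp only [ex_succ, ex_zero, List.flatten_nil, disp_nil, map_zero, add_zero,
      List.flatten_cons, disp_append, map_add, ← add_assoc]
    rw [← Summable.tsum_finsetSum fun i _ => ENNReal.summable]
    simp only [← mul_sum]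
    rw [add_mul, ← ENNReal.tsum_mul_right, ← ENNReal.tsum_mul_left, ← ENNReal.tsum_add]
    calc _ ≤ ∑' π, bwgt μ h π * ENNReal.ofReal (L + M - o) := by
          refine ENNReal.tsum_le_tsum fun π => ?_
          by_cases hπ : IsBlock h π
          swap
          · simp [bwgt_eq_zero hπ]
          rw [mul_assoc, mul_left_comm (if o < L then (1 : ℝ≥0∞) else 0), ← mul_add]
          gcongr
          refine (add_le_add (ih _) le_rfl).trans ?_
          have hH := hπ.pos
          split_ifs with ho
          · rw [one_mul]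
            have hm : 0 ≤ min (h (disp π)) M := le_min hH.le hM
            rcases le_total (L + M - (o + h (disp π))) 0 with hneg | hpos
            · rw [ENNReal.ofReal_of_nonpos hneg, zero_add]
              exact ENNReal.ofReal_le_ofReal (by linarith [min_le_right (h (disp π)) M])
            · rw [← ENNReal.ofReal_add hpos hm]
              exact ENNReal.ofReal_le_ofReal (by linarith [min_le_left (h (disp π)) M])
          · rw [zero_mul, add_zero]
            exact ENNReal.ofReal_le_ofReal (by linarith)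
      _ = _ := by rw [ENNReal.tsum_mul_right, hb, one_mul]

/-- The mean height of a block is finite. -/
theorem IsAnnealed.meanHeight_ne_top (hP : IsAnnealed μ P) (hd : P (Esc h) ≠ 0) (hu : UnitSteps h)
    {e : Step d} (he : h (vec e) = 1) (hp : bwgt μ h [e] ≠ 0) :
    ∑' π, bwgt μ h π * ENNReal.ofReal (h (disp π)) ≠ ⊤ := by
  classical
  have := hP.1
  have hb := hP.tsum_bwgt hd
  suffices ∑' π, bwgt μ h π * ENNReal.ofReal (h (disp π)) ≤ (P (Esc h))⁻¹ from
    ne_top_of_le_ne_top (ENNReal.inv_ne_top.2 hd) this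
  rw [ENNReal.tsum_eq_iSup_sum]
  refine iSup_le fun s => ?_
  set M : ℝ := ∑ π ∈ s, |h (disp π)| with hM
  have hM0 : 0 ≤ M := sum_nonneg fun _ _ => abs_nonneg _
  set E := ∑' π, bwgt μ h π * ENNReal.ofReal (min (h (disp π)) M) with hE
  have hsE : ∑ π ∈ s, bwgt μ h π * ENNReal.ofReal (h (disp π)) ≤ E := by
    refine le_trans (le_of_eq (sum_congr rfl fun π hπ => ?_)) (ENNReal.sum_le_tsum s)
    have : |h (disp π)| ≤ M := single_le_sum (f := fun π => |h (disp π)|) (fun _ _ => abs_nonneg _) hπ
    rw [min_eq_left ((le_abs_self _).trans this)]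
  refine hsE.trans ?_
  have hEL : ∀ L : ℕ, P (Esc h) * E ≤ ENNReal.ofReal (1 + M / ((L + 1 : ℕ) : ℝ)) := by
    intro L
    have h1 := mul_le_mul' (hP.renewal_lower hd hu he hp (L + 1)) (le_refl E)
    rw [← ENNReal.tsum_mul_right] at h1
    have h2 : ∀ n, ∑ i ∈ range n, (ex μ h i (fun ws =>
        if h (disp ws.flatten) < ((L + 1 : ℕ) : ℝ) then 1 else 0)) * E
          ≤ ENNReal.ofReal (((L + 1 : ℕ) : ℝ) + M) := fun n => by
      have := wald_le (L := ((L + 1 : ℕ) : ℝ)) hM0 hb n 0
      simpa only [zero_add, sub_zero, ← sum_mul] using this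
    have h3 := h1.trans (ENNReal.summable.tsum_le_of_sum_range_le h2)
    rw [mul_assoc] at h3
    have hL : (0 : ℝ) < ((L + 1 : ℕ) : ℝ) := by positivity
    refine (ENNReal.mul_le_mul_iff_right (a := ((L + 1 : ℕ) : ℝ≥0∞)) (by simp) (by simp)).1
      (h3.trans (le_of_eq ?_))
    rw [← ENNReal.ofReal_natCast, ← ENNReal.ofReal_mul hL.le]
    congr 1
    field_simp
  have hlim : Tendsto (fun L : ℕ => ENNReal.ofReal (1 + M / ((L + 1 : ℕ) : ℝ))) atTop (𝓝 1) := by
    have h0 := (tendsto_const_div_atTop_nhds_zero_nat M).comp (tendsto_add_atTop_nat 1)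
    have h1 := ENNReal.tendsto_ofReal ((tendsto_const_nhds (x := (1 : ℝ))).add h0)
    simpa using h1
  have h1 := ge_of_tendsto' hlim hEL
  rwa [ENNReal.le_inv_iff_mul_le, mul_comm]

omit [IsProbabilityMeasure μ] in
theorem ex_height (hb : ∑' π, bwgt μ h π = 1) (n : ℕ) :
    ex μ h n (fun ws => ENNReal.ofReal (h (disp ws.flatten)))
      = n * ∑' π, bwgt μ h π * ENNReal.ofReal (h (disp π)) := by
  induction n with
  | zero => simp
  | succ n ih =>
    rw [ex_succ, Nat.cast_succ, add_one_mul]
    calc _ = ∑' π, (bwgt μ h π * (n * ∑' π, bwgt μ h π * ENNReal.ofReal (h (disp π)))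
          + bwgt μ h π * ENNReal.ofReal (h (disp π))) := by
          refine tsum_congr fun π => ?_
          by_cases hπ : IsBlock h π
          · rw [← mul_add, ← ih, ← ex_const hb n (ENNReal.ofReal (h (disp π))), ← ex_add]
            congr 1
            refine ex_congr_of fun ws _ hws => ?_
            rw [List.flatten_cons, disp_append, map_add,
              ENNReal.ofReal_add hπ.pos.le (flatten_disp_nonneg hws), add_comm]
          · simp [bwgt_eq_zero hπ]
      _ = _ := by rw [ENNReal.tsum_add, ENNReal.tsum_mul_right, hb, one_mul]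

omit [IsProbabilityMeasure μ] in
theorem ex_prod (g : List (Step d) → ℝ≥0∞) (n : ℕ) :
    ex μ h n (fun ws => (ws.map g).prod) = (∑' π, bwgt μ h π * g π) ^ n := by
  induction n with
  | zero => simp
  | succ n ih =>
    simp only [ex_succ, List.map_cons, List.prod_cons, ex_const_mul, ih, ← mul_assoc,
      ENNReal.tsum_mul_right, pow_succ']

open Classical in
/-- With infinite mean the total number of sites is rarely linear in the number of blocks. -/
theorem tendsto_small_sites (hb : ∑' π, bwgt μ h π = 1) (htop : meanSites μ h = ⊤) (A : ℕ) :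
    Tendsto (fun n : ℕ => ex μ h n (fun ws => if sitesSum ws ≤ n * A then 1 else 0))
      atTop (𝓝 0) := by
  obtain ⟨s, hs⟩ : ∃ s : Finset (List (Step d)),
      ((2 * A : ℕ) : ℝ≥0∞) < ∑ π ∈ s, bwgt μ h π * (deps 0 π).card := by
    have : ((2 * A : ℕ) : ℝ≥0∞) < meanSites μ h := htop ▸ (ENNReal.natCast_lt_top _)
    rw [meanSites, ENNReal.tsum_eq_iSup_sum] at this
    exact lt_iSup_iff.1 this
  obtain ⟨M, hM⟩ : ∃ M : ℕ, M = (∑ π ∈ s, (deps 0 π).card) + A + 2 := ⟨_, rfl⟩
  set f : List (Step d) → ℕ := fun π => min (deps 0 π).card M with hf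
  obtain ⟨r, hr⟩ : ∃ r : ℝ, r = 1 - 1 / (M : ℝ) := ⟨_, rfl⟩
  have hM2 : (2 : ℝ) ≤ M := by exact_mod_cast (show 2 ≤ M by omega)
  have hM0 : (0 : ℝ) < M := by linarith
  have hr0 : 0 < r := by
    have : 1 / (M : ℝ) < 1 := by rw [div_lt_one hM0]; linarith
    linarith
  have hr1 : r ≤ 1 := by
    have : 0 ≤ 1 / (M : ℝ) := by positivity
    linarith
  set ρ : ℝ≥0∞ := ∑' π, bwgt μ h π * ENNReal.ofReal (r ^ f π) with hρ
  set S : ℝ≥0∞ := ∑' π, bwgt μ h π * ENNReal.ofReal ((f π : ℝ) / (2 * M)) with hS
  have hbern : ∀ k : ℕ, k ≤ M → r ^ k + (k : ℝ) / (2 * M) ≤ 1 := by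
    intro k
    induction k with
    | zero => simp
    | succ k ih =>
      intro hk
      have h1 := ih (by omega)
      have h2 : (k : ℝ) + 1 ≤ M := by exact_mod_cast hk
      have h3 : r * r ^ k ≤ r * (1 - (k : ℝ) / (2 * M)) :=
        mul_le_mul_of_nonneg_left (by linarith) hr0.le
      have h4 : r * (1 - (k : ℝ) / (2 * M)) + ((k : ℝ) + 1) / (2 * M)
          = 1 - (M - k) / (2 * M ^ 2) := by
        rw [hr]; field_simp; ring
      have h5 : 0 ≤ ((M : ℝ) - k) / (2 * M ^ 2) := div_nonneg (by linarith) (by positivity)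
      rw [pow_succ']
      push_cast
      linarith
  have hρS : ρ + S ≤ 1 := by
    rw [hρ, hS, ← ENNReal.tsum_add, ← hb]
    refine ENNReal.tsum_le_tsum fun π => ?_
    rw [← mul_add, ← ENNReal.ofReal_add (by positivity) (by positivity)]
    exact mul_le_of_le_one_right' (ENNReal.ofReal_le_one.2 (hbern _ (min_le_right _ _)))
  have hSA : ENNReal.ofReal ((A : ℝ) / M) < S := by
    refine lt_of_lt_of_le ?_ (ENNReal.sum_le_tsum s)
    have e1 : ENNReal.ofReal ((A : ℝ) / M)
        = ((2 * A : ℕ) : ℝ≥0∞) * ENNReal.ofReal (1 / (2 * M)) := by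
      rw [← ENNReal.ofReal_natCast, ← ENNReal.ofReal_mul (by positivity)]
      congr 1
      push_cast
      field_simp
    have e2 : ∀ π ∈ s, bwgt μ h π * ENNReal.ofReal ((f π : ℝ) / (2 * M))
        = bwgt μ h π * (deps 0 π).card * ENNReal.ofReal (1 / (2 * M)) := by
      intro π hπ
      have h1 : (deps 0 π).card ≤ ∑ π ∈ s, (deps 0 π).card :=
        single_le_sum (f := fun π => (deps 0 π).card) (fun _ _ => Nat.zero_le _) hπ
      have h2 : f π = (deps 0 π).card := min_eq_left (by omega)
      rw [h2, mul_assoc, ← ENNReal.ofReal_natCast, ← ENNReal.ofReal_mul (by positivity), mul_one_div]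
    rw [sum_congr rfl e2, ← sum_mul, e1]
    exact ENNReal.mul_lt_mul_left (by simp [hM0]) ENNReal.ofReal_ne_top hs
  have hρlt : ρ < ENNReal.ofReal (r ^ A) := by
    have hρtop : ρ ≠ ⊤ := ne_top_of_le_ne_top ENNReal.one_ne_top (le_self_add.trans hρS)
    have h1 := (ENNReal.add_lt_add_left hρtop hSA).trans_le hρS
    have h2 : ρ < 1 - ENNReal.ofReal ((A : ℝ) / M) := lt_tsub_iff_right.2 h1
    refine h2.trans_le ?_
    rw [← ENNReal.ofReal_one, ← ENNReal.ofReal_sub _ (by positivity)]
    refine ENNReal.ofReal_le_ofReal ?_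
    have h3 := one_add_mul_le_pow (a := -(1 / (M : ℝ))) (by
      have : 1 / (M : ℝ) ≤ 1 := by rw [div_le_one hM0]; linarith
      linarith) A
    have h4 : r ^ A = (1 + -(1 / (M : ℝ))) ^ A := by rw [hr]; ring
    rw [h4]
    refine le_trans (le_of_eq ?_) h3
    ring
  set q := ρ / ENNReal.ofReal (r ^ A) with hq
  have hc0 : ENNReal.ofReal (r ^ A) ≠ 0 := by simp [pow_pos hr0]
  have hq1 : q < 1 := by
    rw [hq, ENNReal.div_lt_iff (Or.inl hc0) (Or.inl ENNReal.ofReal_ne_top), one_mul]
    exact hρlt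
  have hle : ∀ n : ℕ, ex μ h n (fun ws => if sitesSum ws ≤ n * A then 1 else 0) ≤ q ^ n := by
    intro n
    have h1 : ex μ h n (fun ws => if sitesSum ws ≤ n * A then 1 else 0)
        * ENNReal.ofReal (r ^ A) ^ n ≤ ρ ^ n := by
      rw [← ex_mul_const, hρ, ← ex_prod]
      refine ex_mono fun ws => ?_
      split_ifs with hle
      · have e1 : (ws.map fun π => ENNReal.ofReal (r ^ f π)).prod
            = ENNReal.ofReal (r ^ (ws.map f).sum) := by
          induction ws with
          | nil => simp
          | cons a ws ih => simp [pow_add, ENNReal.ofReal_mul (pow_nonneg hr0.le _), ih (by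
              simp only [sitesSum, List.map_cons, List.sum_cons] at hle ⊢; omega)]
        have e2 : (ws.map f).sum ≤ A * n := by
          refine le_trans ?_ (hle.trans_eq (mul_comm _ _))
          exact List.sum_le_sum fun π _ => min_le_left _ _
        rw [e1, one_mul, ← ENNReal.ofReal_pow (by positivity), ← pow_mul]
        exact ENNReal.ofReal_le_ofReal (pow_le_pow_of_le_one hr0.le hr1 e2)
      · simp
    rw [hq, ENNReal.div_eq_inv_mul, mul_pow, ← ENNReal.inv_pow, ← ENNReal.div_eq_inv_mul,
      ENNReal.le_div_iff_mul_le (Or.inl (pow_ne_zero _ hc0))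
        (Or.inl (ENNReal.pow_ne_top ENNReal.ofReal_ne_top))]
    exact h1
  exact tendsto_of_tendsto_of_tendsto_of_le_of_le tendsto_const_nhds
    (ENNReal.tendsto_pow_atTop_nhds_zero_of_lt_one hq1) (fun _ => bot_le) hle

theorem IsAnnealed.meanSites_ne_top {μ : Measure (Row d)} [IsProbabilityMeasure μ]
    {P : Measure (Traj d)} {h : Site d →+ ℝ} (hP : IsAnnealed μ P) (hμ : Elliptic μ)
    (hu : UnitSteps h) {e : Step d} (he : h (vec e) = 1) (hlin : P (LinEsc h) ≠ 0) :
    P (Esc h) ≠ 0 ∧ meanSites μ h ≠ ⊤ := by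
  classical
  have := hP.1
  have hd : P (Esc h) ≠ 0 :=
    hP.esc_pos fun h0 => hlin (measure_mono_null (fun t ht => ht.1) h0)
  refine ⟨hd, fun htop => ?_⟩
  have hb := hP.tsum_bwgt hd
  have hm : ∀ k, Measurable fun t : Traj d => h (site t k) := fun k =>
    (measurable_of_countable h).comp (measurable_site k)
  let G : ℕ → ℕ → Set (Traj d) := fun J N => Esc h ∩ ⋂ n : {n : ℕ // N ≤ n},
    {t | ((((range n.1).image (site t)).card : ℕ) : ℝ) ≤ (J : ℝ) * h (site t n.1)}
  have hcardm : ∀ n : ℕ, Measurable fun t : Traj d =>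
      ((((range n).image (site t)).card : ℕ) : ℝ) := by
    intro n
    have heq : (fun t : Traj d => ((((range n).image (site t)).card : ℕ) : ℝ))
        = (fun v : Fin n → Site d => (((univ.image v).card : ℕ) : ℝ))
          ∘ fun t (i : Fin n) => site t i := by
      funext t
      simp only [Function.comp_apply]
      congr 2
      ext y
      simp only [mem_image, mem_range, mem_univ, true_and]
      exact ⟨fun ⟨k, hk, e⟩ => ⟨⟨k, hk⟩, e⟩, fun ⟨k, e⟩ => ⟨k, k.2, e⟩⟩
    rw [heq]
    exact (measurable_of_countable _).comp (measurable_pi_lambda _ fun i => measurable_site i)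
  have hGm : ∀ J N, MeasurableSet (G J N) := fun J N =>
    (measurableSet_esc h).inter (MeasurableSet.iInter fun n => measurableSet_le
      (hcardm n.1) ((hm n.1).const_mul _))
  obtain ⟨J, N, hJN⟩ : ∃ J N, P (G J N) ≠ 0 := by
    by_contra! hall
    refine hlin (measure_mono_null (t := ⋃ (m : ℕ) (v : Fin m → Step d),
      cyl (List.ofFn v) ∩ shiftT m ⁻¹' ⋃ (J : ℕ) (N : ℕ), G J N) (fun t ht => ?_) ?_)
    · obtain ⟨htt, c, hc, hev⟩ := ht
      obtain ⟨N0, hN0⟩ := eventually_atTop.1 (htt.eventually_ge_atTop (h (site t 0)))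
      obtain ⟨m, -, hmin⟩ := (range (N0 + 1)).exists_min_image (fun k => h (site t k)) (by simp)
      have hglob : ∀ k, h (site t m) ≤ h (site t k) := by
        intro k
        rcases lt_or_ge k (N0 + 1) with hk | hk
        · exact hmin k (mem_range.2 hk)
        · exact (hmin 0 (by simp)).trans (hN0 k (by omega))
      have hk : ∀ k, h (site (shiftT m t) k) = h (site t (m + k)) - h (site t m) := by
        intro k; rw [site_shiftT, map_add]; ring
      obtain ⟨N1, hN1⟩ := eventually_atTop.1 (hev.and (htt.eventually_ge_atTop (2 * |h (site t m)|)))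
      obtain ⟨J, hJ⟩ := exists_nat_ge (2 / c)
      refine Set.mem_iUnion₂.2 ⟨m, fun k => t k, mem_cyl_ofFn_self m t,
        Set.mem_iUnion₂.2 ⟨J, N1, ⟨fun k => ?_, ?_⟩, Set.mem_iInter.2 fun n => ?_⟩⟩
      · rw [hk]; linarith [hglob (m + k)]
      · refine tendsto_atTop.2 fun r => ?_
        obtain ⟨i, hi⟩ := eventually_atTop.1 (htt.eventually_ge_atTop (r + h (site t m)))
        exact eventually_atTop.2 ⟨i, fun k hk' => by rw [hk]; linarith [hi (m + k) (by omega)]⟩
      · obtain ⟨n, hn⟩ := n
        obtain ⟨h1, h2⟩ := hN1 (m + n) (by omega)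
        show (((range n).image (site (shiftT m t))).card : ℝ) ≤ (J : ℝ) * h (site (shiftT m t) n)
        have hcard : ((range n).image (site (shiftT m t))).card
            ≤ ((range (m + n)).image (site t)).card := by
          refine card_le_card_of_injOn (fun y => site t m + y) (fun y hy => ?_)
            fun y _ z _ hyz => by simpa using hyz
          simp only [coe_image, coe_range, Set.mem_image, Set.mem_Iio] at hy ⊢
          obtain ⟨k, hk', rfl⟩ := hy
          exact ⟨m + k, by omega, site_shiftT t m k⟩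
        have hcard' : (((range n).image (site (shiftT m t))).card : ℝ)
            ≤ ((range (m + n)).image (site t)).card := by exact_mod_cast hcard
        rw [div_le_iff₀ hc] at hJ
        rw [hk]
        have h3 := mul_le_mul_of_nonneg_left hcard' hc.le
        nlinarith [abs_nonneg (h (site t m)), le_abs_self (h (site t m)), Nat.cast_nonneg (α := ℝ) J]
    · refine measure_iUnion_null fun m => measure_iUnion_null fun v => le_antisymm ?_ bot_le
      have := hP.measure_cyl_inter_le (List.ofFn v) _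
        (MeasurableSet.iUnion fun J => MeasurableSet.iUnion fun N => hGm J N)
      rw [List.length_ofFn] at this
      exact this.trans_eq (measure_iUnion_null fun J => measure_iUnion_null fun N => hall J N)
  have hmh := hP.meanHeight_ne_top hd hu he (by
    rw [bwgt, if_pos (isBlock_singleton (by rw [he]; norm_num))]; exact pw_pos μ hμ _ _)
  set δ : ℝ≥0∞ := P (G J N) / P (Esc h) with hδ
  have hδ0 : δ ≠ 0 := by simp [hδ, hJN, measure_ne_top P]
  have hδtop : δ ≠ ⊤ := ENNReal.div_ne_top (measure_ne_top P _) hd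
  set EH := ∑' π, bwgt μ h π * ENNReal.ofReal (h (disp π)) with hEH
  obtain ⟨B, hB⟩ : ∃ B : ℕ, EH / (δ / 2) < B := ENNReal.exists_nat_gt
    (ENNReal.div_ne_top hmh (by simp [hδ0]))
  have hB0 : (B : ℝ≥0∞) ≠ 0 := (pos_of_gt hB).ne'
  have key : ∀ n, N ≤ n → 0 < n → δ ≤
      ex μ h n (fun ws => if sitesSum ws ≤ n * (J * B) then 1 else 0) + δ / 2 := by
    intro n hn hn0
    rw [hδ, ENNReal.div_le_iff hd (measure_ne_top P _)]
    refine (hP.measure_le_ex hd n (G := G J N) Set.inter_subset_left (hGm J N)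
      (fun ws => (if sitesSum ws ≤ n * (J * B) then (1 : ℝ≥0∞) else 0)
        + ((n : ℝ≥0∞) * B)⁻¹ * ENNReal.ofReal (h (disp ws.flatten))) fun ws hl hws t ht => ?_).trans ?_
    · obtain ⟨⟨-, hti⟩, htb⟩ := ht
      have h1 := (Set.mem_iInter.1 hti ⟨ws.flatten.length,
        hn.trans (hl ▸ length_le_flatten_of_blocks hws)⟩)
      replace h1 : (((range ws.flatten.length).image (site t)).card : ℝ)
          ≤ (J : ℝ) * h (site t ws.flatten.length) := h1
      rw [image_site_eq_deps htb.1, card_deps_flatten hws, site_of_mem_cyl htb.1 le_rfl,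
        List.take_length] at h1
      by_cases hle : sitesSum ws ≤ n * (J * B)
      · rw [if_pos hle]; exact le_self_add
      · rw [if_neg hle, zero_add]
        have h2 : (n : ℝ) * (J * B) ≤ sitesSum ws := by exact_mod_cast (not_le.1 hle).le
        have h2' : (0 : ℕ) < sitesSum ws := by omega
        have hJ0 : (0 : ℝ) < J := by
          rcases Nat.eq_zero_or_pos J with rfl | hpos
          · have : (sitesSum ws : ℝ) ≤ 0 := by simpa using h1
            have : sitesSum ws ≤ 0 := by exact_mod_cast this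
            omega
          · exact_mod_cast hpos
        have h3 : (n : ℝ) * B ≤ h (disp ws.flatten) :=
          le_of_mul_le_mul_left (by linarith) hJ0
        rw [← ENNReal.div_eq_inv_mul, ENNReal.le_div_iff_mul_le
          (Or.inl (mul_ne_zero (by simp [hn0.ne']) hB0))
          (Or.inl (ENNReal.mul_ne_top (ENNReal.natCast_ne_top n) (ENNReal.natCast_ne_top B))),
          one_mul, ← Nat.cast_mul, ← ENNReal.ofReal_natCast]
        exact ENNReal.ofReal_le_ofReal (by exact_mod_cast h3)
    · gcongr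
      rw [ex_add, ex_const_mul, ex_height hb, ← hEH]
      gcongr
      have hn' : (n : ℝ≥0∞) ≠ 0 := by simp [hn0.ne']
      rw [ENNReal.mul_inv (Or.inl hn') (Or.inl (ENNReal.natCast_ne_top n)),
        show ((n : ℝ≥0∞)⁻¹ * (B : ℝ≥0∞)⁻¹) * (n * EH) = ((n : ℝ≥0∞)⁻¹ * n) * ((B : ℝ≥0∞)⁻¹ * EH) by
          ring, ENNReal.inv_mul_cancel hn' (ENNReal.natCast_ne_top n), one_mul,
        ← ENNReal.div_eq_inv_mul]
      rw [← hδ]
      have h4 := (ENNReal.div_lt_iff (Or.inl (by simp [hδ0]))
        (Or.inl (ENNReal.div_ne_top hδtop (by norm_num)))).1 hB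
      exact (ENNReal.div_le_iff hB0 (ENNReal.natCast_ne_top B)).2 (by rw [mul_comm]; exact h4.le)
  have hlim := (tendsto_small_sites hb htop (J * B)).add (tendsto_const_nhds (x := δ / 2))
  rw [zero_add] at hlim
  have h5 : δ ≤ δ / 2 := ge_of_tendsto hlim
    ((eventually_ge_atTop (max N 1)).mono fun n hn => key n (by omega) (by omega))
  exact absurd h5 (not_le.2 (ENNReal.half_lt_self hδ0 hδtop))

end Vale.Agent.P147
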