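import Mathlib
import Vale.Agent.P147.Setup
import Vale.Agent.P147.Moments

/-!
# P147: the recursion for the avoidance probabilities

The descending escape is cut at its first block end strictly below the top window.  Either the
middle blocks are short, or the overshoot is large, or the future is a fresh descending escape
which has to hit the lower window.
-/

namespace Vale.Agent.P147

open MeasureTheory Finset Filter
open scoped ENNReal Topology

variable {d : ℕ} {μ : Measure (Row d)} [IsProbabilityMeasure μ] {P : Measure (Traj d)}
  {g : Site d →+ ℝ}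

theorem ex_comm {h h' : Site d →+ ℝ} (m n : ℕ)
    (F : List (List (Step d)) → List (List (Step d)) → ℝ≥0∞) :
    ex μ h m (fun u => ex μ h' n fun v => F u v) = ex μ h' n fun v => ex μ h m fun u => F u v := by
  induction m generalizing F with
  | zero => simp
  | succ m ih => simp only [ex_succ, ih, ex_tsum, ex_const_mul]

theorem blockEvent_append_subset {a b : List (List (Step d))} (hb : ∀ π ∈ b, IsBlock g π) :
    blockEvent g (a ++ b) ⊆ blockEvent g a := by
  induction a with
  | nil =>
    intro t ht
    refine ⟨by simp, ?_⟩
    have : shiftT 0 t = t := by funext k; simp [shiftT]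
    simpa [this] using blockEvent_subset hb ht
  | cons π a ih =>
    intro t ht
    rw [List.cons_append, mem_blockEvent_cons] at ht
    exact mem_blockEvent_cons.2 ⟨ht.1, ih ht.2⟩

theorem hits_translate (x : Site d) (ws : List (Step d)) (a y : Site d) :
    Hits (x + a) (deps (y + a) ws) = Hits x (deps y ws) := by
  rw [deps_shift, hits_shift]

/-! ## Cutting at the first block end above a level -/

/-- Lists of blocks whose first block end above `b` is the last one. -/
def cross (g : Site d →+ ℝ) (b : ℝ) : Set (List (List (Step d))) :=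
  {ws | (∀ π ∈ ws, IsBlock g π) ∧ b < g (disp ws.flatten) ∧
    ∀ i < ws.length, g (disp (ws.take i).flatten) ≤ b}

theorem exists_cross {b : ℝ} {ws : List (List (Step d))} (hws : ∀ π ∈ ws, IsBlock g π)
    (hb : b < g (disp ws.flatten)) : ∃ i ≤ ws.length, ws.take i ∈ cross g b := by
  classical
  have hex : ∃ i, i ≤ ws.length ∧ b < g (disp (ws.take i).flatten) :=
    ⟨ws.length, le_rfl, by rwa [List.take_length]⟩
  obtain ⟨h1, h2⟩ := Nat.find_spec hex
  refine ⟨Nat.find hex, h1, fun π hπ => hws π (List.mem_of_mem_take hπ), h2, fun i hi => ?_⟩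
  rw [List.length_take, lt_min_iff] at hi
  rw [List.take_take, min_eq_left hi.1.le]
  by_contra! hlt
  exact Nat.find_min hex hi.1 ⟨hi.2.le, hlt⟩

theorem cross_disjoint (b : ℝ) :
    Pairwise fun p q : cross g b => Disjoint (blockEvent g p.1) (blockEvent g q.1) := by
  have key : ∀ p q : cross g b, ∀ t, t ∈ blockEvent g p.1 → t ∈ blockEvent g q.1 →
      p.1.length ≤ q.1.length → p = q := by
    intro p q t hp hq hl
    have hsplit : t ∈ blockEvent g (q.1.take p.1.length) := by
      refine blockEvent_append_subset (b := q.1.drop p.1.length)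
        (fun π hπ => q.2.1 π (List.mem_of_mem_drop hπ)) ?_
      rwa [List.take_append_drop]
    have heq : p.1 = q.1.take p.1.length :=
      blockEvent_unique (by simp [hl]) p.2.1 (fun π hπ => q.2.1 π (List.mem_of_mem_take hπ))
        hp hsplit
    rcases hl.lt_or_eq with hlt | hle
    · have h1 := q.2.2.2 _ hlt
      rw [← heq] at h1
      exact absurd p.2.2.1 (not_lt.2 h1)
    · exact Subtype.ext (by rw [heq, hle, List.take_length])
  intro p q hne
  refine Set.disjoint_left.2 fun t hp hq => hne ?_
  rcases le_total p.1.length q.1.length with h | h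
  · exact key p q t hp hq h
  · exact (key q p t hq hp h).symm

/-- An event inside the escape is covered by the first block ends above `b`. -/
theorem IsAnnealed.measure_le_cross (hP : IsAnnealed μ P) (hd : P (Esc g) ≠ 0) {e : Step d}
    (hp : bwgt μ g [e] ≠ 0) (he : g (vec e) = 1) (b : ℝ) {G : Set (Traj d)} (hG : G ⊆ Esc g) :
    P G ≤ ∑' p : cross g b, P (G ∩ blockEvent g p.1) := by
  classical
  haveI := hP.1
  haveI : Countable (cross g b) := inferInstance
  set N := Esc g \ ⋃ p : cross g b, blockEvent g p.1 with hN
  have hNm : MeasurableSet N :=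
    (measurableSet_esc g).diff (MeasurableSet.iUnion fun p => measurableSet_blockEvent _)
  let f : ℕ → ℝ≥0∞ := fun n => ex μ g n fun ws => if g (disp ws.flatten) ≤ b then 1 else 0
  have hbound : ∀ n, P N ≤ f n * P (Esc g) := by
    intro n
    rw [hP.measure_eq_ex hd n Set.sdiff_subset hNm]
    simp only [f, ex_eq_tsum, ← ENNReal.tsum_mul_right]
    refine le_trans (ENNReal.tsum_le_tsum (g := fun ws : {ws : List (List (Step d)) |
      ws.length = n ∧ ∀ π ∈ ws, IsBlock g π} => (if ws.1.length = n then
        bprod μ g ws.1 * if g (disp ws.1.flatten) ≤ b then 1 else 0 else 0) * P (Esc g))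
      fun ws => ?_) (ENNReal.tsum_comp_le_tsum_of_injective Subtype.val_injective _)
    simp only [ws.2.1, if_true]
    by_cases hb : g (disp ws.1.flatten) ≤ b
    · simp only [hb, if_true, mul_one]
      exact (measure_mono Set.inter_subset_right).trans (hP.measure_blockEvent ws.2.2).le
    · have : N ∩ blockEvent g ws.1 = ∅ := by
        refine Set.eq_empty_iff_forall_notMem.2 fun t ht => ?_
        obtain ⟨i, -, hi⟩ := exists_cross ws.2.2 (not_le.1 hb)
        refine ht.1.2 (Set.mem_iUnion.2 ⟨⟨_, hi⟩, ?_⟩)
        refine blockEvent_append_subset (b := ws.1.drop i)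
          (fun π hπ => ws.2.2 π (List.mem_of_mem_drop hπ)) ?_
        rw [List.take_append_drop]
        exact ht.2
      rw [this]
      simp
  have hsum : ∑' n, f n ≠ ⊤ := by
    refine ne_top_of_le_ne_top (b := ∑ _s ∈ Finset.Icc (0 : ℤ) ⌊b⌋, (bwgt μ g [e])⁻¹)
      (ENNReal.sum_ne_top.2 fun s _ => ENNReal.inv_ne_top.2 hp) ?_
    calc ∑' n, f n ≤ ∑' n, ∑ s ∈ Finset.Icc (0 : ℤ) ⌊b⌋, ex μ g n
          (fun ws => if ⌊0 + g (disp ws.flatten)⌋ = s then 1 else 0) := by
          refine ENNReal.tsum_le_tsum fun n => ?_
          rw [← ex_sum]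
          refine ex_mono_of fun ws _ hws => ?_
          split_ifs with hb
          · rw [sum_eq_single_of_mem ⌊g (disp ws.flatten)⌋
              (mem_Icc.2 ⟨Int.floor_nonneg.2 (flatten_disp_nonneg hws), Int.floor_le_floor hb⟩)
              fun s _ hs => by simp [Ne.symm hs]]
            simp
          · exact bot_le
      _ = ∑ s ∈ Finset.Icc (0 : ℤ) ⌊b⌋, ∑' n, ex μ g n
          (fun ws => if ⌊0 + g (disp ws.flatten)⌋ = s then 1 else 0) :=
          Summable.tsum_finsetSum fun s _ => ENNReal.summable
      _ ≤ _ := sum_le_sum fun s _ => tsum_ex_bin_le (hP.tsum_bwgt hd) he 0 s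
  have hN0 : P N = 0 := by
    have ht := (ENNReal.tendsto_atTop_zero_of_tsum_ne_top hsum)
    have ht' : Tendsto (fun n => f n * P (Esc g)) atTop (𝓝 0) := by
      simpa using ENNReal.Tendsto.mul_const ht (Or.inr (measure_ne_top P (Esc g)))
    exact nonpos_iff_eq_zero.1 (ge_of_tendsto' ht' hbound)
  calc P G ≤ P ((⋃ p : cross g b, G ∩ blockEvent g p.1) ∪ N) := by
        refine measure_mono fun t ht => ?_
        by_cases hm : t ∈ ⋃ p : cross g b, blockEvent g p.1
        · obtain ⟨p, hp'⟩ := Set.mem_iUnion.1 hm
          exact .inl (Set.mem_iUnion.2 ⟨p, ht, hp'⟩)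
        · exact .inr ⟨hG ht, hm⟩
    _ ≤ P (⋃ p : cross g b, G ∩ blockEvent g p.1) + P N := measure_union_le _ _
    _ ≤ _ := by rw [hN0, add_zero]; exact measure_iUnion_le _

/-! ## The setting -/

variable (S : Setup d)

/-- The reversed step of height one. -/
def Setup.e₁ : Step d := (S.e₀.1, !S.e₀.2)

theorem Setup.he₁ : (-S.h) (vec S.e₁) = 1 := by
  have : vec S.e₁ = -vec S.e₀ := by
    unfold Setup.e₁
    generalize S.e₀ = e
    obtain ⟨i, b⟩ := e
    cases b <;> simp [vec, ← Pi.single_neg]
  simp [this, S.he₀]

theorem Setup.bwgt_e₁_ne_zero : bwgt S.μ (-S.h) [S.e₁] ≠ 0 := by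
  simp only [bwgt, if_pos (isBlock_singleton (S.he₁.symm ▸ zero_lt_one))]
  exact pw_pos S.μ S.ell 0 _

open Classical in
/-- Weighted number of descending block ends above the bottom of `T` reached from `D` while
avoiding `T`. -/
noncomputable def Setup.reach (D : Site d) (T : List (List (Step d))) : ℝ≥0∞ :=
  ∑' us, if (-S.h) (disp us.flatten) ≤ S.h D + S.h (disp T.flatten) ∧
      Disjoint (deps D us.flatten) (topSites T) then bprod S.μ (-S.h) us else 0

open Classical in
/-- Weight of the first descending block ends below the bottom of `T` reached avoiding `T`. -/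
noncomputable def Setup.exitW (D : Site d) (T : List (List (Step d))) : ℝ≥0∞ :=
  ∑' p : cross (-S.h) (S.h D + S.h (disp T.flatten)),
    if Disjoint (deps D p.1.flatten) (topSites T) then bprod S.μ (-S.h) p.1 else 0

theorem topSites_height {T : List (List (Step d))} (hT : ∀ π ∈ T, IsBlock S.h π) {y : Site d}
    (hy : y ∈ topSites T) : -S.h (disp T.flatten) ≤ S.h y := by
  obtain ⟨k, hk, rfl⟩ := mem_deps.1 hy
  rw [map_add, map_neg]
  linarith [(flatten_range hT hk).1]

/-- After a crossing of the bottom of `T` the top window can no longer be hit. -/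
theorem Setup.cross_avoid {D : Site d} {T : List (List (Step d))} (hT : ∀ π ∈ T, IsBlock S.h π)
    {p : List (List (Step d))} (hp : p ∈ cross (-S.h) (S.h D + S.h (disp T.flatten)))
    (hd : Disjoint (deps D p.flatten) (topSites T)) {t : Traj d}
    (ht : t ∈ blockEvent (-S.h) p) : t ∈ Esc (-S.h) \ Hits D (topSites T) := by
  refine ⟨blockEvent_subset hp.1 ht, fun ⟨k, hk⟩ => ?_⟩
  rcases lt_or_ge k p.flatten.length with hkl | hkl
  · refine Finset.disjoint_left.1 hd (mem_deps.2 ⟨k, hkl, ?_⟩) hk
    rw [site_of_mem_cyl ht.1 hkl.le]
  · have h1 := topSites_height S hT hk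
    have h2 := ht.2.1 (k - p.flatten.length)
    rw [← Nat.add_sub_cancel' hkl, site_shiftT, site_of_mem_cyl ht.1 le_rfl,
      List.take_length, map_add, map_add] at h1
    have h3 := hp.2.1
    simp only [AddMonoidHom.neg_apply] at h2 h3
    linarith

theorem Setup.exitW_mul_le (D : Site d) {T : List (List (Step d))}
    (hT : ∀ π ∈ T, IsBlock S.h π) :
    S.exitW D T * S.P (Esc (-S.h)) ≤ S.P (Esc (-S.h) \ Hits D (topSites T)) := by
  classical
  haveI := S.ann.1
  rw [Setup.exitW, ← ENNReal.tsum_mul_right]
  let E : cross (-S.h) (S.h D + S.h (disp T.flatten)) → Set (Traj d) := fun p =>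
    if Disjoint (deps D p.1.flatten) (topSites T) then blockEvent (-S.h) p.1 else ∅
  calc _ = ∑' p, S.P (E p) := by
        refine tsum_congr fun p => ?_
        by_cases hdj : Disjoint (deps D p.1.flatten) (topSites T)
        · simp [E, hdj, S.ann.measure_blockEvent p.2.1]
        · simp [E, hdj]
    _ ≤ S.P (⋃ p, E p) := by
        refine tsum_meas_le_meas_iUnion_of_disjoint₀ S.P (fun p => ?_) fun p q hne => ?_
        · simp only [E]
          split_ifs
          exacts [(measurableSet_blockEvent _).nullMeasurableSet, nullMeasurableSet_empty]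
        · refine ((cross_disjoint (g := -S.h) _ hne).mono ?_ ?_).aedisjoint <;>
            (simp only [E]; split_ifs; exacts [subset_rfl, Set.empty_subset _])
    _ ≤ _ := by
        refine measure_mono (Set.iUnion_subset fun p t ht => ?_)
        simp only [E] at ht
        split_ifs at ht with hdj
        · exact S.cross_avoid hT p.2 hdj ht
        · exact absurd ht (Set.notMem_empty t)

theorem Setup.reach_cons_le (D : Site d) {π : List (Step d)} (hπ : IsBlock S.h π)
    (T : List (List (Step d))) :
    S.reach D (π :: T) ≤ S.reach D T + S.exitW D T *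
      ((ENNReal.ofReal (S.h (disp π)) + 1) * (bwgt S.μ (-S.h) [S.e₁])⁻¹) := by
  classical
  set g := -S.h with hg
  set b := S.h D + S.h (disp T.flatten) with hb
  have hbb : S.h D + S.h (disp (π :: T).flatten) = b + S.h (disp π) := by
    simp [hb]; ring
  let F : List (List (Step d)) × List (List (Step d)) → ℝ≥0∞ := fun x =>
    (if x.1 ∈ cross g b ∧ Disjoint (deps D x.1.flatten) (topSites T) then bprod S.μ g x.1 else 0) *
    (if g (disp x.2.flatten) ≤ S.h (disp π) then bprod S.μ g x.2 else 0)
  let split : List (List (Step d)) → List (List (Step d)) × List (List (Step d)) := fun us =>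
    if hh : ∃ i, us.take i ∈ cross g b then (us.take hh.choose, us.drop hh.choose) else (us, [])
  have hinj : Function.Injective split := by
    intro u v huv
    have key : ∀ w, (split w).1 ++ (split w).2 = w := by
      intro w; simp only [split]; split_ifs <;> simp
    rw [← key u, huv, key v]
  calc S.reach D (π :: T)
      ≤ ∑' us, ((if g (disp us.flatten) ≤ b ∧ Disjoint (deps D us.flatten) (topSites T)
          then bprod S.μ g us else 0) + F (split us)) := by
        refine ENNReal.tsum_le_tsum fun us => ?_
        split_ifs with h1 h2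
        · exact le_add_of_nonneg_right bot_le
        · rw [← hg]
          by_cases hus : ∀ q ∈ us, IsBlock g q
          swap
          · simp [bprod_eq_zero hus]
          have hdT : Disjoint (deps D us.flatten) (topSites T) := by
            refine Finset.disjoint_of_subset_right ?_ h1.2
            intro y hy
            simp only [topSites, List.flatten_cons, deps_append, mem_union] at hy ⊢
            right
            rwa [disp_append, show -(disp π + disp T.flatten) + disp π = -disp T.flatten by abel]
          have hlt : b < g (disp us.flatten) := not_le.1 fun hle => h2 ⟨hle, hdT⟩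
          obtain ⟨i, -, hi⟩ := exists_cross hus hlt
          have hh : ∃ i, us.take i ∈ cross g b := ⟨i, hi⟩
          rw [zero_add]
          simp only [split, dif_pos hh, F]
          set j := hh.choose with hj
          have hc := hh.choose_spec
          have hfl : us.flatten = (us.take j).flatten ++ (us.drop j).flatten := by
            rw [← List.flatten_append, List.take_append_drop]
          have hd1 : Disjoint (deps D (us.take j).flatten) (topSites T) := by
            refine Finset.disjoint_of_subset_left ?_ hdT
            rw [hfl, deps_append]; exact subset_union_left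
          have hd2 : g (disp (us.drop j).flatten) ≤ S.h (disp π) := by
            have h3 := h1.1
            rw [hbb, hfl, disp_append, map_add] at h3
            linarith [hc.2.1]
          rw [if_pos ⟨hc, hd1⟩, if_pos hd2]
          conv_lhs => rw [← List.take_append_drop j us]
          simp [bprod]
        all_goals exact bot_le
    _ ≤ S.reach D T + ∑' x, F x := by
        rw [ENNReal.tsum_add]
        exact add_le_add le_rfl (ENNReal.tsum_comp_le_tsum_of_injective hinj F)
    _ ≤ _ := by
        refine add_le_add le_rfl ?_
        rw [ENNReal.tsum_prod']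
        simp only [F, ENNReal.tsum_mul_left]
        rw [ENNReal.tsum_mul_right]
        refine mul_le_mul' (le_of_eq ?_) ?_
        · rw [Setup.exitW, tsum_subtype (cross g b)
            (fun p => if Disjoint (deps D p.flatten) (topSites T) then bprod S.μ g p else 0)]
          exact tsum_congr fun p => by
            by_cases hm : p ∈ cross g b <;> simp [hm]
        · set M := ⌊S.h (disp π)⌋ with hM
          calc ∑' us, (if g (disp us.flatten) ≤ S.h (disp π) then bprod S.μ g us else 0)
              ≤ ∑' us, ∑ s ∈ Finset.Icc (0 : ℤ) M, ∑' n, (if us.length = n then bprod S.μ g us *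
                  (if ⌊0 + g (disp us.flatten)⌋ = s then 1 else 0) else 0) := by
                refine ENNReal.tsum_le_tsum fun us => ?_
                split_ifs with hle
                · by_cases hus : ∀ q ∈ us, IsBlock g q
                  swap
                  · simp [bprod_eq_zero hus]
                  refine le_trans ?_ (single_le_sum (fun s _ => bot_le)
                    (mem_Icc.2 ⟨Int.floor_nonneg.2 (flatten_disp_nonneg hus),
                      Int.floor_le_floor hle⟩))
                  rw [tsum_eq_single us.length fun n hn => if_neg (Ne.symm hn)]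
                  simp
                · exact bot_le
            _ = ∑ s ∈ Finset.Icc (0 : ℤ) M, ∑' n, ex S.μ g n
                  (fun us => if ⌊0 + g (disp us.flatten)⌋ = s then 1 else 0) := by
                rw [Summable.tsum_finsetSum fun s _ => ENNReal.summable]
                refine sum_congr rfl fun s _ => ?_
                rw [ENNReal.tsum_comm]
                exact tsum_congr fun n => (ex_eq_tsum n _).symm
            _ ≤ ∑ _s ∈ Finset.Icc (0 : ℤ) M, (bwgt S.μ g [S.e₁])⁻¹ :=
                sum_le_sum fun s _ => tsum_ex_bin_le (S.ann.tsum_bwgt S.escM) S.he₁ 0 s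
            _ ≤ _ := by
                rw [sum_const, nsmul_eq_mul, Int.card_Icc]
                gcongr
                have h0 : (0 : ℝ) ≤ S.h (disp π) := hπ.pos.le
                obtain ⟨k, hk⟩ := Int.eq_ofNat_of_zero_le (Int.floor_nonneg.2 h0)
                have h1 := Int.floor_le (S.h (disp π))
                rw [hk] at h1
                rw [hM, hk, show ((k : ℤ) + 1 - 0).toNat = k + 1 by omega, Nat.cast_succ,
                  ← ENNReal.ofReal_natCast]
                push_cast at h1
                gcongr

/-- The expected height of one ascending block. -/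
noncomputable def Setup.meanH (S : Setup d) : ℝ≥0∞ :=
  ∑' π, bwgt S.μ S.h π * ENNReal.ofReal (S.h (disp π))

theorem Setup.meanH_ne_top (S : Setup d) : S.meanH ≠ ⊤ :=
  S.ann.meanHeight_ne_top S.escP S.unit S.he₀ (by
    simp only [bwgt, if_pos (isBlock_singleton (S.he₀.symm ▸ zero_lt_one))]
    exact pw_pos S.μ S.ell 0 _)

theorem Setup.ex_reach_le (D : Site d) (hD : S.h D < 0) (i : ℕ) :
    S.P (Esc (-S.h)) * ex S.μ S.h i (S.reach D)
      ≤ (S.meanH + 1) * (bwgt S.μ (-S.h) [S.e₁])⁻¹ *
        ∑ j ∈ range i, S.avoid D j := by
  classical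
  induction i with
  | zero =>
    have : S.reach D [] = 0 := by
      refine ENNReal.tsum_eq_zero.2 fun us => ?_
      split_ifs with h
      · refine bprod_eq_zero fun hus => ?_
        have := flatten_disp_nonneg hus
        have h1 := h.1
        simp only [List.flatten_nil, disp_nil, map_zero, add_zero] at h1
        linarith
      · rfl
    simp [this]
  | succ i ih =>
    set p := (bwgt S.μ (-S.h) [S.e₁])⁻¹
    have hb := S.ann.tsum_bwgt S.escP
    calc S.P (Esc (-S.h)) * ex S.μ S.h (i + 1) (S.reach D)
        = ∑' π, bwgt S.μ S.h π *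
            ex S.μ S.h i (fun T => S.P (Esc (-S.h)) * S.reach D (π :: T)) := by
          rw [← ex_const_mul, ex_succ]
      _ ≤ ∑' π, bwgt S.μ S.h π * (S.P (Esc (-S.h)) * ex S.μ S.h i (S.reach D)
            + (ENNReal.ofReal (S.h (disp π)) + 1) * p * S.avoid D i) := by
          refine ENNReal.tsum_le_tsum fun π => ?_
          by_cases hπ : IsBlock S.h π
          swap
          · simp [bwgt_eq_zero hπ]
          gcongr
          rw [Setup.avoid, ← ex_const_mul i ((ENNReal.ofReal (S.h (disp π)) + 1) * p),
            ← ex_const_mul i (S.P (Esc (-S.h))), ← ex_add]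
          refine ex_mono_of fun T _ hT => ?_
          calc S.P (Esc (-S.h)) * S.reach D (π :: T)
              ≤ S.P (Esc (-S.h)) * (S.reach D T + S.exitW D T *
                ((ENNReal.ofReal (S.h (disp π)) + 1) * p)) :=
                mul_le_mul' le_rfl (S.reach_cons_le D hπ T)
            _ = S.P (Esc (-S.h)) * S.reach D T + ((ENNReal.ofReal (S.h (disp π)) + 1) * p) *
                (S.exitW D T * S.P (Esc (-S.h))) := by ring
            _ ≤ _ := add_le_add le_rfl (mul_le_mul' le_rfl (S.exitW_mul_le D hT))
      _ = S.P (Esc (-S.h)) * ex S.μ S.h i (S.reach D)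
            + (S.meanH + 1) * p * S.avoid D i := by
          have e : ∀ π, bwgt S.μ S.h π * ((ENNReal.ofReal (S.h (disp π)) + 1) * p * S.avoid D i)
              = (bwgt S.μ S.h π * ENNReal.ofReal (S.h (disp π)) + bwgt S.μ S.h π) * (p * S.avoid D i) :=
            fun π => by ring
          simp only [mul_add, ENNReal.tsum_add, ENNReal.tsum_mul_right, hb, one_mul, e,
            ENNReal.tsum_mul_left, Setup.meanH]
          ring
      _ ≤ _ := by
          rw [sum_range_succ, mul_add ((S.meanH + 1) * p)]
          exact add_le_add ih le_rfl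

/-- The long last block. -/
theorem Setup.overshoot_le (D : Site d) (T : List (List (Step d))) (a : ℝ) :
    (∑' p : cross (-S.h) (S.h D + S.h (disp T.flatten)),
      @ite _ (Disjoint (deps D p.1.flatten) (topSites T) ∧
        S.h D + S.h (disp T.flatten) + a < (-S.h) (disp p.1.flatten) ∧ p.1 ≠ []) (Classical.dec _)
        (bprod S.μ (-S.h) p.1) 0) ≤ S.reach D T * S.tailM a := by
  classical
  set g := -S.h
  set b := S.h D + S.h (disp T.flatten) with hb
  let F : List (List (Step d)) × List (Step d) → ℝ≥0∞ := fun x =>
    (if g (disp x.1.flatten) ≤ b ∧ Disjoint (deps D x.1.flatten) (topSites T)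
      then bprod S.μ g x.1 else 0) * (if a < g (disp x.2) then bwgt S.μ g x.2 else 0)
  let split : cross g b → List (List (Step d)) × List (Step d) := fun p =>
    (p.1.dropLast, p.1.getLastD [])
  let A : Set (cross g b) := {p | b + a < g (disp p.1.flatten) ∧ p.1 ≠ []}
  have hinj : Function.Injective fun p : A => split p.1 := by
    intro p q hpq
    simp only [split, Prod.mk.injEq] at hpq
    refine Subtype.ext (Subtype.ext ?_)
    have h1 := p.2.2
    have h2 := q.2.2
    rw [← List.dropLast_append_getLast h1, ← List.dropLast_append_getLast h2, hpq.1]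
    congr 2
    simpa [List.getLastD_eq_getLast?, List.getLast?_eq_some_getLast, h1, h2] using hpq.2
  calc _ ≤ ∑' p : cross g b, A.indicator (fun p => F (split p)) p := by
        refine ENNReal.tsum_le_tsum fun p => ?_
        split_ifs with h
        · rw [Set.indicator_of_mem (show p ∈ A from h.2)]
          have h1 := h.2.2
          have hsp : p.1 = p.1.dropLast ++ [p.1.getLastD []] := by
            conv_lhs => rw [← List.dropLast_append_getLast h1]
            simp [List.getLastD_eq_getLast?, List.getLast?_eq_some_getLast, h1]
          have hlow := p.2.2.2 (p.1.length - 1)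
            (by have := List.length_pos_iff.2 h1; omega)
          rw [← List.dropLast_eq_take] at hlow
          have hdj : Disjoint (deps D p.1.dropLast.flatten) (topSites T) := by
            refine Finset.disjoint_of_subset_left ?_ h.1
            conv_rhs => rw [hsp, List.flatten_append, deps_append]
            exact subset_union_left
          have hlast : a < g (disp (p.1.getLastD [])) := by
            have h3 := h.2.1
            rw [hsp, List.flatten_append, disp_append, map_add] at h3
            simp only [List.flatten_cons, List.flatten_nil, List.append_nil] at h3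
            linarith
          simp only [F, split, if_pos (And.intro hlow hdj), if_pos hlast]
          conv_lhs => rw [hsp]
          simp [bprod]
        · exact bot_le
    _ = ∑' p : A, F (split p.1) := (tsum_subtype A _).symm
    _ ≤ ∑' x, F x := ENNReal.tsum_comp_le_tsum_of_injective hinj F
    _ = _ := by
        rw [ENNReal.tsum_prod']
        simp only [F, ENNReal.tsum_mul_left, ENNReal.tsum_mul_right]
        rfl

/-- The recursion, in a form for a single scale.  The window bound is only needed for starting
points slightly below the top of the middle blocks. -/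
theorem Setup.recursion_core (D : Site d) (hD : S.h D < 0) (m : ℕ) (a : ℝ) (ε δ : ℝ≥0∞)
    (hwin : ∀ z : Site d, min (-a) (S.h D) ≤ S.h z → S.h z < 0 →
      ex S.μ S.h (2 * m) (fun V => ex S.μ S.h m fun M =>
        S.P (Esc (-S.h) ∩ Hits z (deps (-disp (V ++ M).flatten) V.flatten))) ≤ ε)
    (hmid : ex S.μ S.h m (fun M =>
      @ite _ (S.h (disp M.flatten) < a) (Classical.dec _) 1 0) ≤ δ) :
    S.avoid D (2 * m) ≤ S.avoid D (4 * m) + (ε / S.P (Esc (-S.h)) + δ) * S.avoid D m
      + (S.meanH + 1) * (bwgt S.μ (-S.h) [S.e₁])⁻¹ * S.tailM a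
        * ∑ i ∈ range m, S.avoid D i := by
  classical
  haveI := S.ann.1
  set g := -S.h with hg
  set dM := S.P (Esc g) with hdM
  have hb := S.ann.tsum_bwgt S.escP
  let bad : List (List (Step d)) → ℝ≥0∞ := fun M => if S.h (disp M.flatten) < a then 1 else 0
  let Av : List (List (Step d)) → Set (Traj d) := fun T => Esc g \ Hits D (topSites T)
  let fut : List (List (Step d)) → List (List (Step d)) → Site d → ℝ≥0∞ := fun V M z =>
    if min (-a) (S.h D) ≤ S.h z ∧ S.h z < 0 then
      S.P (Esc g ∩ Hits z (deps (-disp (V ++ M).flatten) V.flatten)) else 0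
  let Z : List (List (Step d)) → List (List (Step d)) → List (List (Step d)) → ℝ≥0∞ :=
    fun V M T => ∑' p : cross g (S.h D + S.h (disp T.flatten)),
      (if Disjoint (deps D p.1.flatten) (topSites T) then bprod S.μ g p.1 else 0)
        * fut V M (D + disp p.1.flatten + disp T.flatten)
  have main : ∀ V M T : List (List (Step d)), (∀ π ∈ V, IsBlock S.h π) →
      (∀ π ∈ M, IsBlock S.h π) → (∀ π ∈ T, IsBlock S.h π) →
      S.P (Esc g \ Hits D (topSites (M ++ T)))
        ≤ S.P (Esc g \ Hits D (topSites (V ++ M ++ T)))
          + (bad M * S.P (Av T) + (dM * (S.reach D T * S.tailM a) + Z V M T)) := by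
    intro V M T hV hM hT
    set W := deps (-disp (V ++ M ++ T).flatten) V.flatten with hW
    have hsites : topSites (V ++ M ++ T) = W ∪ topSites (M ++ T) := by
      simp only [topSites, hW, List.append_assoc, List.flatten_append, deps_append, disp_append]
      congr 2
      · congr 1; abel
      · congr 1; abel
    have hsubT : topSites T ⊆ topSites (M ++ T) := by
      intro y hy
      simp only [topSites, List.flatten_append, deps_append, mem_union] at hy ⊢
      right
      rwa [disp_append, show -(disp M.flatten + disp T.flatten) + disp M.flatten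
        = -disp T.flatten by abel]
    refine le_trans (measure_mono (t := (Esc g \ Hits D (topSites (V ++ M ++ T))) ∪
      (Av T ∩ Hits D W)) fun t ht => ?_) (le_trans (measure_union_le _ _) (add_le_add le_rfl ?_))
    · by_cases hh : t ∈ Hits D W
      · refine .inr ⟨⟨ht.1, fun ⟨k, hk⟩ => ht.2 ⟨k, hsubT hk⟩⟩, hh⟩
      · refine .inl ⟨ht.1, fun ⟨k, hk⟩ => ?_⟩
        rw [hsites, mem_union] at hk
        exact hk.elim (fun h => hh ⟨k, h⟩) fun h => ht.2 ⟨k, h⟩
    by_cases hbad : S.h (disp M.flatten) < a
    · refine le_trans (measure_mono Set.inter_subset_left) ?_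
      simp only [bad, if_pos hbad, one_mul]
      exact le_self_add
    refine le_trans ?_ le_add_self
    set b := S.h D + S.h (disp T.flatten) with hbdef
    refine le_trans (S.ann.measure_le_cross S.escM S.bwgt_e₁_ne_zero S.he₁ b
      (Set.inter_subset_left.trans Set.sdiff_subset)) ?_
    refine le_trans ?_ (add_le_add (mul_le_mul' le_rfl (S.overshoot_le D T a)) le_rfl)
    simp only [Z, ← ENNReal.tsum_mul_left, ← hg, ← hbdef]
    rw [← ENNReal.tsum_add]
    refine ENNReal.tsum_le_tsum fun p => ?_
    set u := disp p.1.flatten with hu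
    by_cases hdj : Disjoint (deps D p.1.flatten) (topSites T)
    swap
    · have : Av T ∩ Hits D W ∩ blockEvent g p.1 = ∅ := by
        refine Set.eq_empty_iff_forall_notMem.2 fun t ⟨⟨ht, _⟩, hb⟩ => hdj ?_
        refine Finset.disjoint_left.2 fun y hy hy' => ht.2 ?_
        obtain ⟨k, hk, rfl⟩ := mem_deps.1 hy
        exact ⟨k, by rwa [site_of_mem_cyl hb.1 hk.le]⟩
      simp [this]
    by_cases hov : b + a < g u ∧ p.1 ≠ []
    · refine le_trans (measure_mono Set.inter_subset_right) (le_trans ?_ le_self_add)
      rw [S.ann.measure_blockEvent p.2.1, if_pos ⟨hdj, hov⟩, mul_comm]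
    refine le_trans ?_ le_add_self
    rw [if_pos hdj]
    set z := D + u + disp T.flatten with hz
    have hgu : g u = -S.h u := rfl
    have hhz : S.h z = b - g u := by rw [hz, hgu, hbdef, map_add, map_add]; ring
    have hneg : S.h z < 0 := by rw [hhz]; linarith [p.2.2.1]
    have hlev : min (-a) (S.h D) ≤ S.h z := by
      rw [hhz]
      by_cases hnil : p.1 = []
      · refine (min_le_right _ _).trans ?_
        simp [hu, hnil, hbdef]
        linarith [flatten_disp_nonneg hT]
      · refine (min_le_left _ _).trans ?_
        linarith [not_lt.1 fun h => hov ⟨h, hnil⟩]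
    simp only [fut, if_pos (And.intro hlev hneg)]
    set W' := deps (-disp (V ++ M).flatten) V.flatten with hW'
    have hshift : Hits z W' = Hits (D + u) W := by
      rw [hz, hW', show (-disp (V ++ M).flatten) = -disp (V ++ M ++ T).flatten + disp T.flatten by
        simp only [List.flatten_append, disp_append]; abel]
      exact hits_translate _ _ _ _
    calc S.P (Av T ∩ Hits D W ∩ blockEvent g p.1)
        ≤ S.P (cyl p.1.flatten ∩ shiftT p.1.flatten.length ⁻¹'
            (Esc g ∩ Hits z W')) := by
          refine measure_mono fun t ⟨⟨_, k, hk⟩, ht1, ht2⟩ => ⟨ht1, ht2, ?_⟩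
          rw [hshift]
          rcases lt_or_ge k p.1.flatten.length with hkl | hkl
          · exfalso
            have hnil : p.1 ≠ [] := by intro h0; simp [h0] at hkl
            have h1 := (flatten_range p.2.1 hkl).2
            obtain ⟨j, hj, hjy⟩ := mem_deps.1 hk
            have h2 := congrArg S.h hjy
            have h3 := (flatten_range hV hj).2
            have h4 := not_lt.1 fun h => hov ⟨h, hnil⟩
            have h5 := not_lt.1 hbad
            rw [site_of_mem_cyl ht1 hkl.le] at h2
            simp only [map_add, map_neg, List.flatten_append, disp_append] at h2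
            simp only [hg, AddMonoidHom.neg_apply] at h1
            rw [hgu] at h4
            linarith
          · refine ⟨k - p.1.flatten.length, ?_⟩
            rw [← Nat.add_sub_cancel' hkl, site_shiftT, site_of_mem_cyl ht1 le_rfl,
              List.take_length, ← add_assoc] at hk
            exact hk
      _ = bprod S.μ g p.1 * S.P (Esc g ∩ Hits z W') :=
          S.ann.measure_flatten_inter p.2.1 (measurableSet_hits _ _)
  have split4 : ∀ F : List (List (Step d)) → ℝ≥0∞, ex S.μ S.h (4 * m) F =
      ex S.μ S.h (2 * m) fun V => ex S.μ S.h m fun M => ex S.μ S.h m fun T =>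
        F (V ++ M ++ T) := by
    intro F
    rw [show 4 * m = 2 * m + m + m by ring, ex_append, ex_append]
  have split2 : S.avoid D (2 * m) = ex S.μ S.h (2 * m) fun _ => ex S.μ S.h m fun M =>
      ex S.μ S.h m fun T => S.P (Esc g \ Hits D (topSites (M ++ T))) := by
    rw [ex_const hb, Setup.avoid, two_mul, ex_append]
  set K := (S.meanH + 1) * (bwgt S.μ g [S.e₁])⁻¹ with hK
  calc S.avoid D (2 * m)
      ≤ ex S.μ S.h (2 * m) fun V => ex S.μ S.h m fun M => ex S.μ S.h m fun T =>
          S.P (Esc g \ Hits D (topSites (V ++ M ++ T)))
            + (bad M * S.P (Av T) + (dM * (S.reach D T * S.tailM a) + Z V M T)) := by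
        rw [split2]
        exact ex_mono_of fun V _ hV => ex_mono_of fun M _ hM => ex_mono_of fun T _ hT =>
          main V M T hV hM hT
    _ = S.avoid D (4 * m) + (ex S.μ S.h m bad * S.avoid D m
          + (dM * ex S.μ S.h m (S.reach D) * S.tailM a
            + ex S.μ S.h (2 * m) fun V => ex S.μ S.h m fun M => ex S.μ S.h m fun T => Z V M T)) := by
        simp only [ex_add, ex_const_mul, ex_mul_const, ex_const hb, ← mul_assoc]
        congr 1
        rw [Setup.avoid, split4]
    _ ≤ S.avoid D (4 * m) + (δ * S.avoid D m
          + (K * (∑ i ∈ range m, S.avoid D i) * S.tailM a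
            + ε / dM * S.avoid D m)) := by
        refine add_le_add le_rfl (add_le_add (mul_le_mul' hmid le_rfl) (add_le_add
          (mul_le_mul' (S.ex_reach_le D hD m) le_rfl) ?_))
        calc (ex S.μ S.h (2 * m) fun V => ex S.μ S.h m fun M => ex S.μ S.h m fun T => Z V M T)
            = ex S.μ S.h (2 * m) fun V => ex S.μ S.h m fun T => ex S.μ S.h m fun M => Z V M T := by
              exact ex_congr_of fun V _ _ => ex_comm _ _ _
          _ = ex S.μ S.h m fun T => ex S.μ S.h (2 * m) fun V => ex S.μ S.h m fun M => Z V M T :=
              ex_comm _ _ _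
          _ ≤ ex S.μ S.h m fun T => S.exitW D T * ε := by
              refine ex_mono fun T => ?_
              simp only [Z, ex_tsum, ex_const_mul, Setup.exitW]
              rw [← ENNReal.tsum_mul_right]
              refine ENNReal.tsum_le_tsum fun p => mul_le_mul' le_rfl ?_
              simp only [fut]
              by_cases hz : min (-a) (S.h D) ≤ S.h (D + disp p.1.flatten + disp T.flatten) ∧
                  S.h (D + disp p.1.flatten + disp T.flatten) < 0
              · simp only [if_pos hz]; exact hwin _ hz.1 hz.2
              · simp only [if_neg hz, ex_const hb]; exact bot_le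
          _ ≤ ε / dM * S.avoid D m := by
              rw [Setup.avoid, ← ex_const_mul]
              refine ex_mono_of fun T _ hT => ?_
              have h1 := S.exitW_mul_le D hT
              have h0 : dM ≠ 0 := S.escM
              rw [mul_comm (S.exitW D T)]
              calc ε * S.exitW D T = ε / dM * (S.exitW D T * dM) := by
                    rw [div_eq_mul_inv, mul_comm (S.exitW D T) dM, ← mul_assoc (ε * dM⁻¹),
                      mul_assoc ε, ENNReal.inv_mul_cancel h0 (measure_ne_top _ _), mul_one]
                _ ≤ _ := mul_le_mul' le_rfl h1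
    _ = _ := by ring

theorem Setup.recursion (S : Setup d) (c : ℝ) (_hc : 0 < c) (ε : ℕ → ℝ≥0∞) (C : ℝ≥0∞)
    (hwin : ∀ (m : ℕ) (z : Site d),
      ex S.μ S.h (2 * m) (fun V => ex S.μ S.h m fun M =>
        S.P (Esc (-S.h) ∩ Hits z (deps (-disp (V ++ M).flatten) V.flatten))) ≤ ε m)
    (hmid : ∀ n : ℕ, 0 < n →
      ex S.μ S.h n (fun M => if S.h (disp M.flatten) < c * n then 1 else 0) ≤ C / n) :
    ∃ K : ℝ≥0∞, K ≠ ⊤ ∧ ∀ (D : Site d), S.h D < 0 → ∀ m : ℕ, 0 < m →
      S.avoid D (2 * m) ≤ S.avoid D (4 * m)
        + (ε m / S.P (Esc (-S.h)) + C / m) * S.avoid D m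
        + K * S.tailM (c * m) * ∑ i ∈ range m, S.avoid D i := by
  refine ⟨(S.meanH + 1) * (bwgt S.μ (-S.h) [S.e₁])⁻¹,
    ENNReal.mul_ne_top (ENNReal.add_ne_top.2
      ⟨S.meanH_ne_top, ENNReal.one_ne_top⟩)
      (ENNReal.inv_ne_top.2 S.bwgt_e₁_ne_zero), fun D hD m hm => ?_⟩
  refine S.recursion_core D hD m (c * m) (ε m) (C / m) (fun z _ _ => hwin m z) ?_
  convert hmid m hm using 5

end Vale.Agent.P147
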