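import Mathlib
import Vale.Agent.P147.Setup

/-!
# P147: summability of the avoidance probabilities

The top of `n` ascending blocks followed by an avoiding descending escape is the first time at
which the glued walk reaches its maximal height, so these events are disjoint in `n`.
-/

namespace Vale.Agent.P147

open MeasureTheory Finset Filter
open scoped ENNReal Topology

variable {d : ℕ} {h : Site d →+ ℝ}

theorem flatten_inj {ws vs : List (List (Step d))} (hws : ∀ π ∈ ws, IsBlock h π)
    (hvs : ∀ π ∈ vs, IsBlock h π) (heq : ws.flatten = vs.flatten) : ws = vs := by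
  induction ws generalizing vs with
  | nil =>
    cases vs with
    | nil => rfl
    | cons ρ vs =>
      have := List.length_pos_iff.2 (hvs ρ (by simp)).1
      have := congrArg List.length heq
      simp only [List.flatten_nil, List.length_nil, List.flatten_cons, List.length_append] at this
      omega
  | cons π ws ih =>
    cases vs with
    | nil =>
      have := List.length_pos_iff.2 (hws π (by simp)).1
      have := congrArg List.length heq
      simp only [List.flatten_nil, List.length_nil, List.flatten_cons, List.length_append] at this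
      omega
    | cons ρ vs =>
      rw [List.flatten_cons, List.flatten_cons] at heq
      have key : ∀ (a b : List (Step d)) (as bs : List (List (Step d))), IsBlock h a →
          (∀ q ∈ as, IsBlock h q) → IsBlock h b → a ++ as.flatten = b ++ bs.flatten →
          ¬ a.length < b.length := by
        intro a b as bs ha has hb hab hlt
        have htake : ∀ k ≤ b.length, b.take k = (a ++ as.flatten).take k := by
          intro k hk
          rw [hab, List.take_append_of_le_length hk]
        have haa : disp (b.take a.length) = disp a := by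
          rw [htake _ hlt.le, List.take_append_of_le_length le_rfl, List.take_length]
        refine hb.2.2 a.length (List.length_pos_iff.2 ha.1) hlt ⟨fun k hk => ?_, fun k hk hk' => ?_⟩
        · rw [haa, htake k (by omega), List.take_append_of_le_length hk.le]
          exact (ha.2.1 k hk).2
        · rw [haa, htake k hk', List.take_append, List.take_of_length_le hk, disp_append, map_add]
          rcases lt_or_ge (k - a.length) as.flatten.length with h1 | h1
          · linarith [(flatten_range has h1).1]
          · rw [List.take_of_length_le h1]; linarith [flatten_disp_nonneg has]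
      have hπ := hws π (by simp)
      have hρ := hvs ρ (by simp)
      have hw : ∀ q ∈ ws, IsBlock h q := fun q hq => hws q (by simp [hq])
      have hv : ∀ q ∈ vs, IsBlock h q := fun q hq => hvs q (by simp [hq])
      have hlen : π.length = ρ.length :=
        le_antisymm (not_lt.1 (key ρ π vs ws hρ hv hπ heq.symm))
          (not_lt.1 (key π ρ ws vs hπ hw hρ heq))
      obtain ⟨h1, h2⟩ := List.append_inj heq hlen
      rw [h1, ih hw hv h2]

variable (S : Setup d)

theorem Setup.avoid_le (D : Site d) (n : ℕ) : S.avoid D n ≤ S.P (Esc (-S.h)) := by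
  calc S.avoid D n ≤ ex S.μ S.h n fun _ => S.P (Esc (-S.h)) :=
        ex_mono fun ws => measure_mono Set.sdiff_subset
    _ = _ := ex_const (S.ann.tsum_bwgt S.escP) n _

theorem Setup.avoid_antitone (D : Site d) : Antitone (S.avoid D) := by
  refine antitone_nat_of_succ_le fun n => ?_
  rw [Setup.avoid, Setup.avoid, Nat.add_comm n 1, ex_append]
  calc ex S.μ S.h 1 (fun u => ex S.μ S.h n fun v => S.P (Esc (-S.h) \ Hits D (topSites (u ++ v))))
      ≤ ex S.μ S.h 1 (fun _ => ex S.μ S.h n fun v => S.P (Esc (-S.h) \ Hits D (topSites v))) := by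
        refine ex_mono fun u => ex_mono fun v => measure_mono fun t ⟨ht, hn⟩ => ⟨ht, fun hk => ?_⟩
        obtain ⟨k, hk⟩ := hk
        refine hn ⟨k, ?_⟩
        simp only [topSites, List.flatten_append, deps_append, mem_union] at hk ⊢
        right
        rwa [disp_append, show -(disp u.flatten + disp v.flatten) + disp u.flatten
          = -disp v.flatten by abel]
    _ = _ := ex_const (S.ann.tsum_bwgt S.escP) 1 _

theorem hits_topSites (ws : List (List (Step d))) :
    Hits (0 : Site d) (topSites ws) = Hits (disp ws.flatten) (deps 0 ws.flatten) := by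
  have h1 := hits_shift (disp ws.flatten) 0 (topSites ws)
  rw [zero_add] at h1
  rw [← h1, topSites, ← deps_shift]
  simp

theorem Setup.tsum_avoid_zero_le : ∑' n, S.avoid 0 n ≤ 1 := by
  classical
  haveI := S.ann.1
  let Bl : Set (List (List (Step d))) := {ws | ∀ π ∈ ws, IsBlock S.h π}
  let E : List (List (Step d)) → Set (Traj d) := fun ws => cyl ws.flatten ∩
    shiftT ws.flatten.length ⁻¹' (Esc (-S.h) \ Hits (disp ws.flatten) (deps 0 ws.flatten))
  have hEm : ∀ ws : List (List (Step d)), MeasurableSet (Esc (-S.h) \ Hits (disp ws.flatten) (deps 0 ws.flatten)) :=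
    fun ws => MeasurableSet.diff (measurableSet_esc _) (measurableSet_hits _ _)
  have hprod : ∀ ws : Bl, S.P (E ws.1) = bprod S.μ S.h ws.1 *
      S.P (Esc (-S.h) \ Hits 0 (topSites ws.1)) := by
    intro ws
    rw [hits_topSites, ← pw_flatten ws.2]
    refine S.ann.measure_cyl_inter_eq _ _ (hEm _) fun t ht k hk => ?_
    exact ht.2 ⟨k, hk⟩
  have hdis : Pairwise fun ws vs : Bl => Disjoint (E ws.1) (E vs.1) := by
    have key : ∀ ws vs : Bl, ∀ t, t ∈ E ws.1 → t ∈ E vs.1 →
        ¬ ws.1.flatten.length < vs.1.flatten.length := by
      intro ws vs t h1 h2 hlt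
      have e1 := site_of_mem_cyl h2.1 hlt.le
      have e2 := site_of_mem_cyl h2.1 le_rfl
      rw [List.take_length] at e2
      have hlow := (flatten_range vs.2 hlt).2
      rw [← e1, ← e2] at hlow
      have hup := h1.2.1.1 (vs.1.flatten.length - ws.1.flatten.length)
      rw [← Nat.add_sub_cancel' hlt.le, site_shiftT, map_add] at hlow
      simp only [AddMonoidHom.neg_apply] at hup
      linarith
    intro ws vs hne
    refine Set.disjoint_left.2 fun t h1 h2 => hne (Subtype.ext ?_)
    have hl := le_antisymm (not_lt.1 (key vs ws t h2 h1)) (not_lt.1 (key ws vs t h1 h2))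
    refine flatten_inj ws.2 vs.2 ?_
    by_contra hne'
    exact Set.disjoint_left.1 (cyl_disjoint_of_length_eq hl hne') h1.1 h2.1
  calc ∑' n, S.avoid 0 n
      = ∑' ws, bprod S.μ S.h ws * S.P (Esc (-S.h) \ Hits 0 (topSites ws)) := by
        simp only [Setup.avoid, ex_eq_tsum]
        rw [ENNReal.tsum_comm]
        exact tsum_congr fun ws => by
          rw [tsum_eq_single ws.length fun n hn => if_neg (Ne.symm hn), if_pos rfl]
    _ = ∑' ws : Bl, bprod S.μ S.h ws.1 * S.P (Esc (-S.h) \ Hits 0 (topSites ws.1)) := by
        rw [tsum_subtype Bl fun ws => bprod S.μ S.h ws * S.P (Esc (-S.h) \ Hits 0 (topSites ws))]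
        refine tsum_congr fun ws => ?_
        by_cases hm : ws ∈ Bl
        · rw [Set.indicator_of_mem hm]
        · rw [Set.indicator_of_notMem hm, bprod_eq_zero hm, zero_mul]
    _ = ∑' ws : Bl, S.P (E ws.1) := tsum_congr fun ws => (hprod ws).symm
    _ ≤ S.P Set.univ := tsum_meas_le_meas_iUnion_of_disjoint₀ S.P
          (fun ws => ((measurableSet_cyl _).inter
            (measurable_shiftT _ (hEm _))).nullMeasurableSet)
          (fun ws vs hne => (hdis hne).aedisjoint) |>.trans (measure_mono (Set.subset_univ _))
    _ = 1 := measure_univ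

theorem Setup.nat_mul_avoid_zero_le (n : ℕ) : (n : ℝ≥0∞) * S.avoid 0 n ≤ 1 := by
  refine le_trans ?_ S.tsum_avoid_zero_le
  calc (n : ℝ≥0∞) * S.avoid 0 n = ∑ _i ∈ range n, S.avoid 0 n := by simp
    _ ≤ ∑ i ∈ range n, S.avoid 0 i :=
        sum_le_sum fun i hi => S.avoid_antitone 0 (mem_range.1 hi).le
    _ ≤ _ := ENNReal.sum_le_tsum _

end Vale.Agent.P147
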