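import Mathlib
import Vale.Agent.P147.Summable
import Vale.Agent.P147.Moments
import Vale.Agent.P147.Recursion

/-!
# P147: the growth argument

The recursion keeps the avoidance probabilities along dyadic scales above a geometric sequence
of ratio `3/4`, which contradicts their summability.
-/

namespace Vale.Agent.P147

open MeasureTheory Finset Filter
open scoped ENNReal Topology

variable {d : ℕ}

/-- A finite mean height makes `m * tail (c m)` tend to zero. -/
theorem Setup.tendsto_mul_tailM (S : Setup d) {c : ℝ} (hc : 0 < c) :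
    Tendsto (fun m : ℕ => (m : ℝ≥0∞) * S.tailM (c * m)) atTop (𝓝 0) := by
  classical
  have hu : UnitSteps (-S.h) := fun e => by simpa using S.unit e
  let g : List (Step d) → ℝ≥0∞ :=
    fun π => bwgt S.μ (-S.h) π * ENNReal.ofReal ((-S.h) (disp π))
  have hg : ∑' π, g π ≠ ⊤ :=
    S.ann.meanHeight_ne_top S.escM hu S.he₁ S.bwgt_e₁_ne_zero
  rw [ENNReal.tendsto_nhds_zero]
  intro η hη
  have hc' : ENNReal.ofReal c ≠ 0 := by simpa using hc
  obtain ⟨s, hs⟩ := ((ENNReal.tendsto_tsum_compl_atTop_zero hg).eventually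
    (eventually_le_nhds (ENNReal.mul_pos hη.ne' hc'))).exists
  obtain ⟨N, hN⟩ := exists_nat_gt (∑ π ∈ s, |(-S.h) (disp π)| / c)
  refine eventually_atTop.2 ⟨N, fun m hm => ?_⟩
  have key : ∀ π, ENNReal.ofReal c * ((m : ℝ≥0∞) *
      (if c * (m : ℝ) < (-S.h) (disp π) then bwgt S.μ (-S.h) π else 0))
        ≤ if π ∈ s then 0 else g π := by
    intro π
    by_cases hlt : c * (m : ℝ) < (-S.h) (disp π)
    · have hns : π ∉ s := by
        intro hmem
        have h1 : |(-S.h) (disp π)| / c ≤ ∑ ρ ∈ s, |(-S.h) (disp ρ)| / c :=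
          single_le_sum (f := fun ρ => |(-S.h) (disp ρ)| / c)
            (fun ρ _ => by positivity) hmem
        have h2 : (m : ℝ) < |(-S.h) (disp π)| / c := by
          rw [lt_div_iff₀ hc]
          linarith [le_abs_self ((-S.h) (disp π))]
        have h3 : (N : ℝ) ≤ m := by exact_mod_cast hm
        linarith
      rw [if_neg hns, if_pos hlt]
      calc ENNReal.ofReal c * ((m : ℝ≥0∞) * bwgt S.μ (-S.h) π)
          = ENNReal.ofReal (c * m) * bwgt S.μ (-S.h) π := by
            rw [ENNReal.ofReal_mul hc.le, ENNReal.ofReal_natCast, mul_assoc]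
        _ ≤ ENNReal.ofReal ((-S.h) (disp π)) * bwgt S.μ (-S.h) π := by
            gcongr
        _ = g π := mul_comm _ _
    · rw [if_neg hlt, mul_zero, mul_zero]; exact bot_le
  have hsum : ENNReal.ofReal c * ((m : ℝ≥0∞) * S.tailM (c * m)) ≤ η * ENNReal.ofReal c := by
    rw [Setup.tailM, ← ENNReal.tsum_mul_left, ← ENNReal.tsum_mul_left]
    refine (ENNReal.tsum_le_tsum key).trans (le_trans (le_of_eq ?_) hs)
    exact ((tsum_subtype {π | π ∉ s} g).trans (tsum_congr fun π => by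
      by_cases hπ : π ∈ s <;> simp [hπ])).symm
  rw [mul_comm η] at hsum
  exact (ENNReal.mul_le_mul_iff_right hc' ENNReal.ofReal_ne_top).1 hsum

/-- A sequence satisfying the recursion with small errors decays at most like `(3/4)^j`. -/
theorem dyadic_lower {f : ℕ → ℝ} (hf : Antitone f) (h0 : ∀ n, 0 ≤ f n) {m0 : ℕ} {δ δ' : ℝ}
    (hδ : δ ≤ 1 / 6) (hδ'0 : 0 ≤ δ') (hδ' : δ' ≤ 1 / 120) (hinit : 3 / 4 * f 0 ≤ f (2 * m0))
    (hrec : ∀ m, m0 ≤ m →
      f (2 * m) ≤ f (4 * m) + δ * f m + δ' / m * ∑ i ∈ range m, f i) (hm0 : 0 < m0) (j : ℕ) :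
    (3 / 4) ^ j * f m0 ≤ f (m0 * 2 ^ j) := by
  have step : ∀ j, 3 / 4 * f (m0 * 2 ^ j) ≤ f (m0 * 2 ^ (j + 1)) ∧
      ∑ i ∈ range (m0 * 2 ^ j), f i ≤ 2 * ((m0 * 2 ^ j : ℕ) : ℝ) * f (m0 * 2 ^ j) := by
    intro j
    induction j with
    | zero =>
      have hle : f m0 ≤ f 0 := hf (Nat.zero_le _)
      simp only [pow_zero, mul_one, zero_add, pow_one]
      refine ⟨by linarith [(show f (2 * m0) = f (m0 * 2) by rw [mul_comm])], ?_⟩
      have h1 : 3 / 4 * f 0 ≤ f m0 := hinit.trans (hf (by omega))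
      calc ∑ i ∈ range m0, f i ≤ ∑ i ∈ range m0, f 0 :=
            sum_le_sum fun i _ => hf (Nat.zero_le _)
        _ = (m0 : ℝ) * f 0 := by simp
        _ ≤ 2 * (m0 : ℝ) * f m0 := by nlinarith [h0 0, h0 m0]
    | succ j ih =>
      obtain ⟨h1, h2⟩ := ih
      set m := m0 * 2 ^ j with hm
      have hmj : m0 ≤ m := Nat.le_mul_of_pos_right _ (by positivity)
      have e1 : m0 * 2 ^ (j + 1) = 2 * m := by rw [hm]; ring
      have e2 : m0 * 2 ^ (j + 1 + 1) = 4 * m := by rw [hm]; ring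
      rw [e2, e1]
      rw [e1] at h1
      have hm' : (0 : ℝ) < m := by exact_mod_cast (show 0 < m by omega)
      have hsum : δ' / m * ∑ i ∈ range m, f i ≤ 2 * δ' * f m := by
        calc δ' / m * ∑ i ∈ range m, f i ≤ δ' / m * (2 * m * f m) :=
              mul_le_mul_of_nonneg_left h2 (by positivity)
          _ = 2 * δ' * f m := by field_simp
      have hr := hrec m hmj
      have hδf : δ * f m ≤ 1 / 6 * f m := mul_le_mul_of_nonneg_right hδ (h0 m)
      have hδf' : δ' * f m ≤ 1 / 120 * f m := mul_le_mul_of_nonneg_right hδ' (h0 m)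
      refine ⟨by linarith [h0 (2 * m)], ?_⟩
      rw [show 2 * m = m + m by omega, sum_range_add]
      have hb : ∑ i ∈ range m, f (m + i) ≤ (m : ℝ) * f m := by
        calc ∑ i ∈ range m, f (m + i) ≤ ∑ i ∈ range m, f m :=
              sum_le_sum fun i _ => hf (Nat.le_add_right m i)
          _ = (m : ℝ) * f m := by simp
      rw [show m + m = 2 * m by omega]
      push_cast
      nlinarith [h0 m]
  induction j with
  | zero => simp
  | succ j ih =>
    calc (3 / 4) ^ (j + 1) * f m0 = 3 / 4 * ((3 / 4) ^ j * f m0) := by ring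
      _ ≤ 3 / 4 * f (m0 * 2 ^ j) := by linarith
      _ ≤ _ := (step j).1

/-- The modules together refute the setting. -/
theorem Setup.false_of (S : Setup d) {c : ℝ} (hc : 0 < c) {ε : ℕ → ℝ≥0∞}
    (hε : ∀ᶠ m in atTop, ε m / S.P (Esc (-S.h)) ≤ ENNReal.ofReal (19 / 120)) {C K : ℝ≥0∞} (hC : C ≠ ⊤) (hK : K ≠ ⊤)
    (hbase : ∀ (n₀ : ℕ) (ε : ℝ≥0∞), ε ≠ 0 → ∃ (D : Site d) (k : ℕ) (c : ℝ≥0∞), c ≠ 0 ∧
      S.h D < 0 ∧ -1 ≤ S.h D ∧ S.P (Esc (-S.h)) ≤ S.avoid D n₀ + ε ∧
        ∀ n, c * S.avoid D n ≤ S.avoid 0 (n + k))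
    (hrec : ∀ᶠ m : ℕ in atTop, ∀ (D : Site d), S.h D < 0 → -1 ≤ S.h D →
      S.avoid D (2 * m) ≤ S.avoid D (4 * m)
        + (ε m / S.P (Esc (-S.h)) + C / m) * S.avoid D m
        + K * S.tailM (c * m) * ∑ i ∈ range m, S.avoid D i) : False := by
  have : IsProbabilityMeasure S.P := S.ann.1
  set e := S.P (Esc (-S.h)) with he
  have he0 : e ≠ 0 := S.escM
  have het : e ≠ ⊤ := measure_ne_top _ _
  have h120 : (0 : ℝ≥0∞) < ENNReal.ofReal (1 / 120) := by simp
  -- small errors from some `m0` on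
  have herr : ∀ᶠ m : ℕ in atTop, ε m / e + C / m ≤ ENNReal.ofReal (1 / 6) ∧
      (m : ℝ≥0∞) * (K * S.tailM (c * m)) ≤ ENNReal.ofReal (1 / 120) ∧ 0 < m := by
    have t2 : Tendsto (fun m : ℕ => C / (m : ℝ≥0∞)) atTop (𝓝 0) := by
      simpa using ENNReal.Tendsto.const_div ENNReal.tendsto_nat_nhds_top (Or.inr hC)
    have t3 : Tendsto (fun m : ℕ => (m : ℝ≥0∞) * (K * S.tailM (c * m))) atTop (𝓝 0) := by
      simpa [mul_left_comm] using
        ENNReal.Tendsto.const_mul (S.tendsto_mul_tailM hc) (Or.inr hK)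
    filter_upwards [hε, t2.eventually (eventually_le_nhds h120),
      t3.eventually (eventually_le_nhds h120), eventually_gt_atTop 0] with m a a' b c
    refine ⟨(add_le_add a a').trans (le_of_eq ?_), b, c⟩
    rw [← ENNReal.ofReal_add (by norm_num) (by norm_num)]
    norm_num
  obtain ⟨m0, hm0'⟩ := eventually_atTop.1 (herr.and hrec)
  have hm0 := fun m hm => (hm0' m hm).1
  have hm0pos : 0 < m0 := (hm0 m0 le_rfl).2.2
  obtain ⟨D, k, c', hc', hD, hD1, hclose, hdom⟩ := hbase (2 * m0) (e / 4)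
    (ENNReal.div_ne_zero.2 ⟨he0, by norm_num⟩)
  have hfin : ∀ n, S.avoid D n ≠ ⊤ := fun n => ne_top_of_le_ne_top het (S.avoid_le D n)
  set f : ℕ → ℝ := fun n => (S.avoid D n).toReal with hf
  have hanti : Antitone f := fun a b hab =>
    ENNReal.toReal_mono (hfin a) (S.avoid_antitone D hab)
  have hnn : ∀ n, 0 ≤ f n := fun n => ENNReal.toReal_nonneg
  have hepos : 0 < e.toReal := ENNReal.toReal_pos he0 het
  have hinit : 3 / 4 * e.toReal ≤ f (2 * m0) := by
    have h1 := ENNReal.toReal_mono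
      (ENNReal.add_ne_top.2 ⟨hfin (2 * m0), ENNReal.div_ne_top het (by norm_num)⟩) hclose
    rw [ENNReal.toReal_add (hfin _) (ENNReal.div_ne_top het (by norm_num)),
      ENNReal.toReal_div] at h1
    norm_num at h1
    simp only [hf]
    linarith
  have hf0 : f 0 ≤ e.toReal := ENNReal.toReal_mono het (S.avoid_le D 0)
  have hr : ∀ m, m0 ≤ m →
      f (2 * m) ≤ f (4 * m) + 1 / 6 * f m + 1 / 120 / m * ∑ i ∈ range m, f i := by
    intro m hm
    obtain ⟨a, b, hmpos⟩ := hm0 m hm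
    have hm' : (0 : ℝ) < m := by exact_mod_cast hmpos
    have hKt : K * S.tailM (c * m) ≤ ENNReal.ofReal (1 / 120) / m := by
      rw [ENNReal.le_div_iff_mul_le (Or.inl (by simp; omega)) (Or.inl (by simp)), mul_comm]
      exact b
    have h1 : S.avoid D (2 * m) ≤ S.avoid D (4 * m) + ENNReal.ofReal (1 / 6) * S.avoid D m
        + ENNReal.ofReal (1 / 120) / m * ∑ i ∈ range m, S.avoid D i := by
      refine ((hm0' m hm).2 D hD hD1).trans ?_
      gcongr
    have hdiv : ENNReal.ofReal (1 / 120) / (m : ℝ≥0∞) = ENNReal.ofReal (1 / 120 / m) := by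
      rw [ENNReal.ofReal_div_of_pos hm', ENNReal.ofReal_natCast]
    have hsumR : ∑ i ∈ range m, S.avoid D i = ENNReal.ofReal (∑ i ∈ range m, f i) := by
      rw [ENNReal.ofReal_sum_of_nonneg fun i _ => hnn i]
      exact sum_congr rfl fun i _ => (ENNReal.ofReal_toReal (hfin i)).symm
    have hsnn : 0 ≤ ∑ i ∈ range m, f i := sum_nonneg fun i _ => hnn i
    have hof : ∀ n, S.avoid D n = ENNReal.ofReal (f n) := fun n =>
      (ENNReal.ofReal_toReal (hfin n)).symm
    rw [hdiv, hsumR, hof, hof (4 * m), hof m, ← ENNReal.ofReal_mul (by norm_num),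
      ← ENNReal.ofReal_mul (by positivity), ← ENNReal.ofReal_add (hnn _) (by positivity [hnn m]),
      ← ENNReal.ofReal_add (add_nonneg (hnn _) (mul_nonneg (by norm_num) (hnn m)))
        (mul_nonneg (by positivity) hsnn)] at h1
    exact (ENNReal.ofReal_le_ofReal_iff (add_nonneg (add_nonneg (hnn _)
      (mul_nonneg (by norm_num) (hnn m))) (mul_nonneg (by positivity) hsnn))).1 h1
  have hlow := dyadic_lower hanti hnn le_rfl (by norm_num) le_rfl (by linarith) hr hm0pos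
  -- the upper bound
  set r : ℝ := (min c' 1).toReal with hr'
  have hrpos : 0 < r := ENNReal.toReal_pos
    (fun hmin => (min_eq_iff.1 hmin).elim (fun hh => hc' hh.1) fun hh => one_ne_zero hh.1)
    (ne_top_of_le_ne_top ENNReal.one_ne_top (min_le_right _ _))
  have hup : ∀ n : ℕ, (n : ℝ) * (r * f n) ≤ 1 := by
    intro n
    have h1 : (n : ℝ≥0∞) * (min c' 1 * S.avoid D n) ≤ 1 := by
      calc (n : ℝ≥0∞) * (min c' 1 * S.avoid D n)
          ≤ ((n + k : ℕ) : ℝ≥0∞) * (c' * S.avoid D n) := by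
            gcongr
            · exact Nat.le_add_right n k
            · exact min_le_left _ _
        _ ≤ ((n + k : ℕ) : ℝ≥0∞) * S.avoid 0 (n + k) := by gcongr; exact hdom n
        _ ≤ 1 := S.nat_mul_avoid_zero_le _
    simpa [hf, hr'] using ENNReal.toReal_mono ENNReal.one_ne_top h1
  have hfpos : 0 < f m0 := by
    have h1 : f (2 * m0) ≤ f m0 := hanti (by omega)
    linarith
  have hA : 0 < (m0 : ℝ) * r * f m0 :=
    mul_pos (mul_pos (by exact_mod_cast hm0pos) hrpos) hfpos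
  obtain ⟨j, hj⟩ := pow_unbounded_of_one_lt (1 / ((m0 : ℝ) * r * f m0))
    (by norm_num : (1 : ℝ) < 3 / 2)
  rw [div_lt_iff₀ hA] at hj
  have h2 := hup (m0 * 2 ^ j)
  push_cast at h2
  have h3 : ((m0 : ℝ) * 2 ^ j) * (r * ((3 / 4) ^ j * f m0)) ≤
      ((m0 : ℝ) * 2 ^ j) * (r * f (m0 * 2 ^ j)) := by
    gcongr
    exact hlow j
  have h4 : (3 / 2 : ℝ) ^ j * ((m0 : ℝ) * r * f m0)
      = ((m0 : ℝ) * 2 ^ j) * (r * ((3 / 4) ^ j * f m0)) := by
    rw [show (3 / 2 : ℝ) = 2 * (3 / 4) by norm_num, mul_pow]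
    ring
  linarith

end Vale.Agent.P147
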