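import Mathlib
import Vale.Agent.P147.Markov

/-!
# P147: the quenched law of the walk
-/

namespace Vale.Agent.P147

open MeasureTheory Finset Filter
open scoped ENNReal Topology

variable {d : ℕ} [NeZero d]

/-- The quenched law of the steps of the walk started at `x` in the environment `ω`. -/
noncomputable def qP (ω : Env d) (x : Site d) : Measure (Traj d) :=
  (Measure.infinitePi fun _ : ℕ => uLaw).map fun u => trajU (fun y => ω (y + x), u)

theorem measurable_envShift (x : Site d) :
    Measurable fun (ω : Env d) (y : Site d) => ω (y + x) :=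
  measurable_pi_lambda _ fun y => measurable_pi_apply (y + x)

theorem measurable_trajU_shift (x : Site d) :
    Measurable fun p : Env d × (ℕ → ℝ) => trajU (fun y => p.1 (y + x), p.2) :=
  measurable_trajU.comp (((measurable_envShift x).comp measurable_fst).prodMk measurable_snd)

theorem measurable_trajU_right (ω : Env d) (x : Site d) :
    Measurable fun u : ℕ → ℝ => trajU (fun y => ω (y + x), u) := by
  have h : Measurable fun u : ℕ → ℝ => (ω, u) := measurable_prodMk_left
  have h2 := (measurable_trajU_shift (d := d) x).comp h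
  exact h2

instance (ω : Env d) (x : Site d) : IsProbabilityMeasure (qP ω x) :=
  Measure.isProbabilityMeasure_map (measurable_trajU_right ω x).aemeasurable

theorem qP_cyl (ω : Env d) (x : Site d) (π : List (Step d)) :
    qP ω x (cyl π) = qw ω x π := by
  rw [qP, Measure.map_apply (measurable_trajU_right ω x) (measurableSet_cyl π)]
  classical
  set ω' : Env d := fun y => ω (y + x) with hω'
  have hqw : qw ω x π = qw ω' 0 π := by
    rw [hω', ← qw_shift]; simp
  rw [hqw]
  let J : ℕ → Set ℝ := fun k =>
    if h : k < π.length then selSet (ω' (disp (π.take k))) π[k] else Set.univ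
  have hae : (fun u => trajU (ω', u)) ⁻¹' cyl π =ᵐ[Measure.infinitePi fun _ : ℕ => uLaw]
      Set.pi (range π.length : Set ℕ) J := by
    have hu : ∀ᵐ u ∂Measure.infinitePi (fun _ : ℕ => uLaw), ∀ n, 0 < u n ∧ u n ≤ 1 := by
      refine ae_all_iff.2 fun n => ?_
      have h1 : ∀ᵐ v ∂uLaw, 0 < v ∧ v ≤ 1 := ae_restrict_mem measurableSet_Ioc
      exact (measurePreserving_eval_infinitePi (fun _ : ℕ => uLaw) n).quasiMeasurePreserving.ae h1
    filter_upwards [hu] with u hu
    change (trajU (ω', u) ∈ cyl π) = (u ∈ Set.pi _ J)
    rw [trajU_mem_cyl π ω' u hu, Set.mem_pi, eq_iff_iff]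
    constructor
    · intro h k hk
      have hk' : k < π.length := by simpa using hk
      simpa [J, hk'] using h k hk'
    · intro h k hk
      simpa [J, hk] using h k (by simpa using hk)
  rw [measure_congr hae, Measure.infinitePi_pi, qw_eq_prod,
    ← Fin.prod_univ_eq_prod_range (fun k => uLaw (J k)) π.length]
  · refine prod_congr rfl fun k _ => ?_
    simp [J, k.2, uLaw_selSet]
  · intro k _
    simp only [J]
    split_ifs
    exacts [measurableSet_Ioc, .univ]

theorem measurable_qP {E : Set (Traj d)} (hE : MeasurableSet E) (x : Site d) :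
    Measurable fun ω : Env d => qP ω x E := by
  have h := measurable_measure_prodMk_left (ν := Measure.infinitePi fun _ : ℕ => uLaw)
    (measurable_trajU_shift x hE)
  refine Eq.mpr (congrArg Measurable (funext fun ω => ?_)) h
  rw [qP, Measure.map_apply (measurable_trajU_right ω x) hE]
  rfl

/-- The quenched Markov property at a fixed prefix. -/
theorem qP_cyl_inter (ω : Env d) (x : Site d) (π : List (Step d)) {E : Set (Traj d)}
    (hE : MeasurableSet E) :
    qP ω x (cyl π ∩ shiftT π.length ⁻¹' E) = qw ω x π * qP ω (x + disp π) E := by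
  set m₁ := ((qP ω x).restrict (cyl π)).map (shiftT π.length) with hm₁
  set m₂ := qw ω x π • qP ω (x + disp π) with hm₂
  haveI : IsFiniteMeasure m₁ := by rw [hm₁]; infer_instance
  haveI : IsFiniteMeasure m₂ :=
    Measure.smul_finite _ (ne_top_of_le_ne_top ENNReal.one_ne_top (qw_le_one ω π x))
  have key : ∀ ρ, m₁ (cyl ρ) = m₂ (cyl ρ) := fun ρ => by
    rw [hm₁, Measure.map_apply (measurable_shiftT _) (measurableSet_cyl ρ),
      Measure.restrict_apply (measurable_shiftT _ (measurableSet_cyl ρ)), Set.inter_comm,
      ← cyl_append, qP_cyl, qw_append, hm₂, Measure.smul_apply, smul_eq_mul, qP_cyl]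
  have heq : m₁ = m₂ := le_antisymm (measure_le_of_cyl fun ρ => (key ρ).le)
    (measure_le_of_cyl fun ρ => (key ρ).ge)
  have h := congrArg (fun m : Measure (Traj d) => m E) heq
  simp only [hm₁, hm₂, Measure.map_apply (measurable_shiftT _) hE,
    Measure.restrict_apply (measurable_shiftT _ hE), Measure.smul_apply, smul_eq_mul] at h
  rwa [Set.inter_comm] at h

variable {μ : Measure (Row d)} [IsProbabilityMeasure μ] {P : Measure (Traj d)}

/-- Averaging the quenched law over environments gives the annealed law. -/
theorem IsAnnealed.lintegral_qP (hP : IsAnnealed μ P) (x : Site d) {E : Set (Traj d)}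
    (hE : MeasurableSet E) : ∫⁻ ω, qP ω x E ∂envLaw μ = P E := by
  haveI := hP.1
  set Q : Measure (Env d × (ℕ → ℝ)) :=
    (envLaw μ).prod (Measure.infinitePi fun _ : ℕ => uLaw) with hQ
  set ν := Q.map fun p => trajU (fun y => p.1 (y + x), p.2) with hν
  haveI : IsProbabilityMeasure ν :=
    Measure.isProbabilityMeasure_map (measurable_trajU_shift x).aemeasurable
  have happ : ∀ F : Set (Traj d), MeasurableSet F → ν F = ∫⁻ ω, qP ω x F ∂envLaw μ := by
    intro F hF
    rw [hν, Measure.map_apply (measurable_trajU_shift x) hF, hQ,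
      Measure.prod_apply (measurable_trajU_shift x hF)]
    refine lintegral_congr fun ω => ?_
    rw [qP, Measure.map_apply (measurable_trajU_right ω x) hF]
    rfl
  have key : ∀ π, ν (cyl π) = P (cyl π) := fun π => by
    rw [happ _ (measurableSet_cyl π), hP.2, ← pw_start μ x π, pw]
    simp only [qP_cyl]
  have heq : ν = P := le_antisymm (measure_le_of_cyl fun π => (key π).le)
    (measure_le_of_cyl fun π => (key π).ge)
  rw [← happ E hE, heq]

end Vale.Agent.P147
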