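import Mathlib
import Vale.Agent.P147.Ex
import Vale.Agent.P147.QWalk

/-!
# P147: candidate chains of blocks, stopped hits, and the averaged arrival density
-/

namespace Vale.Agent.P147

open MeasureTheory Finset Filter
open scoped ENNReal Topology

variable {d : ℕ}

/-- Chains of blocks whose total height lies in `[R, R + 2)`. -/
def Bin (h : Site d →+ ℝ) (R : ℝ) : Set (List (List (Step d))) :=
  {ws | (∀ π ∈ ws, IsBlock h π) ∧ R ≤ h (disp ws.flatten) ∧ h (disp ws.flatten) < R + 2}

open Classical in
/-- The number of chains in `Bin h R` which are prefixes of the path `π`. -/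
noncomputable def rank (h : Site d →+ ℝ) (R : ℝ) (π : List (Step d)) : ℝ≥0∞ :=
  ∑' ws : Bin h R, if ws.1.flatten <+: π then 1 else 0

/-- Chains in `Bin h R` with at most `M` sites and at most `J` competing prefixes. -/
def Cand (h : Site d →+ ℝ) (R : ℝ) (M J : ℕ) : Set (List (List (Step d))) :=
  {ws | ws ∈ Bin h R ∧ (deps 0 ws.flatten).card ≤ M ∧ rank h R ws.flatten ≤ J}

/-- The quenched weight of the candidate chains which end `κ`-smeared below the origin. -/
noncomputable def phi (h : Site d →+ ℝ) (R : ℝ) (M J : ℕ) (κ : Site d → ℝ≥0∞) (ω : Env d) :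
    ℝ≥0∞ :=
  ∑' v, ∑' ws : Cand h R M J, κ v * qw ω (-(disp ws.1.flatten + v)) ws.1.flatten

/-- The first `n` steps of a trajectory. -/
def pre (t : Traj d) (n : ℕ) : List (Step d) := List.ofFn fun k : Fin n => t k

/-- Started at `y`, the trajectory reaches `W` while all its prefixes satisfy `Keep`. -/
def HitsBefore (Keep : List (Step d) → Prop) (y : Site d) (W : Finset (Site d)) :
    Set (Traj d) :=
  {t | ∃ k, y + site t k ∈ W ∧ ∀ j ≤ k, Keep (pre t j)}

/-- Escape to height `+∞`. -/
def Up (h : Site d →+ ℝ) : Set (Traj d) :=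
  {t | Tendsto (fun k => h (site t k)) atTop atTop}

/-- The trajectory reaches the height `r`. -/
def Reach (h : Site d →+ ℝ) (r : ℝ) : Set (Traj d) := {t | ∃ k, r ≤ h (site t k)}

theorem measurableSet_hitsBefore (Keep : List (Step d) → Prop) (y : Site d)
    (W : Finset (Site d)) : MeasurableSet (HitsBefore Keep y W) := by
  have : HitsBefore Keep y W = ⋃ k, ⋃ f ∈ {f : Fin k → Step d |
      y + disp (List.ofFn f) ∈ W ∧ ∀ j ≤ k, Keep ((List.ofFn f).take j)},
      cyl (List.ofFn f) := by
    ext t
    have hs : ∀ k, disp (pre t k) = site t k := fun k => by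
      have h := site_of_mem_cyl (mem_cyl_ofFn_self k t) le_rfl
      rw [List.take_length, List.length_ofFn] at h
      exact h.symm
    have ht : ∀ k, ∀ j ≤ k, (pre t k).take j = pre t j := fun k j hj =>
      List.ext_getElem (by simp [pre, hj]) fun i h1 h2 => by simp [pre]
    simp only [HitsBefore, Set.mem_setOf_eq, Set.mem_iUnion]
    constructor
    · rintro ⟨k, hk, hkeep⟩
      refine ⟨k, fun i => t i, ⟨?_, fun j hj => ?_⟩, mem_cyl_ofFn_self k t⟩
      · change y + disp (pre t k) ∈ W; rw [hs]; exact hk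
      · change Keep ((pre t k).take j); rw [ht k j hj]; exact hkeep j hj
    · rintro ⟨k, f, ⟨hf, hkeep⟩, htf⟩
      have heq : pre t k = List.ofFn f := by
        refine List.ext_getElem (by simp [pre]) fun i h1 h2 => ?_
        rw [← (mem_cyl.1 htf) i h2]
        simp [pre]
      refine ⟨k, ?_, fun j hj => ?_⟩
      · rw [← hs, heq]; exact hf
      · rw [← ht k j hj, heq]; exact hkeep j hj
  rw [this]
  exact MeasurableSet.iUnion fun k =>
    MeasurableSet.biUnion (Set.to_countable _) fun f _ => measurableSet_cyl _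

theorem measurableSet_up (h : Site d →+ ℝ) : MeasurableSet (Up h) := by
  have hm : ∀ k, Measurable fun t : Traj d => h (site t k) := fun k =>
    (measurable_of_countable h).comp (measurable_site k)
  have : Up h = ⋂ j : ℕ, ⋃ n, ⋂ k : {k : ℕ // n ≤ k}, {t | (j : ℝ) ≤ h (site t k.1)} := by
    ext t
    simp only [Up, Set.mem_setOf_eq, Set.mem_iInter, Set.mem_iUnion, Subtype.forall]
    refine ⟨fun ht j => eventually_atTop.1 (ht.eventually_ge_atTop (j : ℝ)), fun ht => ?_⟩
    refine tendsto_atTop.2 fun r => eventually_atTop.2 ?_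
    obtain ⟨j, hj⟩ := exists_nat_ge r
    obtain ⟨n, hn⟩ := ht j
    exact ⟨n, fun k hk => hj.trans (hn k hk)⟩
  rw [this]
  exact MeasurableSet.iInter fun j => MeasurableSet.iUnion fun n => MeasurableSet.iInter fun k =>
    measurableSet_le measurable_const (hm k.1)

theorem measurableSet_reach (h : Site d →+ ℝ) (r : ℝ) : MeasurableSet (Reach h r) := by
  have : Reach h r = ⋃ k, {t : Traj d | r ≤ h (site t k)} := by ext t; simp [Reach]
  rw [this]
  exact MeasurableSet.iUnion fun k =>
    measurableSet_le measurable_const ((measurable_of_countable h).comp (measurable_site k))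

theorem isPrefix_of_mem_cyl {a b : List (Step d)} {t : Traj d} (ha : t ∈ cyl a) (hb : t ∈ cyl b)
    (hl : a.length ≤ b.length) : a <+: b := by
  rw [List.prefix_iff_eq_take]
  refine List.ext_getElem (by simp [hl]) fun k h1 h2 => ?_
  rw [List.getElem_take, ← (mem_cyl.1 ha) k h1, (mem_cyl.1 hb) k (by omega)]

/-- A trajectory starts with at most `J` candidates. -/
theorem tsum_cand_indicator_le (h : Site d →+ ℝ) (R : ℝ) (M J : ℕ) (t : Traj d) :
    ∑' ws : Cand h R M J, (cyl ws.1.flatten).indicator (fun _ => (1 : ℝ≥0∞)) t ≤ J := by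
  classical
  rw [ENNReal.tsum_eq_iSup_sum]
  refine iSup_le fun s => ?_
  set s' := s.filter fun ws => t ∈ cyl ws.1.flatten with hs'
  have hsum : ∑ ws ∈ s, (cyl ws.1.flatten).indicator (fun _ => (1 : ℝ≥0∞)) t = ∑ ws ∈ s', 1 := by
    rw [hs', sum_filter]
    exact sum_congr rfl fun ws _ => by simp [Set.indicator_apply]
  rw [hsum]
  rcases s'.eq_empty_or_nonempty with he | hne
  · simp [he]
  obtain ⟨top, htop, hmax⟩ := s'.exists_max_image (fun ws => ws.1.flatten.length) hne
  refine le_trans ?_ top.2.2.2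
  let emb : Cand h R M J ↪ Bin h R :=
    ⟨fun ws => ⟨ws.1, ws.2.1⟩, fun a b hab => Subtype.ext (congrArg (fun w : Bin h R => w.1) hab)⟩
  calc ∑ _ws ∈ s', (1 : ℝ≥0∞)
      = ∑ ws ∈ s'.map emb, if ws.1.flatten <+: top.1.flatten then (1 : ℝ≥0∞) else 0 := by
        rw [sum_map]
        refine sum_congr rfl fun ws hws => ?_
        rw [if_pos]
        exact isPrefix_of_mem_cyl (mem_filter.1 hws).2 (mem_filter.1 htop).2 (hmax ws hws)
    _ ≤ rank h R top.1.flatten := ENNReal.sum_le_tsum _

variable [NeZero d]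

/-- Candidates whose cylinders lie in `E` weigh at most `J` times the probability of `E`. -/
theorem tsum_cand_qw_le (h : Site d →+ ℝ) (R : ℝ) (M J : ℕ) (ω : Env d) (x : Site d)
    {E : Set (Traj d)} (hE : MeasurableSet E) {T : Set (List (List (Step d)))}
    (hT : ∀ ws ∈ T, cyl ws.flatten ⊆ E) :
    ∑' ws : Cand h R M J, T.indicator (fun ws => qw ω x ws.flatten) ws.1 ≤ J * qP ω x E := by
  classical
  let f : Cand h R M J → Traj d → ℝ≥0∞ := fun ws =>
    if ws.1 ∈ T then (cyl ws.1.flatten).indicator (fun _ => 1) else fun _ => 0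
  have hf : ∀ ws, T.indicator (fun ws => qw ω x ws.flatten) ws.1 = ∫⁻ t, f ws t ∂qP ω x := by
    intro ws
    by_cases hm : ws.1 ∈ T
    · rw [Set.indicator_of_mem hm]
      simp only [f, if_pos hm]
      rw [lintegral_indicator_const (measurableSet_cyl _), one_mul, qP_cyl]
    · simp [f, hm]
  have hfm : ∀ ws, Measurable (f ws) := fun ws => by
    simp only [f]
    split_ifs
    · exact measurable_const.indicator (measurableSet_cyl _)
    · exact measurable_const
  rw [tsum_congr hf, ← lintegral_tsum fun ws => (hfm ws).aemeasurable]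
  calc ∫⁻ t, ∑' ws, f ws t ∂qP ω x
      ≤ ∫⁻ t, E.indicator (fun _ => (J : ℝ≥0∞)) t ∂qP ω x := by
        refine lintegral_mono fun t => ?_
        by_cases ht : t ∈ E
        · rw [Set.indicator_of_mem ht]
          refine le_trans (ENNReal.tsum_le_tsum fun ws => ?_) (tsum_cand_indicator_le h R M J t)
          by_cases hm : ws.1 ∈ T <;> simp [f, hm]
        · rw [Set.indicator_of_notMem ht]
          refine le_of_eq (ENNReal.tsum_eq_zero.2 fun ws => ?_)
          by_cases hm : ws.1 ∈ T
          · simp [f, hm, Set.indicator_of_notMem fun h' => ht (hT _ hm h')]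
          · simp [f, hm]
    _ = _ := lintegral_indicator_const hE _

end Vale.Agent.P147
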