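import Mathlib
import Vale.Agent.P147.Setup
import Vale.Agent.P147.WinDefs
import Vale.Agent.P147.Moments
import Vale.Agent.P147.Recursion

/-!
# P147: facts about levels

A walk which can escape does escape once it climbs without bound, high points of a descending
escape are rarely followed by long backtracks, and every window of length two is visited by the
block sums with probability bounded below.
-/

namespace Vale.Agent.P147

open MeasureTheory Finset Filter
open scoped ENNReal Topology

variable {d : ℕ}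

/-- A measurable event on which records occur after every time, none of them followed by an
escape, is null. -/
theorem IsAnnealed.null_of_records {μ : Measure (Row d)} [IsProbabilityMeasure μ]
    {P : Measure (Traj d)} {h : Site d →+ ℝ} (hP : IsAnnealed μ P) (hd : P (Esc h) ≠ 0)
    {B : Set (Traj d)} (hB : MeasurableSet B)
    (hrec : ∀ t ∈ B, ∀ n, ∃ j, n < j ∧ ∀ k < j, h (site t k) < h (site t j))
    (hesc : ∀ t ∈ B, ∀ j, shiftT j t ∉ Esc h) : P B = 0 := by
  classical
  haveI := hP.1
  have key : ∀ π, ((1 + P (Esc h)) • P.restrict B) (cyl π) ≤ P (cyl π) := by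
    intro π
    rw [Measure.smul_apply, smul_eq_mul, Measure.restrict_apply (measurableSet_cyl π)]
    let Q : Set (List (Step d)) := {ρ | π.length < ρ.length ∧ cyl ρ ⊆ cyl π ∧
      (∀ k < ρ.length, h (disp (ρ.take k)) < h (disp ρ)) ∧
      ∀ j, π.length < j → j < ρ.length → ∃ k < j, h (disp (ρ.take j)) ≤ h (disp (ρ.take k))}
    have hsame : ∀ ρ σ : Q, ∀ t, t ∈ cyl ρ.1 → t ∈ cyl σ.1 → ρ.1.length ≤ σ.1.length := by
      intro ρ σ t htρ htσ
      by_contra! hlt
      obtain ⟨k, hk, hle⟩ := ρ.2.2.2.2 σ.1.length σ.2.1 hlt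
      rw [← site_of_mem_cyl htρ hlt.le, ← site_of_mem_cyl htρ (by omega)] at hle
      rw [site_of_mem_cyl htσ le_rfl, site_of_mem_cyl htσ hk.le, List.take_length] at hle
      linarith [σ.2.2.2.1 k hk]
    let E : Q → Set (Traj d) := fun ρ => cyl ρ.1 ∩ shiftT ρ.1.length ⁻¹' Esc h
    have hdis : Pairwise fun ρ σ : Q => Disjoint (E ρ) (E σ) := by
      intro ρ σ hne
      refine Set.disjoint_left.2 fun t h1 h2 => ?_
      have hl := le_antisymm (hsame ρ σ t h1.1 h2.1) (hsame σ ρ t h2.1 h1.1)
      exact Set.disjoint_left.1 (cyl_disjoint_of_length_eq hl fun h => hne (Subtype.ext h)) h1.1 h2.1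
    have hEm : ∀ ρ, MeasurableSet (E ρ) := fun ρ =>
      (measurableSet_cyl _).inter (measurable_shiftT _ (measurableSet_esc h))
    have hE : ∀ ρ : Q, P (E ρ) = P (cyl ρ.1) * P (Esc h) := fun ρ => by
      rw [hP.measure_cyl_inter_eq _ _ (measurableSet_esc h) (esc_subset_avoid ρ.2.2.2.1), hP.2]
    have hcov : cyl π ∩ B ⊆ ⋃ ρ : Q, cyl ρ.1 := by
      rintro t ⟨htπ, htB⟩
      have hex := hrec t htB π.length
      have hjs := Nat.find_spec hex
      have htc := mem_cyl_ofFn_self (Nat.find hex) t
      have hst : ∀ k ≤ Nat.find hex,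
          disp ((List.ofFn fun k : Fin (Nat.find hex) => t k).take k) = site t k :=
        fun k hk => (site_of_mem_cyl htc (by simpa using hk)).symm
      have hend : disp (List.ofFn fun k : Fin (Nat.find hex) => t k) = site t (Nat.find hex) := by
        have := hst _ le_rfl
        rwa [List.take_of_length_le (by simp)] at this
      refine Set.mem_iUnion.2 ⟨⟨List.ofFn fun k : Fin (Nat.find hex) => t k,
        ⟨?_, ?_, fun k hk => ?_, fun i hni hi => ?_⟩⟩, htc⟩
      · simpa using hjs.1
      · intro y hy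
        refine mem_cyl.2 fun k hk => ?_
        rw [(mem_cyl.1 hy) k (by simp; omega)]
        simpa using (mem_cyl.1 htπ) k hk
      · have hk' : k < Nat.find hex := by simpa using hk
        rw [hst k hk'.le, hend]
        exact hjs.2 k hk'
      · have hi' : i < Nat.find hex := by simpa using hi
        have := Nat.find_min hex hi'
        push Not at this
        obtain ⟨k, hk, hle⟩ := this hni
        exact ⟨k, hk, by rw [hst i hi'.le, hst k (by omega)]; exact hle⟩
    have hdisB : Disjoint (cyl π ∩ B) (⋃ ρ, E ρ) := by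
      refine Set.disjoint_left.2 fun t ht hU => ?_
      obtain ⟨ρ, hρ⟩ := Set.mem_iUnion.1 hU
      exact hesc t ht.2 _ hρ.2
    calc (1 + P (Esc h)) * P (cyl π ∩ B)
        ≤ P (cyl π ∩ B) + P (Esc h) * ∑' ρ : Q, P (cyl ρ.1) := by
          rw [add_mul, one_mul]
          gcongr
          exact (measure_mono hcov).trans (measure_iUnion_le _)
      _ = P (cyl π ∩ B) + P (⋃ ρ, E ρ) := by
          rw [measure_iUnion hdis hEm, tsum_congr hE, ENNReal.tsum_mul_right, mul_comm]
      _ = P ((cyl π ∩ B) ∪ ⋃ ρ, E ρ) :=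
          (measure_union hdisB (MeasurableSet.iUnion hEm)).symm
      _ ≤ P (cyl π) := measure_mono (Set.union_subset Set.inter_subset_left
          (Set.iUnion_subset fun ρ t ht => ρ.2.2.1 ht.1))
  have h1 := measure_le_of_cyl key B
  rw [Measure.smul_apply, smul_eq_mul, Measure.restrict_apply hB, Set.inter_self, add_mul,
    one_mul] at h1
  have h2 : P (Esc h) * P B ≤ 0 :=
    ENNReal.le_of_add_le_add_left (measure_ne_top P B) (by rwa [add_zero])
  exact (mul_eq_zero.1 (nonpos_iff_eq_zero.1 h2)).resolve_left hd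

theorem antitone_reach (h : Site d →+ ℝ) : Antitone fun r : ℕ => Reach h r :=
  fun _ _ hab _ ⟨k, hk⟩ => ⟨k, le_trans (by exact_mod_cast hab) hk⟩

/-- Climbing high without escaping upwards is unlikely. -/
theorem IsAnnealed.reach_not_up {μ : Measure (Row d)} [IsProbabilityMeasure μ]
    {P : Measure (Traj d)} {h : Site d →+ ℝ} (hP : IsAnnealed μ P) (hd : P (Esc h) ≠ 0) :
    Tendsto (fun r : ℕ => P (Reach h r \ Up h)) atTop (𝓝 0) := by
  haveI := hP.1
  have hm : ∀ r : ℕ, MeasurableSet (Reach h r \ Up h) := fun r =>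
    (measurableSet_reach h r).diff (measurableSet_up h)
  have hlim := tendsto_measure_iInter_atTop (μ := P) (s := fun r : ℕ => Reach h r \ Up h)
    (fun r => (hm r).nullMeasurableSet)
    (fun a b hab => Set.sdiff_subset_sdiff_left (antitone_reach h hab))
    ⟨0, measure_ne_top P _⟩
  have hnull : P (⋂ r : ℕ, Reach h r \ Up h) = 0 := by
    refine hP.null_of_records hd (MeasurableSet.iInter hm) (fun t ht n => ?_) fun t ht j hs => ?_
    · rw [Set.mem_iInter] at ht
      obtain ⟨m, -, hmax⟩ :=
        (range (n + 1)).exists_max_image (fun k => h (site t k)) (by simp)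
      obtain ⟨r, hr⟩ := exists_nat_gt (h (site t m))
      have hex : ∃ j, h (site t m) < h (site t j) := (ht r).1.imp fun k hk => hr.trans_le hk
      refine ⟨Nat.find hex, ?_, fun k hk =>
        lt_of_le_of_lt (not_lt.1 (Nat.find_min hex hk)) (Nat.find_spec hex)⟩
      by_contra! hle
      exact absurd (Nat.find_spec hex) (not_lt.2 (hmax _ (mem_range.2 (by omega))))
    · rw [Set.mem_iInter] at ht
      refine (ht 0).2 ((tendsto_add_atTop_iff_nat j).1 ?_)
      exact (tendsto_atTop_add_const_left _ (h (site t j)) hs.2).congr fun k => by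
        rw [add_comm k j, site_shiftT, map_add]
  rwa [hnull] at hlim

/-- A walk escaping upwards does not reach deep levels. -/
theorem IsAnnealed.reach_down_up {μ : Measure (Row d)} [IsProbabilityMeasure μ]
    {P : Measure (Traj d)} {h : Site d →+ ℝ} (hP : IsAnnealed μ P) :
    Tendsto (fun r : ℕ => P (Reach (-h) r ∩ Up h)) atTop (𝓝 0) := by
  haveI := hP.1
  have hlim := tendsto_measure_iInter_atTop (μ := P) (s := fun r : ℕ => Reach (-h) r ∩ Up h)
    (fun r => ((measurableSet_reach (-h) r).inter (measurableSet_up h)).nullMeasurableSet)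
    (fun a b hab => Set.inter_subset_inter_left _ (antitone_reach (-h) hab))
    ⟨0, measure_ne_top P _⟩
  have hempty : (⋂ r : ℕ, Reach (-h) r ∩ Up h) = ∅ := by
    refine Set.eq_empty_iff_forall_notMem.2 fun t ht => ?_
    rw [Set.mem_iInter] at ht
    obtain ⟨N, hN⟩ := eventually_atTop.1 ((ht 0).2.eventually_ge_atTop (0 : ℝ))
    obtain ⟨r, hr⟩ := exists_nat_gt (∑ k ∈ range N, |h (site t k)|)
    obtain ⟨k, hk⟩ := (ht r).1
    rw [AddMonoidHom.neg_apply] at hk
    have hnn : 0 ≤ ∑ k ∈ range N, |h (site t k)| := sum_nonneg fun _ _ => abs_nonneg _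
    rcases lt_or_ge k N with hkN | hkN
    · linarith [single_le_sum (f := fun k => |h (site t k)|) (fun _ _ => abs_nonneg _)
        (mem_range.2 hkN), neg_le_abs (h (site t k))]
    · linarith [hN k hkN]
  rwa [hempty, measure_empty] at hlim

theorem le_site_of_blockEvent {g : Site d →+ ℝ} {ws : List (List (Step d))} {t : Traj d}
    (ht : t ∈ blockEvent g ws) {k : ℕ} (hk : ws.flatten.length ≤ k) :
    g (disp ws.flatten) ≤ g (site t k) := by
  have h1 := ht.2.1 (k - ws.flatten.length)
  rw [← Nat.add_sub_cancel' hk, site_shiftT, site_of_mem_cyl ht.1 le_rfl, List.take_length,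
    map_add]
  linarith

theorem site_lt_of_blockEvent {g : Site d →+ ℝ} {ws : List (List (Step d))} {t : Traj d}
    (hws : ∀ π ∈ ws, IsBlock g π) (ht : t ∈ blockEvent g ws) {k : ℕ}
    (hk : k < ws.flatten.length) : g (site t k) < g (disp ws.flatten) := by
  rw [site_of_mem_cyl ht.1 hk.le]
  exact (flatten_range hws hk).2

theorem cross_split {g : Site d →+ ℝ} {b : ℝ} (hb : 0 ≤ b) {p : List (List (Step d))}
    (hp : p ∈ cross g b) : ∃ hne : p ≠ [], g (disp p.dropLast.flatten) ≤ b ∧
      p = p.dropLast ++ [p.getLast hne] ∧ (∀ π ∈ p.dropLast, IsBlock g π) ∧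
      IsBlock g (p.getLast hne) := by
  have hne : p ≠ [] := by
    intro h0
    have := hp.2.1
    simp only [h0, List.flatten_nil, disp_nil, map_zero] at this
    linarith
  refine ⟨hne, ?_, (List.dropLast_append_getLast hne).symm,
    fun π hπ => hp.1 π (List.mem_of_mem_dropLast hπ), hp.1 _ (List.getLast_mem hne)⟩
  rw [List.dropLast_eq_take]
  exact hp.2.2 _ (by have := List.length_pos_iff.2 hne; omega)

theorem levels_tsum_ex {μ : Measure (Row d)} {h : Site d →+ ℝ}
    (F : List (List (Step d)) → ℝ≥0∞) : ∑' n, ex μ h n F = ∑' ws, bprod μ h ws * F ws := by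
  classical
  simp only [ex_eq_tsum]
  rw [ENNReal.tsum_comm]
  refine tsum_congr fun ws => ?_
  rw [tsum_eq_single ws.length fun n hn => if_neg (Ne.symm hn), if_pos rfl]

open Classical in
/-- The expected number of block ends below a level grows at most linearly. -/
theorem tsum_bprod_le {μ : Measure (Row d)} [IsProbabilityMeasure μ] {g : Site d →+ ℝ}
    (hb : ∑' π, bwgt μ g π = 1) {e : Step d} (he : g (vec e) = 1) {G : ℝ} (hG : 0 ≤ G) :
    ∑' ws, (if g (disp ws.flatten) ≤ G then bprod μ g ws else 0)
      ≤ (bwgt μ g [e])⁻¹ * ENNReal.ofReal (G + 3) := by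
  calc ∑' ws, (if g (disp ws.flatten) ≤ G then bprod μ g ws else 0)
      ≤ ∑' n, ∑ s ∈ Finset.Icc (0 : ℤ) ⌊G⌋, ex μ g n
          (fun ws => if ⌊0 + g (disp ws.flatten)⌋ = s then 1 else 0) := by
        refine le_trans (le_of_eq ?_) (ENNReal.tsum_le_tsum (f := fun n => ex μ g n
          fun ws => if g (disp ws.flatten) ≤ G then 1 else 0) fun n => ?_)
        · rw [levels_tsum_ex]
          exact tsum_congr fun ws => by split_ifs <;> simp
        rw [← ex_sum]
        refine ex_mono_of fun ws _ hws => ?_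
        split_ifs with h1
        · rw [sum_eq_single_of_mem ⌊g (disp ws.flatten)⌋
            (mem_Icc.2 ⟨Int.floor_nonneg.2 (flatten_disp_nonneg hws), Int.floor_le_floor h1⟩)
            fun s _ hs => by simp [Ne.symm hs]]
          simp
        · exact bot_le
    _ = ∑ s ∈ Finset.Icc (0 : ℤ) ⌊G⌋, ∑' n, ex μ g n
          (fun ws => if ⌊0 + g (disp ws.flatten)⌋ = s then 1 else 0) :=
        Summable.tsum_finsetSum fun s _ => ENNReal.summable
    _ ≤ ((Finset.Icc (0 : ℤ) ⌊G⌋).card : ℝ≥0∞) * (bwgt μ g [e])⁻¹ := by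
        refine le_trans (sum_le_sum fun s _ => tsum_ex_bin_le hb he 0 s) ?_
        simp
    _ ≤ _ := by
        rw [mul_comm]
        gcongr
        rw [← ENNReal.ofReal_natCast]
        refine ENNReal.ofReal_le_ofReal ?_
        obtain ⟨m, hm⟩ := Int.eq_ofNat_of_zero_le (Int.floor_nonneg.2 hG)
        have hmG := Int.floor_le G
        rw [hm] at hmG ⊢
        rw [Int.card_Icc, show ((m : ℤ) + 1 - 0).toNat = m + 1 by omega]
        push_cast at hmG ⊢
        linarith

/-- After first passing `G`, a descending escape comes back by `r` only through a long block. -/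
theorem Setup.backtrack_le (S : Setup d) : ∃ K : ℝ≥0∞, K ≠ ⊤ ∧ ∀ G r : ℝ, 0 ≤ G →
    S.P (Esc (-S.h) ∩ {t | ∃ k k', k ≤ k' ∧ G < (-S.h) (site t k) ∧ (-S.h) (site t k') ≤ G - r})
      ≤ K * ENNReal.ofReal (G + 3) * S.tailM r := by
  classical
  haveI := S.ann.1
  refine ⟨(bwgt S.μ (-S.h) [S.e₁])⁻¹, ENNReal.inv_ne_top.2 S.bwgt_e₁_ne_zero, fun G r hG => ?_⟩
  set g := -S.h with hg
  set A : Set (Traj d) :=
    Esc g ∩ {t | ∃ k k', k ≤ k' ∧ G < g (site t k) ∧ g (site t k') ≤ G - r}
  let F : List (List (Step d)) × List (Step d) → ℝ≥0∞ := fun x =>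
    (if g (disp x.1.flatten) ≤ G then bprod S.μ g x.1 else 0)
      * (if r < g (disp x.2) then bwgt S.μ g x.2 else 0)
  let split : cross g G → List (List (Step d)) × List (Step d) := fun p =>
    (p.1.dropLast, p.1.getLast (cross_split hG p.2).1)
  have hinj : Function.Injective split := by
    intro p q hpq
    simp only [split, Prod.mk.injEq] at hpq
    refine Subtype.ext ?_
    rw [(cross_split hG p.2).2.2.1, (cross_split hG q.2).2.2.1, hpq.1, hpq.2]
  calc S.P A ≤ ∑' p : cross g G, S.P (A ∩ blockEvent g p.1) :=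
        S.ann.measure_le_cross S.escM S.bwgt_e₁_ne_zero S.he₁ G Set.inter_subset_left
    _ ≤ ∑' p, F (split p) := by
        refine ENNReal.tsum_le_tsum fun p => ?_
        obtain ⟨hne, hlow, hsp, hq, hπ⟩ := cross_split hG p.2
        rcases (A ∩ blockEvent g p.1).eq_empty_or_nonempty with he | ⟨t, ⟨-, k, k', hkk, hk, hk'⟩, ht⟩
        · simp [he]
        have htq : t ∈ blockEvent g p.1.dropLast := by
          refine blockEvent_append_subset (b := [p.1.getLast hne]) (by simpa using hπ) ?_
          rwa [← hsp]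
        have hlen : p.1.dropLast.flatten.length ≤ k := by
          by_contra! hlt
          linarith [site_lt_of_blockEvent hq htq hlt]
        have hlast : r < g (disp (p.1.getLast hne)) := by
          have h1 := le_site_of_blockEvent htq (hlen.trans hkk)
          have h2 := p.2.2.1
          rw [hsp, List.flatten_append, disp_append, map_add, List.flatten_cons, List.flatten_nil,
            List.append_nil] at h2
          linarith
        refine (measure_mono Set.inter_subset_right).trans ?_
        rw [S.ann.measure_blockEvent p.2.1]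
        refine (mul_le_of_le_one_right' prob_le_one).trans (le_of_eq ?_)
        simp only [F, split, if_pos hlow, if_pos hlast]
        conv_lhs => rw [hsp]
        simp [bprod]
    _ ≤ ∑' x, F x := ENNReal.tsum_comp_le_tsum_of_injective hinj F
    _ = (∑' ws, if g (disp ws.flatten) ≤ G then bprod S.μ g ws else 0) * S.tailM r := by
        rw [ENNReal.tsum_prod']
        simp only [F, ENNReal.tsum_mul_left, ENNReal.tsum_mul_right]
        rfl
    _ ≤ _ := mul_le_mul' (tsum_bprod_le (S.ann.tsum_bwgt S.escM) S.he₁ hG) le_rfl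

/-- Every window of length two carries block sums with total weight at least `P(Esc)`. -/
theorem Setup.renew_window (S : Setup d) (r : ℝ) (hr : 0 ≤ r) :
    S.P (Esc S.h) ≤ ∑' i, ex S.μ S.h i fun ws =>
      @ite _ (r ≤ S.h (disp ws.flatten) ∧ S.h (disp ws.flatten) < r + 2) (Classical.dec _) 1 0 := by
  classical
  haveI := S.ann.1
  set L := ⌊r⌋₊ + 1 with hL
  have hp : bwgt S.μ S.h [S.e₀] ≠ 0 := by
    simp only [bwgt, if_pos (isBlock_singleton (S.he₀.symm ▸ zero_lt_one))]
    exact pw_pos S.μ S.ell 0 _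
  refine (ENNReal.mul_le_mul_iff_left S.escP (measure_ne_top S.P _)).1
    ((S.ann.cut_in_bin S.unit L).trans ?_)
  refine (S.ann.measure_le_cross S.escP hp S.he₀ r Set.inter_subset_left).trans ?_
  rw [levels_tsum_ex, ← ENNReal.tsum_mul_right]
  refine le_trans (ENNReal.tsum_le_tsum fun p => ?_)
    (ENNReal.tsum_comp_le_tsum_of_injective (Subtype.val_injective (p := (· ∈ cross S.h r))) _)
  rcases ((Esc S.h ∩ ⋃ m, {t | IsCut S.h t m} ∩ {t | ⌊S.h (site t m)⌋ = (L : ℤ)}) ∩
    blockEvent S.h p.1).eq_empty_or_nonempty with he | ⟨t, ⟨-, htU⟩, ht⟩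
  · simp [he]
  obtain ⟨m, hc, hm⟩ := Set.mem_iUnion.1 htU
  replace hm : ⌊S.h (site t m)⌋ = (L : ℤ) := hm
  rw [Int.floor_eq_iff, Int.cast_natCast, hL, Nat.cast_add, Nat.cast_one] at hm
  have hfl := Nat.floor_le hr
  have hlt := Nat.lt_floor_add_one r
  obtain ⟨hne, hlow, hsp, hq, hπ⟩ := cross_split hr p.2
  have htq : t ∈ blockEvent S.h p.1.dropLast := by
    refine blockEvent_append_subset (b := [p.1.getLast hne]) (by simpa using hπ) ?_
    rwa [← hsp]
  have hfl' : p.1.flatten = p.1.dropLast.flatten ++ p.1.getLast hne := by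
    conv_lhs => rw [hsp]
    simp
  have hlen : p.1.dropLast.flatten.length < m := by
    by_contra! hle
    rcases hle.lt_or_eq with h1 | h1
    · linarith [site_lt_of_blockEvent hq htq h1]
    · rw [h1, site_of_mem_cyl htq.1 le_rfl, List.take_length] at hm
      linarith
  have hend : p.1.flatten.length ≤ m := by
    by_contra! hlt'
    obtain ⟨j, rfl⟩ := Nat.exists_eq_add_of_le hlen.le
    have htc := ht.1
    rw [hfl', cyl_append] at htc
    rw [hfl', List.length_append] at hlt'
    exact not_isCut_inside hπ htc.2 (by omega) (by omega) hc.shift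
  have hup := le_site_of_blockEvent ht hend
  refine (measure_mono Set.inter_subset_right).trans ?_
  rw [S.ann.measure_blockEvent p.2.1]
  refine mul_le_mul' (le_of_eq ?_) le_rfl
  rw [if_pos ⟨p.2.2.1.le, by linarith⟩, mul_one]

end Vale.Agent.P147
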