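import Mathlib
import Vale.Agent.P147.Setup
import Vale.Agent.P147.Local
import Vale.Agent.P147.Atoms

/-!
# P147: the law of a sum of blocks is nearly a mixture of flat kernels

`Setup.conv_split`: to bound an average over the law of the sum of `m` blocks it is enough, up to
`C / m + C / L²`, to bound it over kernels with point masses `O(m^(-3/2))` that live in a height
band of width `L √m`.
-/

namespace Vale.Agent.P147

open Finset Filter
open scoped ENNReal Topology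

variable {d : ℕ}

lemma sum_bw (n : ℕ) : ∑ k ∈ range (n + 1), bw n k = 1 := by
  simp only [bw, ← Finset.sum_div]
  rw [div_eq_one_iff_eq (by positivity)]
  exact_mod_cast Nat.sum_range_choose n

lemma sum_bw_mul_sq (n : ℕ) :
    ∑ k ∈ range (n + 1), bw n k * ((k : ℝ) - n / 2) ^ 2 = (n : ℝ) / 4 := by
  have h : ∑ k ∈ range (n + 1), (n.choose k : ℝ) * (2 * (k : ℝ) - n) ^ 2 = (n : ℝ) * 2 ^ n := by
    exact_mod_cast congrArg (Int.cast (R := ℝ)) (sum_choose_mul_sq n)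
  calc ∑ k ∈ range (n + 1), bw n k * ((k : ℝ) - n / 2) ^ 2
      = (∑ k ∈ range (n + 1), (n.choose k : ℝ) * (2 * (k : ℝ) - n) ^ 2) / (4 * 2 ^ n) := by
        rw [Finset.sum_div]
        refine sum_congr rfl fun k _ => ?_
        simp only [bw]
        field_simp
        ring
    _ = _ := by rw [h]; field_simp

/-- A product of three fair binomial laws is a flat kernel in a band, up to `O(1/L²)`. -/
lemma cube_flat (h : Site d →+ ℝ) (a₀ : Site d) (a : Fin 3 → Site d)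
    (hli : Function.Injective fun k : Fin 3 → ℤ => ∑ i, k i • (a i - a₀))
    (hab : ∀ i, a₀ ≠ a i) {j m L D : ℕ} (hm : 0 < m) (hL : 0 < L) (hjm : j ≤ m)
    (hmj : m ≤ D * (j + 1)) (F : Site d → ℝ≥0∞) (hF : ∀ x, F x ≤ 1) (B : ℝ≥0∞)
    (hB : ∀ (κ : Site d → ℝ≥0∞) (s : ℝ), ∑' x, κ x ≤ 1 →
      (∀ x, κ x ≤ ENNReal.ofReal (8 * ((D : ℝ) * √D)) / ENNReal.ofReal ((m : ℝ) * √m)) →
      (∀ x, κ x ≠ 0 → s ≤ h x ∧ h x ≤ s + L * √m) → ∑' x, κ x * F x ≤ B) (v : Site d) :
    (shOp (pairLaw a₀ (a 0)) ∘ shOp (pairLaw a₀ (a 1)) ∘ shOp (pairLaw a₀ (a 2)))^[j] F v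
      ≤ B + ENNReal.ofReal (3 * ∑ i, h (a i - a₀) ^ 2) / (L : ℝ≥0∞) ^ 2 := by
  classical
  rw [(((shOp_comm _ _).comp_right (shOp_comm _ _))).comp_iterate, (shOp_comm _ _).comp_iterate]
  simp only [Function.comp_apply, shOp_pairLaw_iterate (hab _), mul_sum]
  set u : Fin 3 → Site d := fun i => a i - a₀ with hu
  set w : Site d := v + j • a₀ + j • a₀ + j • a₀ with hw
  set pt : ℕ × ℕ × ℕ → Site d := fun p => w + p.1 • u 0 + p.2.1 • u 1 + p.2.2 • u 2 with hpt
  set W : ℕ × ℕ × ℕ → ℝ := fun p => bw j p.1 * bw j p.2.1 * bw j p.2.2 with hW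
  set X : ℕ × ℕ × ℕ → ℝ := fun p => h (u 0) * ((p.1 : ℝ) - j / 2) + h (u 1) * ((p.2.1 : ℝ) - j / 2)
    + h (u 2) * ((p.2.2 : ℝ) - j / 2) with hX
  set z : ℝ := h w + ∑ i, h (u i) * ((j : ℝ) / 2) with hz
  set r : ℝ := (L : ℝ) * √m / 2 with hr
  set box := range (j + 1) ×ˢ range (j + 1) ×ˢ range (j + 1) with hbox
  set S : ℝ := ∑ i, h (u i) ^ 2 with hS
  set good := box.filter fun p => |X p| ≤ r
  have hW0 : ∀ p, 0 ≤ W p := fun p =>
    mul_nonneg (mul_nonneg (bw_nonneg _ _) (bw_nonneg _ _)) (bw_nonneg _ _)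
  have hmR : (0 : ℝ) < m := by exact_mod_cast hm
  have hLR : (0 : ℝ) < L := by exact_mod_cast hL
  have hinj : Set.InjOn pt box := by
    intro p _ q _ hpq
    have := @hli ![(p.1 : ℤ), p.2.1, p.2.2] ![(q.1 : ℤ), q.2.1, q.2.2] (by
      simp only [hpt, add_assoc, add_right_inj] at hpq
      simp only [Fin.sum_univ_three, Matrix.cons_val_zero, Matrix.cons_val_one,
        Matrix.cons_val, natCast_zsmul, add_assoc]
      exact hpq)
    obtain ⟨x1, y1, z1⟩ := p
    obtain ⟨x2, y2, z2⟩ := q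
    have e0 := congrFun this 0
    have e1 := congrFun this 1
    have e2 := congrFun this 2
    simp at e0 e1 e2
    simp [e0, e1, e2]
  have hW1 : ∀ p, W p ≤ 8 * ((D : ℝ) * √D) / ((m : ℝ) * √m) := by
    intro p
    set n : ℝ := ((j + 1 : ℕ) : ℝ) with hn
    have hn0 : 0 < n := by rw [hn]; positivity
    have h1 : W p ≤ 2 / √n * (2 / √n) * (2 / √n) :=
      mul_le_mul (mul_le_mul (bw_le_inv_sqrt _ _) (bw_le_inv_sqrt _ _) (bw_nonneg _ _)
        (by positivity)) (bw_le_inv_sqrt _ _) (bw_nonneg _ _) (by positivity)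
    refine h1.trans (le_of_eq_of_le (show _ = 8 / (n * √n) by
      rw [div_mul_div_comm, Real.mul_self_sqrt hn0.le, div_mul_div_comm]; norm_num) ?_)
    rw [div_le_div_iff₀ (by positivity) (by positivity)]
    have h2 : (m : ℝ) ≤ D * n := by rw [hn]; exact_mod_cast hmj
    have h3 : √(m : ℝ) ≤ √D * √n := by
      rw [← Real.sqrt_mul (Nat.cast_nonneg D)]; exact Real.sqrt_le_sqrt h2
    calc 8 * ((m : ℝ) * √m) ≤ 8 * (((D : ℝ) * n) * (√D * √n)) := by
          gcongr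
      _ = _ := by ring
  set κ : Site d → ℝ≥0∞ := fun x => ∑ p ∈ good, if pt p = x then ENNReal.ofReal (W p) else 0
    with hκ
  have hκsum : ∀ G : Site d → ℝ≥0∞,
      ∑' x, κ x * G x = ∑ p ∈ good, ENNReal.ofReal (W p) * G (pt p) := by
    intro G
    simp only [hκ, sum_mul]
    rw [Summable.tsum_finsetSum fun i _ => ENNReal.summable]
    refine sum_congr rfl fun p _ => ?_
    rw [tsum_eq_single (pt p) fun x hx => by rw [if_neg (Ne.symm hx), zero_mul], if_pos rfl]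
  have hWsum : ∑ p ∈ box, W p = 1 := by
    simp only [hbox, hW, sum_product, mul_assoc, ← mul_sum, sum_bw, mul_one]
  have hκ1 : ∑' x, κ x ≤ 1 := by
    calc ∑' x, κ x = ∑' x, κ x * 1 := by simp only [mul_one]
      _ = ∑ p ∈ good, ENNReal.ofReal (W p) * 1 := hκsum fun _ => 1
      _ ≤ ∑ p ∈ box, ENNReal.ofReal (W p) := by
          simp only [mul_one]; exact sum_le_sum_of_subset (filter_subset _ _)
      _ = 1 := by rw [← ENNReal.ofReal_sum_of_nonneg fun p _ => hW0 p, hWsum, ENNReal.ofReal_one]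
  have hκA : ∀ x, κ x ≤ ENNReal.ofReal (8 * ((D : ℝ) * √D)) / ENNReal.ofReal ((m : ℝ) * √m) := by
    intro x
    rw [← ENNReal.ofReal_div_of_pos (by positivity)]
    by_cases hx : ∃ p ∈ good, pt p = x
    · obtain ⟨p, hp, rfl⟩ := hx
      refine le_of_eq_of_le (sum_eq_single p (fun q hq hqp => if_neg fun he => hqp
        (hinj (mem_filter.1 hq).1 (mem_filter.1 hp).1 he)) fun hh => absurd hp hh) ?_
      rw [if_pos rfl]
      exact ENNReal.ofReal_le_ofReal (hW1 p)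
    · refine le_of_eq_of_le (sum_eq_zero fun p hp => if_neg fun he => hx ⟨p, hp, he⟩) bot_le
  have hκband : ∀ x, κ x ≠ 0 → z - r ≤ h x ∧ h x ≤ z - r + L * √m := by
    intro x hx
    obtain ⟨p, hp, hne⟩ := exists_ne_zero_of_sum_ne_zero hx
    obtain rfl : pt p = x := by by_contra hh; exact hne (if_neg hh)
    have h1 : h (pt p) = z + X p := by
      simp only [hpt, hz, hX, map_add, map_nsmul]
      simp only [Fin.sum_univ_three, nsmul_eq_mul]
      ring
    have h2 := abs_le.1 (mem_filter.1 hp).2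
    rw [h1]
    constructor <;> linarith [h2.1, h2.2, show r = (L : ℝ) * √m / 2 from hr]
  have hbad : ∑ p ∈ box.filter (fun p => ¬ |X p| ≤ r), W p ≤ 3 * S / (L : ℝ) ^ 2 := by
    have hr2 : r ^ 2 = (L : ℝ) ^ 2 * m / 4 := by
      rw [hr, div_pow, mul_pow, Real.sq_sqrt (Nat.cast_nonneg m)]; norm_num
    have hsq : ∀ p, X p ^ 2 ≤ S * (((p.1 : ℝ) - j / 2) ^ 2 + ((p.2.1 : ℝ) - j / 2) ^ 2
        + ((p.2.2 : ℝ) - j / 2) ^ 2) := by
      intro p
      simp only [hS, hX, Fin.sum_univ_three]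
      nlinarith [sq_nonneg (h (u 0) * ((p.2.1 : ℝ) - j / 2) - h (u 1) * ((p.1 : ℝ) - j / 2)),
        sq_nonneg (h (u 0) * ((p.2.2 : ℝ) - j / 2) - h (u 2) * ((p.1 : ℝ) - j / 2)),
        sq_nonneg (h (u 1) * ((p.2.2 : ℝ) - j / 2) - h (u 2) * ((p.2.1 : ℝ) - j / 2))]
    have hfac : ∀ f g k : ℕ → ℝ, ∑ p ∈ box, f p.1 * g p.2.1 * k p.2.2
        = (∑ i ∈ range (j + 1), f i) * (∑ i ∈ range (j + 1), g i) * ∑ i ∈ range (j + 1), k i := by
      intro f g k
      simp only [hbox, sum_product, ← mul_sum, ← sum_mul]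
    have hmom : ∑ p ∈ box, W p * (((p.1 : ℝ) - j / 2) ^ 2 + ((p.2.1 : ℝ) - j / 2) ^ 2
        + ((p.2.2 : ℝ) - j / 2) ^ 2) = 3 * ((j : ℝ) / 4) := by
      set q : ℕ → ℝ := fun i => bw j i * ((i : ℝ) - j / 2) ^ 2 with hq
      calc _ = ∑ p ∈ box, (q p.1 * bw j p.2.1 * bw j p.2.2 + bw j p.1 * q p.2.1 * bw j p.2.2
            + bw j p.1 * bw j p.2.1 * q p.2.2) :=
            sum_congr rfl fun p _ => by simp only [hW, hq]; ring
        _ = _ := by
            rw [sum_add_distrib, sum_add_distrib, hfac, hfac, hfac, sum_bw]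
            simp only [hq, sum_bw_mul_sq]
            ring
    have hterm : ∀ p ∈ box.filter (fun p => ¬ |X p| ≤ r), W p ≤ W p * (X p ^ 2 / r ^ 2) := by
      intro p hp
      refine le_mul_of_one_le_right (hW0 p) ?_
      rw [one_le_div₀ (by positivity), ← sq_abs (X p)]
      exact pow_le_pow_left₀ (by positivity) (not_le.1 (mem_filter.1 hp).2).le 2
    calc ∑ p ∈ box.filter (fun p => ¬ |X p| ≤ r), W p
        ≤ ∑ p ∈ box.filter (fun p => ¬ |X p| ≤ r), W p * (X p ^ 2 / r ^ 2) := sum_le_sum hterm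
      _ ≤ ∑ p ∈ box, W p * (X p ^ 2 / r ^ 2) :=
          sum_le_sum_of_subset_of_nonneg (filter_subset _ _) fun p _ _ =>
            mul_nonneg (hW0 p) (by positivity)
      _ ≤ ∑ p ∈ box, S / r ^ 2 * (W p * (((p.1 : ℝ) - j / 2) ^ 2 + ((p.2.1 : ℝ) - j / 2) ^ 2
            + ((p.2.2 : ℝ) - j / 2) ^ 2)) := by
          refine sum_le_sum fun p _ => ?_
          have := mul_le_mul_of_nonneg_left
            (div_le_div_of_nonneg_right (hsq p) (sq_nonneg r)) (hW0 p)
          exact this.trans_eq (by ring)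
      _ = 3 * S / (L : ℝ) ^ 2 * ((j : ℝ) / m) := by
          rw [← mul_sum, hmom, hr2]
          field_simp
      _ ≤ _ := mul_le_of_le_one_right (by positivity)
          ((div_le_one hmR).2 (by exact_mod_cast hjm))
  calc _ = ∑ p ∈ box, ENNReal.ofReal (W p) * F (pt p) := by
        rw [hbox, sum_product]
        refine sum_congr rfl fun i _ => ?_
        rw [sum_product]
        refine sum_congr rfl fun k _ => sum_congr rfl fun l _ => ?_
        simp only [hW]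
        rw [ENNReal.ofReal_mul (mul_nonneg (bw_nonneg _ _) (bw_nonneg _ _)),
          ENNReal.ofReal_mul (bw_nonneg _ _), ofReal_bw, ofReal_bw, ofReal_bw]
        have : v + j • a₀ + i • (a 0 - a₀) + j • a₀ + k • (a 1 - a₀) + j • a₀ + l • (a 2 - a₀)
            = pt (i, k, l) := by simp only [hpt, hw, hu]; abel
        rw [this]; ring
    _ = ∑ p ∈ good, ENNReal.ofReal (W p) * F (pt p)
        + ∑ p ∈ box.filter (fun p => ¬ |X p| ≤ r), ENNReal.ofReal (W p) * F (pt p) :=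
        (sum_filter_add_sum_filter_not box _ _).symm
    _ ≤ B + ∑ p ∈ box.filter (fun p => ¬ |X p| ≤ r), ENNReal.ofReal (W p) :=
        add_le_add ((hκsum F).symm.trans_le (hB κ (z - r) hκ1 hκA hκband))
          (sum_le_sum fun p _ => mul_le_of_le_one_right' (hF _))
    _ ≤ _ := by
        refine add_le_add le_rfl ?_
        rw [← ENNReal.ofReal_sum_of_nonneg fun p _ => hW0 p]
        refine (ENNReal.ofReal_le_ofReal hbad).trans_eq ?_
        rw [ENNReal.ofReal_div_of_pos (by positivity), ENNReal.ofReal_pow hLR.le,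
          ENNReal.ofReal_natCast]
        simp only [hS, hu, mul_sum]

/-- Mixing with geometric control: if `T = w P + R` and `Pⁱ g ≤ B + E 2⁻ⁱ` for `i ≤ n`, then
`Tⁿ g ≤ B + E (w/2 + q)ⁿ`. -/
lemma mix_decay {X : Type*} (T P R : (X → ℝ≥0∞) → X → ℝ≥0∞) {w q : ℝ≥0∞} (hwq : w + q = 1)
    (hT : ∀ f, T f = w • P f + R f) (hTadd : ∀ f g, T (f + g) = T f + T g)
    (hTsmul : ∀ (c : ℝ≥0∞) f, T (c • f) = c • T f) (hRT : Function.Commute R T)
    (hRmono : Monotone R) (hR : ∀ c : ℝ≥0∞, R (fun _ => c) = fun _ => q * c) (g : X → ℝ≥0∞)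
    {B E : ℝ≥0∞} {N : ℕ} (hP : ∀ i ≤ N, ∀ x, P^[i] g x ≤ B + E * 2⁻¹ ^ i) :
    ∀ n i : ℕ, i + n ≤ N → ∀ x,
      T^[n] (P^[i] g) x ≤ B + E * 2⁻¹ ^ i * (w * 2⁻¹ + q) ^ n := by
  intro n
  induction n with
  | zero => intro i hi x; simpa using hP i (by omega) x
  | succ n ih =>
    intro i hi x
    have hadd : ∀ (j : ℕ) f g, T^[j] (f + g) = T^[j] f + T^[j] g := fun j => by
      induction j with
      | zero => simp
      | succ j ihj => intro f g; rw [Function.iterate_succ_apply', ihj, hTadd,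
          Function.iterate_succ_apply', Function.iterate_succ_apply']
    have hsmul : ∀ (j : ℕ) (c : ℝ≥0∞) f, T^[j] (c • f) = c • T^[j] f := fun j => by
      induction j with
      | zero => simp
      | succ j ihj => intro c f; rw [Function.iterate_succ_apply', ihj, hTsmul,
          Function.iterate_succ_apply']
    rw [Function.iterate_succ_apply, hT, hadd, hsmul, ← (hRT.iterate_right n).eq,
      ← Function.iterate_succ_apply' P i g]
    have h1 := ih (i + 1) (by omega) x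
    have h2 := hRmono (show T^[n] (P^[i] g) ≤ fun _ => B + E * 2⁻¹ ^ i * (w * 2⁻¹ + q) ^ n from
      fun y => ih i (by omega) y) x
    rw [hR] at h2
    simp only [Pi.add_apply, Pi.smul_apply, smul_eq_mul]
    refine (add_le_add (mul_le_mul_right h1 _) h2).trans_eq ?_
    calc w * (B + E * 2⁻¹ ^ (i + 1) * (w * 2⁻¹ + q) ^ n)
          + q * (B + E * 2⁻¹ ^ i * (w * 2⁻¹ + q) ^ n)
        = (w + q) * B + E * 2⁻¹ ^ i * (w * 2⁻¹ + q) ^ (n + 1) := by ring
      _ = _ := by rw [hwq, one_mul]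

/-- The abstract splitting for a law with four affinely independent atoms. -/
theorem conv_split_of_atoms (ν : Site d → ℝ≥0∞) (hν : ∑' x, ν x = 1) (h : Site d →+ ℝ)
    (a₀ : Site d) (a : Fin 3 → Site d) (ha₀ : ν a₀ ≠ 0) (ha : ∀ i, ν (a i) ≠ 0)
    (hli : Function.Injective fun k : Fin 3 → ℤ => ∑ i, k i • (a i - a₀)) :
    ∃ A C : ℝ≥0∞, A ≠ ⊤ ∧ C ≠ ⊤ ∧
      ∀ m L : ℕ, 0 < m → 0 < L → ∀ F : Site d → ℝ≥0∞, (∀ x, F x ≤ 1) → ∀ B : ℝ≥0∞,
        (∀ (κ : Site d → ℝ≥0∞) (s : ℝ), ∑' x, κ x ≤ 1 →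
          (∀ x, κ x ≤ A / ENNReal.ofReal ((m : ℝ) * √m)) →
          (∀ x, κ x ≠ 0 → s ≤ h x ∧ h x ≤ s + L * √m) → ∑' x, κ x * F x ≤ B) →
        ∑' x, conv ν m x * F x ≤ B + C / m + C / (L : ℝ≥0∞) ^ 2 := by
  have hab : ∀ i, a₀ ≠ a i := by
    intro i he
    have hp : (Pi.single i (1 : ℤ) : Fin 3 → ℤ) = 0 := hli (by
      show ∑ j, (Pi.single i (1 : ℤ) : Fin 3 → ℤ) j • (a j - a₀) = ∑ j, (0 : ℤ) • (a j - a₀)
      rw [sum_eq_single i (fun j _ hj => by simp [hj]) (by simp)]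
      simp [he])
    simpa using congrFun hp i
  set c : ℝ≥0∞ := min (ν a₀) (univ.inf fun i => ν (a i)) with hc
  have hc0 : c ≠ 0 := by
    rw [hc, ← pos_iff_ne_zero, lt_min_iff, Finset.lt_inf_iff (by simp)]
    exact ⟨pos_iff_ne_zero.2 ha₀, fun i _ => pos_iff_ne_zero.2 (ha i)⟩
  choose r hr using fun i => exists_pair_split ν (a := a₀) (b := a i) (min_le_left _ _)
    ((min_le_right _ _).trans (Finset.inf_le (f := fun i => ν (a i)) (mem_univ i)))
  rw [← hc] at hr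
  set T := shOp ν with hT
  set P : Fin 3 → (Site d → ℝ≥0∞) → Site d → ℝ≥0∞ := fun i => shOp (pairLaw a₀ (a i)) with hP
  set α := 2 * c with hα
  have hαle : α ≤ 1 := by
    calc α = c + c := two_mul c
      _ ≤ ν a₀ + ν (a 0) := add_le_add (min_le_left _ _) ((min_le_right _ _).trans
          (Finset.inf_le (f := fun i => ν (a i)) (mem_univ 0)))
      _ = ∑ y ∈ {a₀, a 0}, ν y := (sum_pair (hab 0)).symm
      _ ≤ _ := (ENNReal.sum_le_tsum _).trans hν.le
  set R : (Site d → ℝ≥0∞) → Site d → ℝ≥0∞ := fun f =>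
    (α * α) • P 0 (P 1 (shOp (r 2) f)) + α • P 0 (shOp (r 1) (T f)) + shOp (r 0) (T (T f))
    with hR
  have hT3 : ∀ f, T (T (T f)) = (α ^ 3) • (P 0 ∘ P 1 ∘ P 2) f + R f := by
    intro f
    have e2 : T f = α • P 2 f + shOp (r 2) f := hr 2 f
    calc T (T (T f)) = α • P 0 (T (T f)) + shOp (r 0) (T (T f)) := hr 0 _
      _ = α • P 0 (α • P 1 (T f) + shOp (r 1) (T f)) + shOp (r 0) (T (T f)) := by
          congr 3; exact hr 1 (T f)
      _ = α • P 0 (α • P 1 (α • P 2 f + shOp (r 2) f) + shOp (r 1) (T f))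
          + shOp (r 0) (T (T f)) := by congr 6
      _ = _ := by
          simp only [hP, hR, Function.comp_apply, shOp_add, shOp_smul, smul_add, smul_smul]
          rw [show α ^ 3 = α * α * α by ring, ← mul_assoc]
          abel
  set w : ℝ≥0∞ := α ^ 3 with hw
  have hw1 : w ≤ 1 := pow_le_one₀ zero_le hαle
  have hwtop : w ≠ ⊤ := ne_top_of_le_ne_top ENNReal.one_ne_top hw1
  have hw0 : w ≠ 0 := pow_ne_zero _ (mul_ne_zero two_ne_zero hc0)
  have hPconst : ∀ i e, P i (fun _ => e) = fun _ => e := fun i e => by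
    funext v
    simp only [hP, shOp_pairLaw (hab i), ← two_mul, ← mul_assoc,
      ENNReal.inv_mul_cancel two_ne_zero ENNReal.ofNat_ne_top, one_mul]
  have hTconst : ∀ e, T (fun _ => e) = fun _ => e := fun e => by
    rw [hT, shOp_const, hν]; simp
  have hRsmul : ∀ (e : ℝ≥0∞) f, R (e • f) = e • R f := fun e f => by
    simp only [hR, hP, hT, shOp_smul, smul_add, smul_comm e]
  have hRone : R (fun _ => 1) = fun _ => 1 - w := by
    funext v
    have h3 := congrFun (hT3 fun _ => 1) v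
    simp only [Function.comp_apply, hTconst, hPconst, Pi.add_apply, Pi.smul_apply,
      smul_eq_mul, mul_one] at h3
    exact ENNReal.eq_sub_of_add_eq hwtop (by rw [add_comm]; exact h3.symm)
  have hRmono : Monotone R := fun f g hfg v => by
    simp only [hR, hP, Pi.add_apply, Pi.smul_apply, smul_eq_mul]
    exact add_le_add (add_le_add
      (mul_le_mul_right ((shOp_mono _) ((shOp_mono _) (shOp_mono _ hfg)) v) _)
      (mul_le_mul_right ((shOp_mono _) ((shOp_mono _) (shOp_mono _ hfg)) v) _))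
      ((shOp_mono _) ((shOp_mono _) (shOp_mono _ hfg)) v)
  set q : ℝ≥0∞ := 1 - w with hq
  have hwq : w + q = 1 := add_tsub_cancel_of_le hw1
  set ρ : ℝ≥0∞ := w * 2⁻¹ + q with hρ
  have hρlt : ρ < 1 := by
    rw [← hwq, hρ]
    refine ENNReal.add_lt_add_right (ne_top_of_le_ne_top ENNReal.one_ne_top tsub_le_self) ?_
    rw [← div_eq_mul_inv]
    exact ENNReal.half_lt_self hw0 hwtop
  obtain ⟨N, hN0, hN⟩ := ((eventually_gt_atTop 0).and ((ENNReal.tendsto_pow_atTop_nhds_zero_of_lt_one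
    hρlt).eventually (ge_mem_nhds (show (0 : ℝ≥0∞) < 2⁻¹ * 2⁻¹ by norm_num)))).exists
  set D := 5 * N with hD
  set C₂ := ENNReal.ofReal (3 * ∑ i, h (a i - a₀) ^ 2) with hC₂
  refine ⟨ENNReal.ofReal (8 * ((D : ℝ) * √D)), C₂ + (10 * N : ℕ), ENNReal.ofReal_ne_top,
    ENNReal.add_ne_top.2 ⟨ENNReal.ofReal_ne_top, ENNReal.natCast_ne_top _⟩,
    fun m L hm hL F hF B hB => ?_⟩
  have hm0 : (m : ℝ≥0∞) ≠ 0 := by exact_mod_cast hm.ne'
  obtain ⟨n, e, he, hmne⟩ : ∃ n e, e < 3 ∧ m = e + 3 * n :=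
    ⟨m / 3, m % 3, Nat.mod_lt _ (by norm_num), (Nat.mod_add_div m 3).symm⟩
  rw [conv_pairing, ← hT]
  have hle : ∀ (e : ℕ) (f : Site d → ℝ≥0∞) b, (∀ x, f x ≤ b) → ∀ x, T^[e] f x ≤ b := by
    intro e
    induction e with
    | zero => intro f b hb x; exact hb x
    | succ e ihe =>
      intro f b hb x
      rw [Function.iterate_succ_apply]
      refine ihe _ b (fun y => ?_) x
      calc T f y ≤ T (fun _ => b) y := shOp_mono ν (fun z => hb z) y
        _ = b := by rw [hTconst]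
  have hle' : ∀ (i : ℕ) x, (P 0 ∘ P 1 ∘ P 2)^[i] F x ≤ 1 := by
    intro i
    induction i with
    | zero => exact hF
    | succ i ih =>
      intro x
      rw [Function.iterate_succ_apply']
      calc (P 0 ∘ P 1 ∘ P 2) ((P 0 ∘ P 1 ∘ P 2)^[i] F) x
          ≤ (P 0 ∘ P 1 ∘ P 2) (fun _ => 1) x :=
            shOp_mono _ (shOp_mono _ (shOp_mono _ fun y => ih y)) x
        _ = 1 := by simp only [Function.comp_apply, hPconst]
  set k := n / N with hk
  set E : ℝ≥0∞ := 2 * 2 ^ k with hE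
  have hbase : ∀ i ≤ n, ∀ x,
      (P 0 ∘ P 1 ∘ P 2)^[i] F x ≤ (B + C₂ / (L : ℝ≥0∞) ^ 2) + E * 2⁻¹ ^ i := by
    intro i hi x
    by_cases hik : i ≤ k
    · refine (hle' i x).trans (le_trans ?_ le_add_self)
      have h1 : (2⁻¹ : ℝ≥0∞) ^ k ≤ 2⁻¹ ^ i :=
        pow_le_pow_of_le_one zero_le (by norm_num) hik
      calc (1 : ℝ≥0∞) ≤ 2 * (2 * 2⁻¹) ^ k := by
            rw [ENNReal.mul_inv_cancel two_ne_zero ENNReal.ofNat_ne_top, one_pow, mul_one]
            norm_num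
        _ = E * 2⁻¹ ^ k := by rw [hE, mul_pow, mul_assoc]
        _ ≤ _ := mul_le_mul_right h1 _
    · refine le_trans ?_ le_self_add
      refine cube_flat h a₀ a hli hab hm hL (by omega) ?_ F hF B hB x
      have h1 : n < N * (k + 1) := by
        rw [hk, mul_comm]; exact Nat.lt_mul_of_div_lt (Nat.lt_succ_self _) hN0
      have h2 : N * (k + 1) ≤ N * i := Nat.mul_le_mul_left N (by omega)
      rw [hD, mul_add, mul_assoc, mul_one]
      omega
  have hmix := mix_decay (fun f => T (T (T f))) (P 0 ∘ P 1 ∘ P 2) R hwq hT3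
    (fun f g => by simp only [hT, shOp_add]) (fun b f => by simp only [hT, shOp_smul])
    (fun f => by
      have cP : ∀ i f, P i (T f) = T (P i f) := fun i => shOp_comm _ _
      have cR : ∀ i f, shOp (r i) (T f) = T (shOp (r i) f) := fun i => shOp_comm _ _
      simp only [hR, hT, shOp_add, shOp_smul]
      simp only [← hT, cR, cP])
    hRmono
    (fun b => by
      have : (fun _ : Site d => b) = b • fun _ => (1 : ℝ≥0∞) := by funext; simp
      rw [this, hRsmul, hRone]; funext; simp [mul_comm])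
    F hbase n 0 (by omega)
  have hit : ∀ j f, (fun f => T (T (T f)))^[j] f = T^[3 * j] f := fun j f => by
    rw [Function.iterate_mul]; rfl
  have hgeo : E * ρ ^ n ≤ ((10 * N : ℕ) : ℝ≥0∞) / m := by
    have hkn : N * k ≤ n := Nat.mul_div_le n N
    have h1 : ρ ^ n ≤ (2⁻¹ * 2⁻¹) ^ k := by
      calc ρ ^ n ≤ ρ ^ (N * k) := pow_le_pow_of_le_one zero_le hρlt.le hkn
        _ = (ρ ^ N) ^ k := pow_mul _ _ _
        _ ≤ _ := pow_le_pow_left' hN k
    have h2 : m * 2 ≤ 10 * N * 2 ^ k := by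
      have a1 : n < N * (k + 1) := by
        rw [hk, mul_comm]; exact Nat.lt_mul_of_div_lt (Nat.lt_succ_self _) hN0
      have a2 : N * (k + 1) ≤ N * 2 ^ k := Nat.mul_le_mul_left N k.lt_two_pow_self
      rw [mul_assoc 10]
      omega
    calc E * ρ ^ n ≤ E * (2⁻¹ * 2⁻¹) ^ k := mul_le_mul_right h1 _
      _ = 2 * (2 * 2⁻¹) ^ k * 2⁻¹ ^ k := by rw [hE, mul_pow, mul_pow]; ring
      _ = 2 * ((2 : ℝ≥0∞) ^ k)⁻¹ := by
          rw [ENNReal.mul_inv_cancel two_ne_zero ENNReal.ofNat_ne_top, one_pow, mul_one,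
            ENNReal.inv_pow]
      _ ≤ _ := by
          rw [ENNReal.le_div_iff_mul_le (Or.inl hm0) (Or.inl (ENNReal.natCast_ne_top _)),
            mul_right_comm, ← div_eq_mul_inv,
            ENNReal.div_le_iff (pow_ne_zero _ two_ne_zero)
              (ENNReal.pow_ne_top ENNReal.ofNat_ne_top)]
          rw [mul_comm 2 (m : ℝ≥0∞)]
          exact_mod_cast h2
  rw [hmne, Function.iterate_add_apply, ← hmne]
  refine (hle e _ _ (fun x => (hit n F) ▸ hmix x) 0).trans ?_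
  rw [pow_zero, mul_one]
  calc B + C₂ / (L : ℝ≥0∞) ^ 2 + E * ρ ^ n
      ≤ B + C₂ / (L : ℝ≥0∞) ^ 2 + ((10 * N : ℕ) : ℝ≥0∞) / m := add_le_add le_rfl hgeo
    _ = B + ((10 * N : ℕ) : ℝ≥0∞) / m + C₂ / (L : ℝ≥0∞) ^ 2 := add_right_comm _ _ _
    _ ≤ _ := add_le_add (add_le_add le_rfl (ENNReal.div_le_div_right le_add_self _))
        (ENNReal.div_le_div_right le_self_add _)

variable (S : Setup d)

/-- The block law has four affinely independent atoms. -/
theorem Setup.exists_atoms :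
    ∃ (a₀ : Site d) (a : Fin 3 → Site d), blockLaw S.μ S.h a₀ ≠ 0 ∧
      (∀ i, blockLaw S.μ S.h (a i) ≠ 0) ∧
      Function.Injective fun k : Fin 3 → ℤ => ∑ i, k i • (a i - a₀) := by
  obtain ⟨i, j, hi, hj, hij⟩ := exists_two_axes S.three S.e₀.1
  obtain ⟨bi, hbi⟩ := exists_sign S.h i
  obtain ⟨bj, hbj⟩ := exists_sign S.h j
  obtain ⟨gi, gib, gii, gi0, -⟩ :=
    exists_lateral hbi (show 0 < S.h (vec S.e₀) by rw [S.he₀]; exact one_pos) hi
  obtain ⟨gj, gjb, gjj, gj0, -⟩ :=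
    exists_lateral hbj (show 0 < S.h (vec S.e₀) by rw [S.he₀]; exact one_pos) hj
  have he : IsBlock S.h [S.e₀] := isBlock_singleton (by rw [S.he₀]; exact one_pos)
  have hbump := isBlock_bump S.he₀
  have hdb : disp [S.e₀, (S.e₀.1, !S.e₀.2), S.e₀, S.e₀] = vec S.e₀ + vec S.e₀ := by
    simp [vec_not]
  refine ⟨vec S.e₀, ![vec S.e₀ + vec S.e₀, disp gi, disp gj], ?_, ?_, ?_⟩
  · simpa using S.blockLaw_ne_zero he
  · intro k; fin_cases k
    · simpa [hdb] using S.blockLaw_ne_zero hbump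
    · simpa using S.blockLaw_ne_zero gib
    · simpa using S.blockLaw_ne_zero gjb
  · intro k k' hk
    have hne : ∀ {f : Fin d} (b : Bool), vec (f, b) f ≠ 0 := fun b => by
      rw [vec_apply_sign]; split_ifs <;> norm_num
    have e1 := congrFun hk i
    have e2 := congrFun hk j
    have e3 := congrFun hk S.e₀.1
    have hii : disp gi i = vec (i, bi) i := gii
    have hjj : disp gj j = vec (j, bj) j := gjj
    simp [Fin.sum_univ_three, vec_apply_ne hi, hii, gj0 i hij hi, hne] at e1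
    simp [Fin.sum_univ_three, vec_apply_ne hj, hjj, gi0 j (Ne.symm hij) hj, hne] at e2
    simp [Fin.sum_univ_three, e1, e2] at e3
    have h3 : k 0 = k' 0 := e3.resolve_right (by
      have := hne (f := S.e₀.1) S.e₀.2
      rwa [Prod.mk.eta] at this)
    funext l; fin_cases l <;> assumption

theorem Setup.conv_split (S : Setup d) : ∃ A C : ℝ≥0∞, A ≠ ⊤ ∧ C ≠ ⊤ ∧
    ∀ m L : ℕ, 0 < m → 0 < L → ∀ F : Site d → ℝ≥0∞, (∀ x, F x ≤ 1) → ∀ B : ℝ≥0∞,
      (∀ (κ : Site d → ℝ≥0∞) (s : ℝ), ∑' x, κ x ≤ 1 →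
        (∀ x, κ x ≤ A / ENNReal.ofReal ((m : ℝ) * √m)) →
        (∀ x, κ x ≠ 0 → s ≤ S.h x ∧ S.h x ≤ s + L * √m) → ∑' x, κ x * F x ≤ B) →
      ∑' x, conv (blockLaw S.μ S.h) m x * F x ≤ B + C / m + C / (L : ℝ≥0∞) ^ 2 := by
  obtain ⟨a₀, a, h0, h1, hli⟩ := S.exists_atoms
  exact conv_split_of_atoms (blockLaw S.μ S.h) (tsum_blockLaw (S.ann.tsum_bwgt S.escP)) S.h
    a₀ a h0 h1 hli

end Vale.Agent.P147
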