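import Mathlib
import Vale.Agent.P147.WinDefs

/-!
# P147: first hits, the decoupling identity and the quenched hitting inequality
-/

namespace Vale.Agent.P147

open MeasureTheory Finset Filter ProbabilityTheory
open scoped ENNReal Topology

variable {d : ℕ}

/-- Stopped paths: the first hit of `Z` while all prefixes satisfy `Keep`. -/
def StopHit (Keep : List (Step d) → Prop) (y : Site d) (Z : Set (Site d)) :
    Set (List (Step d)) :=
  {π | y + disp π ∈ Z ∧ (∀ j ≤ π.length, Keep (π.take j)) ∧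
    ∀ j < π.length, y + disp (π.take j) ∉ Z}

theorem pre_of_mem_cyl {π : List (Step d)} {t : Traj d} (ht : t ∈ cyl π) {j : ℕ}
    (hj : j ≤ π.length) : pre t j = π.take j :=
  List.ext_getElem (by simp [pre, hj]) fun i h1 h2 => by
    simp only [pre, List.getElem_ofFn, List.getElem_take]
    exact (mem_cyl.1 ht) i (by simp [pre] at h1; omega)

theorem setOf_hits_eq (Keep : List (Step d) → Prop) (y : Site d) (Z : Set (Site d)) :
    {t : Traj d | ∃ k, y + site t k ∈ Z ∧ ∀ j ≤ k, Keep (pre t j)}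
      = ⋃ π : StopHit Keep y Z, cyl π.1 := by
  classical
  ext t
  simp only [Set.mem_ofPred_eq, Set.mem_iUnion]
  constructor
  · intro hex
    obtain ⟨k, hk⟩ : ∃ k, k = Nat.find hex := ⟨_, rfl⟩
    obtain ⟨hz, hkeep⟩ : y + site t k ∈ Z ∧ ∀ j ≤ k, Keep (pre t j) := hk ▸ Nat.find_spec hex
    have hc : t ∈ cyl (pre t k) := mem_cyl_ofFn_self k t
    have hlen : (pre t k).length = k := by simp [pre]
    refine ⟨⟨pre t k, ?_, fun j hj => ?_, fun j hj hbad => ?_⟩, hc⟩
    · have h := site_of_mem_cyl hc le_rfl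
      rw [List.take_length, hlen] at h
      rwa [← h]
    · rw [← pre_of_mem_cyl hc hj]; exact hkeep j (hlen ▸ hj)
    · rw [← site_of_mem_cyl hc hj.le] at hbad
      rw [hlen, hk] at hj
      exact Nat.find_min hex hj ⟨hbad, fun i hi => hkeep i (by omega)⟩
  · rintro ⟨π, ht⟩
    refine ⟨π.1.length, ?_, fun j hj => ?_⟩
    · rw [site_of_mem_cyl ht le_rfl, List.take_length]; exact π.2.1
    · rw [pre_of_mem_cyl ht hj]; exact π.2.2.1 j hj

theorem stopHit_disjoint (Keep : List (Step d) → Prop) (y : Site d) (Z : Set (Site d)) :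
    Pairwise fun π ρ : StopHit Keep y Z => Disjoint (cyl π.1) (cyl ρ.1) := by
  have hle : ∀ π ρ : StopHit Keep y Z, ∀ t, t ∈ cyl π.1 → t ∈ cyl ρ.1 →
      π.1.length ≤ ρ.1.length := by
    intro π ρ t hπ hρ
    by_contra! hlt
    refine π.2.2.2 _ hlt ?_
    rw [← site_of_mem_cyl hπ hlt.le, site_of_mem_cyl hρ le_rfl, List.take_length]
    exact ρ.2.1
  intro π ρ hne
  refine Set.disjoint_left.2 fun t h1 h2 => ?_
  have hl := le_antisymm (hle π ρ t h1 h2) (hle ρ π t h2 h1)
  exact Set.disjoint_left.1 (cyl_disjoint_of_length_eq hl fun h => hne (Subtype.ext h)) h1 h2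

/-- Decomposition of a hitting event along the first hit. -/
theorem measure_hits_inter (m : Measure (Traj d)) (Keep : List (Step d) → Prop) (y : Site d)
    (Z : Set (Site d)) {E : List (Step d) → Set (Traj d)} (hE : ∀ π, MeasurableSet (E π)) :
    m (⋃ π : StopHit Keep y Z, cyl π.1 ∩ E π.1)
      = ∑' π : StopHit Keep y Z, m (cyl π.1 ∩ E π.1) :=
  measure_iUnion (fun _ _ hne => (stopHit_disjoint Keep y Z hne).mono Set.inter_subset_left
    Set.inter_subset_left) fun π => (measurableSet_cyl _).inter (hE π.1)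

theorem lintegral_qw_mul_qw {μ : Measure (Row d)} [IsProbabilityMeasure μ] {x y : Site d}
    {π ρ : List (Step d)} (hdis : Disjoint (deps x π) (deps y ρ)) :
    ∫⁻ ω, qw ω x π * qw ω y ρ ∂envLaw μ = pw μ 0 π * pw μ 0 ρ := by
  rw [← pw_start μ x π, ← pw_start μ y ρ, pw, pw]
  exact lintegral_mul_eq_lintegral_mul_lintegral_of_independent_measurableSpace
    (iSup₂_le fun z _ => (measurable_pi_apply z).comap_le)
    (iSup₂_le fun z _ => (measurable_pi_apply z).comap_le)
    (indep_rowSigma μ (Finset.disjoint_coe.2 hdis))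
    (measurable_qw_rowSigma π x _ subset_rfl)
    (measurable_qw_rowSigma ρ y _ subset_rfl)

theorem IsAnnealed.lintegral_qw_mul_hit [NeZero d] {μ : Measure (Row d)} [IsProbabilityMeasure μ]
    {P : Measure (Traj d)} (hP : IsAnnealed μ P) (x y : Site d) (γ : List (Step d))
    (Keep : List (Step d) → Prop) :
    ∫⁻ ω, qw ω x γ * qP ω y (HitsBefore Keep y (deps x γ)) ∂envLaw μ
      = pw μ 0 γ * P (HitsBefore Keep y (deps x γ)) := by
  classical
  set Z : Set (Site d) := (deps x γ : Set (Site d)) with hZ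
  have heq : HitsBefore Keep y (deps x γ) = ⋃ π : StopHit Keep y Z, cyl π.1 := by
    rw [← setOf_hits_eq]; rfl
  have hsum : ∀ m : Measure (Traj d), m (⋃ π : StopHit Keep y Z, cyl π.1)
      = ∑' π : StopHit Keep y Z, m (cyl π.1) := fun m => by
    simpa using measure_hits_inter m Keep y Z (E := fun _ => Set.univ) fun _ => MeasurableSet.univ
  simp only [heq, hsum, qP_cyl, hP.2, ← ENNReal.tsum_mul_left]
  rw [lintegral_tsum (f := fun (π : StopHit Keep y Z) ω => qw ω x γ * qw ω y π.1)
    fun π => ((measurable_qw γ x).mul (measurable_qw π.1 y)).aemeasurable]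
  refine tsum_congr fun π => lintegral_qw_mul_qw (Finset.disjoint_right.2 fun z hz hz' => ?_)
  obtain ⟨j, hj, rfl⟩ := mem_deps.1 hz
  exact π.2.2.2 j hj (by simpa [hZ] using hz')

theorem qP_shift [NeZero d] (ω : Env d) (x a : Site d) :
    qP ω (x + a) = qP (fun y => ω (y + a)) x := by
  simp only [qP, add_assoc]

theorem qP_visit_le [NeZero d] (ω : Env d) (x : Site d) (Z : Set (Site d)) (U : Set (Traj d))
    (hU : MeasurableSet U) (hinv : ∀ n t, shiftT n t ∈ U ↔ t ∈ U) (c : ℝ≥0∞)
    (hc : ∀ z ∈ Z, c ≤ qP ω z U) :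
    c * qP ω x {t | ∃ k, x + site t k ∈ Z} ≤ qP ω x ({t | ∃ k, x + site t k ∈ Z} ∩ U) := by
  classical
  let K : List (Step d) → Prop := fun _ => True
  have heq : {t : Traj d | ∃ k, x + site t k ∈ Z} = ⋃ π : StopHit K x Z, cyl π.1 := by
    rw [← setOf_hits_eq]
    simp [K]
  have h1 : ∀ π : StopHit K x Z, cyl π.1 ∩ U = cyl π.1 ∩ shiftT π.1.length ⁻¹' U := fun π => by
    ext t; simp [hinv]
  rw [heq, Set.iUnion_inter, Set.iUnion_congr h1,
    measure_hits_inter _ K x Z (E := fun π => shiftT π.length ⁻¹' U)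
      fun π => measurable_shiftT _ hU]
  refine (mul_le_mul_right (measure_iUnion_le _) c).trans ?_
  rw [← ENNReal.tsum_mul_left]
  refine ENNReal.tsum_le_tsum fun π => ?_
  rw [qP_cyl_inter ω x π.1 hU, qP_cyl, mul_comm]
  gcongr
  exact hc _ π.2.1

end Vale.Agent.P147
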