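import Mathlib
import Vale.Agent.P147.Setup
import Vale.Agent.P147.WinDefs
import Vale.Agent.P147.Ident
import Vale.Agent.P147.Recursion
import Vale.Agent.P147.Moments

/-!
# P147: the hit estimate for a single averaged starting point

`κ` is the law of the smearing.  Chains of blocks of total height about `R` end at `-v`, the
descending walk starts at the origin.
-/

namespace Vale.Agent.P147

open MeasureTheory Finset Filter
open scoped ENNReal Topology

variable {d : ℕ}

theorem shiftT_mem_up_iff (h : Site d →+ ℝ) (n : ℕ) (t : Traj d) :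
    shiftT n t ∈ Up h ↔ t ∈ Up h := by
  have hk : ∀ k, h (site (shiftT n t) k) = -h (site t n) + h (site t (k + n)) := by
    intro k; rw [add_comm k n, site_shiftT, map_add]; ring
  simp only [Up, Set.mem_setOf_eq, hk]
  constructor
  · intro ht
    have := tendsto_atTop_add_const_left atTop (h (site t n)) ht
    simp only [add_neg_cancel_left] at this
    exact (tendsto_add_atTop_iff_nat (f := fun k => h (site t k)) n).1 this
  · intro ht
    exact tendsto_atTop_add_const_left atTop _ (ht.comp (tendsto_add_atTop_nat n))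

variable {μ : Measure (Row d)} [IsProbabilityMeasure μ] {h : Site d →+ ℝ}

/-- Summing over the numbers of blocks is summing over the chains. -/
theorem tsum_ex_bin (R : ℝ) (F : List (List (Step d)) → ℝ≥0∞) :
    ∑' n, ex μ h n ((Bin h R).indicator F) = ∑' ws : Bin h R, pw μ 0 ws.1.flatten * F ws.1 := by
  classical
  simp only [ex_eq_tsum]
  rw [ENNReal.tsum_comm]
  have h1 : ∀ ws : List (List (Step d)),
      (∑' n, if ws.length = n then bprod μ h ws * (Bin h R).indicator F ws else 0)
        = (Bin h R).indicator (fun ws => pw μ 0 ws.flatten * F ws) ws := by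
    intro ws
    rw [tsum_eq_single ws.length fun n hn => if_neg (Ne.symm hn), if_pos rfl]
    by_cases hm : ws ∈ Bin h R
    · rw [Set.indicator_of_mem hm, Set.indicator_of_mem hm, pw_flatten hm.1]
    · simp [Set.indicator_of_notMem hm]
  rw [tsum_congr h1, ← tsum_subtype (Bin h R) fun ws => pw μ 0 ws.flatten * F ws]

/-- Averaging one chain's bad visits is translation invariant. -/
theorem lintegral_qw_bad_shift [NeZero d] (x : Site d) (π : List (Step d))
    (Q : ℕ → Prop) :
    ∫⁻ ω, qw ω x π * @ite _ (∃ k < π.length, Q k ∧ qP ω (x + disp (π.take k)) (Up h) < 2⁻¹)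
        (Classical.dec _) 1 0 ∂envLaw μ
      = ∫⁻ ω, qw ω 0 π * @ite _ (∃ k < π.length, Q k ∧ qP ω (disp (π.take k)) (Up h) < 2⁻¹)
        (Classical.dec _) 1 0 ∂envLaw μ := by
  classical
  set G : Env d → ℝ≥0∞ := fun ω => qw ω 0 π *
    @ite _ (∃ k < π.length, Q k ∧ qP ω (disp (π.take k)) (Up h) < 2⁻¹) (Classical.dec _) 1 0
    with hG
  have hGm : Measurable G := by
    refine (measurable_qw π 0).mul (Measurable.ite ?_ measurable_const measurable_const)
    have : {ω : Env d | ∃ k < π.length, Q k ∧ qP ω (disp (π.take k)) (Up h) < 2⁻¹}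
        = ⋃ k : {k // k < π.length ∧ Q k}, {ω | qP ω (disp (π.take k.1)) (Up h) < 2⁻¹} := by
      ext ω; simp [and_assoc]
    rw [this]
    exact MeasurableSet.iUnion fun k =>
      measurableSet_lt (measurable_qP (measurableSet_up h) _) measurable_const
  calc _ = ∫⁻ ω, G (fun y => ω (y + x)) ∂envLaw μ := by
        refine lintegral_congr fun ω => ?_
        have h1 : qw ω x π = qw (fun y => ω (y + x)) 0 π := by
          rw [← qw_shift, zero_add]
        have h2 : ∀ z, qP ω (x + z) (Up h) = qP (fun y => ω (y + x)) z (Up h) := fun z => by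
          rw [add_comm x z, qP_shift]
        simp only [hG, h1, h2]
        congr 2
    _ = ∫⁻ ω, G ω ∂(envLaw μ).map (fun ω y => ω (y + x)) :=
        (lintegral_map hGm (measurable_envShift x)).symm
    _ = _ := by rw [map_shift_envLaw]

variable {P : Measure (Traj d)}

/-- Chains whose bottom part meets bad sites. -/
theorem IsAnnealed.cand_bad_le [NeZero d] (hP : IsAnnealed μ P) (R : ℝ) (M J : ℕ) (r : ℝ) :
    ∑' ws : Cand h R M J, ∫⁻ ω, qw ω 0 ws.1.flatten *
        @ite _ (∃ k < ws.1.flatten.length, r ≤ h (disp (ws.1.flatten.take k)) ∧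
          qP ω (disp (ws.1.flatten.take k)) (Up h) < 2⁻¹) (Classical.dec _) 1 0 ∂envLaw μ
      ≤ 2 * J * P (Reach h r \ Up h) := by
  classical
  have hmeas : ∀ ws : Cand h R M J, Measurable fun ω : Env d => qw ω 0 ws.1.flatten *
      @ite _ (∃ k < ws.1.flatten.length, r ≤ h (disp (ws.1.flatten.take k)) ∧
        qP ω (disp (ws.1.flatten.take k)) (Up h) < 2⁻¹) (Classical.dec _) 1 0 := by
    intro ws
    refine (measurable_qw _ 0).mul (Measurable.ite ?_ measurable_const measurable_const)
    set π := ws.1.flatten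
    have : {ω : Env d | ∃ k < π.length, r ≤ h (disp (π.take k)) ∧
        qP ω (disp (π.take k)) (Up h) < 2⁻¹}
        = ⋃ k : {k // k < π.length ∧ r ≤ h (disp (π.take k))},
          {ω | qP ω (disp (π.take k.1)) (Up h) < 2⁻¹} := by ext ω; simp [and_assoc]
    rw [this]
    exact MeasurableSet.iUnion fun k =>
      measurableSet_lt (measurable_qP (measurableSet_up h) _) measurable_const
  rw [← lintegral_tsum fun ws => (hmeas ws).aemeasurable,
    ← hP.lintegral_qP 0 ((measurableSet_reach h r).diff (measurableSet_up h)),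
    ← lintegral_const_mul _ (measurable_qP ((measurableSet_reach h r).diff (measurableSet_up h)) 0)]
  refine lintegral_mono fun ω => ?_
  set Z : Set (Site d) := {z | r ≤ h z ∧ qP ω z (Up h) < 2⁻¹} with hZ
  set E : Set (Traj d) := {t | ∃ k, 0 + site t k ∈ Z} with hE
  have hEm : MeasurableSet E := by
    have : E = ⋃ k, (fun t : Traj d => site t k) ⁻¹' {z | 0 + z ∈ Z} := by
      ext t; simp [hE]
    rw [this]
    exact MeasurableSet.iUnion fun k => measurable_site k (Set.to_countable _).measurableSet
  let T : Set (List (List (Step d))) := {ws | ∃ k < ws.flatten.length,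
    r ≤ h (disp (ws.flatten.take k)) ∧ qP ω (disp (ws.flatten.take k)) (Up h) < 2⁻¹}
  have hT : ∀ ws ∈ T, cyl ws.flatten ⊆ E := by
    rintro ws ⟨k, hk, h1, h2⟩ t ht
    refine ⟨k, ?_⟩
    rw [zero_add, site_of_mem_cyl ht hk.le]
    exact ⟨h1, h2⟩
  calc ∑' ws : Cand h R M J, qw ω 0 ws.1.flatten * _
      = ∑' ws : Cand h R M J, T.indicator (fun ws => qw ω 0 ws.flatten) ws.1 :=
        tsum_congr fun ws => by simp [T, Set.indicator_apply]
    _ ≤ J * qP ω 0 E := tsum_cand_qw_le h R M J ω 0 hEm hT
    _ ≤ 2 * J * qP ω 0 (Reach h r \ Up h) := by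
        rw [mul_comm (2 : ℝ≥0∞), mul_assoc]
        gcongr
        have hc : ∀ z ∈ Z, 2⁻¹ ≤ qP ω z (Up h)ᶜ := by
          intro z hz
          rw [prob_compl_eq_one_sub (measurableSet_up h)]
          refine le_trans (le_of_eq ?_) (tsub_le_tsub_left hz.2.le 1)
          exact ENNReal.one_sub_inv_two.symm
        have hvis : (2 : ℝ≥0∞)⁻¹ * qP ω 0 E ≤ qP ω 0 (E ∩ (Up h)ᶜ) :=
          qP_visit_le ω 0 Z _ (measurableSet_up h).compl
            (fun n t => not_congr (shiftT_mem_up_iff h n t)) _ hc
        calc qP ω 0 E = 2 * (2⁻¹ * qP ω 0 E) := by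
              rw [← mul_assoc, ENNReal.mul_inv_cancel two_ne_zero ENNReal.ofNat_ne_top, one_mul]
          _ ≤ 2 * qP ω 0 (E ∩ (Up h)ᶜ) := by gcongr
          _ ≤ _ := by
              gcongr
              rintro t ⟨⟨k, hk⟩, hn⟩
              rw [zero_add] at hk
              exact ⟨⟨k, hk.1⟩, hn⟩

/-- The candidates ending below the origin, and the walk from the origin. -/
theorem IsAnnealed.main_term_le [NeZero d] (hP : IsAnnealed μ P) (R : ℝ) (M J : ℕ)
    (κ : Site d → ℝ≥0∞) (hκ : ∑' v, κ v ≤ 1) (lam q r : ℝ)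
    (hq : ∀ v, κ v ≠ 0 → q ≤ h v) (hr : ∀ v, κ v ≠ 0 → r ≤ lam + h v + R) (K : ℕ) (hK : 0 < K) :
    ∑' v, κ v * ∑' ws : Cand h R M J, pw μ 0 ws.1.flatten *
        P (HitsBefore (fun ρ => lam ≤ h (disp ρ)) 0
          (deps (-(disp ws.1.flatten + v)) ws.1.flatten))
      ≤ 2 * J * P (Reach h r \ Up h)
        + 2 * ((K : ℝ≥0∞) * P (Reach (-h) q ∩ Up h)
          + (∫⁻ ω, phi h R M J κ ω ^ 2 ∂envLaw μ) / K) := by
  classical
  set Kp : List (Step d) → Prop := fun ρ => lam ≤ h (disp ρ) with hKp
  set b : Env d → ℝ≥0∞ := fun ω => qP ω 0 (Reach (-h) q ∩ Up h) with hb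
  have hUm := measurableSet_up (d := d) h
  have hRU := (measurableSet_reach (-h) q).inter hUm
  let bad : Cand h R M J → Site d → Env d → ℝ≥0∞ := fun ws v ω =>
    qw ω (-(disp ws.1.flatten + v)) ws.1.flatten *
      @ite _ (∃ k < ws.1.flatten.length, r ≤ h (disp (ws.1.flatten.take k)) ∧
        qP ω (-(disp ws.1.flatten + v) + disp (ws.1.flatten.take k)) (Up h) < 2⁻¹)
        (Classical.dec _) 1 0
  have hbadm : ∀ ws v, Measurable (bad ws v) := by
    intro ws v
    refine (measurable_qw _ _).mul (Measurable.ite ?_ measurable_const measurable_const)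
    set π := ws.1.flatten
    have : {ω : Env d | ∃ k < π.length, r ≤ h (disp (π.take k)) ∧
        qP ω (-(disp π + v) + disp (π.take k)) (Up h) < 2⁻¹}
        = ⋃ k : {k // k < π.length ∧ r ≤ h (disp (π.take k))},
          {ω | qP ω (-(disp π + v) + disp (π.take k.1)) (Up h) < 2⁻¹} := by
      ext ω; simp [and_assoc]
    rw [this]
    exact MeasurableSet.iUnion fun k => measurableSet_lt (measurable_qP hUm _) measurable_const
  have hbm : Measurable b := measurable_qP hRU 0
  -- the pointwise split at the meeting site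
  have point : ∀ (v : Site d) (ws : Cand h R M J) (ω : Env d), κ v ≠ 0 →
      qw ω (-(disp ws.1.flatten + v)) ws.1.flatten *
        qP ω 0 (HitsBefore Kp 0 (deps (-(disp ws.1.flatten + v)) ws.1.flatten))
      ≤ bad ws v ω + 2 * (qw ω (-(disp ws.1.flatten + v)) ws.1.flatten * b ω) := by
    intro v ws ω hv
    set π := ws.1.flatten with hπ
    set x := -(disp π + v) with hx
    set Z : Set (Site d) := {z | h z ≤ -q ∧ 2⁻¹ ≤ qP ω z (Up h)} with hZ
    by_cases hbad : ∃ k < π.length, r ≤ h (disp (π.take k)) ∧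
        qP ω (x + disp (π.take k)) (Up h) < 2⁻¹
    · refine le_trans ?_ le_self_add
      simp only [bad, ← hπ, ← hx, if_pos hbad, mul_one]
      exact mul_le_of_le_one_right' prob_le_one
    refine le_trans ?_ le_add_self
    rw [mul_left_comm]
    gcongr
    have hsub : HitsBefore Kp 0 (deps x π) ⊆ {t | ∃ k, 0 + site t k ∈ Z} := by
      rintro t ⟨k, hk, hkeep⟩
      refine ⟨k, ?_⟩
      rw [zero_add] at hk ⊢
      obtain ⟨j, hj, hje⟩ := mem_deps.1 hk
      have hlev : lam ≤ h (site t k) := by
        have := hkeep k le_rfl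
        have hs : disp (pre t k) = site t k := by
          have h' := site_of_mem_cyl (mem_cyl_ofFn_self k t) le_rfl
          rw [List.take_length, List.length_ofFn] at h'
          exact h'.symm
        simpa [hKp, hs] using this
      have h1 : h (site t k) = -(h (disp π)) - h v + h (disp (π.take j)) := by
        rw [← hje, hx, map_add, map_neg, map_add]; ring
      have h2 := (flatten_range ws.2.1.1 hj).2
      have h3 := ws.2.1.2.1
      refine ⟨by linarith [hq v hv], ?_⟩
      by_contra! hlow
      refine hbad ⟨j, hj, by linarith [hr v hv], ?_⟩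
      rwa [hje]
    have hvis : (2 : ℝ≥0∞)⁻¹ * qP ω 0 {t | ∃ k, 0 + site t k ∈ Z}
        ≤ qP ω 0 ({t | ∃ k, 0 + site t k ∈ Z} ∩ Up h) :=
      qP_visit_le ω 0 Z _ hUm (shiftT_mem_up_iff h) _ fun z hz => hz.2
    calc qP ω 0 (HitsBefore Kp 0 (deps x π)) ≤ qP ω 0 {t | ∃ k, 0 + site t k ∈ Z} :=
          measure_mono hsub
      _ = 2 * (2⁻¹ * qP ω 0 {t | ∃ k, 0 + site t k ∈ Z}) := by
          rw [← mul_assoc, ENNReal.mul_inv_cancel two_ne_zero ENNReal.ofNat_ne_top, one_mul]
      _ ≤ 2 * qP ω 0 ({t | ∃ k, 0 + site t k ∈ Z} ∩ Up h) := by gcongr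
      _ ≤ 2 * b ω := by
          refine mul_le_mul' le_rfl (measure_mono ?_)
          rintro t ⟨⟨k, hk⟩, ht⟩
          rw [zero_add] at hk
          refine ⟨⟨k, ?_⟩, ht⟩
          rw [AddMonoidHom.neg_apply]
          linarith [hk.1]
  -- integrate
  have hterm : ∀ (v : Site d) (ws : Cand h R M J),
      κ v * (pw μ 0 ws.1.flatten *
        P (HitsBefore Kp 0 (deps (-(disp ws.1.flatten + v)) ws.1.flatten)))
      ≤ κ v * (∫⁻ ω, bad ws v ω ∂envLaw μ)
        + 2 * ∫⁻ ω, κ v * qw ω (-(disp ws.1.flatten + v)) ws.1.flatten * b ω ∂envLaw μ := by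
    intro v ws
    by_cases hv : κ v = 0
    · simp [hv]
    rw [← hP.lintegral_qw_mul_hit]
    refine (mul_le_mul' le_rfl (lintegral_mono fun ω => point v ws ω hv)).trans (le_of_eq ?_)
    have hm : Measurable fun ω => qw ω (-(disp ws.1.flatten + v)) ws.1.flatten * b ω :=
      (measurable_qw _ _).mul hbm
    rw [lintegral_add_left (hbadm ws v), mul_add, lintegral_const_mul 2 hm]
    simp only [mul_assoc]
    rw [lintegral_const_mul (κ v) hm, mul_left_comm (κ v) 2]
  have hphi : ∀ ω, ∑' v, ∑' ws : Cand h R M J,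
      κ v * qw ω (-(disp ws.1.flatten + v)) ws.1.flatten * b ω = phi h R M J κ ω * b ω := by
    intro ω; simp only [phi, ENNReal.tsum_mul_right]
  have hphim : Measurable (phi h R M J κ) :=
    Measurable.ennreal_tsum fun v => Measurable.ennreal_tsum fun ws =>
      measurable_const.mul (measurable_qw _ _)
  calc ∑' v, κ v * ∑' ws : Cand h R M J, pw μ 0 ws.1.flatten *
        P (HitsBefore Kp 0 (deps (-(disp ws.1.flatten + v)) ws.1.flatten))
      ≤ ∑' v, ∑' ws : Cand h R M J, (κ v * (∫⁻ ω, bad ws v ω ∂envLaw μ)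
          + 2 * ∫⁻ ω, κ v * qw ω (-(disp ws.1.flatten + v)) ws.1.flatten * b ω ∂envLaw μ) := by
        simp only [← ENNReal.tsum_mul_left]
        exact ENNReal.tsum_le_tsum fun v => ENNReal.tsum_le_tsum fun ws => hterm v ws
    _ = (∑' v, κ v * ∑' ws : Cand h R M J, ∫⁻ ω, bad ws v ω ∂envLaw μ)
          + 2 * ∫⁻ ω, phi h R M J κ ω * b ω ∂envLaw μ := by
        simp only [ENNReal.tsum_add, ENNReal.tsum_mul_left]
        congr 2
        have hm : ∀ (v : Site d) (ws : Cand h R M J), Measurable fun ω : Env d =>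
            κ v * qw ω (-(disp ws.1.flatten + v)) ws.1.flatten * b ω := fun v ws =>
          (measurable_const.mul (measurable_qw _ _)).mul hbm
        rw [← lintegral_congr hphi, lintegral_tsum fun v =>
          (Measurable.ennreal_tsum fun ws => hm v ws).aemeasurable]
        exact tsum_congr fun v => (lintegral_tsum fun ws => (hm v ws).aemeasurable).symm
    _ ≤ _ := by
        refine add_le_add ?_ (mul_le_mul' le_rfl ?_)
        · calc ∑' v, κ v * ∑' ws : Cand h R M J, ∫⁻ ω, bad ws v ω ∂envLaw μ
              ≤ ∑' v, κ v * (2 * J * P (Reach h r \ Up h)) := by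
                refine ENNReal.tsum_le_tsum fun v => mul_le_mul' le_rfl ?_
                refine le_trans (le_of_eq (tsum_congr fun ws => ?_)) (hP.cand_bad_le R M J r)
                exact lintegral_qw_bad_shift _ _ fun k =>
                  r ≤ h (disp (ws.1.flatten.take k))
            _ ≤ _ := by
                rw [ENNReal.tsum_mul_right]
                exact mul_le_of_le_one_left' hκ
        · calc ∫⁻ ω, phi h R M J κ ω * b ω ∂envLaw μ
              ≤ ∫⁻ ω, (K : ℝ≥0∞) * b ω + phi h R M J κ ω ^ 2 / K ∂envLaw μ := by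
                refine lintegral_mono fun ω => ?_
                rcases le_total (phi h R M J κ ω) K with hle | hle
                · exact le_trans (mul_le_mul' hle le_rfl) le_self_add
                · refine le_trans (mul_le_of_le_one_right' prob_le_one) (le_trans ?_ le_add_self)
                  rw [ENNReal.le_div_iff_mul_le (Or.inl (by simp; omega)) (Or.inl (by simp)), sq]
                  gcongr
            _ = _ := by
                have hKb : Measurable fun ω => (K : ℝ≥0∞) * b ω := measurable_const.mul hbm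
                rw [lintegral_add_left hKb, lintegral_const_mul _ hbm,
                  hP.lintegral_qP 0 hRU]
                simp only [div_eq_mul_inv]
                rw [lintegral_mul_const _ (hphim.pow_const 2)]

/-- Chains of height about `R` replace the window. -/
theorem IsAnnealed.extend_le (hP : IsAnnealed μ P) (R B : ℝ) (n : ℕ)
    (hren : ∀ ρ : ℝ, 0 ≤ ρ → P (Esc h) ≤ ∑' i, ex μ h i fun ws =>
      @ite _ (ρ ≤ h (disp ws.flatten) ∧ h (disp ws.flatten) < ρ + 2) (Classical.dec _) 1 0)
    (hB : B ≤ R) (v : Site d) (hv : h v ≤ B) (E : Set (Traj d)) :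
    P (Esc h) * ex μ h n (fun V => P (E ∩ Hits 0 (deps (-(disp V.flatten + v)) V.flatten)))
      ≤ P (Esc h) * ex μ h n (fun V => @ite _ (B < h (disp V.flatten)) (Classical.dec _) (P E) 0)
        + ∑' ws : Bin h R, pw μ 0 ws.1.flatten * P (E ∩ Hits 0
            ((deps (-(disp ws.1.flatten + v)) ws.1.flatten).filter fun z => -(2 * B) ≤ h z)) := by
  classical
  set G : List (List (Step d)) → ℝ≥0∞ := fun ws => P (E ∩ Hits 0
    ((deps (-(disp ws.flatten + v)) ws.flatten).filter fun z => -(2 * B) ≤ h z)) with hG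
  have hV : ∀ V : List (List (Step d)), (∀ π ∈ V, IsBlock h π) →
      P (Esc h) * P (E ∩ Hits 0 (deps (-(disp V.flatten + v)) V.flatten))
        ≤ P (Esc h) * (if B < h (disp V.flatten) then P E else 0)
          + ∑' i, ex μ h i fun U => (Bin h R).indicator G (U ++ V) := by
    intro V hV
    by_cases hbig : B < h (disp V.flatten)
    · rw [if_pos hbig]
      exact le_trans (mul_le_mul' le_rfl (measure_mono Set.inter_subset_left)) le_self_add
    refine le_trans ?_ le_add_self
    refine le_trans (mul_le_mul' (hren (R - h (disp V.flatten)) (by linarith [not_lt.1 hbig]))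
      le_rfl) ?_
    rw [← ENNReal.tsum_mul_right]
    refine ENNReal.tsum_le_tsum fun i => ?_
    rw [← ex_mul_const]
    refine ex_mono_of fun U _ hU => ?_
    split_ifs with hin
    swap
    · simp
    rw [one_mul]
    have hmem : U ++ V ∈ Bin h R := by
      refine ⟨fun π hπ => (List.mem_append.1 hπ).elim (hU π) (hV π), ?_⟩
      rw [List.flatten_append, disp_append, map_add]
      constructor <;> linarith [hin.1, hin.2]
    rw [Set.indicator_of_mem hmem]
    refine measure_mono (Set.inter_subset_inter_right _ ?_)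
    rintro t ⟨k, hk⟩
    refine ⟨k, mem_filter.2 ⟨?_, ?_⟩⟩
    · rw [List.flatten_append, deps_append]
      refine mem_union_right _ ?_
      rwa [disp_append, show -(disp U.flatten + disp V.flatten + v) + disp U.flatten
        = -(disp V.flatten + v) by abel]
    · obtain ⟨j, hj, hje⟩ := mem_deps.1 hk
      rw [← hje, map_add, map_neg, map_add]
      linarith [(flatten_range hV hj).1, not_lt.1 hbig]
  calc P (Esc h) * ex μ h n (fun V => P (E ∩ Hits 0 (deps (-(disp V.flatten + v)) V.flatten)))
      = ex μ h n fun V => P (Esc h) * P (E ∩ Hits 0 (deps (-(disp V.flatten + v)) V.flatten)) :=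
        (ex_const_mul _ _ _).symm
    _ ≤ ex μ h n fun V => P (Esc h) * (if B < h (disp V.flatten) then P E else 0)
          + ∑' i, ex μ h i fun U => (Bin h R).indicator G (U ++ V) :=
        ex_mono_of fun V _ hb => hV V hb
    _ ≤ _ := by
        rw [ex_add, ex_const_mul, ex_tsum, ← tsum_ex_bin R G]
        refine add_le_add le_rfl ?_
        have : ∀ i, (ex μ h n fun V => ex μ h i fun U => (Bin h R).indicator G (U ++ V))
            = ex μ h (i + n) ((Bin h R).indicator G) := fun i => by
          rw [ex_append, ex_comm]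
        rw [tsum_congr this]
        exact ENNReal.tsum_comp_le_tsum_of_injective (add_left_injective n) _

/-- After the walk has left the strip above `lam` it can only come back by backtracking. -/
theorem meas_filter_hits_le (h : Site d →+ ℝ) (P : Measure (Traj d)) (W : Finset (Site d))
    (lam u r : ℝ) (hu : r ≤ u - lam) :
    P (Esc (-h) ∩ Hits 0 (W.filter fun z => u ≤ h z))
      ≤ P (Esc (-h) ∩
          {t | ∃ k k', k ≤ k' ∧ -lam < (-h) (site t k) ∧ (-h) (site t k') ≤ -lam - r})
        + P (HitsBefore (fun ρ => lam ≤ h (disp ρ)) 0 W) := by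
  refine le_trans (measure_mono fun t ⟨ht, k, hk⟩ => ?_) (measure_union_le _ _)
  rw [mem_filter] at hk
  by_cases hkeep : ∀ j ≤ k, lam ≤ h (disp (pre t j))
  · exact .inr ⟨k, hk.1, hkeep⟩
  · push Not at hkeep
    obtain ⟨j, hj, hlt⟩ := hkeep
    have hs : disp (pre t j) = site t j := by
      have h' := site_of_mem_cyl (mem_cyl_ofFn_self j t) le_rfl
      rw [List.take_length, List.length_ofFn] at h'
      exact h'.symm
    rw [hs] at hlt
    refine .inl ⟨ht, j, k, hj, ?_, ?_⟩
    · rw [AddMonoidHom.neg_apply]; linarith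
    · have := hk.2
      rw [zero_add] at this
      rw [AddMonoidHom.neg_apply]
      linarith

end Vale.Agent.P147
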