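import Mathlib
import Vale.Agent.P147.WindowLemmas
import Vale.Agent.P147.Smooth
import Vale.Agent.P147.Levels
import Vale.Agent.P147.FinalArg

/-!
# P147: the descending walk does not meet a distant window of ascending blocks

The three facts about candidate chains (their mass, the trimming loss, the second moment of the
arrival density) enter as hypotheses here and are proved in their own files.
-/

namespace Vale.Agent.P147

open MeasureTheory Finset Filter
open scoped ENNReal Topology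

variable {d : ℕ}

theorem exists_nat_div_le {a η : ℝ≥0∞} (ha : a ≠ ⊤) (hη : η ≠ 0) :
    ∃ n : ℕ, 0 < n ∧ a / n ≤ η := by
  have ht : Tendsto (fun n : ℕ => a / (n : ℝ≥0∞)) atTop (𝓝 0) := by
    simpa using ENNReal.Tendsto.const_div ENNReal.tendsto_nat_nhds_top (Or.inr ha)
  obtain ⟨n, h1, h2⟩ := ((ht.eventually (eventually_le_nhds (pos_iff_ne_zero.2 hη))).and
    (eventually_gt_atTop 0)).exists
  exact ⟨n, h2, h1⟩

open Classical in
theorem Setup.high_le (S : Setup d) (n : ℕ) {a : ℝ} (ha : 0 < a) :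
    ex S.μ S.h n (fun V => if a < S.h (disp V.flatten) then 1 else 0)
      ≤ n * (∑' π, bwgt S.μ S.h π * ENNReal.ofReal (S.h (disp π))) / ENNReal.ofReal a := by
  rw [← ex_height (S.ann.tsum_bwgt S.escP) n, ENNReal.le_div_iff_mul_le
    (Or.inl (by simpa using ha)) (Or.inl ENNReal.ofReal_ne_top), ← ex_mul_const]
  refine ex_mono fun V => ?_
  split_ifs with hV
  · rw [one_mul]; exact ENNReal.ofReal_le_ofReal hV.le
  · simp

/-- The estimate for one smearing weight. -/
theorem Setup.key_le [NeZero d] (S : Setup d) {Cb : ℝ≥0∞}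
    (hbin : ∀ R : ℝ, ∑' ws : Bin S.h R, pw S.μ 0 ws.1.flatten ≤ Cb) (c B : ℝ) (hc : 0 < c)
    (hB : 0 < B) (m M J K : ℕ) (hK : 0 < K) (hm : 0 < m) (κ : Site d → ℝ≥0∞) (hκ1 : ∑' v, κ v ≤ 1)
    (hlo : ∀ v, κ v ≠ 0 → c * m ≤ S.h v) (hhi : ∀ v, κ v ≠ 0 → S.h v ≤ B * m) :
    S.P (Esc S.h) * ∑' v, κ v * ex S.μ S.h (2 * m) (fun V =>
        S.P (Esc (-S.h) ∩ Hits 0 (deps (-(disp V.flatten + v)) V.flatten)))
      ≤ S.P (Esc S.h) * (2 * (∑' π, bwgt S.μ S.h π * ENNReal.ofReal (S.h (disp π)))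
            / ENNReal.ofReal B)
        + (Cb * S.P (Esc (-S.h) ∩ {t | ∃ k k', k ≤ k' ∧
              2 * (B * m) + c * m / 2 < (-S.h) (site t k) ∧
              (-S.h) (site t k') ≤ 2 * (B * m) + c * m / 2 - c * m / 2})
          + (∑' ws : Bin S.h (2 * (B * m)), @ite _ (ws.1 ∈ Cand S.h (2 * (B * m)) M J)
              (Classical.dec _) 0 (pw S.μ 0 ws.1.flatten))
          + (2 * J * S.P (Reach S.h (c * m / 2) \ Up S.h)
            + 2 * ((K : ℝ≥0∞) * S.P (Reach (-S.h) (c * m) ∩ Up S.h)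
              + (∫⁻ ω, phi S.h (2 * (B * m)) M J κ ω ^ 2 ∂envLaw S.μ) / K))) := by
  classical
  haveI := S.ann.1
  set EH := ∑' π, bwgt S.μ S.h π * ENNReal.ofReal (S.h (disp π)) with hEH
  have hm' : (0 : ℝ) < m := by exact_mod_cast hm
  set R : ℝ := 2 * (B * m) with hR
  set lam : ℝ := -(R + c * m / 2) with hlam
  set E := Esc (-S.h) with hE
  set bt := S.P (E ∩ {t : Traj d | ∃ k k', k ≤ k' ∧ R + c * m / 2 < (-S.h) (site t k) ∧
    (-S.h) (site t k') ≤ R + c * m / 2 - c * m / 2}) with hbt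
  set HB : Site d → List (List (Step d)) → ℝ≥0∞ := fun v ws =>
    S.P (HitsBefore (fun ρ => lam ≤ S.h (disp ρ)) 0 (deps (-(disp ws.flatten + v)) ws.flatten))
    with hHB
  have hBm : 0 < B * m := mul_pos hB hm'
  have step : ∀ v, κ v ≠ 0 → S.P (Esc S.h) * ex S.μ S.h (2 * m) (fun V =>
      S.P (E ∩ Hits 0 (deps (-(disp V.flatten + v)) V.flatten)))
      ≤ S.P (Esc S.h) * (2 * EH / ENNReal.ofReal B)
        + (Cb * bt + (∑' ws : Bin S.h R, if ws.1 ∈ Cand S.h R M J then 0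
              else pw S.μ 0 ws.1.flatten)
          + ∑' ws : Cand S.h R M J, pw S.μ 0 ws.1.flatten * HB v ws.1) := by
    intro v hv
    refine (S.ann.extend_le R (B * m) (2 * m) (fun ρ hρ => S.renew_window ρ hρ)
      (by rw [hR]; linarith) v (hhi v hv) E).trans (add_le_add (mul_le_mul' le_rfl ?_) ?_)
    · refine le_trans (ex_mono fun V => ?_) (le_trans (S.high_le (2 * m) hBm) (le_of_eq ?_))
      · split_ifs
        · exact prob_le_one
        · exact le_rfl
      · rw [ENNReal.ofReal_mul hB.le, ENNReal.ofReal_natCast, Nat.cast_mul, Nat.cast_ofNat,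
          mul_right_comm, ENNReal.mul_div_mul_right _ _ (by simp; omega) (by simp)]
    · have hpt : ∀ ws : Bin S.h R, pw S.μ 0 ws.1.flatten * S.P (E ∩ Hits 0
          ((deps (-(disp ws.1.flatten + v)) ws.1.flatten).filter fun z => -(2 * (B * m)) ≤ S.h z))
          ≤ pw S.μ 0 ws.1.flatten * bt
            + ((if ws.1 ∈ Cand S.h R M J then 0 else pw S.μ 0 ws.1.flatten)
              + if ws.1 ∈ Cand S.h R M J then pw S.μ 0 ws.1.flatten * HB v ws.1 else 0) := by
        intro ws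
        have h1 := meas_filter_hits_le S.h S.P (deps (-(disp ws.1.flatten + v)) ws.1.flatten)
          lam (-(2 * (B * m))) (c * m / 2) (le_of_eq (by rw [hlam, hR]; ring))
        refine (mul_le_mul' le_rfl h1).trans ?_
        rw [mul_add]
        refine add_le_add (le_of_eq ?_) ?_
        · rw [hbt, hE, hlam, neg_neg]
        · split_ifs
          · rw [zero_add]
          · rw [add_zero]; exact mul_le_of_le_one_right' prob_le_one
      refine (ENNReal.tsum_le_tsum hpt).trans ?_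
      rw [ENNReal.tsum_add, ENNReal.tsum_add, ENNReal.tsum_mul_right, add_assoc]
      refine add_le_add (mul_le_mul' (hbin R) le_rfl) (add_le_add le_rfl (le_of_eq ?_))
      let F : List (List (Step d)) → ℝ≥0∞ := fun ws =>
        if ws ∈ Cand S.h R M J then pw S.μ 0 ws.flatten * HB v ws else 0
      change ∑' ws : Bin S.h R, F ws.1 = _
      rw [tsum_subtype (Bin S.h R) F,
        tsum_subtype (Cand S.h R M J) fun ws => pw S.μ 0 ws.flatten * HB v ws]
      refine tsum_congr fun ws => ?_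
      by_cases hw : ws ∈ Cand S.h R M J
      · rw [Set.indicator_of_mem hw, Set.indicator_of_mem hw.1]; simp [F, hw]
      · rw [Set.indicator_of_notMem hw]
        by_cases hb : ws ∈ Bin S.h R
        · rw [Set.indicator_of_mem hb]; simp [F, hw]
        · rw [Set.indicator_of_notMem hb]
  have hmain := S.ann.main_term_le R M J κ hκ1 lam (c * m) (c * m / 2) hlo
    (fun v hv => by rw [hlam]; linarith [hlo v hv]) K hK
  set T := ∑' ws : Bin S.h R, if ws.1 ∈ Cand S.h R M J then 0 else pw S.μ 0 ws.1.flatten with hT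
  set δ := S.P (Esc S.h) with hδ
  calc δ * ∑' v, κ v * ex S.μ S.h (2 * m) (fun V =>
        S.P (E ∩ Hits 0 (deps (-(disp V.flatten + v)) V.flatten)))
      ≤ ∑' v, (κ v * (δ * (2 * EH / ENNReal.ofReal B) + (Cb * bt + T))
          + κ v * ∑' ws : Cand S.h R M J, pw S.μ 0 ws.1.flatten * HB v ws.1) := by
        rw [← ENNReal.tsum_mul_left]
        refine ENNReal.tsum_le_tsum fun v => ?_
        by_cases hv : κ v = 0
        · simp [hv]
        rw [mul_left_comm, ← mul_add, add_assoc]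
        exact mul_le_mul' le_rfl (step v hv)
    _ ≤ (δ * (2 * EH / ENNReal.ofReal B) + (Cb * bt + T))
          + (2 * J * S.P (Reach S.h (c * m / 2) \ Up S.h)
            + 2 * ((K : ℝ≥0∞) * S.P (Reach (-S.h) (c * m) ∩ Up S.h)
              + (∫⁻ ω, phi S.h R M J κ ω ^ 2 ∂envLaw S.μ) / K)) := by
        rw [ENNReal.tsum_add, ENNReal.tsum_mul_right]
        exact add_le_add (mul_le_of_le_one_left' hκ1) hmain
    _ = _ := by rw [hbt, hT]; simp only [add_assoc]

open Classical in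
/-- The window bound needed by the recursion. -/
theorem Setup.window_bound [NeZero d] (S : Setup d)
    {Cb : ℝ≥0∞} (hCb : Cb ≠ ⊤)
    (hbin : ∀ R : ℝ, ∑' ws : Bin S.h R, pw S.μ 0 ws.1.flatten ≤ Cb)
    {Ct : ℝ≥0∞} (hCt : Ct ≠ ⊤)
    (htrim : ∀ R : ℝ, 0 ≤ R → ∀ M J K : ℕ, 0 < M → 0 < J → 0 < K →
      ∑' ws : Bin S.h R, @ite _ (ws.1 ∈ Cand S.h R M J) (Classical.dec _) 0 (pw S.μ 0 ws.1.flatten)
        ≤ Ct * (ENNReal.ofReal (R + 1) / M + 1 / K + K / J))
    {Cp : ℝ≥0∞} (hCp : Cp ≠ ⊤)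
    (hphi : ∀ (R : ℝ) (M J : ℕ) (κ : Site d → ℝ≥0∞) (A : ℝ≥0∞) (s w : ℝ), 0 ≤ R → 0 ≤ w →
      ∑' x, κ x ≤ 1 → (∀ x, κ x ≤ A) → (∀ x, κ x ≠ 0 → s ≤ S.h x ∧ S.h x ≤ s + w) →
      ∫⁻ ω, phi S.h R M J κ ω ^ 2 ∂envLaw S.μ
        ≤ Cp * ((J : ℝ≥0∞) ^ 2 + J * A * M * ENNReal.ofReal (w + 1)))
    {c : ℝ} (hc : 0 < c) {C : ℝ≥0∞} (hC : C ≠ ⊤)
    (hmid : ∀ n : ℕ, 0 < n →
      ex S.μ S.h n (fun M => if S.h (disp M.flatten) < c * n then 1 else 0) ≤ C / n)
    {η : ℝ≥0∞} (hη : η ≠ 0) :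
    ∀ᶠ m : ℕ in atTop, ∀ z : Site d, -(c * m / 2) ≤ S.h z → S.h z < 0 →
      ex S.μ S.h (2 * m) (fun V => ex S.μ S.h m fun M =>
        S.P (Esc (-S.h) ∩ Hits z (deps (-disp (V ++ M).flatten) V.flatten))) ≤ η := by
  haveI := S.ann.1
  obtain ⟨A, C₀, hA, hC₀, hsplit⟩ := S.conv_split
  obtain ⟨Kb, hKb, hback⟩ := S.backtrack_le
  set EH := ∑' π, bwgt S.μ S.h π * ENNReal.ofReal (S.h (disp π)) with hEHdef
  have hEH : EH ≠ ⊤ := S.ann.meanHeight_ne_top S.escP S.unit S.he₀
    (S.bwgt_ne_zero (isBlock_singleton (by rw [S.he₀]; exact one_pos)))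
  set δ := S.P (Esc S.h) with hδ
  have hδ0 : δ ≠ 0 := S.escP
  have hδ1 : δ ≤ 1 := prob_le_one
  set η₁ := η / 16 with hη₁
  set τ := η₁ * δ with hτ
  have hη₁0 : η₁ ≠ 0 := ENNReal.div_ne_zero.2 ⟨hη, by norm_num⟩
  have hτ0 : τ ≠ 0 := mul_ne_zero hη₁0 hδ0
  have hτle : τ ≤ η₁ := mul_le_of_le_one_right' hδ1
  obtain ⟨B, hB, hBle⟩ := exists_nat_div_le (a := 2 * EH)
    (ENNReal.mul_ne_top (by norm_num) hEH) hτ0
  obtain ⟨L, hL, hLle⟩ := exists_nat_div_le hC₀ hτ0
  obtain ⟨K, hK, hKle⟩ := exists_nat_div_le hCt hτ0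
  obtain ⟨J, hJ, hJle⟩ := exists_nat_div_le (a := Ct * K)
    (ENNReal.mul_ne_top hCt (ENNReal.natCast_ne_top _)) hτ0
  obtain ⟨M₀, hM₀, hMle⟩ := exists_nat_div_le (a := Ct * (2 * B + 1))
    (ENNReal.mul_ne_top hCt (by simp [ENNReal.mul_ne_top])) hτ0
  set Φ : ℝ≥0∞ := Cp * ((J : ℝ≥0∞) ^ 2 + J * A * M₀ * (L + 1)) with hΦ
  obtain ⟨K', hK', hK'le⟩ := exists_nat_div_le (a := 2 * Φ)
    (ENNReal.mul_ne_top (by norm_num) (ENNReal.mul_ne_top hCp (ENNReal.add_ne_top.2
      ⟨ENNReal.pow_ne_top (ENNReal.natCast_ne_top _), ENNReal.mul_ne_top (ENNReal.mul_ne_top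
        (ENNReal.mul_ne_top (ENNReal.natCast_ne_top _) hA) (ENNReal.natCast_ne_top _))
        (ENNReal.add_ne_top.2 ⟨ENNReal.natCast_ne_top _, ENNReal.one_ne_top⟩)⟩))) hτ0
  have hBr : (0 : ℝ) < B := by exact_mod_cast hB
  have hc4 : 0 < c / 4 := by linarith
  -- the limits in `m`
  have hfl : ∀ a : ℝ, 0 < a → Tendsto (fun m : ℕ => ⌊a * (m : ℝ)⌋₊) atTop atTop := fun a ha =>
    tendsto_nat_floor_atTop.comp (tendsto_natCast_atTop_atTop.const_mul_atTop ha)
  have l1 : Tendsto (fun m : ℕ => 2 * (J : ℝ≥0∞) * S.P (Reach S.h (c / 2 * m / 2) \ Up S.h))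
      atTop (𝓝 0) := by
    have h0 := ENNReal.Tendsto.const_mul ((S.ann.reach_not_up S.escP).comp (hfl _ hc4))
      (a := 2 * (J : ℝ≥0∞)) (Or.inr (by simp [ENNReal.mul_ne_top]))
    rw [mul_zero] at h0
    refine tendsto_of_tendsto_of_tendsto_of_le_of_le tendsto_const_nhds h0 (fun _ => bot_le)
      fun m => mul_le_mul' le_rfl (measure_mono fun t ⟨⟨k, hk⟩, hn⟩ => ⟨⟨k, ?_⟩, hn⟩)
    refine le_trans (Nat.floor_le (by positivity)) (le_trans (le_of_eq ?_) hk)
    ring
  have l2 : Tendsto (fun m : ℕ => 2 * ((K' : ℝ≥0∞) * S.P (Reach (-S.h) (c / 2 * m) ∩ Up S.h)))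
      atTop (𝓝 0) := by
    have h0 := ENNReal.Tendsto.const_mul ((S.ann.reach_down_up (h := S.h)).comp
      (hfl _ (show 0 < c / 2 by linarith))) (a := 2 * (K' : ℝ≥0∞))
      (Or.inr (by simp [ENNReal.mul_ne_top]))
    rw [mul_zero] at h0
    refine tendsto_of_tendsto_of_tendsto_of_le_of_le tendsto_const_nhds h0 (fun _ => bot_le)
      fun m => ?_
    rw [← mul_assoc]
    refine mul_le_mul' le_rfl (measure_mono fun t ⟨⟨k, hk⟩, hn⟩ => ⟨⟨k, ?_⟩, hn⟩)
    exact le_trans (Nat.floor_le (by positivity)) hk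
  have l3 : Tendsto (fun m : ℕ => Cb * (Kb * ENNReal.ofReal (2 * B + c + 3)
      * ((m : ℝ≥0∞) * S.tailM (c / 4 * m)))) atTop (𝓝 0) := by
    have h0 := ENNReal.Tendsto.const_mul (ENNReal.Tendsto.const_mul
      (S.tendsto_mul_tailM hc4) (a := Kb * ENNReal.ofReal (2 * B + c + 3))
      (Or.inr (by simp [ENNReal.mul_ne_top, hKb]))) (a := Cb) (Or.inr hCb)
    simpa using h0
  have l4 : ∀ a : ℝ≥0∞, a ≠ ⊤ → Tendsto (fun m : ℕ => a / (m : ℝ≥0∞)) atTop (𝓝 0) :=
    fun a ha => by simpa using ENNReal.Tendsto.const_div ENNReal.tendsto_nat_nhds_top (Or.inr ha)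
  have hev : ∀ {f : ℕ → ℝ≥0∞}, Tendsto f atTop (𝓝 0) → ∀ᶠ m in atTop, f m ≤ τ := fun hf =>
    hf.eventually (eventually_le_nhds (pos_iff_ne_zero.2 hτ0))
  filter_upwards [hev l1, hev l2, hev l3, hev (l4 C₀ hC₀), hev (l4 C hC), eventually_gt_atTop 0]
    with m e1 e2 e3 e4 e5 hm
  intro z hz1 hz2
  have hm' : (0 : ℝ) < m := by exact_mod_cast hm
  have hmne : (m : ℝ≥0∞) ≠ 0 := by simp; omega
  set E := Esc (-S.h) with hE
  set F : Site d → ℝ≥0∞ := fun v => ex S.μ S.h (2 * m) fun V =>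
    S.P (E ∩ Hits 0 (deps (-(disp V.flatten + v)) V.flatten)) with hF
  have hF1 : ∀ v, F v ≤ 1 := fun v => by
    refine (ex_mono fun V => prob_le_one).trans (le_of_eq ?_)
    exact ex_const (S.ann.tsum_bwgt S.escP) _ _
  -- the smeared main bound
  have hkey : ∀ (κ : Site d → ℝ≥0∞) (s : ℝ), ∑' x, κ x ≤ 1 →
      (∀ x, κ x ≤ A / ENNReal.ofReal ((m : ℝ) * √m)) →
      (∀ x, κ x ≠ 0 → s ≤ S.h x ∧ S.h x ≤ s + L * √m) →
      ∑' x, κ x * (if c / 2 * m ≤ S.h (x + z) ∧ S.h (x + z) ≤ B * m then F (x + z) else 0)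
        ≤ 8 * η₁ := by
    intro κ s hk1 hksup hkband
    set κ' : Site d → ℝ≥0∞ := fun v =>
      if c / 2 * m ≤ S.h v ∧ S.h v ≤ B * m then κ (v - z) else 0 with hκ'
    have hshift : ∀ g : Site d → ℝ≥0∞, ∑' v, g (v - z) = ∑' x, g x := fun g =>
      (Equiv.subRight z).tsum_eq g
    have heq : ∑' x, κ x * (if c / 2 * m ≤ S.h (x + z) ∧ S.h (x + z) ≤ B * m then F (x + z) else 0)
        = ∑' v, κ' v * F v := by
      rw [← hshift]
      refine tsum_congr fun v => ?_
      simp only [hκ', sub_add_cancel]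
      split_ifs <;> simp
    rw [heq]
    have hk1' : ∑' v, κ' v ≤ 1 := by
      refine le_trans (ENNReal.tsum_le_tsum fun v => ?_) ((hshift κ).le.trans hk1)
      simp only [hκ']
      split_ifs <;> simp
    have hk' : ∀ v, κ' v ≠ 0 → c / 2 * m ≤ S.h v ∧ S.h v ≤ B * m ∧ κ (v - z) ≠ 0 := by
      intro v hv
      simp only [hκ'] at hv
      split_ifs at hv with h
      · exact ⟨h.1, h.2, hv⟩
      · exact absurd rfl hv
    have hp := hphi (2 * ((B : ℝ) * m)) (M₀ * m) J κ' (A / ENNReal.ofReal ((m : ℝ) * √m))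
      (s + S.h z) (L * √m) (by positivity) (by positivity) hk1'
      (fun v => by simp only [hκ']; split_ifs; exacts [hksup _, bot_le])
      (fun v hv => by
        obtain ⟨-, -, h3⟩ := hk' v hv
        have := hkband _ h3
        rw [map_sub] at this
        constructor <;> linarith [this.1, this.2])
    have hsqrt : (0 : ℝ) < √m := Real.sqrt_pos.2 hm'
    have hp' : ∫⁻ ω, phi S.h (2 * ((B : ℝ) * m)) (M₀ * m) J κ' ω ^ 2 ∂envLaw S.μ ≤ Φ := by
      refine hp.trans (mul_le_mul' le_rfl (add_le_add le_rfl ?_))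
      set X := ENNReal.ofReal ((m : ℝ) * √m) with hX
      have hX0 : X ≠ 0 := (ENNReal.ofReal_pos.2 (mul_pos hm' hsqrt)).ne'
      have h2 : (m : ℝ≥0∞) * ENNReal.ofReal (L * √m + 1) ≤ ((L : ℝ≥0∞) + 1) * X := by
        rw [hX, ← ENNReal.ofReal_natCast m, ← ENNReal.ofReal_natCast L, ← ENNReal.ofReal_one,
          ← ENNReal.ofReal_add (by positivity) zero_le_one, ← ENNReal.ofReal_mul (by positivity),
          ← ENNReal.ofReal_mul (by positivity)]
        refine ENNReal.ofReal_le_ofReal ?_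
        have h1 : (1 : ℝ) ≤ √m := Real.one_le_sqrt.2 (by exact_mod_cast hm)
        nlinarith
      calc (J : ℝ≥0∞) * (A / X) * ((M₀ * m : ℕ) : ℝ≥0∞) * ENNReal.ofReal (L * √m + 1)
          = (J : ℝ≥0∞) * M₀ * (A / X) * ((m : ℝ≥0∞) * ENNReal.ofReal (L * √m + 1)) := by
            push_cast; ring
        _ ≤ (J : ℝ≥0∞) * M₀ * (A / X) * (((L : ℝ≥0∞) + 1) * X) := by gcongr
        _ = (J : ℝ≥0∞) * M₀ * ((L : ℝ≥0∞) + 1) * (A / X * X) := by ring
        _ = (J : ℝ≥0∞) * A * M₀ * ((L : ℝ≥0∞) + 1) := by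
            rw [ENNReal.div_mul_cancel hX0 ENNReal.ofReal_ne_top]; ring
    have hk := S.key_le hbin (c / 2) B (by linarith) hBr m (M₀ * m) J K' hK' hm κ' hk1'
      (fun v hv => (hk' v hv).1) (fun v hv => (hk' v hv).2.1)
    have hbt := hback (2 * ((B : ℝ) * m) + c / 2 * m / 2) (c / 2 * m / 2) (by positivity)
    have hT := htrim (2 * ((B : ℝ) * m)) (by positivity) (M₀ * m) J K (Nat.mul_pos hM₀ hm) hJ hK
    have hbt' : Cb * S.P (Esc (-S.h) ∩ {t | ∃ k k', k ≤ k' ∧
        2 * ((B : ℝ) * m) + c / 2 * m / 2 < (-S.h) (site t k) ∧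
        (-S.h) (site t k') ≤ 2 * ((B : ℝ) * m) + c / 2 * m / 2 - c / 2 * m / 2}) ≤ τ := by
      refine (mul_le_mul' le_rfl hbt).trans (le_trans (mul_le_mul' le_rfl ?_) e3)
      have h1 : c / 2 * m / 2 = c / 4 * m := by ring
      rw [h1, ← mul_assoc _ (m : ℝ≥0∞), mul_assoc _ _ (m : ℝ≥0∞), ← ENNReal.ofReal_natCast m,
        ← ENNReal.ofReal_mul (by positivity)]
      refine mul_le_mul' (mul_le_mul' le_rfl (ENNReal.ofReal_le_ofReal ?_)) le_rfl
      have : (1 : ℝ) ≤ m := by exact_mod_cast hm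
      nlinarith
    have hT' : (∑' ws : Bin S.h (2 * ((B : ℝ) * m)),
        if ws.1 ∈ Cand S.h (2 * ((B : ℝ) * m)) (M₀ * m) J then 0 else pw S.μ 0 ws.1.flatten)
          ≤ 3 * τ := by
      refine hT.trans ?_
      rw [mul_add, mul_add, show (3 : ℝ≥0∞) * τ = τ + τ + τ by ring]
      refine add_le_add (add_le_add ?_ ?_) ?_
      · refine le_trans ?_ hMle
        rw [Nat.cast_mul, ← mul_div_assoc]
        have hnum : ENNReal.ofReal (2 * ((B : ℝ) * m) + 1) ≤ (2 * B + 1) * (m : ℝ≥0∞) := by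
          have he : (2 * B + 1) * (m : ℝ≥0∞) = ENNReal.ofReal ((2 * B + 1) * m) := by
            rw [← ENNReal.ofReal_natCast B, ← ENNReal.ofReal_natCast m,
              ← ENNReal.ofReal_ofNat 2, ← ENNReal.ofReal_one, ← ENNReal.ofReal_mul zero_le_two,
              ← ENNReal.ofReal_add (by positivity) zero_le_one,
              ← ENNReal.ofReal_mul (by positivity)]
          rw [he]
          refine ENNReal.ofReal_le_ofReal ?_
          have : (1 : ℝ) ≤ m := by exact_mod_cast hm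
          nlinarith
        refine le_trans (ENNReal.div_le_div_right (mul_le_mul' le_rfl hnum) _) (le_of_eq ?_)
        rw [← mul_assoc, ENNReal.mul_div_mul_right _ _ hmne (by simp)]
      · rwa [mul_one_div]
      · rwa [← mul_div_assoc]
    have hX : S.P (Esc S.h) * ∑' v, κ' v * F v ≤ δ * η₁ + 7 * τ := by
      refine hk.trans (add_le_add (mul_le_mul' le_rfl ?_) ?_)
      · rw [ENNReal.ofReal_natCast]; exact hBle.trans hτle
      · rw [show (7 : ℝ≥0∞) * τ = τ + 3 * τ + (τ + (τ + τ)) by ring]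
        refine add_le_add (add_le_add hbt' hT') (add_le_add e1 ?_)
        rw [mul_add]
        refine add_le_add e2 (le_trans ?_ hK'le)
        rw [← mul_div_assoc]
        exact ENNReal.div_le_div_right (mul_le_mul' le_rfl hp') _
    have : δ * ∑' v, κ' v * F v ≤ δ * (8 * η₁) := by
      refine hX.trans (le_of_eq ?_)
      rw [hτ]; ring
    exact (ENNReal.mul_le_mul_iff_right hδ0 (measure_ne_top _ _)).1 this
  -- assemble
  set F' : Site d → ℝ≥0∞ := fun x =>
    if c / 2 * m ≤ S.h (x + z) ∧ S.h (x + z) ≤ B * m then F (x + z) else 0 with hF'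
  set k := conv (blockLaw S.μ S.h) m with hk
  have hconv := hsplit m L hm hL F'
    (fun x => by simp only [hF']; split_ifs; exacts [hF1 _, zero_le_one]) (8 * η₁) hkey
  have hL' : C₀ / (L : ℝ≥0∞) ^ 2 ≤ τ := by
    refine le_trans (ENNReal.div_le_div_left ?_ _) hLle
    rw [sq]
    exact le_mul_of_one_le_left' (by exact_mod_cast hL)
  have hall : ex S.μ S.h (2 * m) (fun V => ex S.μ S.h m fun M =>
      S.P (E ∩ Hits z (deps (-disp (V ++ M).flatten) V.flatten))) = ∑' x, k x * F (x + z) := by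
    have hsh : ∀ V M : List (List (Step d)),
        Hits z (deps (-disp (V ++ M).flatten) V.flatten)
          = Hits 0 (deps (-(disp V.flatten + (disp M.flatten + z))) V.flatten) := by
      intro V M
      have h1 := hits_translate (0 : Site d) V.flatten z
        (-(disp V.flatten + (disp M.flatten + z)))
      rw [zero_add, show -(disp V.flatten + (disp M.flatten + z)) + z
        = -disp (V ++ M).flatten by simp [List.flatten_append]; abel] at h1
      exact h1
    rw [ex_comm]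
    calc ex S.μ S.h m (fun M => ex S.μ S.h (2 * m) fun V =>
          S.P (E ∩ Hits z (deps (-disp (V ++ M).flatten) V.flatten)))
        = ex S.μ S.h m (fun M => ∑' x, F (x + z) * if disp M.flatten = x then 1 else 0) := by
          refine ex_congr_of fun M _ _ => ?_
          rw [tsum_eq_single (disp M.flatten) fun x hx => by rw [if_neg (Ne.symm hx), mul_zero],
            if_pos rfl, mul_one, hF]
          exact ex_congr_of fun V _ _ => by rw [hsh]
      _ = _ := by
          rw [ex_tsum]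
          refine tsum_congr fun x => ?_
          rw [ex_const_mul, ex_disp_eq_conv, mul_comm]
  have hid : ∀ P : Site d → Prop, (∑' x, k x * if P x then (1 : ℝ≥0∞) else 0)
      = ex S.μ S.h m fun M => if P (disp M.flatten) then 1 else 0 := by
    intro P
    calc (∑' x, k x * if P x then (1 : ℝ≥0∞) else 0)
        = ∑' x, ex S.μ S.h m fun M => (if disp M.flatten = x then 1 else 0)
            * if P x then 1 else 0 := by
          refine tsum_congr fun x => ?_
          rw [ex_mul_const, ex_disp_eq_conv]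
      _ = _ := by
          rw [← ex_tsum]
          refine ex_congr_of fun M _ _ => ?_
          rw [tsum_eq_single (disp M.flatten) fun x hx => by rw [if_neg (Ne.symm hx), zero_mul],
            if_pos rfl, one_mul]
  have hlow : (∑' x, k x * if S.h x < c * m then (1 : ℝ≥0∞) else 0) ≤ τ := by
    rw [hid]; exact (hmid m hm).trans e5
  have hhigh : (∑' x, k x * if (B : ℝ) * m < S.h x then (1 : ℝ≥0∞) else 0) ≤ τ := by
    rw [hid]
    refine (S.high_le m (mul_pos hBr hm')).trans (le_trans ?_ hBle)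
    rw [ENNReal.ofReal_mul hBr.le, ENNReal.ofReal_natCast, ENNReal.ofReal_natCast, ← hEHdef,
      mul_comm (m : ℝ≥0∞), ENNReal.mul_div_mul_right _ _ hmne (by simp)]
    exact ENNReal.div_le_div_right (le_mul_of_one_le_left' (by norm_num)) _
  rw [hall]
  calc ∑' x, k x * F (x + z)
      ≤ ∑' x, (k x * F' x + (k x * (if S.h x < c * m then 1 else 0)
          + k x * (if (B : ℝ) * m < S.h x then 1 else 0))) := by
        refine ENNReal.tsum_le_tsum fun x => ?_
        rw [← mul_add, ← mul_add]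
        refine mul_le_mul' le_rfl ?_
        simp only [hF']
        by_cases hin : c / 2 * m ≤ S.h (x + z) ∧ S.h (x + z) ≤ B * m
        · rw [if_pos hin]; exact le_self_add
        · rw [if_neg hin, zero_add]
          rw [map_add] at hin
          refine le_trans (hF1 _) ?_
          by_cases h1 : S.h x < c * m
          · rw [if_pos h1]; exact le_self_add
          · have h2 : (B : ℝ) * m < S.h x := by
              by_contra h2
              exact hin ⟨by linarith [not_lt.1 h1], by linarith [not_lt.1 h2]⟩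
            rw [if_pos h2]; exact le_add_self
    _ ≤ (8 * η₁ + C₀ / m + C₀ / (L : ℝ≥0∞) ^ 2) + (τ + τ) := by
        rw [ENNReal.tsum_add, ENNReal.tsum_add]
        exact add_le_add hconv (add_le_add hlow hhigh)
    _ ≤ (8 * η₁ + η₁ + η₁) + (η₁ + η₁) := by
        gcongr <;> first | exact e4.trans hτle | exact hL'.trans hτle
    _ = 12 * η₁ := by ring
    _ ≤ 16 * η₁ := by gcongr; norm_num
    _ = η := by rw [hη₁, mul_comm, ENNReal.div_mul_cancel (by norm_num) (by norm_num)]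

end Vale.Agent.P147
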