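import Mathlib
import Vale.Agent.P147.FinalArg
import Vale.Agent.P147.WindowBound

/-!
# P147: tails of the lateral extent of blocks

`ext π` is the largest `ℓ¹` norm of a position inside the block `π`.  A record of `t ^ a * tail`
controls all truncated means below it, which is what the tilted crossing needs.
-/

namespace Vale.Agent.P147

open MeasureTheory Finset Filter
open scoped ENNReal Topology

variable {d : ℕ}

/-- The `ℓ¹` norm of a site. -/
def nrm (x : Site d) : ℕ := ∑ i, (x i).natAbs

/-- The largest norm of a position of a path. -/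
def ext (π : List (Step d)) : ℕ := (range (π.length + 1)).sup fun k => nrm (disp (π.take k))

/-- The summed extents of a list of paths. -/
def extSum (ws : List (List (Step d))) : ℕ := (ws.map ext).sum

theorem nrm_add_le (x y : Site d) : nrm (x + y) ≤ nrm x + nrm y := by
  unfold nrm
  rw [← sum_add_distrib]
  exact sum_le_sum fun i _ => Int.natAbs_add_le _ _

theorem abs_apply_le_nrm (x : Site d) (i : Fin d) : |(x i : ℝ)| ≤ nrm x := by
  have h1 : (x i).natAbs ≤ nrm x :=
    single_le_sum (f := fun i => (x i).natAbs) (fun _ _ => Nat.zero_le _) (mem_univ i)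
  have h2 : ((x i).natAbs : ℝ) ≤ (nrm x : ℝ) := by exact_mod_cast h1
  rwa [Nat.cast_natAbs, Int.cast_abs] at h2

theorem exists_coord_gt {x : Site d} {t : ℝ} (ht0 : 0 ≤ t) (ht : t < nrm x) :
    ∃ i, t / d < |(x i : ℝ)| := by
  by_contra! hle
  have h1 : (nrm x : ℝ) = ∑ i, |(x i : ℝ)| := by
    rw [nrm, Nat.cast_sum]
    exact sum_congr rfl fun i _ => by rw [Nat.cast_natAbs, Int.cast_abs]
  have h2 : ∑ i, |(x i : ℝ)| ≤ d * (t / d) := by
    refine (sum_le_sum fun i _ => hle i).trans ?_
    simp
  rcases Nat.eq_zero_or_pos d with hd | hd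
  · subst hd
    simp [nrm] at ht
    linarith
  · rw [mul_div_cancel₀ t (by positivity)] at h2
    linarith

theorem nrm_take_le_ext (π : List (Step d)) {k : ℕ} (hk : k ≤ π.length) :
    nrm (disp (π.take k)) ≤ ext π :=
  le_sup (f := fun k => nrm (disp (π.take k))) (mem_range.2 (Nat.lt_succ_of_le hk))

theorem nrm_disp_le_ext (π : List (Step d)) : nrm (disp π) ≤ ext π := by
  simpa using nrm_take_le_ext π (le_refl π.length)

theorem exists_of_lt_ext {π : List (Step d)} {t : ℝ} (ht : t < ext π) :
    ∃ k ≤ π.length, t < nrm (disp (π.take k)) := by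
  obtain ⟨k, hk, hk'⟩ := exists_mem_eq_sup (range (π.length + 1))
    ⟨0, by simp⟩ fun k => nrm (disp (π.take k))
  exact ⟨k, Nat.le_of_lt_succ (mem_range.1 hk), by rwa [ext, hk'] at ht⟩

theorem nrm_disp_flatten_le : ∀ ws : List (List (Step d)), nrm (disp ws.flatten) ≤ extSum ws
  | [] => by simp [nrm, extSum]
  | π :: ws => by
    rw [List.flatten_cons, disp_append, extSum, List.map_cons, List.sum_cons]
    exact (nrm_add_le _ _).trans (add_le_add (nrm_disp_le_ext π) (nrm_disp_flatten_le ws))

theorem nrm_take_flatten_le : ∀ (ws : List (List (Step d))) {k : ℕ}, k ≤ ws.flatten.length →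
    nrm (disp (ws.flatten.take k)) ≤ extSum ws
  | [], k, hk => by simp [nrm, extSum]
  | π :: ws, k, hk => by
    rw [List.flatten_cons, List.length_append] at hk
    rw [List.flatten_cons, List.take_append, disp_append, extSum, List.map_cons, List.sum_cons]
    refine (nrm_add_le _ _).trans (add_le_add ?_ (nrm_take_flatten_le ws (by omega)))
    rcases le_total k π.length with h | h
    · exact nrm_take_le_ext π h
    · rw [List.take_of_length_le h]; exact nrm_disp_le_ext π

theorem extSum_append (u v : List (List (Step d))) : extSum (u ++ v) = extSum u + extSum v := by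
  simp [extSum, List.map_append, List.sum_append]

variable {μ : Measure (Row d)} {h : Site d →+ ℝ}

/-- Expectation of an additive function of the blocks. -/
theorem ex_map_sum (hb : ∑' π, bwgt μ h π = 1) (g : List (Step d) → ℝ≥0∞) (n : ℕ) :
    ex μ h n (fun ws => (ws.map g).sum) = n * ∑' π, bwgt μ h π * g π := by
  induction n with
  | zero => simp
  | succ n ih =>
    simp only [ex_succ, List.map_cons, List.sum_cons, ex_add, ex_const hb, ih, mul_add,
      ENNReal.tsum_add, ENNReal.tsum_mul_right, hb, one_mul, Nat.cast_succ, add_mul]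
    rw [add_comm]

/-- Functions of the first `m` blocks. -/
theorem ex_take (hb : ∑' π, bwgt μ h π = 1) {m n : ℕ} (hmn : m ≤ n)
    (F : List (List (Step d)) → ℝ≥0∞) :
    ex μ h n (fun ws => F (ws.take m)) = ex μ h m F := by
  obtain ⟨k, rfl⟩ := Nat.exists_eq_add_of_le hmn
  rw [ex_append]
  refine ex_congr_of fun u hu _ => ?_
  rw [← ex_const hb k (F u)]
  exact ex_congr_of fun v _ _ => by rw [List.take_append, hu]; simp [← hu]

/-- The truncated mean extent of one block at scale `x`. -/
noncomputable def truncExt (μ : Measure (Row d)) (h : Site d →+ ℝ) (x : ℝ) : ℝ≥0∞ :=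
  ∑' π, bwgt μ h π * min 1 (ENNReal.ofReal (ext π / x))

open Classical in
/-- The tail of the extent of one block. -/
noncomputable def tailE (μ : Measure (Row d)) (h : Site d →+ ℝ) (t : ℝ) : ℝ≥0∞ :=
  ∑' π, bwgt μ h π * if t < (ext π : ℝ) then 1 else 0

open Classical in
theorem indicator_extSum_le {x : ℝ} (hx : 0 < x) : ∀ ws : List (List (Step d)),
    (if x < (extSum ws : ℝ) then (1 : ℝ≥0∞) else 0)
      ≤ (ws.map fun π => min 1 (ENNReal.ofReal (ext π / x))).sum := by
  intro ws
  split_ifs with hlt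
  swap
  · exact bot_le
  have key : ∀ vs : List (List (Step d)), min 1 (ENNReal.ofReal (extSum vs / x))
      ≤ (vs.map fun π => min 1 (ENNReal.ofReal (ext π / x))).sum := by
    intro vs
    induction vs with
    | nil => simp [extSum]
    | cons π vs ih =>
      rw [List.map_cons, List.sum_cons]
      refine le_trans ?_ (add_le_add le_rfl ih)
      rcases le_total 1 (ENNReal.ofReal ((ext π : ℝ) / x)) with h1 | h1
      · rw [min_eq_left h1]; exact (min_le_left _ _).trans le_self_add
      rw [min_eq_right h1]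
      rcases le_total 1 (ENNReal.ofReal ((extSum vs : ℝ) / x)) with h2 | h2
      · rw [min_eq_left h2]; exact (min_le_left _ _).trans le_add_self
      rw [min_eq_right h2, ← ENNReal.ofReal_add (by positivity) (by positivity), ← add_div]
      refine (min_le_right _ _).trans (le_of_eq ?_)
      congr 2
      simp [extSum, List.map_cons, List.sum_cons]
  refine le_trans (le_of_eq (min_eq_left ?_).symm) (key ws)
  rw [← ENNReal.ofReal_one]
  exact ENNReal.ofReal_le_ofReal ((one_le_div hx).2 hlt.le)

open Classical in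
/-- Large summed extents. -/
theorem ex_extSum_gt_le (hb : ∑' π, bwgt μ h π = 1) {x : ℝ} (hx : 0 < x) (n : ℕ) :
    ex μ h n (fun ws => if x < (extSum ws : ℝ) then 1 else 0) ≤ n * truncExt μ h x :=
  (ex_mono fun ws => indicator_extSum_le hx ws).trans (ex_map_sum hb _ n).le

theorem truncExt_anti {x y : ℝ} (hx : 0 < x) (hxy : x ≤ y) :
    truncExt μ h y ≤ truncExt μ h x := by
  refine ENNReal.tsum_le_tsum fun π => mul_le_mul' le_rfl (min_le_min le_rfl ?_)
  exact ENNReal.ofReal_le_ofReal (div_le_div_of_nonneg_left (by positivity) hx hxy)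

/-- The constant in the truncated mean bound. -/
noncomputable def recConst (a : ℝ) : ℝ := 2 * 2 ^ a / (1 - (2 : ℝ) ^ (a - 1))

theorem recConst_pos {a : ℝ} (ha : a < 1) : 0 < recConst a := by
  have h1 : (2 : ℝ) ^ (a - 1) < 1 := Real.rpow_lt_one_of_one_lt_of_neg (by norm_num) (by linarith)
  unfold recConst
  have : 0 < 1 - (2 : ℝ) ^ (a - 1) := by linarith
  positivity

/-- A record of `t ^ a * tail` bounds the truncated means below it. -/
theorem truncExt_le_of_record {a t ψ : ℝ} (ha : a < 1) (hψ : 0 ≤ ψ)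
    (hrec : ∀ s, 0 < s → s ≤ t → tailE μ h s ≤ ENNReal.ofReal (2 * ψ * (t / s) ^ a))
    {x : ℝ} (hx : 0 < x) (hxt : x ≤ t) :
    truncExt μ h x ≤ ENNReal.ofReal (recConst a * ψ * (t / x) ^ a) := by
  classical
  set r : ℝ := (2 : ℝ) ^ (a - 1) with hr
  have hr0 : 0 < r := Real.rpow_pos_of_pos two_pos _
  have hr1 : r < 1 := Real.rpow_lt_one_of_one_lt_of_neg (by norm_num) (by linarith)
  have ht : 0 < t := hx.trans_le hxt
  have hB : (0 : ℝ) ≤ 2 * ψ * 2 ^ a * (t / x) ^ a := by positivity
  have pt : ∀ π : List (Step d), min 1 (ENNReal.ofReal ((ext π : ℝ) / x)) ≤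
      ∑' i : ℕ, ENNReal.ofReal (1 / 2 ^ i) *
        (if x / 2 ^ (i + 1) < (ext π : ℝ) then 1 else 0) := by
    intro π
    rcases Nat.eq_zero_or_pos (ext π) with h0 | hpos
    · simp [h0]
    have hpos' : (0 : ℝ) < ext π := by exact_mod_cast hpos
    obtain ⟨i, hi⟩ : ∃ i : ℕ, x / 2 ^ (i + 1) < (ext π : ℝ) := by
      obtain ⟨n, hn⟩ := pow_unbounded_of_one_lt (x / ext π) (by norm_num : (1 : ℝ) < 2)
      refine ⟨n, ?_⟩
      rw [div_lt_iff₀ (by positivity)]
      rw [div_lt_iff₀ hpos'] at hn
      rw [pow_succ]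
      nlinarith [pow_pos (show (0 : ℝ) < 2 by norm_num) n]
    have hex : ∃ i : ℕ, x / 2 ^ (i + 1) < (ext π : ℝ) := ⟨i, hi⟩
    refine le_trans ?_ (ENNReal.le_tsum (Nat.find hex))
    rw [if_pos (Nat.find_spec hex), mul_one]
    rcases hj : Nat.find hex with _ | j
    · simp
    · have hnot := Nat.find_min hex (show j < Nat.find hex by omega)
      refine (min_le_right _ _).trans (ENNReal.ofReal_le_ofReal ?_)
      rw [not_lt] at hnot
      rw [div_le_div_iff₀ hx (by positivity), one_mul]
      rw [le_div_iff₀ (by positivity)] at hnot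
      exact hnot
  calc truncExt μ h x
      ≤ ∑' π, bwgt μ h π * ∑' i : ℕ, ENNReal.ofReal (1 / 2 ^ i) *
          (if x / 2 ^ (i + 1) < (ext π : ℝ) then 1 else 0) :=
        ENNReal.tsum_le_tsum fun π => mul_le_mul' le_rfl (pt π)
    _ = ∑' i : ℕ, ENNReal.ofReal (1 / 2 ^ i) * tailE μ h (x / 2 ^ (i + 1)) := by
        simp only [← ENNReal.tsum_mul_left]
        rw [ENNReal.tsum_comm]
        refine tsum_congr fun i => ?_
        simp only [tailE, ← ENNReal.tsum_mul_left]
        exact tsum_congr fun π => mul_left_comm _ _ _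
    _ ≤ ∑' i : ℕ, ENNReal.ofReal (2 * ψ * 2 ^ a * (t / x) ^ a * r ^ i) := by
        refine ENNReal.tsum_le_tsum fun i => ?_
        have h2 : (0 : ℝ) < 2 ^ (i + 1) := by positivity
        refine (mul_le_mul' le_rfl (hrec _ (by positivity)
          ((div_le_self hx.le (one_le_pow₀ (by norm_num))).trans hxt))).trans (le_of_eq ?_)
        rw [← ENNReal.ofReal_mul (by positivity)]
        congr 1
        rw [show t / (x / 2 ^ (i + 1)) = t / x * 2 ^ (i + 1) by field_simp,
          Real.mul_rpow (by positivity) h2.le, hr, ← Real.rpow_natCast 2 (i + 1),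
          ← Real.rpow_natCast (2 ^ (a - 1)) i, ← Real.rpow_natCast 2 i,
          ← Real.rpow_mul (by norm_num : (0 : ℝ) ≤ 2), ← Real.rpow_mul (by norm_num : (0 : ℝ) ≤ 2),
          one_div, ← Real.rpow_neg (by norm_num : (0 : ℝ) ≤ 2)]
        have e : (2 : ℝ) ^ (-(i : ℝ)) * (2 : ℝ) ^ (((i + 1 : ℕ) : ℝ) * a)
            = (2 : ℝ) ^ a * (2 : ℝ) ^ ((a - 1) * (i : ℝ)) := by
          rw [← Real.rpow_add two_pos, ← Real.rpow_add two_pos]
          congr 1
          push_cast
          ring
        linear_combination (2 * ψ * (t / x) ^ a) * e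
    _ = ENNReal.ofReal (∑' i : ℕ, 2 * ψ * 2 ^ a * (t / x) ^ a * r ^ i) :=
        (ENNReal.ofReal_tsum_of_nonneg (fun i => mul_nonneg hB (pow_nonneg hr0.le i))
          ((summable_geometric_of_lt_one hr0.le hr1).mul_left _)).symm
    _ = _ := by
        rw [tsum_mul_left, tsum_geometric_of_lt_one hr0.le hr1, recConst]
        congr 1
        rw [← hr]
        field_simp

/-- The tail of the extent of one block tends to zero. -/
theorem tailE_tendsto (hb : ∑' π, bwgt μ h π = 1) :
    Tendsto (fun t : ℝ => tailE μ h t) atTop (𝓝 0) := by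
  classical
  rw [ENNReal.tendsto_nhds_zero]
  intro η hη
  have hne : ∑' π, bwgt μ h π ≠ ⊤ := by rw [hb]; exact ENNReal.one_ne_top
  obtain ⟨s, hs⟩ := ((ENNReal.tendsto_tsum_compl_atTop_zero hne).eventually
    (eventually_le_nhds hη)).exists
  refine eventually_atTop.2 ⟨∑ π ∈ s, (ext π : ℝ), fun t ht => ?_⟩
  refine le_trans ?_ hs
  change tailE μ h t ≤ ∑' π : {π // π ∉ s}, bwgt μ h π.1
  rw [tailE]
  refine le_trans (ENNReal.tsum_le_tsum fun π => ?_)
    (le_of_eq (tsum_subtype {π | π ∉ s} (bwgt μ h)).symm)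
  by_cases hm : π ∈ s
  · have h1 : (ext π : ℝ) ≤ t :=
      (single_le_sum (f := fun π => (ext π : ℝ)) (fun _ _ => by positivity) hm).trans ht
    simp [not_lt.2 h1]
  · rw [Set.indicator_of_mem (show π ∈ {π | π ∉ s} from hm)]
    split_ifs <;> simp

end Vale.Agent.P147
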