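import Mathlib
import Vale.Agent.P147.CrossTail

/-!
# P147: crossing a tilted level inside a fresh region

An ascending walk which crosses the level `Lv` of a tilted functional `w` at height at most `HN`
can continue by a descending escape that stays above `Lv` until it is below height zero.  The
continuation never meets a visited site, so it is a fresh walk.
-/

namespace Vale.Agent.P147

open MeasureTheory Finset Filter
open scoped ENNReal Topology

variable {d : ℕ}

/-- The setting seen from the other side. -/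
def Setup.swap (S : Setup d) : Setup d where
  μ := S.μ
  prob := S.prob
  ell := S.ell
  P := S.P
  ann := S.ann
  h := -S.h
  three := S.three
  unit := fun e => by simpa using S.unit e
  e₀ := S.e₁
  he₀ := S.he₁
  escP := S.escM
  escM := by rw [neg_neg]; exact S.escP

/-- A sign. -/
def sgn (σ : Bool) : ℝ := if σ then 1 else -1

theorem sgn_mul_le (σ : Bool) (x : Site d) (i : Fin d) : sgn σ * (x i : ℝ) ≤ nrm x := by
  have h1 := abs_apply_le_nrm x i
  rcases abs_le.1 h1 with ⟨h2, h3⟩
  cases σ <;> simp [sgn] <;> linarith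

theorem neg_nrm_le_sgn (σ : Bool) (x : Site d) (i : Fin d) : -(nrm x : ℝ) ≤ sgn σ * (x i : ℝ) := by
  have h1 := abs_apply_le_nrm x i
  rcases abs_le.1 h1 with ⟨h2, h3⟩
  cases σ <;> simp [sgn] <;> linarith

/-- A lateral coordinate tilted against the height. -/
noncomputable def tilt (h : Site d →+ ℝ) (i : Fin d) (σ : Bool) (lam : ℝ) : Site d →+ ℝ where
  toFun x := sgn σ * (x i : ℝ) - lam * h x
  map_zero' := by simp
  map_add' x y := by
    simp only [Pi.add_apply, Int.cast_add, map_add]
    ring

theorem tilt_apply (h : Site d →+ ℝ) (i : Fin d) (σ : Bool) (lam : ℝ) (x : Site d) :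
    tilt h i σ lam x = sgn σ * (x i : ℝ) - lam * h x := rfl

theorem flatten_take_add_drop (ws : List (List (Step d))) (m : ℕ) :
    (ws.take m).flatten ++ (ws.drop m).flatten = ws.flatten := by
  rw [← List.flatten_append, List.take_append_drop]

theorem take_flatten_of_le {ws : List (List (Step d))} {m k : ℕ}
    (hk : k ≤ (ws.take m).flatten.length) :
    ws.flatten.take k = (ws.take m).flatten.take k := by
  conv_lhs => rw [← flatten_take_add_drop ws m]
  rw [List.take_append_of_le_length hk]

theorem height_take_ge {g : Site d →+ ℝ} {ws : List (List (Step d))}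
    (hws : ∀ π ∈ ws, IsBlock g π) {m k : ℕ} (hm : (ws.take m).flatten.length ≤ k) :
    g (disp (ws.take m).flatten) ≤ g (disp (ws.flatten.take k)) := by
  conv_rhs => rw [← flatten_take_add_drop ws m]
  have hd : ∀ π ∈ ws.drop m, IsBlock g π := fun π hπ => hws π (List.mem_of_mem_drop hπ)
  rw [List.take_append, List.take_of_length_le hm, disp_append, map_add]
  rcases lt_or_ge (k - (ws.take m).flatten.length) (ws.drop m).flatten.length with h1 | h1
  · linarith [(flatten_range hd h1).1]
  · rw [List.take_of_length_le h1]; linarith [flatten_disp_nonneg hd]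

theorem height_take_nonneg {g : Site d →+ ℝ} {ws : List (List (Step d))}
    (hws : ∀ π ∈ ws, IsBlock g π) (k : ℕ) : 0 ≤ g (disp (ws.flatten.take k)) := by
  rcases lt_or_ge k ws.flatten.length with h | h
  · exact (flatten_range hws h).1
  · rw [List.take_of_length_le h]; exact flatten_disp_nonneg hws

theorem height_take_le {g : Site d →+ ℝ} {ws : List (List (Step d))}
    (hws : ∀ π ∈ ws, IsBlock g π) (k : ℕ) :
    g (disp (ws.flatten.take k)) ≤ g (disp ws.flatten) := by
  rcases lt_or_ge k ws.flatten.length with h | h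
  · exact (flatten_range hws h).2.le
  · rw [List.take_of_length_le h]

/-- Chains of `n` blocks with a property. -/
def chainEvent (g : Site d →+ ℝ) (n : ℕ) (F : List (List (Step d)) → Prop) : Set (Traj d) :=
  ⋃ ws : {ws : List (List (Step d)) | ws.length = n ∧ (∀ π ∈ ws, IsBlock g π) ∧ F ws},
    blockEvent g ws.1

theorem measurableSet_chainEvent (g : Site d →+ ℝ) (n : ℕ) (F : List (List (Step d)) → Prop) :
    MeasurableSet (chainEvent g n F) :=
  MeasurableSet.iUnion fun _ => measurableSet_blockEvent _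

theorem mem_chainEvent {g : Site d →+ ℝ} {n : ℕ} {F : List (List (Step d)) → Prop} {t : Traj d} :
    t ∈ chainEvent g n F ↔
      ∃ ws, ws.length = n ∧ (∀ π ∈ ws, IsBlock g π) ∧ F ws ∧ t ∈ blockEvent g ws := by
  simp only [chainEvent, Set.mem_iUnion, Subtype.exists, Set.mem_ofPred_eq]
  exact ⟨fun ⟨ws, ⟨a, b, c⟩, e⟩ => ⟨ws, a, b, c, e⟩, fun ⟨ws, a, b, c, e⟩ => ⟨ws, ⟨a, b, c⟩, e⟩⟩

variable {μ : Measure (Row d)} [IsProbabilityMeasure μ] {P : Measure (Traj d)} {g : Site d →+ ℝ}

open Classical in
theorem IsAnnealed.measure_chainEvent (hP : IsAnnealed μ P) (n : ℕ)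
    (F : List (List (Step d)) → Prop) :
    P (chainEvent g n F) = P (Esc g) * ex μ g n (fun ws => if F ws then 1 else 0) := by
  haveI := hP.1
  set T := {ws : List (List (Step d)) | ws.length = n ∧ (∀ π ∈ ws, IsBlock g π) ∧ F ws} with hT
  rw [chainEvent, measure_iUnion (fun ws vs hne => Set.disjoint_left.2 fun t h1 h2 =>
      hne <| Subtype.ext <| blockEvent_unique (ws.2.1.trans vs.2.1.symm) ws.2.2.1 vs.2.2.1 h1 h2)
    fun ws => measurableSet_blockEvent _]
  calc ∑' ws : T, P (blockEvent g ws.1) = ∑' ws : T, bprod μ g ws.1 * P (Esc g) :=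
        tsum_congr fun ws => hP.measure_blockEvent ws.2.2.1
    _ = (∑' ws : T, bprod μ g ws.1) * P (Esc g) := ENNReal.tsum_mul_right
    _ = _ := by
        rw [mul_comm]
        congr 1
        rw [ex_eq_tsum, tsum_subtype T (bprod μ g)]
        refine tsum_congr fun ws => ?_
        by_cases hm : ws ∈ T
        · rw [Set.indicator_of_mem hm, if_pos hm.1, if_pos hm.2.2, mul_one]
        · rw [Set.indicator_of_notMem hm]
          split_ifs with h1 h2
          · rw [mul_one, bprod_eq_zero fun hb => hm ⟨h1, hb, h2⟩]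
          · rw [mul_zero]
          · rfl

open Classical in
/-- An event inside the escape is covered by any complementary property of the first blocks. -/
theorem IsAnnealed.measure_le_chain (hP : IsAnnealed μ P) (hd : P (Esc g) ≠ 0) (n : ℕ)
    {G : Set (Traj d)} (hG : G ⊆ Esc g) (hGm : MeasurableSet G)
    (F : List (List (Step d)) → Prop)
    (hF : ∀ ws, ws.length = n → (∀ π ∈ ws, IsBlock g π) → ∀ t ∈ G ∩ blockEvent g ws, F ws) :
    P G ≤ P (Esc g) * ex μ g n (fun ws => if F ws then 1 else 0) := by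
  haveI := hP.1
  rw [hP.measure_eq_ex hd n hG hGm, ← hP.measure_chainEvent n F]
  refine le_trans (tsum_meas_le_meas_iUnion_of_disjoint₀ P (fun ws => ?_) ?_)
    (measure_mono (Set.iUnion_subset fun ws t ht => mem_chainEvent.2
      ⟨ws.1, ws.2.1, ws.2.2, hF ws.1 ws.2.1 ws.2.2 t ht, ht.2⟩))
  · exact (hGm.inter (measurableSet_blockEvent _)).nullMeasurableSet
  · exact fun ws vs hne => (Set.disjoint_left.2 fun t h1 h2 => hne <| Subtype.ext <|
      blockEvent_unique (ws.2.1.trans vs.2.1.symm) ws.2.2 vs.2.2 h1.2 h2.2).aedisjoint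

/-! ## The descending continuation -/

/-- Descending escapes which stay in `-b ≤ w` until they are deeper than `HN`. -/
def GoodY (h w : Site d →+ ℝ) (HN b : ℝ) : Set (Traj d) :=
  Esc (-h) ∩ {t | ∀ k, -b ≤ w (site t k) ∨ HN < (-h) (site t k)}

theorem measurableSet_goodY (h w : Site d →+ ℝ) (HN b : ℝ) : MeasurableSet (GoodY h w HN b) := by
  refine (measurableSet_esc _).inter ?_
  have : {t : Traj d | ∀ k, -b ≤ w (site t k) ∨ HN < (-h) (site t k)}
      = ⋂ k, (fun t : Traj d => site t k) ⁻¹' {x | -b ≤ w x ∨ HN < (-h) x} := by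
    ext t; simp
  rw [this]
  exact MeasurableSet.iInter fun k => measurable_site k (Set.to_countable _).measurableSet

/-- One step down, then a good escape with slack. -/
theorem Setup.goodY_step (S : Setup d) {i : Fin d} {σ : Bool} {lam HN : ℝ} (hlam : 2 ≤ lam)
    {A : ℝ≥0∞} (hA : A ≤ S.P (GoodY S.h (tilt S.h i σ lam) HN (lam / 2))) :
    bwgt S.μ (-S.h) [S.e₁] * A ≤ S.P (GoodY S.h (tilt S.h i σ lam) HN 0) := by
  haveI := S.ann.1
  have hb : IsBlock (-S.h) [S.e₁] := isBlock_singleton (S.he₁.symm ▸ zero_lt_one)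
  refine (mul_le_mul' le_rfl hA).trans ?_
  have hprod : bwgt S.μ (-S.h) [S.e₁] * S.P (GoodY S.h (tilt S.h i σ lam) HN (lam / 2))
      = S.P (cyl [S.e₁] ∩ shiftT [S.e₁].length ⁻¹' GoodY S.h (tilt S.h i σ lam) HN (lam / 2)) := by
    rw [S.ann.measure_cyl_inter_eq _ _ (measurableSet_goodY _ _ _ _)
      (Set.inter_subset_left.trans (esc_subset_avoid fun k hk => (hb.2.1 k hk).2))]
    simp [bwgt, hb]
  rw [hprod]
  refine measure_mono fun t ⟨ht, hs⟩ => ⟨?_, fun k => ?_⟩
  · exact (mem_esc_of_cut ht hb.2.1 hs.1 hb.pos.le).1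
  rcases k with _ | k
  · simp [site_zero]
  have h1 : site t (k + 1) = vec S.e₁ + site (shiftT 1 t) k := by
    rw [Nat.add_comm, site_shiftT, site_of_mem_cyl ht (k := 1) (by simp)]
    simp
  have hv : (-S.h) (vec S.e₁) = 1 := S.he₁
  rcases hs.2 k with h2 | h2
  · left
    rw [h1, map_add, neg_zero]
    simp only [List.length_singleton] at h2
    have h3 := neg_nrm_le_sgn σ (vec S.e₁) i
    have h4 : (nrm (vec S.e₁) : ℝ) = 1 := by
      have : nrm (vec S.e₁) = 1 := by
        generalize S.e₁ = e
        obtain ⟨j, b⟩ := e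
        rw [nrm, sum_eq_single j (fun l _ hl => by simp [vec, Pi.single_eq_of_ne hl]) (by simp)]
        cases b <;> simp [vec]
      exact_mod_cast this
    rw [tilt_apply]
    simp only [AddMonoidHom.neg_apply] at hv
    have h5 : S.h (vec S.e₁) = -1 := by linarith
    rw [h5]
    linarith
  · right
    rw [h1, map_add, hv]
    simp only [List.length_singleton] at h2
    linarith

open Classical in
/-- The bad events of the first `2 ^ (L + 1)` descending blocks. -/
theorem Setup.goodY_slack_ge (S : Setup d) {i : Fin d} {σ : Bool} {lam HN c : ℝ} (hlam : 0 < lam)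
    {l0 L : ℕ} (hL : l0 ≤ L) (hHN : HN < c * 2 ^ L) {e : ℝ≥0∞}
    (he : ex S.μ (-S.h) (2 ^ l0) (fun ws => if lam / 2 < (extSum ws : ℝ) then 1 else 0)
      + ∑ l ∈ Icc l0 L,
        (ex S.μ (-S.h) (2 ^ (l + 1))
            (fun ws => if lam * c * 2 ^ l < (extSum ws : ℝ) then 1 else 0)
          + ex S.μ (-S.h) (2 ^ l)
            (fun ws => if (-S.h) (disp ws.flatten) < c * 2 ^ l then 1 else 0)) ≤ e) :
    S.P (Esc (-S.h)) ≤ S.P (GoodY S.h (tilt S.h i σ lam) HN (lam / 2)) + S.P (Esc (-S.h)) * e := by
  haveI := S.ann.1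
  set g := -S.h with hg
  set n := 2 ^ (L + 1) with hn
  set Good := GoodY S.h (tilt S.h i σ lam) HN (lam / 2) with hGood
  have hb := S.ann.tsum_bwgt S.escM
  refine le_trans (measure_mono (t := Good ∪ (Esc g \ Good)) fun t ht => ?_)
    ((measure_union_le _ _).trans (add_le_add le_rfl ?_))
  · by_cases hm : t ∈ Good
    · exact .inl hm
    · exact .inr ⟨ht, hm⟩
  let F : List (List (Step d)) → Prop := fun ws =>
    lam / 2 < (extSum (ws.take (2 ^ l0)) : ℝ) ∨ ∃ l ∈ Icc l0 L,
      lam * c * 2 ^ l < (extSum (ws.take (2 ^ (l + 1))) : ℝ) ∨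
        g (disp (ws.take (2 ^ l)).flatten) < c * 2 ^ l
  refine le_trans (S.ann.measure_le_chain S.escM n Set.sdiff_subset
    ((measurableSet_esc _).diff (measurableSet_goodY _ _ _ _)) F ?_) (mul_le_mul' le_rfl ?_)
  · intro ws hlen hws t ⟨⟨_, hng⟩, hbe⟩
    by_contra hF
    simp only [F, not_or, not_exists, not_and, not_lt] at hF
    obtain ⟨h0, hl⟩ := hF
    refine hng ⟨blockEvent_subset hws hbe, fun k => ?_⟩
    rcases le_or_gt ws.flatten.length k with hk | hk
    · right
      refine hHN.trans_le ?_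
      refine ((hl L (mem_Icc.2 ⟨hL, le_rfl⟩)).2).trans (le_trans ?_ (le_site_of_blockEvent hbe hk))
      have := height_take_le hws (ws.take (2 ^ L)).flatten.length
      rwa [take_flatten_of_le le_rfl, List.take_length] at this
    left
    rw [site_of_mem_cyl hbe.1 hk.le, tilt_apply]
    have hex : ∃ m, k ≤ (ws.take m).flatten.length :=
      ⟨ws.length, by rw [List.take_length]; exact hk.le⟩
    set m := Nat.find hex with hm
    have hmn : m ≤ n := by
      refine Nat.find_min' hex ?_
      rw [← hlen, List.take_length]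
      exact hk.le
    have hmk := Nat.find_spec hex
    have hsum : ∀ M, m ≤ M → (nrm (disp (ws.flatten.take k)) : ℝ) ≤ extSum (ws.take M) := by
      intro M hM
      have hle : k ≤ (ws.take M).flatten.length := by
        refine hmk.trans ?_
        rw [← hm]
        have : (ws.take M).take m = ws.take m := by rw [List.take_take, min_eq_left hM]
        rw [← this]
        conv_rhs => rw [← flatten_take_add_drop (ws.take M) m]
        rw [List.length_append]
        exact Nat.le_add_right _ _
      rw [take_flatten_of_le hle]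
      exact_mod_cast nrm_take_flatten_le _ hle
    have hh0 : 0 ≤ g (disp (ws.flatten.take k)) := height_take_nonneg hws k
    have hu := neg_nrm_le_sgn σ (disp (ws.flatten.take k)) i
    simp only [hg, AddMonoidHom.neg_apply] at hh0
    by_cases hsmall : m ≤ 2 ^ l0
    · have h1 := (hsum _ hsmall).trans h0
      nlinarith
    push Not at hsmall
    set l := Nat.log 2 (m - 1) with hldef
    have hm1 : m - 1 ≠ 0 := by have := Nat.one_le_two_pow (n := l0); omega
    have hlo : 2 ^ l ≤ m - 1 := Nat.pow_log_le_self 2 hm1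
    have hhi : m - 1 < 2 ^ (l + 1) := Nat.lt_pow_succ_log_self one_lt_two _
    have hl0 : l0 ≤ l := Nat.le_log_of_pow_le one_lt_two (by omega)
    have hlL : l ≤ L := by
      by_contra! hLl
      have := Nat.pow_le_pow_right (show 0 < 2 by norm_num) (show L + 1 ≤ l from hLl)
      omega
    obtain ⟨h1, h2⟩ := hl l (mem_Icc.2 ⟨hl0, hlL⟩)
    have h3 := (hsum _ (by omega : m ≤ 2 ^ (l + 1))).trans h1
    have hkl : (ws.take (2 ^ l)).flatten.length ≤ k :=
      (not_le.1 (Nat.find_min hex (show 2 ^ l < Nat.find hex by omega))).le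
    have h4 := h2.trans (height_take_ge hws hkl)
    simp only [hg, AddMonoidHom.neg_apply] at h4
    nlinarith [mul_le_mul_of_nonneg_left h4 hlam.le]
  · refine le_trans ?_ he
    have hle : ∀ l ∈ Icc l0 L, 2 ^ (l + 1) ≤ n ∧ 2 ^ l ≤ n := fun l hl => by
      rw [mem_Icc] at hl
      exact ⟨Nat.pow_le_pow_right (by norm_num) (by omega),
        Nat.pow_le_pow_right (by norm_num) (by omega)⟩
    rw [← ex_take hb (show 2 ^ l0 ≤ n from Nat.pow_le_pow_right (by norm_num) (by omega))]
    have : ∀ l ∈ Icc l0 L,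
        ex S.μ g (2 ^ (l + 1)) (fun ws => if lam * c * 2 ^ l < (extSum ws : ℝ) then 1 else 0)
          + ex S.μ g (2 ^ l) (fun ws => if g (disp ws.flatten) < c * 2 ^ l then 1 else 0)
        = ex S.μ g n (fun ws =>
          (if lam * c * 2 ^ l < (extSum (ws.take (2 ^ (l + 1))) : ℝ) then 1 else 0)
          + (if g (disp (ws.take (2 ^ l)).flatten) < c * 2 ^ l then 1 else 0)) := by
      intro l hl
      rw [ex_add, ex_take hb (hle l hl).1
        (fun v => if lam * c * 2 ^ l < (extSum v : ℝ) then 1 else 0), ex_take hb (hle l hl).2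
        (fun v => if g (disp v.flatten) < c * 2 ^ l then 1 else 0)]
    rw [sum_congr rfl this, ← ex_sum, ← ex_add]
    refine ex_mono fun ws => ?_
    by_cases hFw : F ws
    · rw [if_pos hFw]
      rcases hFw with h1 | ⟨l, hl, h1 | h1⟩
      · rw [if_pos h1]; exact le_self_add
      · refine le_trans ?_ le_add_self
        refine le_trans ?_ (single_le_sum (fun l _ => bot_le) hl)
        rw [if_pos h1]; exact le_self_add
      · refine le_trans ?_ le_add_self
        refine le_trans ?_ (single_le_sum (fun l _ => bot_le) hl)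
        rw [if_pos h1]; exact le_add_self
    · rw [if_neg hFw]; exact bot_le

/-! ## The crossing -/

/-- Paths which stop when they first exceed `Lv`, at a height in `[G, HN]`. -/
def CrossStop (h w : Site d →+ ℝ) (Lv G HN : ℝ) : Set (List (Step d)) :=
  {ρ | Lv < w (disp ρ) ∧ G ≤ h (disp ρ) ∧ h (disp ρ) ≤ HN ∧
    (∀ j < ρ.length, w (disp (ρ.take j)) ≤ Lv) ∧ (∀ j < ρ.length, 0 ≤ h (disp (ρ.take j))) ∧
    ∀ j < ρ.length, h (disp (ρ.take j)) ≤ HN}

/-- The maximal height lies in `[G, HN]` and the walk does not escape upwards. -/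
def MaxWin (h : Site d →+ ℝ) (G HN : ℝ) : Set (Traj d) :=
  (Reach h G \ Up h) ∩ {t | ∀ k, h (site t k) ≤ HN}

/-- Climbing to a crossing point and then descending for good. -/
theorem Setup.cross_mul_le (S : Setup d) (w : Site d →+ ℝ) (Lv G HN : ℝ) {U : Set (Traj d)}
    (hU : U ⊆ ⋃ ρ : CrossStop S.h w Lv G HN, cyl ρ.1) :
    S.P U * S.P (GoodY S.h w HN 0) ≤ S.P (MaxWin S.h G HN) := by
  haveI := S.ann.1
  set Good := GoodY S.h w HN 0 with hGood
  have hGm : MeasurableSet Good := measurableSet_goodY _ _ _ _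
  have hdis : Pairwise fun p q : CrossStop S.h w Lv G HN => Disjoint (cyl p.1) (cyl q.1) := by
    have hle : ∀ p q : CrossStop S.h w Lv G HN, ∀ t, t ∈ cyl p.1 → t ∈ cyl q.1 →
        p.1.length ≤ q.1.length := by
      intro p q t hp hq
      by_contra! hlt
      have h1 := p.2.2.2.2.1 _ hlt
      rw [← site_of_mem_cyl hp hlt.le, site_of_mem_cyl hq le_rfl, List.take_length] at h1
      linarith [q.2.1]
    intro p q hne
    refine Set.disjoint_left.2 fun t h1 h2 => hne ?_
    have hl := le_antisymm (hle p q t h1 h2) (hle q p t h2 h1)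
    by_contra hne'
    exact Set.disjoint_left.1 (cyl_disjoint_of_length_eq hl fun he => hne' (Subtype.ext he)) h1 h2
  have hav : ∀ ρ : CrossStop S.h w Lv G HN, Good ⊆ Avoid ρ.1 := by
    intro ρ t ht k hk
    obtain ⟨j, hj, hjeq⟩ := mem_deps.1 hk
    rw [zero_add] at hjeq
    rcases ht.2 k with h1 | h1
    · have h2 := congrArg w hjeq
      rw [map_add] at h2
      linarith [ρ.2.1, ρ.2.2.2.2.1 j hj]
    · have h2 := congrArg S.h hjeq
      rw [map_add] at h2
      simp only [AddMonoidHom.neg_apply] at h1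
      linarith [ρ.2.2.2.1, ρ.2.2.2.2.2.1 j hj]
  calc S.P U * S.P Good
      ≤ (∑' ρ : CrossStop S.h w Lv G HN, S.P (cyl ρ.1)) * S.P Good := by
        gcongr
        exact (measure_mono hU).trans (measure_iUnion_le _)
    _ = ∑' ρ : CrossStop S.h w Lv G HN, S.P (cyl ρ.1 ∩ shiftT ρ.1.length ⁻¹' Good) := by
        rw [← ENNReal.tsum_mul_right]
        exact tsum_congr fun ρ => by
          rw [S.ann.measure_cyl_inter_eq _ _ hGm (hav ρ), S.ann.2]
    _ ≤ S.P (⋃ ρ : CrossStop S.h w Lv G HN, cyl ρ.1 ∩ shiftT ρ.1.length ⁻¹' Good) :=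
        tsum_meas_le_meas_iUnion_of_disjoint₀ S.P
          (fun ρ => ((measurableSet_cyl _).inter (measurable_shiftT _ hGm)).nullMeasurableSet)
          fun p q hne => ((hdis hne).mono Set.inter_subset_left Set.inter_subset_left).aedisjoint
    _ ≤ _ := by
        refine measure_mono (Set.iUnion_subset fun ρ t ⟨ht, hs⟩ =>
          ⟨⟨⟨ρ.1.length, ?_⟩, fun hup => ?_⟩, fun k => ?_⟩)
        · rw [site_of_mem_cyl ht le_rfl, List.take_length]; exact ρ.2.2.1
        · obtain ⟨N, hN⟩ := eventually_atTop.1
            ((hup : Tendsto _ _ _).eventually_gt_atTop (S.h (site t ρ.1.length)))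
          have h1 := hN (ρ.1.length + N) (Nat.le_add_left _ _)
          have h2 := hs.1.1 N
          rw [site_shiftT, map_add] at h1
          simp only [AddMonoidHom.neg_apply] at h2
          linarith
        · rcases lt_or_ge k ρ.1.length with hk | hk
          · rw [site_of_mem_cyl ht hk.le]; exact ρ.2.2.2.2.2.2 k hk
          · rw [← Nat.add_sub_cancel' hk, site_shiftT, map_add, site_of_mem_cyl ht le_rfl,
              List.take_length]
            have h2 := hs.1.1 (k - ρ.1.length)
            simp only [AddMonoidHom.neg_apply] at h2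
            linarith [ρ.2.2.2.1]

open Classical in
/-- Jump blocks after short chains give crossings. -/
theorem Setup.cross_lower (S : Setup d) (i : Fin d) (σ : Bool) {lam τ G H1 H2 : ℝ}
    (hlam : 0 ≤ lam) (hτ : 0 < τ) (hlamH : lam * (H1 + H2) ≤ τ / 4) (s : Finset ℕ) :
    S.P (Esc S.h) * ∑ n ∈ s,
        ex S.μ S.h n (fun ws => if (extSum ws : ℝ) ≤ τ / 4 ∧ S.h (disp ws.flatten) ≤ H1 ∧
          G ≤ S.h (disp ws.flatten) then 1 else 0)
        * (∑' π, bwgt S.μ S.h π * if S.h (disp π) ≤ H2 ∧
          ∃ k ≤ π.length, τ < sgn σ * ((disp (π.take k)) i : ℝ) then 1 else 0)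
      ≤ S.P (⋃ ρ : CrossStop S.h (tilt S.h i σ lam) (τ / 2) G (H1 + H2), cyl ρ.1) := by
  haveI := S.ann.1
  set h := S.h with hh
  set w := tilt h i σ lam with hw
  let A : List (List (Step d)) → Prop := fun ws =>
    (extSum ws : ℝ) ≤ τ / 4 ∧ h (disp ws.flatten) ≤ H1 ∧ G ≤ h (disp ws.flatten)
  let B : List (Step d) → Prop := fun π =>
    h (disp π) ≤ H2 ∧ ∃ k ≤ π.length, τ < sgn σ * ((disp (π.take k)) i : ℝ)
  let E : ℕ → Set (Traj d) := fun n =>
    chainEvent h (n + 1) fun ws => A (ws.take n) ∧ ∀ π ∈ ws.drop n, B π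
  have hlow : ∀ vs : List (List (Step d)), (∀ π ∈ vs, IsBlock h π) → A vs →
      ∀ k, k ≤ vs.flatten.length → w (disp (vs.flatten.take k)) ≤ τ / 4 := by
    intro vs hvs hA k hk
    have h1 : (nrm (disp (vs.flatten.take k)) : ℝ) ≤ extSum vs := by
      exact_mod_cast nrm_take_flatten_le vs hk
    have h2 := sgn_mul_le σ (disp (vs.flatten.take k)) i
    have h3 := height_take_nonneg hvs k
    rw [hw, tilt_apply]
    nlinarith [hA.1]
  have hcross : ∀ n, ∀ ws : List (List (Step d)), ws.length = n + 1 → (∀ π ∈ ws, IsBlock h π) →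
      A (ws.take n) → (∀ π ∈ ws.drop n, B π) →
        ∃ k, (ws.take n).flatten.length < k ∧ k ≤ ws.flatten.length ∧
          τ / 2 < w (disp (ws.flatten.take k)) := by
    intro n ws hlen hws hA hB
    obtain ⟨π, hπ⟩ : ∃ π, ws.drop n = [π] :=
      List.length_eq_one_iff.1 (by rw [List.length_drop, hlen]; omega)
    obtain ⟨hH2, q, hq, hjump⟩ := hB π (by simp [hπ])
    have hflat : ws.flatten = (ws.take n).flatten ++ π := by
      conv_lhs => rw [← flatten_take_add_drop ws n, hπ]
      simp
    have hk : ws.flatten.take ((ws.take n).flatten.length + q)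
        = (ws.take n).flatten ++ π.take q := by
      rw [hflat, List.take_length_add_append]
    have htot : h (disp ws.flatten) ≤ H1 + H2 := by
      rw [hflat, disp_append, map_add]
      linarith [hA.2.1]
    have h2 := (height_take_le hws ((ws.take n).flatten.length + q)).trans htot
    have h3 : (nrm (disp (ws.take n).flatten) : ℝ) ≤ τ / 4 := by
      refine le_trans ?_ hA.1
      exact_mod_cast nrm_disp_flatten_le _
    have h4 := neg_nrm_le_sgn σ (disp (ws.take n).flatten) i
    rw [hk, disp_append] at h2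
    refine ⟨(ws.take n).flatten.length + q, ?_, ?_, ?_⟩
    · rcases Nat.eq_zero_or_pos q with h0 | h0
      · subst h0
        simp at hjump
        linarith
      · omega
    · rw [hflat, List.length_append]; omega
    rw [hk, hw, tilt_apply, disp_append, Pi.add_apply, Int.cast_add]
    nlinarith [mul_le_mul_of_nonneg_left h2 hlam]
  have hdis : ∀ n n', n < n' → Disjoint (E n) (E n') := by
    intro n n' hlt
    refine Set.disjoint_left.2 fun t h1 h2 => ?_
    obtain ⟨ws, hlen, hws, ⟨hA, hB⟩, ht⟩ := mem_chainEvent.1 h1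
    obtain ⟨vs, hlen', hvs, ⟨hA', -⟩, ht'⟩ := mem_chainEvent.1 h2
    obtain ⟨k, -, hk, hwk⟩ := hcross n ws hlen hws hA hB
    have htk : t ∈ blockEvent h (vs.take (n + 1)) := by
      refine blockEvent_append_subset (b := vs.drop (n + 1))
        (fun π hπ => hvs π (List.mem_of_mem_drop hπ)) ?_
      rwa [List.take_append_drop]
    have heq : ws = vs.take (n + 1) := blockEvent_unique
      (by rw [List.length_take, hlen, hlen']; omega) hws
      (fun π hπ => hvs π (List.mem_of_mem_take hπ)) ht htk
    subst heq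
    have hsub : k ≤ (vs.take n').flatten.length := by
      refine hk.trans ?_
      conv_rhs => rw [← flatten_take_add_drop (vs.take n') (n + 1)]
      rw [List.take_take, min_eq_left (by omega : n + 1 ≤ n'), List.length_append]
      exact Nat.le_add_right _ _
    rw [← take_flatten_of_le hk, take_flatten_of_le hsub] at hwk
    have := hlow _ (fun π hπ => hvs π (List.mem_of_mem_take hπ)) hA' k hsub
    linarith
  have hmeas : ∀ n, S.P (E n) = S.P (Esc h) *
      (ex S.μ h n (fun ws => if A ws then 1 else 0)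
        * ∑' π, bwgt S.μ h π * if B π then 1 else 0) := by
    intro n
    rw [S.ann.measure_chainEvent (n + 1), ex_append n 1, ← ex_mul_const]
    congr 1
    refine ex_congr_of fun u hu _ => ?_
    rw [ex_succ]
    simp only [ex_zero, ← ENNReal.tsum_mul_left]
    refine tsum_congr fun π => ?_
    have e1 : (u ++ [π]).take n = u := by rw [← hu]; simp
    have e2 : (u ++ [π]).drop n = [π] := by rw [← hu]; simp
    rw [e1, e2]
    by_cases hA : A u <;> by_cases hB : B π <;> simp [hA, hB]
  have hsub : ∀ n, E n ⊆ ⋃ ρ : CrossStop h w (τ / 2) G (H1 + H2), cyl ρ.1 := by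
    intro n t ht
    obtain ⟨ws, hlen, hws, ⟨hA, hB⟩, ht⟩ := mem_chainEvent.1 ht
    obtain ⟨k0, -, hk0, hwk0⟩ := hcross n ws hlen hws hA hB
    have hex : ∃ k, τ / 2 < w (disp (ws.flatten.take k)) := ⟨k0, hwk0⟩
    set k := Nat.find hex with hk
    have hkle : k ≤ ws.flatten.length := (Nat.find_min' hex hwk0).trans hk0
    have hklo : (ws.take n).flatten.length ≤ k := by
      by_contra! hlt
      have h1 := Nat.find_spec hex
      rw [← hk, take_flatten_of_le hlt.le] at h1
      have := hlow _ (fun π hπ => hws π (List.mem_of_mem_take hπ)) hA k hlt.le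
      linarith
    have htot : h (disp ws.flatten) ≤ H1 + H2 := by
      obtain ⟨π, hπ⟩ : ∃ π, ws.drop n = [π] :=
        List.length_eq_one_iff.1 (by rw [List.length_drop, hlen]; omega)
      conv_lhs => rw [← flatten_take_add_drop ws n, hπ]
      rw [disp_append, map_add]
      simp only [List.flatten_cons, List.flatten_nil, List.append_nil]
      linarith [hA.2.1, (hB π (by simp [hπ])).1]
    refine Set.mem_iUnion.2 ⟨⟨ws.flatten.take k, Nat.find_spec hex,
      hA.2.2.trans (height_take_ge hws hklo), (height_take_le hws k).trans htot,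
      fun j hj => ?_, fun j hj => ?_, fun j hj => ?_⟩, ?_⟩
    · rw [List.length_take, lt_min_iff] at hj
      rw [List.take_take, min_eq_left hj.1.le]
      exact not_lt.1 (Nat.find_min hex hj.1)
    · rw [List.take_take]; exact height_take_nonneg hws _
    · rw [List.take_take]; exact (height_take_le hws _).trans htot
    · have hc := ht.1
      rw [mem_cyl] at hc ⊢
      intro j hj
      rw [List.length_take, lt_min_iff] at hj
      rw [hc j hj.2, List.getElem_take]
  rw [mul_sum]
  calc ∑ n ∈ s, S.P (Esc h) * _ = ∑ n ∈ s, S.P (E n) := sum_congr rfl fun n _ => (hmeas n).symm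
    _ = S.P (⋃ n ∈ s, E n) := by
        refine (measure_biUnion_finset ?_ fun n _ => measurableSet_chainEvent _ _ _).symm
        intro a _ b _ hne
        rcases lt_or_gt_of_ne hne with hab | hab
        exacts [hdis a b hab, (hdis b a hab).symm]
    _ ≤ _ := measure_mono (Set.iUnion₂_subset fun n _ => hsub n)

end Vale.Agent.P147
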