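import Mathlib
import Vale.Agent.P147.CrossEvent

/-!
# P147: two sided transience forces every moment below one

A record `t` of `t ^ a * tail` gives a positive probability to climb above a multiple of
`1 / tail` and then to escape downwards.  As this probability tends to zero with the height,
the records are bounded.
-/

namespace Vale.Agent.P147

open MeasureTheory Finset Filter
open scoped ENNReal Topology

variable {d : ℕ}

/-- The sum of the two tails, as a real number. -/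
noncomputable def Setup.bothTail (S : Setup d) (t : ℝ) : ℝ :=
  (tailE S.μ S.h t + tailE S.μ (-S.h) t).toReal

theorem Setup.tailE_le_one (S : Setup d) (t : ℝ) : tailE S.μ S.h t ≤ 1 := by
  classical
  calc tailE S.μ S.h t ≤ ∑' π, bwgt S.μ S.h π * 1 :=
        ENNReal.tsum_le_tsum fun π => mul_le_mul' le_rfl (by split_ifs <;> simp)
    _ = 1 := by simp [S.ann.tsum_bwgt S.escP]

theorem Setup.tailE_neg_le_one (S : Setup d) (t : ℝ) : tailE S.μ (-S.h) t ≤ 1 :=
  S.swap.tailE_le_one t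

open Classical in
/-- A long extent happens in one of the `2 d` signed coordinates. -/
theorem tailE_le_sum_coord (μ : Measure (Row d)) (h : Site d →+ ℝ) {t : ℝ} (ht : 0 ≤ t) :
    tailE μ h t ≤ ∑ p : Fin d × Bool, ∑' π, bwgt μ h π *
      if ∃ k ≤ π.length, t / d < sgn p.2 * ((disp (π.take k)) p.1 : ℝ) then 1 else 0 := by
  rw [← Summable.tsum_finsetSum fun p _ => ENNReal.summable]
  refine ENNReal.tsum_le_tsum fun π => ?_
  rw [← mul_sum]
  refine mul_le_mul' le_rfl ?_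
  split_ifs with hlt
  swap
  · exact bot_le
  obtain ⟨k, hk, hk'⟩ := exists_of_lt_ext hlt
  obtain ⟨i, hi⟩ := exists_coord_gt ht hk'
  rcases lt_abs.1 hi with h1 | h1
  · refine le_trans ?_ (single_le_sum (fun p _ => bot_le) (mem_univ (i, true)))
    simp only [sgn, if_true, one_mul]
    rw [if_pos ⟨k, hk, h1⟩]
  · refine le_trans ?_ (single_le_sum (fun p _ => bot_le) (mem_univ (i, false)))
    simp only [sgn, Bool.false_eq_true, if_false, neg_one_mul]
    rw [if_pos ⟨k, hk, h1⟩]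

/-- A geometric sum with ratio above one. -/
theorem sum_geom_le {q : ℝ} (hq : 1 < q) (l0 L : ℕ) :
    ∑ l ∈ Icc l0 L, q ^ l ≤ q / (q - 1) * q ^ L := by
  have h0 : 0 < q := by linarith
  calc ∑ l ∈ Icc l0 L, q ^ l ≤ ∑ l ∈ range (L + 1), q ^ l :=
        sum_le_sum_of_subset_of_nonneg (fun l hl => by
          simp only [mem_Icc] at hl; exact mem_range.2 (by omega)) fun _ _ _ => by positivity
    _ = (q ^ (L + 1) - 1) / (q - 1) := geom_sum_eq hq.ne' _
    _ ≤ q ^ (L + 1) / (q - 1) := div_le_div_of_nonneg_right (by linarith) (by linarith)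
    _ = _ := by rw [pow_succ]; ring

open Classical in
theorem sum_dyadic_le (C : ℝ≥0∞) (l0 L : ℕ) :
    ∑ l ∈ Icc l0 L, C / (2 : ℝ≥0∞) ^ l ≤ 2 * C / (2 : ℝ≥0∞) ^ l0 := by
  have h2 : ∀ i : ℕ, C / (2 : ℝ≥0∞) ^ (l0 + i) = C / (2 : ℝ≥0∞) ^ l0 * (2⁻¹ : ℝ≥0∞) ^ i := by
    intro i
    rw [div_eq_mul_inv, div_eq_mul_inv, pow_add,
      ENNReal.mul_inv (Or.inl (by simp)) (Or.inl (by simp)), ENNReal.inv_pow (a := 2) (n := i),
      mul_assoc]
  calc ∑ l ∈ Icc l0 L, C / (2 : ℝ≥0∞) ^ l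
      = ∑ i ∈ range (L + 1 - l0), C / (2 : ℝ≥0∞) ^ (l0 + i) := by
        rw [show Icc l0 L = Ico l0 (L + 1) by ext; simp, sum_Ico_eq_sum_range]
    _ ≤ ∑' i, C / (2 : ℝ≥0∞) ^ l0 * (2⁻¹ : ℝ≥0∞) ^ i := by
        simp only [h2]
        exact ENNReal.sum_le_tsum _
    _ = _ := by
        rw [ENNReal.tsum_mul_left, ENNReal.tsum_geometric, ENNReal.one_sub_inv_two, inv_inv,
          mul_comm, mul_div_assoc]

open Classical in
/-- The first boundedly many descending blocks. -/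
theorem early_le {μ : Measure (Row d)} {g : Site d →+ ℝ} (hb : ∑' π, bwgt μ g π = 1) {a : ℝ}
    (ha0 : 0 < a) (ha : a < 1) {Λ : ℝ} (hΛ : 1 ≤ Λ) (hd : (1 : ℝ) ≤ d) {lam : ℝ} (hlam0 : 0 < lam)
    {t ψ : ℝ} (hψ : 0 < ψ) {N : ℕ} (hN1 : (1 : ℝ) ≤ N) (hψN : ψ * N ≤ 1) (hlt : lam / 2 ≤ t)
    (e : t / (lam / 2) = 8 * d * Λ * N)
    (hrec : ∀ s, 0 < s → s ≤ t → tailE μ g s ≤ ENNReal.ofReal (2 * ψ * (t / s) ^ a)) {l0 : ℕ}
    (hψδ : ψ ≤ (1 / (16 * ((2 : ℝ) ^ l0 * recConst a * (8 * d * Λ)))) ^ (1 / (1 - a))) :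
    ex μ g (2 ^ l0) (fun ws => if lam / 2 < (extSum ws : ℝ) then 1 else 0)
      ≤ ENNReal.ofReal (1 / 16) := by
  set R := recConst a with hR
  have hR0 : 0 < R := recConst_pos ha
  set E0 : ℝ := (2 : ℝ) ^ l0 * R * (8 * d * Λ) with hE0
  have hE00 : 0 < E0 := by rw [hE0]; positivity
  refine (ex_extSum_gt_le hb (by linarith : (0 : ℝ) < lam / 2) _).trans
    ((mul_le_mul' le_rfl (truncExt_le_of_record ha hψ.le hrec (by linarith) hlt)).trans ?_)
  rw [← ENNReal.ofReal_natCast, ← ENNReal.ofReal_mul (Nat.cast_nonneg _)]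
  refine ENNReal.ofReal_le_ofReal ?_
  rw [e, Real.mul_rpow (by positivity) (by positivity)]
  push_cast
  have h1 : (8 * (d : ℝ) * Λ) ^ a ≤ 8 * d * Λ := by
    conv_rhs => rw [← Real.rpow_one (8 * (d : ℝ) * Λ)]
    exact Real.rpow_le_rpow_of_exponent_le (by nlinarith) ha.le
  have h2 : ψ * (N : ℝ) ^ a ≤ ψ ^ (1 - a) := by
    have h3 : ψ * (N : ℝ) ^ a = ψ ^ (1 - a) * (ψ * N) ^ a := by
      rw [Real.mul_rpow hψ.le (by positivity), ← mul_assoc, ← Real.rpow_add hψ, sub_add_cancel,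
        Real.rpow_one]
    rw [h3]
    exact mul_le_of_le_one_right (by positivity) (Real.rpow_le_one (by positivity) hψN ha0.le)
  have h4 : ψ ^ (1 - a) ≤ 1 / (16 * E0) := by
    refine (Real.rpow_le_rpow hψ.le hψδ (by linarith)).trans_eq ?_
    rw [← Real.rpow_mul (by positivity), one_div_mul_cancel (by linarith), Real.rpow_one]
  calc (2 : ℝ) ^ l0 * (R * ψ * ((8 * (d : ℝ) * Λ) ^ a * (N : ℝ) ^ a))
      = (2 : ℝ) ^ l0 * R * (8 * (d : ℝ) * Λ) ^ a * (ψ * (N : ℝ) ^ a) := by ring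
    _ ≤ E0 * (1 / (16 * E0)) := by
        refine mul_le_mul ?_ (h2.trans h4) (by positivity) hE00.le
        rw [hE0]
        exact mul_le_mul_of_nonneg_left h1 (by positivity)
    _ = 1 / 16 := by field_simp

open Classical in
/-- The dyadic ranges of descending blocks. -/
theorem mid_le {μ : Measure (Row d)} {g : Site d →+ ℝ} (hb : ∑' π, bwgt μ g π = 1) {a : ℝ}
    (ha : a < 1) {t ψ : ℝ} (hψ : 0 < ψ) {N : ℕ} (hN1 : (1 : ℝ) ≤ N) {κ A : ℝ} (hκ0 : 0 < κ)
    (hA : 0 ≤ A) {c lam : ℝ} (hc : 0 < c) (hlam0 : 0 < lam) {L : ℕ}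
    (hmon : ∀ l ≤ L, lam * c * 2 ^ l ≤ t)
    (e : ∀ l : ℕ, t / (lam * c * 2 ^ l) = κ * N / 2 ^ l) (hL : (2 : ℝ) ^ L ≤ A * N)
    (hrec : ∀ s, 0 < s → s ≤ t → tailE μ g s ≤ ENNReal.ofReal (2 * ψ * (t / s) ^ a)) {l0 : ℕ}
    (hη : ψ * N ≤ 1 / (16 * (2 * recConst a * κ ^ a *
      (A ^ (1 - a) * ((2 : ℝ) ^ (1 - a) / ((2 : ℝ) ^ (1 - a) - 1)))))) :
    ∑ l ∈ Icc l0 L, ex μ g (2 ^ (l + 1))
      (fun ws => if lam * c * 2 ^ l < (extSum ws : ℝ) then 1 else 0) ≤ ENNReal.ofReal (1 / 16) := by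
  set R := recConst a with hR
  have hR0 : 0 < R := recConst_pos ha
  set q : ℝ := (2 : ℝ) ^ (1 - a) with hq
  have hq1 : 1 < q := Real.one_lt_rpow (by norm_num) (by linarith)
  have hq1' : 0 < q - 1 := by linarith
  set K : ℝ := 2 * R * κ ^ a * (A ^ (1 - a) * (q / (q - 1))) with hK
  have hA0 : 0 < A := by
    rcases hA.lt_or_eq with h | h
    · exact h
    · exfalso
      rw [← h, zero_mul] at hL
      linarith [pow_pos (show (0 : ℝ) < 2 by norm_num) L]
  have hK0 : 0 < K := by rw [hK]; positivity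
  have hNa : ψ * (N : ℝ) ^ a * ((N : ℝ) ^ (1 - a)) = ψ * N := by
    rw [mul_assoc, ← Real.rpow_add (by linarith), add_sub_cancel, Real.rpow_one]
  have hterm : ∀ l ∈ Icc l0 L, ex μ g (2 ^ (l + 1))
      (fun ws => if lam * c * 2 ^ l < (extSum ws : ℝ) then 1 else 0)
        ≤ ENNReal.ofReal (2 * R * κ ^ a * (ψ * (N : ℝ) ^ a) * q ^ l) := by
    intro l hl
    have hx : 0 < lam * c * 2 ^ l := by positivity
    refine (ex_extSum_gt_le hb hx _).trans ((mul_le_mul' le_rfl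
      (truncExt_le_of_record ha hψ.le hrec hx (hmon l (mem_Icc.1 hl).2))).trans (le_of_eq ?_))
    rw [← ENNReal.ofReal_natCast, ← ENNReal.ofReal_mul (Nat.cast_nonneg _)]
    congr 1
    have e2 : q ^ l = (2 : ℝ) ^ l / ((2 : ℝ) ^ l) ^ a := by
      rw [hq, ← Real.rpow_natCast ((2 : ℝ) ^ (1 - a)) l, ← Real.rpow_mul (by norm_num),
        ← Real.rpow_natCast 2 l, ← Real.rpow_mul (by norm_num), ← Real.rpow_sub two_pos]
      congr 1
      ring
    rw [e, Real.div_rpow (by positivity) (by positivity),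
      Real.mul_rpow hκ0.le (by positivity), e2]
    push_cast
    rw [pow_succ]
    ring
  refine (sum_le_sum hterm).trans ?_
  rw [← ENNReal.ofReal_sum_of_nonneg fun l _ => by positivity, ← mul_sum]
  refine ENNReal.ofReal_le_ofReal ?_
  have hqL : q ^ L ≤ A ^ (1 - a) * (N : ℝ) ^ (1 - a) := by
    rw [hq, ← Real.rpow_natCast, ← Real.rpow_mul (by norm_num), mul_comm (1 - a),
      Real.rpow_mul (by norm_num), Real.rpow_natCast, ← Real.mul_rpow hA (by positivity)]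
    exact Real.rpow_le_rpow (by positivity) hL (by linarith)
  calc 2 * R * κ ^ a * (ψ * (N : ℝ) ^ a) * ∑ l ∈ Icc l0 L, q ^ l
      ≤ 2 * R * κ ^ a * (ψ * (N : ℝ) ^ a) *
        (q / (q - 1) * (A ^ (1 - a) * (N : ℝ) ^ (1 - a))) := by
        refine mul_le_mul_of_nonneg_left ((sum_geom_le hq1 l0 L).trans ?_) (by positivity)
        exact mul_le_mul_of_nonneg_left hqL (by positivity)
    _ = K * (ψ * N) := by rw [hK, ← hNa]; ring
    _ ≤ K * (1 / (16 * K)) := mul_le_mul_of_nonneg_left hη hK0.le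
    _ = 1 / 16 := by field_simp

open Classical in
/-- The descending continuation has probability bounded below along records. -/
theorem Setup.good_lower (S : Setup d) {a : ℝ} (ha0 : 0 < a) (ha : a < 1) {Λ : ℝ} (hΛ : 1 ≤ Λ) :
    ∃ η0 : ℝ, 0 < η0 ∧ η0 ≤ 1 ∧ ∃ (δ : ℝ) (N0 : ℕ), 0 < δ ∧
      ∀ (t ψ : ℝ) (N : ℕ), 1 ≤ t → 0 < ψ → ψ ≤ δ → N0 ≤ N → ψ * N ≤ η0 →
        8 * d * Λ * N ≤ t →
        (∀ s, 0 < s → s ≤ t → tailE S.μ (-S.h) s ≤ ENNReal.ofReal (2 * ψ * (t / s) ^ a)) →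
        ∀ (i : Fin d) (σ : Bool),
          bwgt S.μ (-S.h) [S.e₁] * (S.P (Esc (-S.h)) / 2)
            ≤ S.P (GoodY S.h (tilt S.h i σ (t / d / (4 * Λ * N))) (Λ * N) 0) := by
  haveI := S.ann.1
  obtain ⟨c, C, hc, hC, hspan'⟩ := S.swap.middle_span
  have hspan : ∀ n : ℕ, 0 < n →
      ex S.μ (-S.h) n (fun M => if (-S.h) (disp M.flatten) < c * n then 1 else 0) ≤ C / n :=
    hspan'
  clear hspan'
  obtain ⟨n1, hn1, hn1'⟩ := exists_nat_div_le (a := 2 * C) (η := (8 : ℝ≥0∞)⁻¹)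
    (ENNReal.mul_ne_top (by norm_num) hC) (by simp)
  set l0 := n1 with hl0
  have hb := S.ann.tsum_bwgt S.escM
  have hd : (1 : ℝ) ≤ d := by
    have := S.three
    exact_mod_cast (show 1 ≤ d by omega)
  set R := recConst a with hR
  have hR0 : 0 < R := recConst_pos ha
  set q : ℝ := (2 : ℝ) ^ (1 - a) with hq
  have hq1 : 1 < q := Real.one_lt_rpow (by norm_num) (by linarith)
  set κ : ℝ := 4 * d * Λ / c with hκ
  have hκ0 : 0 < κ := by rw [hκ]; positivity
  have hq1' : 0 < q - 1 := by linarith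
  set K : ℝ := 2 * R * κ ^ a * ((2 * Λ / c) ^ (1 - a) * (q / (q - 1))) with hK
  have hK0 : 0 < K := by rw [hK]; positivity
  set E0 : ℝ := (2 : ℝ) ^ l0 * R * (8 * d * Λ) with hE0
  have hE00 : 0 < E0 := by rw [hE0]; positivity
  obtain ⟨N0, hN0⟩ := exists_nat_ge (c * 2 ^ l0 / (2 * Λ))
  refine ⟨min 1 (1 / (16 * K)), by positivity, min_le_left _ _,
    (1 / (16 * E0)) ^ (1 / (1 - a)), max N0 1, by positivity, ?_⟩
  intro t ψ N ht hψ hψδ hN hψN htN hrec i σ
  have hN1 : (1 : ℝ) ≤ N := by exact_mod_cast le_trans (le_max_right N0 1) hN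
  have hNN0 : (N0 : ℝ) ≤ N := by exact_mod_cast le_trans (le_max_left N0 1) hN
  have ht0 : 0 < t := by linarith
  set lam : ℝ := t / d / (4 * Λ * N) with hlam
  have hlam0 : 0 < lam := by rw [hlam]; positivity
  have hlam2 : 2 ≤ lam := by
    rw [hlam, le_div_iff₀ (by positivity), le_div_iff₀ (by positivity)]
    linarith
  -- the last dyadic scale
  have hex : ∃ L, Λ * N < c * 2 ^ L := by
    obtain ⟨L, hL⟩ := pow_unbounded_of_one_lt (Λ * N / c) (by norm_num : (1 : ℝ) < 2)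
    exact ⟨L, by rw [div_lt_iff₀ hc] at hL; linarith⟩
  set L := max (Nat.find hex) l0 with hL
  have hLHN : Λ * N < c * 2 ^ L :=
    (Nat.find_spec hex).trans_le (mul_le_mul_of_nonneg_left
      (pow_le_pow_right₀ (by norm_num) (le_max_left _ _)) hc.le)
  have hLup : c * 2 ^ L ≤ 2 * Λ * N := by
    rcases le_or_gt (Nat.find hex) l0 with h1 | h1
    · rw [hL, max_eq_right h1]
      rw [div_le_iff₀ (by positivity)] at hN0
      nlinarith
    · rw [hL, max_eq_left h1.le]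
      have h2 := Nat.find_min hex (show Nat.find hex - 1 < Nat.find hex by omega)
      push Not at h2
      rw [show Nat.find hex = Nat.find hex - 1 + 1 by omega, pow_succ]
      linarith
  have hlamt : lam * (2 * Λ * N) ≤ t := by
    rw [hlam]
    have : t / d ≤ t := div_le_self ht0.le hd
    have e : t / d / (4 * Λ * N) * (2 * Λ * N) = t / d / 2 := by field_simp; ring
    rw [e]
    linarith
  have hmon : ∀ l ≤ L, lam * c * 2 ^ l ≤ t := fun l hl => by
    have h1 : c * (2 : ℝ) ^ l ≤ c * 2 ^ L :=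
      mul_le_mul_of_nonneg_left (pow_le_pow_right₀ (by norm_num) hl) hc.le
    nlinarith [mul_le_mul_of_nonneg_left (h1.trans hLup) hlam0.le]
  have hNa : ψ * (N : ℝ) ^ a * ((N : ℝ) ^ (1 - a)) = ψ * N := by
    rw [mul_assoc, ← Real.rpow_add (by linarith), add_sub_cancel, Real.rpow_one]
  have hη : ψ * N ≤ 1 / (16 * K) := hψN.trans (min_le_right _ _)
  -- the two lateral estimates
  have e : t / (lam / 2) = 8 * d * Λ * N := by rw [hlam]; field_simp; ring
  have hearly := early_le (μ := S.μ) (g := -S.h) hb ha0 ha hΛ hd hlam0 hψ hN1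
    (hψN.trans (min_le_left _ _)) (by
      have : lam ≤ lam * (2 * Λ * N) := le_mul_of_one_le_right hlam0.le (by nlinarith)
      linarith) e hrec (l0 := l0) hψδ
  have e' : ∀ l : ℕ, t / (lam * c * 2 ^ l) = κ * N / 2 ^ l := fun l => by
    rw [hlam, hκ]; field_simp
  have hmid := mid_le (μ := S.μ) (g := -S.h) hb ha hψ hN1 hκ0 (by positivity) hc hlam0
    (fun l hl => hmon l hl) e' (show (2 : ℝ) ^ L ≤ 2 * Λ / c * N by
      rw [div_mul_eq_mul_div, le_div_iff₀ hc]; linarith) hrec (l0 := l0) hη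
  have hlow : ∑ l ∈ Icc l0 L, ex S.μ (-S.h) (2 ^ l)
      (fun ws => if (-S.h) (disp ws.flatten) < c * 2 ^ l then 1 else 0) ≤ (8 : ℝ≥0∞)⁻¹ := by
    refine le_trans (sum_le_sum fun l _ => ?_) ((sum_dyadic_le C l0 L).trans (le_trans ?_ hn1'))
    · have h1 := hspan (2 ^ l) (by positivity)
      push_cast at h1
      exact h1
    · refine ENNReal.div_le_div le_rfl ?_
      exact_mod_cast (Nat.lt_two_pow_self (n := n1)).le
  have hhalf : ENNReal.ofReal (1 / 16) + (ENNReal.ofReal (1 / 16) + (8 : ℝ≥0∞)⁻¹) ≤ 2⁻¹ := by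
    rw [← ENNReal.ofReal_ofNat 8, ← ENNReal.ofReal_ofNat 2,
      ← ENNReal.ofReal_inv_of_pos (by norm_num), ← ENNReal.ofReal_inv_of_pos (by norm_num),
      ← ENNReal.ofReal_add (by norm_num) (by norm_num),
      ← ENNReal.ofReal_add (by norm_num) (by norm_num)]
    exact ENNReal.ofReal_le_ofReal (by norm_num)
  refine S.goodY_step hlam2 ?_
  have h := S.goodY_slack_ge (i := i) (σ := σ) (HN := Λ * N) (c := c) hlam0 (le_max_right _ _)
    hLHN (e := 2⁻¹) (le_trans (add_le_add hearly (by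
      rw [sum_add_distrib]; exact add_le_add hmid hlow)) hhalf)
  refine ENNReal.le_of_add_le_add_right
    (ENNReal.mul_ne_top (measure_ne_top _ _) (by norm_num)) (le_trans (le_of_eq ?_) h)
  rw [← div_eq_mul_inv, ENNReal.add_halves]

open Classical in
/-- A long jump of bounded height. -/
theorem Setup.jump_lower (S : Setup d) {ψ : ℝ} (hψ : 0 < ψ) {N : ℕ} (hN : (0 : ℝ) < N) {η : ℝ}
    (hη : 0 < η) (hd : (1 : ℝ) ≤ d) {i : Fin d} {σ : Bool} {τ : ℝ}
    (htail : (N : ℝ≥0∞) * S.swap.tailM (1 * (N : ℝ)) ≤ ENNReal.ofReal (η / (32 * d)))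
    (hNlo : η / 2 ≤ ψ * N)
    (hq : ENNReal.ofReal (ψ / (4 * d)) ≤ ∑' π, bwgt S.μ S.h π *
      if ∃ k ≤ π.length, τ < sgn σ * ((disp (π.take k)) i : ℝ) then 1 else 0) :
    ENNReal.ofReal (ψ / (8 * d)) ≤ ∑' π, bwgt S.μ S.h π * (if S.h (disp π) ≤ (N : ℝ) ∧
      ∃ k ≤ π.length, τ < sgn σ * ((disp (π.take k)) i : ℝ) then 1 else 0) := by
  have e : S.swap.tailM (1 * (N : ℝ))
      = ∑' π, bwgt S.μ S.h π * (if (N : ℝ) < S.h (disp π) then 1 else 0) := by
    simp [Setup.tailM, Setup.swap, neg_neg, one_mul]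
  rw [e] at htail
  have htl : ∑' π, bwgt S.μ S.h π * (if (N : ℝ) < S.h (disp π) then 1 else 0)
      ≤ ENNReal.ofReal (ψ / (8 * d)) := by
    have hNn : (N : ℝ≥0∞) ≠ 0 := by
      simp only [ne_eq, Nat.cast_eq_zero]
      exact_mod_cast hN.ne'
    rw [mul_comm, ← ENNReal.le_div_iff_mul_le (Or.inl hNn) (Or.inl (ENNReal.natCast_ne_top N))]
      at htail
    refine htail.trans ?_
    rw [← ENNReal.ofReal_natCast, ← ENNReal.ofReal_div_of_pos hN]
    refine ENNReal.ofReal_le_ofReal ?_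
    rw [div_div, div_le_div_iff₀ (by positivity) (by positivity)]
    nlinarith
  refine ENNReal.le_of_add_le_add_right ENNReal.ofReal_ne_top
    (le_trans ?_ (add_le_add le_rfl htl))
  rw [← ENNReal.ofReal_add (by positivity) (by positivity), ← ENNReal.tsum_add]
  refine le_trans (le_of_eq ?_) (hq.trans (ENNReal.tsum_le_tsum fun π => ?_))
  · congr 1; field_simp; ring
  · rw [← mul_add]
    refine mul_le_mul' le_rfl ?_
    by_cases hH : S.h (disp π) ≤ (N : ℝ)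
    · simp [hH]
    · simp only [not_le.1 hH, hH, false_and, if_true, if_false, zero_add]
      split_ifs <;> simp

open Classical in
/-- A typical short ascending chain. -/
theorem Setup.chain_lower (S : Setup d) {a : ℝ} (ha : a < 1) {t ψ : ℝ} (hψ : 0 < ψ) (ht0 : 0 < t)
    (hd : (1 : ℝ) ≤ d)
    (hrec : ∀ s, 0 < s → s ≤ t → tailE S.μ S.h s ≤ ENNReal.ofReal (2 * ψ * (t / s) ^ a))
    {c : ℝ} {C : ℝ≥0∞} (hc : 0 < c)
    (hspan : ∀ n : ℕ, 0 < n →
      ex S.μ S.h n (fun M => if S.h (disp M.flatten) < c * n then 1 else 0) ≤ C / n)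
    {n8 C2 : ℕ} (hn8' : C / n8 ≤ (8 : ℝ≥0∞)⁻¹) (hC2 : 0 < C2)
    (hC2' : S.meanH / C2 ≤ (8 : ℝ≥0∞)⁻¹) {N n : ℕ}
    (hNle : ψ * N ≤ 1 / (8 * recConst a * (4 * d))) (hnN : n ≤ N) (hn : N ≤ 4 * n ∧ 0 < n)
    (hn8 : n8 ≤ n) :
    (2 : ℝ≥0∞)⁻¹ ≤ ex S.μ S.h n (fun ws =>
      if (extSum ws : ℝ) ≤ t / d / 4 ∧ S.h (disp ws.flatten) ≤ (C2 : ℝ) * N ∧
        c * N / 4 ≤ S.h (disp ws.flatten) then 1 else 0) := by
  have hb := S.ann.tsum_bwgt S.escP
  set R := recConst a with hR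
  have hR0 : 0 < R := recConst_pos ha
  have hNpos : (0 : ℝ) < N := by exact_mod_cast (show 0 < N by omega)
  have hn4 : (N : ℝ) / 4 ≤ n := by
    have h2 : (N : ℝ) ≤ ((4 * n : ℕ) : ℝ) := by exact_mod_cast hn.1
    push_cast at h2
    linarith
  have e1 : ex S.μ S.h n (fun ws => if t / d / 4 < (extSum ws : ℝ) then 1 else 0)
      ≤ (8 : ℝ≥0∞)⁻¹ := by
    refine (ex_extSum_gt_le hb (by positivity) n).trans
      ((mul_le_mul' le_rfl (truncExt_le_of_record ha hψ.le hrec (by positivity) ?_)).trans ?_)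
    · linarith [div_le_self ht0.le hd]
    rw [← ENNReal.ofReal_natCast, ← ENNReal.ofReal_mul (Nat.cast_nonneg _),
      ← ENNReal.ofReal_ofNat 8, ← ENNReal.ofReal_inv_of_pos (by norm_num)]
    refine ENNReal.ofReal_le_ofReal ?_
    have e : t / (t / d / 4) = 4 * d := by field_simp
    have h1 : (4 * (d : ℝ)) ^ a ≤ 4 * d := by
      conv_rhs => rw [← Real.rpow_one (4 * (d : ℝ))]
      exact Real.rpow_le_rpow_of_exponent_le (by linarith) ha.le
    have h2 : (n : ℝ) * ψ ≤ 1 / (8 * R * (4 * d)) := by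
      have : (n : ℝ) ≤ N := by exact_mod_cast hnN
      nlinarith [mul_le_mul_of_nonneg_left this hψ.le]
    rw [e]
    calc (n : ℝ) * (R * ψ * (4 * (d : ℝ)) ^ a) = R * ((4 * (d : ℝ)) ^ a * ((n : ℝ) * ψ)) := by
          ring
      _ ≤ R * (4 * (d : ℝ) * (1 / (8 * R * (4 * d)))) :=
          mul_le_mul_of_nonneg_left (mul_le_mul h1 h2 (by positivity) (by positivity)) hR0.le
      _ = 8⁻¹ := by field_simp
  have e2 : ex S.μ S.h n (fun ws => if (C2 : ℝ) * N < S.h (disp ws.flatten) then 1 else 0)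
      ≤ (8 : ℝ≥0∞)⁻¹ := by
    refine (S.high_le n (by positivity)).trans (le_trans ?_ hC2')
    rw [← Setup.meanH, ENNReal.ofReal_mul (Nat.cast_nonneg _), ENNReal.ofReal_natCast,
      ENNReal.ofReal_natCast, mul_comm (C2 : ℝ≥0∞)]
    calc (n : ℝ≥0∞) * S.meanH / ((N : ℝ≥0∞) * C2)
        ≤ (N : ℝ≥0∞) * S.meanH / ((N : ℝ≥0∞) * C2) := by gcongr
      _ = _ := ENNReal.mul_div_mul_left _ _ (by simp; omega) (ENNReal.natCast_ne_top N)
  have e3 : ex S.μ S.h n (fun ws => if S.h (disp ws.flatten) < c * N / 4 then 1 else 0)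
      ≤ (8 : ℝ≥0∞)⁻¹ := by
    refine le_trans (le_trans (ex_mono fun ws => ?_) (hspan n hn.2))
      (le_trans (ENNReal.div_le_div le_rfl ?_) hn8')
    · by_cases h1 : S.h (disp ws.flatten) < c * N / 4
      · rw [if_pos h1, if_pos (h1.trans_le (by nlinarith))]
      · rw [if_neg h1]; exact bot_le
    · exact_mod_cast hn8
  have hone : 1 ≤ ex S.μ S.h n (fun ws =>
      if (extSum ws : ℝ) ≤ t / d / 4 ∧ S.h (disp ws.flatten) ≤ (C2 : ℝ) * N ∧
        c * N / 4 ≤ S.h (disp ws.flatten) then 1 else 0)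
      + ((8 : ℝ≥0∞)⁻¹ + ((8 : ℝ≥0∞)⁻¹ + 8⁻¹)) := by
    refine le_trans ?_ (add_le_add le_rfl (add_le_add e1 (add_le_add e2 e3)))
    rw [← ex_add, ← ex_add, ← ex_add]
    conv_lhs => rw [← ex_const hb n 1]
    refine ex_mono fun ws => ?_
    by_cases h1 : t / d / 4 < (extSum ws : ℝ)
    · rw [if_pos h1]; exact le_trans le_self_add le_add_self
    by_cases h2 : (C2 : ℝ) * N < S.h (disp ws.flatten)
    · rw [if_neg h1, if_pos h2, zero_add]; exact le_trans le_self_add le_add_self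
    by_cases h3 : S.h (disp ws.flatten) < c * N / 4
    · simp [h1, h2, h3]
    · simp [not_lt.1 h1, not_lt.1 h2, not_lt.1 h3]
  refine ENNReal.le_of_add_le_add_right (by norm_num) (le_trans ?_ hone)
  rw [← ENNReal.ofReal_ofNat 8, ← ENNReal.ofReal_ofNat 2,
    ← ENNReal.ofReal_inv_of_pos (by norm_num), ← ENNReal.ofReal_inv_of_pos (by norm_num),
    ← ENNReal.ofReal_add (by norm_num) (by norm_num),
    ← ENNReal.ofReal_add (by norm_num) (by norm_num),
    ← ENNReal.ofReal_add (by norm_num) (by norm_num), ENNReal.ofReal_le_one]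
  norm_num

open Classical in
/-- Records of `t ^ a * tail` are bounded. -/
theorem Setup.no_record (S : Setup d) {a : ℝ} (ha0 : 0 < a) (ha : a < 1) :
    ∃ M : ℝ, ∀ t ψ : ℝ, 1 ≤ t → 0 < ψ →
      (∀ s, 0 < s → s ≤ t → tailE S.μ S.h s ≤ ENNReal.ofReal (2 * ψ * (t / s) ^ a)) →
      (∀ s, 0 < s → s ≤ t → tailE S.μ (-S.h) s ≤ ENNReal.ofReal (2 * ψ * (t / s) ^ a)) →
      ENNReal.ofReal (ψ / 2) ≤ tailE S.μ S.h t → t ^ a * ψ ≤ M := by
  haveI := S.ann.1
  have hb := S.ann.tsum_bwgt S.escP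
  have hd : (1 : ℝ) ≤ d := by
    have := S.three
    exact_mod_cast (show 1 ≤ d by omega)
  obtain ⟨c, C, hc, hC, hspan⟩ := S.middle_span
  obtain ⟨n8, hn8, hn8'⟩ := exists_nat_div_le (a := C) (η := (8 : ℝ≥0∞)⁻¹) hC (by simp)
  obtain ⟨C2, hC2, hC2'⟩ := exists_nat_div_le (a := S.meanH) (η := (8 : ℝ≥0∞)⁻¹)
    S.meanH_ne_top (by simp)
  set Λ : ℝ := C2 + 1 with hΛ
  have hΛ1 : 1 ≤ Λ := by rw [hΛ]; linarith [(Nat.cast_nonneg C2 : (0 : ℝ) ≤ C2)]
  obtain ⟨η0, hη0, -, δ, N0, hδ, hgood⟩ := S.good_lower ha0 ha hΛ1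
  set R := recConst a with hR
  have hR0 : 0 < R := recConst_pos ha
  set η : ℝ := min η0 (1 / (8 * R * (4 * d))) with hη
  have hη' : 0 < η := by rw [hη]; positivity
  -- the height tail
  have htail := ((S.swap.tendsto_mul_tailM one_pos).eventually
    (eventually_le_nhds (show (0 : ℝ≥0∞) < ENNReal.ofReal (η / (32 * d)) by
      simp; positivity)))
  obtain ⟨N1, hN1⟩ := eventually_atTop.1 htail
  -- the small probability
  set cstar : ℝ≥0∞ := S.P (Esc S.h) * ENNReal.ofReal (η / (64 * d)) *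
    (bwgt S.μ (-S.h) [S.e₁] * (S.P (Esc (-S.h)) / 2)) with hcstar
  have hcs : cstar ≠ 0 := mul_ne_zero (mul_ne_zero S.escP (by simp; positivity))
    (mul_ne_zero S.bwgt_e₁_ne_zero (ENNReal.div_ne_zero.2 ⟨S.escM, by norm_num⟩))
  obtain ⟨r0, hr0⟩ := eventually_atTop.1 ((S.ann.reach_not_up S.escP).eventually
    (eventually_lt_nhds (pos_iff_ne_zero.2 hcs)))
  obtain ⟨N2, hN2⟩ := exists_nat_ge (4 * (r0 : ℝ) / c)
  set Nall : ℕ := N0 + N1 + N2 + 4 * n8 + 4 with hNall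
  set δ' : ℝ := min δ (η / (Nall + 1)) with hδ'
  have hδ'0 : 0 < δ' := by rw [hδ']; positivity
  obtain ⟨T0, hT0⟩ := eventually_atTop.1 ((tailE_tendsto hb).eventually
    (eventually_lt_nhds (show (0 : ℝ≥0∞) < ENNReal.ofReal (δ' / 2) by simp; positivity)))
  refine ⟨max (2 * (max T0 1) ^ a) (8 * d * Λ * η), fun t ψ ht hψ hrec hrec' hlow => ?_⟩
  by_contra! hM
  have ht0 : 0 < t := by linarith
  have hψ2 : ψ ≤ 2 := by
    have h := hlow.trans (S.tailE_le_one t)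
    rw [ENNReal.ofReal_le_one] at h
    linarith
  have htT : T0 ≤ t := by
    by_contra! hlt
    have h1 : t ^ a ≤ (max T0 1) ^ a :=
      Real.rpow_le_rpow ht0.le (hlt.le.trans (le_max_left _ _)) ha0.le
    have h2 : t ^ a * ψ ≤ (max T0 1) ^ a * 2 := mul_le_mul h1 hψ2 hψ.le (by positivity)
    linarith [le_max_left (2 * (max T0 1) ^ a) (8 * (d : ℝ) * Λ * η)]
  have hψsmall : ψ ≤ δ' := by
    by_contra! hlt
    have h := (hlow.trans_lt (hT0 t htT))
    rw [ENNReal.ofReal_lt_ofReal_iff (by positivity)] at h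
    linarith
  -- the number of blocks
  set N : ℕ := ⌊η / ψ⌋₊ with hN
  have hNN : (Nall : ℝ) + 1 ≤ η / ψ := by
    rw [le_div_iff₀ hψ]
    have h1 : ψ ≤ η / (Nall + 1) := hψsmall.trans (min_le_right _ _)
    rw [le_div_iff₀ (by positivity)] at h1
    linarith
  have hNge : Nall ≤ N := Nat.le_floor (by linarith)
  have hNle : ψ * N ≤ η := by
    have := Nat.floor_le (show 0 ≤ η / ψ by positivity)
    rw [← hN, le_div_iff₀ hψ] at this
    linarith
  have hNlo : η / 2 ≤ ψ * N := by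
    have h1 := Nat.lt_floor_add_one (η / ψ)
    rw [← hN, div_lt_iff₀ hψ] at h1
    have h2 : ψ * (Nall + 1) ≤ η := by rw [le_div_iff₀ hψ] at hNN; linarith
    have h4 : (4 : ℝ) ≤ Nall := by
      exact_mod_cast (show 4 ≤ Nall by omega)
    nlinarith
  have hN4 : (4 : ℝ) ≤ N := by exact_mod_cast (show 4 ≤ N by omega)
  have htN : 8 * d * Λ * N ≤ t := by
    have h1 : t ^ a ≤ t := by
      conv_rhs => rw [← Real.rpow_one t]
      exact Real.rpow_le_rpow_of_exponent_le ht ha.le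
    have h2 : 8 * d * Λ * η ≤ t * ψ :=
      ((le_max_right _ _).trans hM.le).trans (mul_le_mul_of_nonneg_right h1 hψ.le)
    have h3 := mul_le_mul_of_nonneg_left hNle (show 0 ≤ 8 * (d : ℝ) * Λ by positivity)
    nlinarith
  -- the direction of the jump
  obtain ⟨⟨i, σ⟩, -, hq⟩ : ∃ p ∈ (univ : Finset (Fin d × Bool)), ENNReal.ofReal (ψ / (4 * d))
      ≤ ∑' π, bwgt S.μ S.h π * if ∃ k ≤ π.length,
        t / d < sgn p.2 * ((disp (π.take k)) p.1 : ℝ) then 1 else 0 := by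
    by_contra! hall
    have hne : (univ : Finset (Fin d × Bool)).Nonempty :=
      ⟨(⟨0, by have := S.three; omega⟩, true), mem_univ _⟩
    refine absurd ((le_of_eq ?_).trans (hlow.trans (tailE_le_sum_coord _ _ ht0.le)))
      (not_le.2 (ENNReal.sum_lt_sum_of_nonempty hne fun p hp => hall p hp))
    rw [sum_const, Finset.card_univ, Fintype.card_prod, Fintype.card_fin, Fintype.card_bool,
      nsmul_eq_mul, ← ENNReal.ofReal_natCast, ← ENNReal.ofReal_mul (Nat.cast_nonneg _)]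
    congr 1
    push_cast
    field_simp
    ring
  set τ : ℝ := t / d with hτ
  have hτ0 : 0 < τ := by rw [hτ]; positivity
  set lam : ℝ := t / d / (4 * Λ * N) with hlam
  have hHH : lam * ((C2 : ℝ) * N + N) ≤ τ / 4 := by
    rw [hlam, hτ, hΛ]
    apply le_of_eq
    field_simp
  set B : ℝ≥0∞ := ∑' π, bwgt S.μ S.h π * (if S.h (disp π) ≤ (N : ℝ) ∧
    ∃ k ≤ π.length, τ < sgn σ * ((disp (π.take k)) i : ℝ) then 1 else 0) with hBdef
  have hqB : ENNReal.ofReal (ψ / (8 * d)) ≤ B :=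
    S.jump_lower hψ (by linarith) hη' hd (hN1 N (by omega)) hNlo hq
  set G : ℝ := c * N / 4 with hG
  have hA : ∀ n ∈ Ico (N / 2) N, (2 : ℝ≥0∞)⁻¹ ≤ ex S.μ S.h n (fun ws =>
      if (extSum ws : ℝ) ≤ τ / 4 ∧ S.h (disp ws.flatten) ≤ (C2 : ℝ) * N ∧
        G ≤ S.h (disp ws.flatten) then 1 else 0) := fun n hn => by
    rw [mem_Ico] at hn
    exact S.chain_lower ha hψ ht0 hd hrec hc hspan hn8' hC2 hC2' (hNle.trans (min_le_right _ _))
      hn.2.le (by omega) (by omega)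
  -- the contradiction
  have hU := S.cross_lower i σ (τ := τ) (G := G) (H1 := (C2 : ℝ) * N) (H2 := (N : ℝ))
    (by rw [hlam]; positivity) hτ0 hHH (Ico (N / 2) N)
  have hsum : ENNReal.ofReal (η / (64 * d)) ≤ ∑ n ∈ Ico (N / 2) N,
      ex S.μ S.h n (fun ws => if (extSum ws : ℝ) ≤ τ / 4 ∧
        S.h (disp ws.flatten) ≤ (C2 : ℝ) * N ∧ G ≤ S.h (disp ws.flatten) then 1 else 0) * B := by
    refine le_trans ?_ (card_nsmul_le_sum _ _ _ fun n hn => mul_le_mul' (hA n hn) hqB)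
    rw [Nat.card_Ico, nsmul_eq_mul, ← ENNReal.ofReal_natCast, ← ENNReal.ofReal_ofNat 2,
      ← ENNReal.ofReal_inv_of_pos (by norm_num), ← ENNReal.ofReal_mul (by positivity),
      ← ENNReal.ofReal_mul (Nat.cast_nonneg _)]
    refine ENNReal.ofReal_le_ofReal ?_
    have h1 : (N : ℝ) ≤ 2 * ((N - N / 2 : ℕ) : ℝ) := by
      exact_mod_cast (show N ≤ 2 * (N - N / 2) by omega)
    rw [div_le_iff₀ (by positivity)]
    have e : ((N - N / 2 : ℕ) : ℝ) * ((2 : ℝ)⁻¹ * (ψ / (8 * d))) * (64 * d)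
        = 4 * (ψ * ((N - N / 2 : ℕ) : ℝ)) := by field_simp; ring
    rw [e]
    nlinarith
  have hgd := hgood t ψ N ht hψ (hψsmall.trans (min_le_left _ _)) (by omega)
    (hNle.trans (min_le_left _ _)) htN hrec' i σ
  rw [show Λ * (N : ℝ) = (C2 : ℝ) * N + N by rw [hΛ]; ring] at hgd
  have hfinal := (S.cross_mul_le (tilt S.h i σ lam) (τ / 2) G ((C2 : ℝ) * N + N)
    (subset_refl _)).trans (measure_mono Set.inter_subset_left)
  have hsmall : S.P (Reach S.h G \ Up S.h) < cstar := by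
    refine lt_of_le_of_lt (measure_mono ?_) (hr0 r0 le_rfl)
    rintro s ⟨⟨k, hk⟩, hs⟩
    refine ⟨⟨k, ?_⟩, hs⟩
    refine le_trans ?_ hk
    rw [div_le_iff₀ hc] at hN2
    have : (N2 : ℝ) ≤ N := by exact_mod_cast (show N2 ≤ N by omega)
    rw [hG]
    nlinarith
  refine absurd hsmall (not_lt.2 (le_trans ?_ hfinal))
  rw [hcstar]
  exact mul_le_mul' (le_trans (mul_le_mul' le_rfl hsum) hU) hgd

/-- Both sided transience gives polynomial tails of every order below one. -/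
theorem Setup.tail_poly (S : Setup d) {a : ℝ} (ha0 : 0 < a) (ha : a < 1) :
    ∃ C : ℝ, ∀ t : ℝ, 1 ≤ t → tailE S.μ S.h t ≤ ENNReal.ofReal (C / t ^ a) := by
  obtain ⟨M1, hM1⟩ := S.no_record ha0 ha
  obtain ⟨M2, hM2⟩ := S.swap.no_record ha0 ha
  set M := max (max M1 M2) 0 with hM
  refine ⟨2 * M + 4, fun x hx => ?_⟩
  have htop : ∀ s, tailE S.μ S.h s + tailE S.μ (-S.h) s ≠ ⊤ := fun s =>
    ne_top_of_le_ne_top (by norm_num) (add_le_add (S.tailE_le_one s) (S.tailE_neg_le_one s))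
  have hle : ∀ s, tailE S.μ S.h s ≤ ENNReal.ofReal (S.bothTail s) := fun s => by
    rw [Setup.bothTail, ENNReal.ofReal_toReal (htop s)]; exact le_self_add
  have hle' : ∀ s, tailE S.μ (-S.h) s ≤ ENNReal.ofReal (S.bothTail s) := fun s => by
    rw [Setup.bothTail, ENNReal.ofReal_toReal (htop s)]; exact le_add_self
  have hnn : ∀ s, 0 ≤ S.bothTail s := fun s => ENNReal.toReal_nonneg
  have h2 : ∀ s, S.bothTail s ≤ 2 := fun s => by
    have := ENNReal.toReal_mono (b := 2) (by norm_num)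
      ((add_le_add (S.tailE_le_one s) (S.tailE_neg_le_one s)).trans (by norm_num))
    simpa [Setup.bothTail] using this
  refine (hle x).trans (ENNReal.ofReal_le_ofReal ?_)
  rw [le_div_iff₀ (by positivity)]
  by_contra! hgt
  set F : Set ℝ := (fun s => s ^ a * S.bothTail s) '' Set.Ioc 0 x with hF
  have hne : F.Nonempty := ⟨_, ⟨x, ⟨by linarith, le_rfl⟩, rfl⟩⟩
  have hbdd : BddAbove F := ⟨x ^ a * 2, by
    rintro _ ⟨s, hs, rfl⟩
    exact mul_le_mul (Real.rpow_le_rpow hs.1.le hs.2 ha0.le) (h2 s) (hnn s) (by positivity)⟩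
  have hbig : 2 * M + 4 < sSup F :=
    lt_of_lt_of_le (by linarith) (le_csSup hbdd ⟨x, ⟨by linarith, le_rfl⟩, rfl⟩)
  have hM0 : 0 ≤ M := le_max_right _ _
  obtain ⟨_, ⟨t, ht, rfl⟩, hthalf⟩ := exists_lt_of_lt_csSup hne (show sSup F / 2 < sSup F by linarith)
  have ht1 : 1 ≤ t := by
    by_contra! hlt
    have h3 : t ^ a * S.bothTail t ≤ 1 * 2 :=
      mul_le_mul (Real.rpow_le_one ht.1.le hlt.le ha0.le) (h2 t) (hnn t) zero_le_one
    linarith
  set ψ := S.bothTail t with hψ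
  have hψ0 : 0 < ψ := by
    rcases (hnn t).lt_or_eq with h | h
    · exact h
    · exfalso
      simp only at hthalf
      rw [← h, mul_zero] at hthalf
      linarith
  have hrec : ∀ s, 0 < s → s ≤ t → S.bothTail s ≤ 2 * ψ * (t / s) ^ a := by
    intro s hs hst
    have h3 : s ^ a * S.bothTail s ≤ sSup F := le_csSup hbdd ⟨s, ⟨hs, hst.trans ht.2⟩, rfl⟩
    rw [Real.div_rpow ht.1.le hs.le, ← mul_div_assoc, le_div_iff₀ (by positivity)]
    linarith
  have hsum : ENNReal.ofReal ψ = tailE S.μ S.h t + tailE S.μ (-S.h) t := by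
    rw [hψ, Setup.bothTail, ENNReal.ofReal_toReal (htop t)]
  have hside : ENNReal.ofReal (ψ / 2) ≤ tailE S.μ S.h t ∨
      ENNReal.ofReal (ψ / 2) ≤ tailE S.μ (-S.h) t := by
    by_contra! hc
    have := ENNReal.add_lt_add hc.1 hc.2
    rw [← hsum, ← ENNReal.ofReal_add (by positivity) (by positivity), add_halves] at this
    exact lt_irrefl _ this
  have hMle : t ^ a * ψ ≤ M := by
    rcases hside with h | h
    · exact (hM1 t ψ ht1 hψ0 (fun s a b => (hle s).trans (ENNReal.ofReal_le_ofReal (hrec s a b)))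
        (fun s a b => (hle' s).trans (ENNReal.ofReal_le_ofReal (hrec s a b))) h).trans
        ((le_max_left _ _).trans (le_max_left _ _))
    · refine (hM2 t ψ ht1 hψ0 ?_ ?_ ?_).trans ((le_max_right _ _).trans (le_max_left _ _))
      · exact fun s a b => (hle' s).trans (ENNReal.ofReal_le_ofReal (hrec s a b))
      · intro s a b
        simpa [Setup.swap] using (hle s).trans (ENNReal.ofReal_le_ofReal (hrec s a b))
      · exact h
  linarith

end Vale.Agent.P147
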