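import Mathlib
import Vale.Agent.P147.CrossTail

/-!
# P147: capped extents

`capMean μ h x` is the mean of the extent of one block capped at `x`.  A second moment bound
replaces Markov's inequality, so that the dyadic scales of one tilted line cost the capped mean
only once.
-/

namespace Vale.Agent.P147

open MeasureTheory Finset Filter
open scoped ENNReal Topology

variable {d : ℕ}

/-- The extent capped at `x`. -/
noncomputable def cap (x : ℝ) (π : List (Step d)) : ℝ := min (ext π : ℝ) x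

/-- The mean capped extent of one block. -/
noncomputable def capMean (μ : Measure (Row d)) (h : Site d →+ ℝ) (x : ℝ) : ℝ≥0∞ :=
  ∑' π, bwgt μ h π * ENNReal.ofReal (cap x π)

/-- The second moment of the capped extent of one block. -/
noncomputable def capSq (μ : Measure (Row d)) (h : Site d →+ ℝ) (x : ℝ) : ℝ≥0∞ :=
  ∑' π, bwgt μ h π * ENNReal.ofReal (cap x π) ^ 2

variable {μ : Measure (Row d)} {h : Site d →+ ℝ}

theorem cap_nonneg {x : ℝ} (hx : 0 ≤ x) (π : List (Step d)) : 0 ≤ cap x π :=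
  le_min (Nat.cast_nonneg _) hx

theorem capMean_mono {x y : ℝ} (hxy : x ≤ y) : capMean μ h x ≤ capMean μ h y :=
  ENNReal.tsum_le_tsum fun _ =>
    mul_le_mul' le_rfl (ENNReal.ofReal_le_ofReal (min_le_min le_rfl hxy))

theorem capMean_le (hb : ∑' π, bwgt μ h π = 1) (x : ℝ) : capMean μ h x ≤ ENNReal.ofReal x := by
  refine (ENNReal.tsum_le_tsum fun π => mul_le_mul' le_rfl
    (ENNReal.ofReal_le_ofReal (min_le_right _ _))).trans (le_of_eq ?_)
  rw [ENNReal.tsum_mul_right, hb, one_mul]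

theorem capMean_ne_top (hb : ∑' π, bwgt μ h π = 1) (x : ℝ) : capMean μ h x ≠ ⊤ :=
  ne_top_of_le_ne_top ENNReal.ofReal_ne_top (capMean_le hb x)

theorem sum_ofReal_cap {x : ℝ} (hx : 0 ≤ x) : ∀ ws : List (List (Step d)),
    (ws.map fun π => ENNReal.ofReal (cap x π)).sum = ENNReal.ofReal ((ws.map (cap x)).sum) ∧
      0 ≤ (ws.map (cap x)).sum := by
  intro ws
  induction ws with
  | nil => simp
  | cons π ws ih =>
    simp only [List.map_cons, List.sum_cons]
    rw [ih.1, ← ENNReal.ofReal_add (cap_nonneg hx π) ih.2]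
    exact ⟨rfl, add_nonneg (cap_nonneg hx π) ih.2⟩

theorem cap_sum_ge {x : ℝ} (hx : 0 ≤ x) : ∀ ws : List (List (Step d)),
    min (extSum ws : ℝ) x ≤ (ws.map (cap x)).sum := by
  intro ws
  induction ws with
  | nil => simp [extSum]
  | cons π ws ih =>
    have h0 := (sum_ofReal_cap hx ws).2
    have e : (extSum (π :: ws) : ℝ) = (ext π : ℝ) + extSum ws := by simp [extSum]
    rw [List.map_cons, List.sum_cons, e, cap]
    rcases le_total (ext π : ℝ) x with h1 | h1
    · rw [min_eq_left h1]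
      rcases le_total (extSum ws : ℝ) x with h2 | h2
      · rw [min_eq_left h2] at ih
        exact (min_le_left _ _).trans (by linarith)
      · rw [min_eq_right h2] at ih
        exact (min_le_right _ _).trans
          (by linarith [(Nat.cast_nonneg (ext π) : (0 : ℝ) ≤ ext π)])
    · rw [min_eq_right h1]
      exact (min_le_right _ _).trans (by linarith)

open Classical in
/-- The second moment of a sum over independent blocks. -/
theorem ex_map_sum_sq (hb : ∑' π, bwgt μ h π = 1) (g : List (Step d) → ℝ≥0∞) (n : ℕ) :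
    ex μ h n (fun ws => (ws.map g).sum ^ 2)
      ≤ n * (∑' π, bwgt μ h π * g π ^ 2) + (n : ℝ≥0∞) ^ 2 * (∑' π, bwgt μ h π * g π) ^ 2 := by
  induction n with
  | zero => simp
  | succ n ih =>
    set m1 := ∑' π, bwgt μ h π * g π with hm1
    set m2 := ∑' π, bwgt μ h π * g π ^ 2 with hm2
    have key : ∀ π, ex μ h n (fun ws => ((π :: ws).map g).sum ^ 2)
        ≤ g π ^ 2 + 2 * g π * (n * m1) + (n * m2 + (n : ℝ≥0∞) ^ 2 * m1 ^ 2) := by
      intro π
      have e : (fun ws : List (List (Step d)) => ((π :: ws).map g).sum ^ 2)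
          = fun ws => g π ^ 2 + 2 * g π * (ws.map g).sum + (ws.map g).sum ^ 2 := by
        funext ws
        rw [List.map_cons, List.sum_cons]
        ring
      rw [e, ex_add, ex_add, ex_const hb, ex_const_mul, ex_map_sum hb]
      exact add_le_add le_rfl ih
    rw [ex_succ]
    refine (ENNReal.tsum_le_tsum fun π => mul_le_mul' le_rfl (key π)).trans ?_
    have e : ∀ π, bwgt μ h π * (g π ^ 2 + 2 * g π * (n * m1)
        + (n * m2 + (n : ℝ≥0∞) ^ 2 * m1 ^ 2))
        = bwgt μ h π * g π ^ 2 + (2 * (n * m1)) * (bwgt μ h π * g π)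
          + bwgt μ h π * (n * m2 + (n : ℝ≥0∞) ^ 2 * m1 ^ 2) := fun π => by ring
    simp only [e, ENNReal.tsum_add, ENNReal.tsum_mul_left, ENNReal.tsum_mul_right, hb, one_mul,
      ← hm1, ← hm2]
    push_cast
    calc m2 + 2 * (n * m1) * m1 + (n * m2 + (n : ℝ≥0∞) ^ 2 * m1 ^ 2)
        ≤ m2 + 2 * (n * m1) * m1 + (n * m2 + (n : ℝ≥0∞) ^ 2 * m1 ^ 2) + m1 ^ 2 := le_self_add
      _ = _ := by ring

open Classical in
/-- Chebyshev for the summed extents. -/
theorem ex_extSum_gt_sq (hb : ∑' π, bwgt μ h π = 1) {x : ℝ} (hx : 0 < x) (n : ℕ)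
    (hn : (n : ℝ≥0∞) * capMean μ h x ≤ ENNReal.ofReal (x / 2)) :
    ex μ h n (fun ws => if x < (extSum ws : ℝ) then 1 else 0)
      ≤ ENNReal.ofReal (4 / x ^ 2) * ((n : ℝ≥0∞) * capSq μ h x) := by
  set I : List (List (Step d)) → ℝ≥0∞ := fun ws => if x < (extSum ws : ℝ) then 1 else 0 with hI
  set S : List (List (Step d)) → ℝ≥0∞ := fun ws =>
    (ws.map fun π => ENNReal.ofReal (cap x π)).sum with hS
  set C : ℝ≥0∞ := (n : ℝ≥0∞) * capMean μ h x with hC
  have hCtop : C ≠ ⊤ := ne_top_of_le_ne_top ENNReal.ofReal_ne_top hn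
  set c := C.toReal with hc
  have hc0 : 0 ≤ c := ENNReal.toReal_nonneg
  have hcx : c ≤ x / 2 := by
    have h1 := ENNReal.toReal_mono ENNReal.ofReal_ne_top hn
    rwa [ENNReal.toReal_ofReal (by linarith)] at h1
  have hCeq : C = ENNReal.ofReal c := (ENNReal.ofReal_toReal hCtop).symm
  have pt : ∀ ws, ENNReal.ofReal ((x / 2) ^ 2) * I ws + 2 * C * S ws
      ≤ S ws ^ 2 + C ^ 2 := by
    intro ws
    obtain ⟨hs, hs0⟩ := sum_ofReal_cap (x := x) hx.le ws
    have hge := cap_sum_ge (x := x) hx.le ws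
    set s := (ws.map (cap x)).sum with hsdef
    simp only [hS, hs, hCeq]
    rw [← ENNReal.ofReal_ofNat 2, ← ENNReal.ofReal_mul (by norm_num),
      ← ENNReal.ofReal_mul (by positivity), ← ENNReal.ofReal_pow hs0, ← ENNReal.ofReal_pow hc0,
      ← ENNReal.ofReal_add (by positivity) (by positivity)]
    simp only [hI]
    split_ifs with hlt
    · rw [mul_one, ← ENNReal.ofReal_add (by positivity) (by positivity)]
      refine ENNReal.ofReal_le_ofReal ?_
      have h1 : x ≤ s := by
        rw [min_eq_right hlt.le] at hge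
        exact hge
      have h2 : (x / 2) ^ 2 ≤ (s - c) ^ 2 :=
        pow_le_pow_left₀ (by linarith) (by linarith) 2
      nlinarith
    · rw [mul_zero, zero_add]
      exact ENNReal.ofReal_le_ofReal (by nlinarith [sq_nonneg (s - c)])
  have hmean : ex μ h n S = C := ex_map_sum hb _ n
  have hsum := ex_mono (μ := μ) (h := h) (n := n) pt
  simp only [ex_add, ex_const_mul, ex_const hb, hmean] at hsum
  have h2 : ENNReal.ofReal ((x / 2) ^ 2) * ex μ h n I ≤ (n : ℝ≥0∞) * capSq μ h x := by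
    have h3 : ex μ h n (fun ws => S ws ^ 2) ≤ (n : ℝ≥0∞) * capSq μ h x + C ^ 2 := by
      refine (ex_map_sum_sq hb _ n).trans (le_of_eq ?_)
      rw [hC, capSq, capMean, mul_pow]
    have h4 := hsum.trans (add_le_add h3 le_rfl)
    rw [show (2 : ℝ≥0∞) * C * C = C ^ 2 + C ^ 2 by ring, add_assoc ((n : ℝ≥0∞) * capSq μ h x)] at h4
    exact ENNReal.le_of_add_le_add_right
      (ENNReal.add_ne_top.2 ⟨ENNReal.pow_ne_top hCtop, ENNReal.pow_ne_top hCtop⟩) h4
  have e : ENNReal.ofReal (4 / x ^ 2) * ENNReal.ofReal ((x / 2) ^ 2) = 1 := by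
    rw [← ENNReal.ofReal_mul (by positivity), show 4 / x ^ 2 * (x / 2) ^ 2 = 1 by field_simp; ring,
      ENNReal.ofReal_one]
  calc ex μ h n I = ENNReal.ofReal (4 / x ^ 2) * (ENNReal.ofReal ((x / 2) ^ 2) * ex μ h n I) := by
        rw [← mul_assoc, e, one_mul]
    _ ≤ _ := mul_le_mul' le_rfl h2

/-- The capped squares over dyadic scales cost a capped mean once. -/
theorem sum_cap_sq_le {e s : ℝ} (he : 0 ≤ e) (hs : 0 < s) (L : ℕ) :
    ∑ l ∈ range (L + 1), (2 : ℝ) ^ l * (min e (s * 2 ^ l) / (s * 2 ^ l)) ^ 2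
      ≤ 4 * min e (s * 2 ^ L) / s := by
  suffices key : (s * 2 ^ L ≤ e →
      ∑ l ∈ range (L + 1), (2 : ℝ) ^ l * (min e (s * 2 ^ l) / (s * 2 ^ l)) ^ 2
        ≤ 2 * 2 ^ L) ∧ (e < s * 2 ^ L →
      ∑ l ∈ range (L + 1), (2 : ℝ) ^ l * (min e (s * 2 ^ l) / (s * 2 ^ l)) ^ 2
        ≤ 4 * (e / s) - (e / s) ^ 2 / 2 ^ L) by
    rcases le_or_gt (s * 2 ^ L) e with h1 | h1
    · refine (key.1 h1).trans ?_
      rw [min_eq_right h1, le_div_iff₀ hs]
      nlinarith [pow_pos (show (0 : ℝ) < 2 by norm_num) L]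
    · refine (key.2 h1).trans ?_
      rw [min_eq_left h1.le, mul_div_assoc]
      linarith [show 0 ≤ (e / s) ^ 2 / 2 ^ L by positivity]
  induction L with
  | zero =>
    refine ⟨fun h1 => ?_, fun h1 => ?_⟩
    · simp only [pow_zero, mul_one] at h1
      simp [min_eq_right h1, hs.ne']
    · simp only [pow_zero, mul_one] at h1
      simp only [zero_add, sum_range_one, pow_zero, mul_one, one_mul, min_eq_left h1.le, div_one]
      have h2 : e / s ≤ 1 := (div_le_one hs).2 h1.le
      nlinarith [div_nonneg he hs.le]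
  | succ L ih =>
    rw [sum_range_succ]
    have hp : (0 : ℝ) < 2 ^ L := by positivity
    have e2 : s * 2 ^ (L + 1) = 2 * (s * 2 ^ L) := by rw [pow_succ]; ring
    refine ⟨fun h1 => ?_, fun h1 => ?_⟩
    · have h2 : s * 2 ^ L ≤ e := by
        rw [e2] at h1
        nlinarith [mul_pos hs hp]
      have h3 := ih.1 h2
      rw [min_eq_right h1, div_self (by positivity), one_pow, mul_one]
      rw [pow_succ] at *
      linarith
    · rw [min_eq_left h1.le]
      have hterm : (2 : ℝ) ^ (L + 1) * (e / (s * 2 ^ (L + 1))) ^ 2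
          = (e / s) ^ 2 / (2 * 2 ^ L) := by
        rw [pow_succ]; field_simp
      rw [hterm, show (2 : ℝ) ^ (L + 1) = 2 * 2 ^ L by rw [pow_succ]; ring]
      have h4 : (e / s) ^ 2 / (2 * 2 ^ L) + (e / s) ^ 2 / (2 * 2 ^ L) = (e / s) ^ 2 / 2 ^ L := by
        field_simp; ring
      rcases le_or_gt (s * 2 ^ L) e with h2 | h2
      · have h3 := ih.1 h2
        have hu1 : (2 : ℝ) ^ L ≤ e / s := by rw [le_div_iff₀ hs]; linarith
        have hu2 : e / s < 2 * 2 ^ L := by
          rw [div_lt_iff₀ hs]; rw [e2] at h1; linarith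
        have h5 : (e / s) ^ 2 / 2 ^ L ≤ 4 * (e / s) - 2 * 2 ^ L := by
          rw [div_le_iff₀ hp]
          nlinarith [mul_nonneg (sub_nonneg.2 hu1) (sub_nonneg.2 hu2.le)]
        linarith
      · have h3 := ih.2 h2
        linarith

open Classical in
/-- The dyadic sum of the capped squares of one block. -/
theorem sum_capSq_le {s : ℝ} (hs : 0 < s) (L : ℕ) :
    ∑ l ∈ range (L + 1), ENNReal.ofReal (4 / (s * 2 ^ l) ^ 2) *
        (((2 ^ (l + 1) : ℕ) : ℝ≥0∞) * capSq μ h (s * 2 ^ l))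
      ≤ ENNReal.ofReal (32 / s) * capMean μ h (s * 2 ^ L) := by
  simp only [capSq, capMean, ← ENNReal.tsum_mul_left]
  rw [← Summable.tsum_finsetSum fun l _ => ENNReal.summable]
  refine ENNReal.tsum_le_tsum fun π => ?_
  have e : ∀ l : ℕ, ENNReal.ofReal (4 / (s * 2 ^ l) ^ 2) *
      (((2 ^ (l + 1) : ℕ) : ℝ≥0∞) * (bwgt μ h π * ENNReal.ofReal (cap (s * 2 ^ l) π) ^ 2))
      = bwgt μ h π * ENNReal.ofReal (8 * ((2 : ℝ) ^ l *
          (min (ext π : ℝ) (s * 2 ^ l) / (s * 2 ^ l)) ^ 2)) := by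
    intro l
    have h0 : 0 ≤ cap (s * 2 ^ l) π := cap_nonneg (by positivity) π
    rw [mul_left_comm _ (bwgt μ h π), mul_left_comm _ (bwgt μ h π), ← ENNReal.ofReal_pow h0,
      ← ENNReal.ofReal_natCast, ← ENNReal.ofReal_mul (by positivity),
      ← ENNReal.ofReal_mul (by positivity)]
    congr 2
    rw [cap]
    push_cast
    rw [pow_succ]
    field_simp
    ring
  simp only [e, ← mul_sum]
  rw [← ENNReal.ofReal_sum_of_nonneg (fun l _ => by positivity), mul_left_comm _ (bwgt μ h π),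
    ← ENNReal.ofReal_mul (by positivity)]
  refine mul_le_mul' le_rfl (ENNReal.ofReal_le_ofReal ?_)
  rw [← mul_sum, cap]
  refine (mul_le_mul_of_nonneg_left (sum_cap_sq_le (Nat.cast_nonneg _) hs L)
    (by norm_num)).trans (le_of_eq ?_)
  ring

/-- Growth of the capped mean is at most the tail. -/
theorem capMean_le_add {x y : ℝ} (hxy : x ≤ y) :
    capMean μ h y ≤ capMean μ h x + ENNReal.ofReal (y - x) * tailE μ h x := by
  classical
  rw [tailE, capMean, capMean, ← ENNReal.tsum_mul_left, ← ENNReal.tsum_add]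
  refine ENNReal.tsum_le_tsum fun π => ?_
  rw [mul_left_comm, ← mul_add]
  refine mul_le_mul' le_rfl ?_
  simp only [cap]
  split_ifs with hlt
  · rw [mul_one, min_eq_right hlt.le]
    refine le_trans (ENNReal.ofReal_le_ofReal ?_) ENNReal.ofReal_add_le
    linarith [min_le_right (ext π : ℝ) y]
  · rw [mul_zero, add_zero]
    refine ENNReal.ofReal_le_ofReal ?_
    rw [min_eq_left (not_lt.1 hlt), min_eq_left ((not_lt.1 hlt).trans hxy)]

/-- The capped mean is sublinear. -/
theorem capMean_sublinear (hb : ∑' π, bwgt μ h π = 1) {ε : ℝ} (hε : 0 < ε) :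
    ∀ᶠ t : ℝ in atTop, capMean μ h t ≤ ENNReal.ofReal (ε * t) := by
  classical
  have h1 := (((tailE_tendsto hb).comp (tendsto_id.const_mul_atTop (half_pos hε))).eventually
    (eventually_le_nhds (show (0 : ℝ≥0∞) < ENNReal.ofReal (ε / 2) by simp; positivity)))
  filter_upwards [h1, eventually_ge_atTop (0 : ℝ)] with t ht ht0
  simp only [Function.comp_apply, id] at ht
  refine le_trans (b := ENNReal.ofReal (ε / 2 * t) +
    ENNReal.ofReal t * tailE μ h (ε / 2 * t)) ?_ ?_
  · rw [capMean, tailE, ← ENNReal.tsum_mul_left]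
    rw [show ENNReal.ofReal (ε / 2 * t) = ∑' π, bwgt μ h π * ENNReal.ofReal (ε / 2 * t) by
      rw [ENNReal.tsum_mul_right, hb, one_mul], ← ENNReal.tsum_add]
    refine ENNReal.tsum_le_tsum fun π => ?_
    rw [mul_left_comm (ENNReal.ofReal t), ← mul_add]
    refine mul_le_mul' le_rfl ?_
    simp only [cap]
    split_ifs with hlt
    · rw [mul_one]
      exact (ENNReal.ofReal_le_ofReal (min_le_right _ _)).trans le_add_self
    · rw [mul_zero, add_zero]
      exact ENNReal.ofReal_le_ofReal ((min_le_left _ _).trans (not_lt.1 hlt))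
  · refine (add_le_add le_rfl (mul_le_mul' le_rfl ht)).trans (le_of_eq ?_)
    rw [← ENNReal.ofReal_mul ht0, ← ENNReal.ofReal_add (by positivity) (by positivity)]
    congr 1
    ring

end Vale.Agent.P147
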