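import Mathlib
import Vale.Agent.P147.MeanCap
import Vale.Agent.P147.CrossMain

/-!
# P147: two sided transience forces a finite mean regeneration extent

For `N` blocks take `t` with `K N * capMean t ≤ t`.  The ascending walk then crosses a tilted
level at distance `t` with probability of order `N * tail t`, and the descending walk stays beyond
it with positive probability.  The maximal height of these trajectories lies in a window
proportional to `N`, so the sum over geometric `N` is finite.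
-/

namespace Vale.Agent.P147

open MeasureTheory Finset Filter
open scoped ENNReal Topology

variable {d : ℕ}

theorem nrm_vec (e : Step d) : nrm (vec e) = 1 := by
  obtain ⟨j, b⟩ := e
  rw [nrm, sum_eq_single j (fun l _ hl => by simp [vec, Pi.single_eq_of_ne hl]) (by simp)]
  cases b <;> simp [vec]

theorem one_le_ext {g : Site d →+ ℝ} {π : List (Step d)} (hπ : IsBlock g π) : 1 ≤ ext π := by
  rcases π with _ | ⟨e, π⟩
  · exact absurd rfl hπ.1
  · refine le_trans (le_of_eq ?_) (nrm_take_le_ext (e :: π) (k := 1) (by simp))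
    simp [nrm_vec]

theorem one_le_capMean {μ : Measure (Row d)} {g : Site d →+ ℝ} (hb : ∑' π, bwgt μ g π = 1)
    {t : ℝ} (ht : 1 ≤ t) : 1 ≤ capMean μ g t := by
  conv_lhs => rw [← hb]
  refine ENNReal.tsum_le_tsum fun π => ?_
  by_cases hπ : IsBlock g π
  · refine le_mul_of_one_le_right' ?_
    rw [← ENNReal.ofReal_one]
    exact ENNReal.ofReal_le_ofReal (le_min (by exact_mod_cast one_le_ext hπ) ht)
  · simp [bwgt_eq_zero hπ]

open Classical in
/-- Markov for the summed extents. -/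
theorem ex_extSum_gt_cap {μ : Measure (Row d)} {g : Site d →+ ℝ} (hb : ∑' π, bwgt μ g π = 1)
    {x : ℝ} (hx : 0 < x) (n : ℕ) :
    ex μ g n (fun ws => if x < (extSum ws : ℝ) then 1 else 0)
      ≤ ENNReal.ofReal (1 / x) * ((n : ℝ≥0∞) * capMean μ g x) := by
  rw [capMean, ← ex_map_sum hb, ← ex_const_mul]
  refine ex_mono fun ws => ?_
  obtain ⟨hs, hs0⟩ := sum_ofReal_cap (x := x) hx.le ws
  have hge := cap_sum_ge (x := x) hx.le ws
  rw [hs, ← ENNReal.ofReal_mul (by positivity)]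
  split_ifs with hlt
  · rw [min_eq_right hlt.le] at hge
    rw [← ENNReal.ofReal_one]
    refine ENNReal.ofReal_le_ofReal ?_
    rw [one_div_mul_eq_div, le_div_iff₀ hx]
    simpa using hge
  · exact bot_le

open Classical in
/-- The tail of the height of one ascending block. -/
noncomputable def tailH (μ : Measure (Row d)) (h : Site d →+ ℝ) (r : ℝ) : ℝ≥0∞ :=
  ∑' π, bwgt μ h π * if r < h (disp π) then 1 else 0

open Classical in
/-- The descending continuation survives whenever the capped mean is small against `t / N`. -/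
theorem Setup.good_lower_mean (S : Setup d) {Λ : ℝ} (hΛ : 1 ≤ Λ) :
    ∃ (K0 : ℝ) (N0 : ℕ), 1 ≤ K0 ∧ ∀ (K t : ℝ) (N : ℕ), K0 ≤ K → 1 ≤ t → N0 ≤ N →
      capMean S.μ (-S.h) t ≤ ENNReal.ofReal (t / (K * N)) →
        ∀ (i : Fin d) (σ : Bool),
          bwgt S.μ (-S.h) [S.e₁] * (S.P (Esc (-S.h)) / 2)
            ≤ S.P (GoodY S.h (tilt S.h i σ (t / d / (4 * Λ * N))) (Λ * N) 0) := by
  haveI := S.ann.1
  obtain ⟨c, C, hc, hC, hspan'⟩ := S.swap.middle_span
  have hspan : ∀ n : ℕ, 0 < n →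
      ex S.μ (-S.h) n (fun M => if (-S.h) (disp M.flatten) < c * n then 1 else 0) ≤ C / n :=
    hspan'
  clear hspan'
  obtain ⟨l0, -, hl0'⟩ := exists_nat_div_le (a := 2 * C) (η := (8 : ℝ≥0∞)⁻¹)
    (ENNReal.mul_ne_top (by norm_num) hC) (by simp)
  have hb := S.ann.tsum_bwgt S.escM
  have hd : (1 : ℝ) ≤ d := by
    have := S.three
    exact_mod_cast (show 1 ≤ d by omega)
  obtain ⟨X0, hX0⟩ := eventually_atTop.1
    (capMean_sublinear (μ := S.μ) (h := -S.h) hb
      (show (0 : ℝ) < 1 / (16 * 2 ^ l0) by positivity))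
  obtain ⟨N0, hN0⟩ := exists_nat_ge (c * 2 ^ l0 / (2 * Λ))
  set K0 : ℝ := 1 + 2048 * d * Λ / c + 8 * d * Λ * (|X0| + 2) with hK0
  have hK01 : 1 ≤ K0 := by
    have : 0 ≤ 2048 * (d : ℝ) * Λ / c := by positivity
    have : 0 ≤ 8 * (d : ℝ) * Λ * (|X0| + 2) := by positivity
    rw [hK0]
    linarith
  refine ⟨K0, max N0 1, hK01, ?_⟩
  intro K t N hK ht hN hcap i σ
  have hN1 : (1 : ℝ) ≤ N := by exact_mod_cast le_trans (le_max_right N0 1) hN
  have hNN0 : (N0 : ℝ) ≤ N := by exact_mod_cast le_trans (le_max_left N0 1) hN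
  have ht0 : 0 < t := by linarith
  have hK0' : 0 < K := by linarith
  have hKN : K * N ≤ t := by
    have h1 := (one_le_capMean hb ht).trans hcap
    rw [ENNReal.one_le_ofReal, le_div_iff₀ (by positivity)] at h1
    linarith
  have hKc : 2048 * d * Λ ≤ K * c := by
    have h1 : 2048 * (d : ℝ) * Λ / c ≤ K := by
      have : 0 ≤ 8 * (d : ℝ) * Λ * (|X0| + 2) := by positivity
      linarith
    rwa [div_le_iff₀ hc] at h1
  set lam : ℝ := t / d / (4 * Λ * N) with hlam
  have hlam0 : 0 < lam := by rw [hlam]; positivity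
  have hlamX : 2 * (|X0| + 2) ≤ lam := by
    rw [hlam, le_div_iff₀ (by positivity), le_div_iff₀ (by positivity)]
    have h1 : 8 * (d : ℝ) * Λ * (|X0| + 2) ≤ K := by
      have : 0 ≤ 2048 * (d : ℝ) * Λ / c := by positivity
      linarith
    nlinarith [mul_le_mul_of_nonneg_right h1 (show (0 : ℝ) ≤ N by positivity)]
  have hlam2 : 2 ≤ lam := by linarith [abs_nonneg X0]
  -- the last dyadic scale
  have hex : ∃ L, Λ * N < c * 2 ^ L := by
    obtain ⟨L, hL⟩ := pow_unbounded_of_one_lt (Λ * N / c) (by norm_num : (1 : ℝ) < 2)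
    exact ⟨L, by rw [div_lt_iff₀ hc] at hL; linarith⟩
  set L := max (Nat.find hex) l0 with hL
  have hLHN : Λ * N < c * 2 ^ L :=
    (Nat.find_spec hex).trans_le (mul_le_mul_of_nonneg_left
      (pow_le_pow_right₀ (by norm_num) (le_max_left _ _)) hc.le)
  have hLup : c * 2 ^ L ≤ 2 * Λ * N := by
    rcases le_or_gt (Nat.find hex) l0 with h1 | h1
    · rw [hL, max_eq_right h1]
      rw [div_le_iff₀ (by positivity)] at hN0
      nlinarith
    · rw [hL, max_eq_left h1.le]
      have h2 := Nat.find_min hex (show Nat.find hex - 1 < Nat.find hex by omega)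
      push Not at h2
      rw [show Nat.find hex = Nat.find hex - 1 + 1 by omega, pow_succ]
      linarith
  set s : ℝ := lam * c with hs
  have hs0 : 0 < s := by rw [hs]; positivity
  have htop : s * 2 ^ L ≤ t := by
    have e : lam * (2 * Λ * N) = t / d / 2 := by rw [hlam]; field_simp; ring
    have : t / d ≤ t := div_le_self ht0.le hd
    have h1 := mul_le_mul_of_nonneg_left hLup hlam0.le
    rw [hs]
    nlinarith
  have hcapl : ∀ l ≤ L, capMean S.μ (-S.h) (s * 2 ^ l) ≤ ENNReal.ofReal (t / (K * N)) :=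
    fun l hl => (capMean_mono ((mul_le_mul_of_nonneg_left
      (pow_le_pow_right₀ (by norm_num) hl) hs0.le).trans htop)).trans hcap
  have hsK : s = t * c / (4 * d * Λ * N) := by rw [hs, hlam]; field_simp
  have hmid : ∑ l ∈ Icc l0 L, ex S.μ (-S.h) (2 ^ (l + 1))
      (fun ws => if lam * c * 2 ^ l < (extSum ws : ℝ) then 1 else 0)
      ≤ ENNReal.ofReal (1 / 16) := by
    refine le_trans (sum_le_sum (g := fun l => ENNReal.ofReal (4 / (s * 2 ^ l) ^ 2) *
      (((2 ^ (l + 1) : ℕ) : ℝ≥0∞) * capSq S.μ (-S.h) (s * 2 ^ l))) fun l hl => ?_) ?_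
    · rw [← hs]
      refine ex_extSum_gt_sq hb (by positivity) _ ?_
      refine (mul_le_mul' le_rfl (hcapl l (mem_Icc.1 hl).2)).trans ?_
      rw [← ENNReal.ofReal_natCast, ← ENNReal.ofReal_mul (Nat.cast_nonneg _)]
      refine ENNReal.ofReal_le_ofReal ?_
      push_cast
      rw [hsK, pow_succ]
      have h1 : 16 * (d : ℝ) * Λ ≤ K * c := by
        nlinarith [mul_pos (show (0 : ℝ) < d by linarith) (show (0 : ℝ) < Λ by linarith)]
      rw [show (2 : ℝ) ^ l * 2 * (t / (K * N)) = 2 ^ l * t * (2 / (K * N)) by ring,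
        show t * c / (4 * d * Λ * N) * 2 ^ l / 2 = 2 ^ l * t * (c / (8 * d * Λ * N)) by ring]
      refine mul_le_mul_of_nonneg_left ?_ (by positivity)
      rw [div_le_div_iff₀ (by positivity) (by positivity)]
      nlinarith [mul_le_mul_of_nonneg_right h1 (show (0 : ℝ) ≤ N by positivity)]
    · refine le_trans (sum_le_sum_of_subset fun l hl => ?_) ((sum_capSq_le hs0 L).trans ?_)
      · simp only [mem_Icc] at hl
        exact mem_range.2 (by omega)
      refine (mul_le_mul' le_rfl (hcapl L le_rfl)).trans ?_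
      rw [← ENNReal.ofReal_mul (by positivity)]
      refine ENNReal.ofReal_le_ofReal ?_
      rw [hsK]
      have e : 32 / (t * c / (4 * d * Λ * N)) * (t / (K * N)) = 128 * d * Λ / (K * c) := by
        field_simp
        ring
      rw [e, div_le_div_iff₀ (by positivity) (by norm_num)]
      linarith
  have hearly : ex S.μ (-S.h) (2 ^ l0) (fun ws => if lam / 2 < (extSum ws : ℝ) then 1 else 0)
      ≤ ENNReal.ofReal (1 / 16) := by
    refine (ex_extSum_gt_cap hb (by linarith) _).trans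
      ((mul_le_mul' le_rfl (mul_le_mul' le_rfl (hX0 (lam / 2) ?_))).trans ?_)
    · linarith [le_abs_self X0]
    rw [← ENNReal.ofReal_natCast, ← ENNReal.ofReal_mul (Nat.cast_nonneg _),
      ← ENNReal.ofReal_mul (by positivity)]
    refine ENNReal.ofReal_le_ofReal (le_of_eq ?_)
    push_cast
    field_simp
  have hlow : ∑ l ∈ Icc l0 L, ex S.μ (-S.h) (2 ^ l)
      (fun ws => if (-S.h) (disp ws.flatten) < c * 2 ^ l then 1 else 0) ≤ (8 : ℝ≥0∞)⁻¹ := by
    refine le_trans (sum_le_sum fun l _ => ?_) ((sum_dyadic_le C l0 L).trans (le_trans ?_ hl0'))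
    · have h1 := hspan (2 ^ l) (by positivity)
      push_cast at h1
      exact h1
    · refine ENNReal.div_le_div le_rfl ?_
      exact_mod_cast (Nat.lt_two_pow_self (n := l0)).le
  have hhalf : ENNReal.ofReal (1 / 16) + (ENNReal.ofReal (1 / 16) + (8 : ℝ≥0∞)⁻¹) ≤ 2⁻¹ := by
    rw [← ENNReal.ofReal_ofNat 8, ← ENNReal.ofReal_ofNat 2,
      ← ENNReal.ofReal_inv_of_pos (by norm_num), ← ENNReal.ofReal_inv_of_pos (by norm_num),
      ← ENNReal.ofReal_add (by norm_num) (by norm_num),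
      ← ENNReal.ofReal_add (by norm_num) (by norm_num)]
    exact ENNReal.ofReal_le_ofReal (by norm_num)
  refine S.goodY_step hlam2 ?_
  have h := S.goodY_slack_ge (i := i) (σ := σ) (HN := Λ * N) (c := c) hlam0 (le_max_right _ _)
    hLHN (e := 2⁻¹) (le_trans (add_le_add hearly (by
      rw [sum_add_distrib]; exact add_le_add hmid hlow)) hhalf)
  refine ENNReal.le_of_add_le_add_right
    (ENNReal.mul_ne_top (measure_ne_top _ _) (by norm_num)) (le_trans (le_of_eq ?_) h)
  rw [← div_eq_mul_inv, ENNReal.add_halves]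

open Classical in
/-- One window of maximal heights sees `N` times the tail at `t`. -/
theorem Setup.window_lower (S : Setup d) :
    ∃ (K0 c Λ : ℝ) (N0 : ℕ) (κ : ℝ≥0∞), 1 ≤ K0 ∧ 0 < c ∧ 0 < Λ ∧ κ ≠ 0 ∧ κ ≠ ⊤ ∧
      ∀ (K t : ℝ) (N : ℕ), K0 ≤ K → 1 ≤ t → N0 ≤ N →
        capMean S.μ S.h t ≤ ENNReal.ofReal (t / (K * N)) →
        capMean S.μ (-S.h) t ≤ ENNReal.ofReal (t / (K * N)) →
          κ * ((N : ℝ≥0∞) * tailE S.μ S.h t)
            ≤ (2 * d : ℝ≥0∞) * S.P (MaxWin S.h (c * N) (Λ * N))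
              + (2 * d : ℝ≥0∞) * (κ * ((N : ℝ≥0∞) * tailH S.μ S.h N)) := by
  haveI := S.ann.1
  have hb := S.ann.tsum_bwgt S.escP
  have hd : (1 : ℝ) ≤ d := by
    have := S.three
    exact_mod_cast (show 1 ≤ d by omega)
  obtain ⟨c, C, hc, hC, hspan⟩ := S.middle_span
  obtain ⟨n8, hn8, hn8'⟩ := exists_nat_div_le (a := C) (η := (8 : ℝ≥0∞)⁻¹) hC (by simp)
  obtain ⟨C2, hC2, hC2'⟩ := exists_nat_div_le (a := S.meanH) (η := (8 : ℝ≥0∞)⁻¹)
    S.meanH_ne_top (by simp)
  set Λ : ℝ := C2 + 1 with hΛ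
  have hΛ1 : 1 ≤ Λ := by rw [hΛ]; linarith [(Nat.cast_nonneg C2 : (0 : ℝ) ≤ C2)]
  obtain ⟨Kg, Ng, hKg, hgood⟩ := S.good_lower_mean hΛ1
  set g0 : ℝ≥0∞ := bwgt S.μ (-S.h) [S.e₁] * (S.P (Esc (-S.h)) / 2) with hg0
  have hg0' : g0 ≠ 0 :=
    mul_ne_zero S.bwgt_e₁_ne_zero (ENNReal.div_ne_zero.2 ⟨S.escM, by norm_num⟩)
  have hg1 : g0 ≤ 1 := by
    refine mul_le_one' ?_ ?_
    · rw [bwgt]; split_ifs
      · exact pw_le_one (μ := S.μ) _ _
      · exact bot_le
    · refine ENNReal.div_le_of_le_mul ((prob_le_one : S.P (Esc (-S.h)) ≤ 1).trans ?_)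
      norm_num
  set κ : ℝ≥0∞ := S.P (Esc S.h) * (4 : ℝ≥0∞)⁻¹ * g0 with hκ
  refine ⟨max Kg (32 * d), c / 4, Λ, Ng + 4 * n8 + 4, κ, hKg.trans (le_max_left _ _), by linarith,
    by linarith,
    mul_ne_zero (mul_ne_zero S.escP (by simp)) hg0',
    ENNReal.mul_ne_top (ENNReal.mul_ne_top (measure_ne_top _ _) (by simp))
      (ne_top_of_le_ne_top ENNReal.one_ne_top hg1), ?_⟩
  intro K t N hK ht hN hcapP hcapM
  have hKd : 32 * (d : ℝ) ≤ K := (le_max_right _ _).trans hK
  have hNpos : (0 : ℝ) < N := by exact_mod_cast (show 0 < N by omega)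
  have hKpos : 0 < K := by linarith
  set τ : ℝ := t / d with hτ
  have hτ0 : 0 < τ := by rw [hτ]; positivity
  set lam : ℝ := t / d / (4 * Λ * N) with hlam
  have hHH : lam * ((C2 : ℝ) * N + N) ≤ τ / 4 := by
    rw [hlam, hτ, hΛ]
    apply le_of_eq
    field_simp
  set G : ℝ := c / 4 * N with hG
  set W := S.P (MaxWin S.h G (Λ * N)) with hW
  have hA : ∀ n ∈ Ico (N / 2) N, (2 : ℝ≥0∞)⁻¹ ≤ ex S.μ S.h n (fun ws =>
      if (extSum ws : ℝ) ≤ τ / 4 ∧ S.h (disp ws.flatten) ≤ (C2 : ℝ) * N ∧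
        G ≤ S.h (disp ws.flatten) then 1 else 0) := by
    intro n hn
    rw [mem_Ico] at hn
    have hnN : (n : ℝ) ≤ N := by exact_mod_cast hn.2.le
    have hn4 : (N : ℝ) / 4 ≤ n := by
      have h2 : (N : ℝ) ≤ ((4 * n : ℕ) : ℝ) := by exact_mod_cast (show N ≤ 4 * n by omega)
      push_cast at h2
      linarith
    have e1 : ex S.μ S.h n (fun ws => if τ / 4 < (extSum ws : ℝ) then 1 else 0)
        ≤ (8 : ℝ≥0∞)⁻¹ := by
      refine (ex_extSum_gt_cap hb (by positivity) n).trans ((mul_le_mul' le_rfl (mul_le_mul' le_rfl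
        ((capMean_mono ?_).trans hcapP))).trans ?_)
      · rw [hτ]; linarith [div_le_self (show (0 : ℝ) ≤ t by linarith) hd]
      rw [← ENNReal.ofReal_natCast, ← ENNReal.ofReal_mul (Nat.cast_nonneg _),
        ← ENNReal.ofReal_mul (by positivity), ← ENNReal.ofReal_ofNat 8,
        ← ENNReal.ofReal_inv_of_pos (by norm_num)]
      refine ENNReal.ofReal_le_ofReal ?_
      have e : 1 / (τ / 4) * ((n : ℝ) * (t / (K * N))) = 4 * d * n / (K * N) := by
        rw [hτ]; field_simp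
      rw [e, div_le_iff₀ (by positivity)]
      nlinarith [mul_le_mul_of_nonneg_right hKd hNpos.le]
    have e2 : ex S.μ S.h n (fun ws => if (C2 : ℝ) * N < S.h (disp ws.flatten) then 1 else 0)
        ≤ (8 : ℝ≥0∞)⁻¹ := by
      refine (S.high_le n (by positivity)).trans (le_trans ?_ hC2')
      rw [← Setup.meanH, ENNReal.ofReal_mul (Nat.cast_nonneg _), ENNReal.ofReal_natCast,
        ENNReal.ofReal_natCast, mul_comm (C2 : ℝ≥0∞)]
      calc (n : ℝ≥0∞) * S.meanH / ((N : ℝ≥0∞) * C2)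
          ≤ (N : ℝ≥0∞) * S.meanH / ((N : ℝ≥0∞) * C2) := by gcongr; exact hn.2.le
        _ = _ := ENNReal.mul_div_mul_left _ _ (by simp; omega) (ENNReal.natCast_ne_top N)
    have e3 : ex S.μ S.h n (fun ws => if S.h (disp ws.flatten) < G then 1 else 0)
        ≤ (8 : ℝ≥0∞)⁻¹ := by
      refine le_trans (le_trans (ex_mono fun ws => ?_) (hspan n (by omega)))
        (le_trans (ENNReal.div_le_div le_rfl ?_) hn8')
      · by_cases h1 : S.h (disp ws.flatten) < G
        · rw [if_pos h1, if_pos (h1.trans_le (by rw [hG]; nlinarith))]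
        · rw [if_neg h1]; exact bot_le
      · exact_mod_cast (show n8 ≤ n by omega)
    have hone : 1 ≤ ex S.μ S.h n (fun ws =>
        if (extSum ws : ℝ) ≤ τ / 4 ∧ S.h (disp ws.flatten) ≤ (C2 : ℝ) * N ∧
          G ≤ S.h (disp ws.flatten) then 1 else 0)
        + ((8 : ℝ≥0∞)⁻¹ + ((8 : ℝ≥0∞)⁻¹ + 8⁻¹)) := by
      refine le_trans ?_ (add_le_add le_rfl (add_le_add e1 (add_le_add e2 e3)))
      rw [← ex_add, ← ex_add, ← ex_add]
      conv_lhs => rw [← ex_const hb n 1]
      refine ex_mono fun ws => ?_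
      by_cases h1 : τ / 4 < (extSum ws : ℝ)
      · rw [if_pos h1]; exact le_trans le_self_add le_add_self
      by_cases h2 : (C2 : ℝ) * N < S.h (disp ws.flatten)
      · rw [if_neg h1, if_pos h2, zero_add]; exact le_trans le_self_add le_add_self
      by_cases h3 : S.h (disp ws.flatten) < G
      · simp [h1, h2, h3]
      · simp [not_lt.1 h1, not_lt.1 h2, not_lt.1 h3]
    refine ENNReal.le_of_add_le_add_right (by norm_num) (le_trans ?_ hone)
    rw [← ENNReal.ofReal_ofNat 8, ← ENNReal.ofReal_ofNat 2,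
      ← ENNReal.ofReal_inv_of_pos (by norm_num), ← ENNReal.ofReal_inv_of_pos (by norm_num),
      ← ENNReal.ofReal_add (by norm_num) (by norm_num),
      ← ENNReal.ofReal_add (by norm_num) (by norm_num),
      ← ENNReal.ofReal_add (by norm_num) (by norm_num), ENNReal.ofReal_le_one]
    norm_num
  have hdir : ∀ p : Fin d × Bool, κ * ((N : ℝ≥0∞) * (∑' π, bwgt S.μ S.h π *
      if ∃ k ≤ π.length, τ < sgn p.2 * ((disp (π.take k)) p.1 : ℝ) then 1 else 0))
      ≤ W + κ * ((N : ℝ≥0∞) * tailH S.μ S.h N) := by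
    rintro ⟨i, σ⟩
    set B : ℝ≥0∞ := ∑' π, bwgt S.μ S.h π * (if S.h (disp π) ≤ (N : ℝ) ∧
      ∃ k ≤ π.length, τ < sgn σ * ((disp (π.take k)) i : ℝ) then 1 else 0) with hBdef
    have hsplit : (∑' π, bwgt S.μ S.h π *
        if ∃ k ≤ π.length, τ < sgn σ * ((disp (π.take k)) i : ℝ) then 1 else 0)
        ≤ B + tailH S.μ S.h N := by
      rw [hBdef, tailH, ← ENNReal.tsum_add]
      refine ENNReal.tsum_le_tsum fun π => ?_
      rw [← mul_add]
      refine mul_le_mul' le_rfl ?_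
      by_cases hH : S.h (disp π) ≤ (N : ℝ)
      · simp [hH]
      · simp only [not_le.1 hH, hH, false_and, if_true, if_false, zero_add]
        split_ifs <;> simp
    refine (mul_le_mul' le_rfl (mul_le_mul' le_rfl hsplit)).trans ?_
    rw [mul_add, mul_add]
    refine add_le_add ?_ le_rfl
    have hU := S.cross_lower i σ (τ := τ) (G := G) (H1 := (C2 : ℝ) * N) (H2 := (N : ℝ))
      (by rw [hlam]; positivity) hτ0 hHH (Ico (N / 2) N)
    have hgd := hgood K t N ((le_max_left _ _).trans hK) ht (by omega) hcapM i σ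
    rw [show Λ * (N : ℝ) = (C2 : ℝ) * N + N by rw [hΛ]; ring] at hgd
    have hfinal := S.cross_mul_le (tilt S.h i σ lam) (τ / 2) G ((C2 : ℝ) * N + N) (subset_refl _)
    rw [hW, show Λ * (N : ℝ) = (C2 : ℝ) * N + N by rw [hΛ]; ring]
    have hlow : S.P (Esc S.h) * ((4 : ℝ≥0∞)⁻¹ * ((N : ℝ≥0∞) * B)) ≤ _ := le_trans ?_ hU
    swap
    · refine mul_le_mul' le_rfl (le_trans ?_
        (card_nsmul_le_sum _ _ _ fun n hn => mul_le_mul' (hA n hn) le_rfl))
      rw [Nat.card_Ico, nsmul_eq_mul, ← mul_assoc, ← mul_assoc]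
      refine mul_le_mul' ?_ le_rfl
      rw [← ENNReal.ofReal_natCast, ← ENNReal.ofReal_natCast (N - N / 2),
        ← ENNReal.ofReal_ofNat 4, ← ENNReal.ofReal_ofNat 2,
        ← ENNReal.ofReal_inv_of_pos (by norm_num), ← ENNReal.ofReal_inv_of_pos (by norm_num),
        ← ENNReal.ofReal_mul (by norm_num), ← ENNReal.ofReal_mul (Nat.cast_nonneg _)]
      refine ENNReal.ofReal_le_ofReal ?_
      have h1 : (N : ℝ) ≤ 2 * ((N - N / 2 : ℕ) : ℝ) := by
        exact_mod_cast (show N ≤ 2 * (N - N / 2) by omega)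
      linarith
    · refine le_trans ?_ ((mul_le_mul' hlow hgd).trans hfinal)
      rw [hκ]
      exact le_of_eq (by ring)
  calc κ * ((N : ℝ≥0∞) * tailE S.μ S.h t)
      ≤ κ * ((N : ℝ≥0∞) * ∑ p : Fin d × Bool, ∑' π, bwgt S.μ S.h π *
          if ∃ k ≤ π.length, τ < sgn p.2 * ((disp (π.take k)) p.1 : ℝ) then 1 else 0) :=
        mul_le_mul' le_rfl (mul_le_mul' le_rfl (tailE_le_sum_coord _ _ (by linarith)))
    _ ≤ ∑ _p : Fin d × Bool, (W + κ * ((N : ℝ≥0∞) * tailH S.μ S.h N)) := by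
        rw [mul_sum, mul_sum]
        exact sum_le_sum fun p _ => hdir p
    _ = _ := by
        rw [sum_const, Finset.card_univ, Fintype.card_prod, Fintype.card_fin, Fintype.card_bool,
          nsmul_eq_mul]
        push_cast
        ring

/-- Geometric windows of the maximal height are disjoint. -/
theorem Setup.maxWin_sum (S : Setup d) {c Λ : ℝ} (hΛ : 0 ≤ Λ) {B : ℕ} (hB : 1 ≤ B)
    (hsep : Λ < c * B) (s : Finset ℕ) :
    ∑ j ∈ s, S.P (MaxWin S.h (c * (B ^ j : ℕ)) (Λ * (B ^ j : ℕ))) ≤ 1 := by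
  haveI := S.ann.1
  have hc : 0 < c := by
    by_contra! hle
    have : c * (B : ℝ) ≤ 0 := mul_nonpos_of_nonpos_of_nonneg hle (Nat.cast_nonneg B)
    linarith
  have hm : ∀ G HN : ℝ, MeasurableSet (MaxWin S.h G HN) := by
    intro G HN
    have hs : ∀ k, Measurable fun t : Traj d => S.h (site t k) := fun k =>
      (measurable_of_countable S.h).comp (measurable_site k)
    have e : MaxWin S.h G HN = ((⋃ k, {t | G ≤ S.h (site t k)}) \ Up S.h) ∩
        ⋂ k, {t | S.h (site t k) ≤ HN} := by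
      ext t; simp [MaxWin, Reach]
    rw [e]
    exact ((MeasurableSet.iUnion fun k => measurableSet_le measurable_const (hs k)).diff
      (measurableSet_up _)).inter
      (MeasurableSet.iInter fun k => measurableSet_le (hs k) measurable_const)
  rw [← measure_biUnion_finset ?_ fun j _ => hm _ _]
  · exact prob_le_one
  intro a _ b _ hne
  have key : ∀ a b : ℕ, a < b → Disjoint (MaxWin S.h (c * (B ^ a : ℕ)) (Λ * (B ^ a : ℕ)))
      (MaxWin S.h (c * (B ^ b : ℕ)) (Λ * (B ^ b : ℕ))) := by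
    intro a b hab
    refine Set.disjoint_left.2 fun t ha hb => ?_
    obtain ⟨⟨k, hk⟩, -⟩ := hb.1
    have h1 := ha.2 k
    have h2 : ((B ^ a * B : ℕ) : ℝ) ≤ ((B ^ b : ℕ) : ℝ) := by
      have := Nat.pow_le_pow_right hB (show a + 1 ≤ b from hab)
      rw [pow_succ] at this
      exact_mod_cast this
    have h3 : (0 : ℝ) < ((B ^ a : ℕ) : ℝ) := by
      exact_mod_cast Nat.pos_of_ne_zero (by positivity)
    rw [Nat.cast_mul] at h2
    nlinarith [mul_le_mul_of_nonneg_left h2 hc.le, mul_lt_mul_of_pos_right hsep h3]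
  rcases lt_or_gt_of_ne hne with h | h
  exacts [key a b h, (key b a h).symm]

/-- The height tails along a geometric sequence cost twice the mean height. -/
theorem Setup.tailH_sum (S : Setup d) {B : ℕ} (hB : 2 ≤ B) (J : ℕ) :
    ∑ j ∈ range J, ((B ^ j : ℕ) : ℝ≥0∞) * tailH S.μ S.h (B ^ j : ℕ) ≤ 2 * S.meanH := by
  classical
  rw [Setup.meanH, ← ENNReal.tsum_mul_left]
  simp only [tailH, ← ENNReal.tsum_mul_left]
  rw [← Summable.tsum_finsetSum fun j _ => ENNReal.summable]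
  refine ENNReal.tsum_le_tsum fun π => ?_
  set H := S.h (disp π) with hH
  suffices key : ∀ J, ((∑ j ∈ range J, if ((B ^ j : ℕ) : ℝ) < H then B ^ j else 0 : ℕ) : ℝ)
      ≤ 2 * max H 0 ∧ (∑ j ∈ range J, if ((B ^ j : ℕ) : ℝ) < H then B ^ j else 0) ≤ B ^ J by
    have e : ∀ j : ℕ, ((B ^ j : ℕ) : ℝ≥0∞) * (bwgt S.μ S.h π *
        if ((B ^ j : ℕ) : ℝ) < H then 1 else 0)
        = bwgt S.μ S.h π * ((if ((B ^ j : ℕ) : ℝ) < H then B ^ j else 0 : ℕ) : ℝ≥0∞) := fun j => by
      split_ifs <;> simp [mul_comm]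
    simp only [e, ← mul_sum, ← Nat.cast_sum]
    rw [mul_left_comm]
    refine mul_le_mul' le_rfl ?_
    rw [← ENNReal.ofReal_natCast, ← ENNReal.ofReal_ofNat 2, ← ENNReal.ofReal_mul (by norm_num)]
    by_cases hH0 : 0 ≤ H
    · exact ENNReal.ofReal_le_ofReal (by simpa [max_eq_left hH0] using (key J).1)
    · have h1 := (key J).1
      rw [max_eq_right (le_of_not_ge hH0), mul_zero] at h1
      exact (le_of_eq (ENNReal.ofReal_eq_zero.2 h1)).trans bot_le
  intro J
  induction J with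
  | zero => simp
  | succ J ih =>
    rw [sum_range_succ, pow_succ]
    have h2 : B ^ J * 2 ≤ B ^ J * B := Nat.mul_le_mul_left _ hB
    split_ifs with hlt
    · refine ⟨?_, by omega⟩
      have h3 : ((∑ j ∈ range J, if ((B ^ j : ℕ) : ℝ) < H then B ^ j else 0 : ℕ) : ℝ)
          ≤ ((B ^ J : ℕ) : ℝ) := by exact_mod_cast ih.2
      rw [Nat.cast_add]
      linarith [le_max_left H 0]
    · exact ⟨by simpa using ih.1, by omega⟩

/-- Both sided transience: the mean extent of a block is finite. -/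
theorem Setup.capMean_bounded (S : Setup d) :
    ∃ M : ℝ≥0∞, M ≠ ⊤ ∧ ∀ x : ℝ, capMean S.μ S.h x + capMean S.μ (-S.h) x ≤ M := by
  haveI := S.ann.1
  have hbP := S.ann.tsum_bwgt S.escP
  have hbM := S.ann.tsum_bwgt S.escM
  obtain ⟨K1, c1, Λ1, N1, κ1, hK1, hc1, hΛ1, hκ1, hκ1', hw1⟩ := S.window_lower
  obtain ⟨K2, c2, Λ2, N2, κ2, -, hc2, hΛ2, hκ2, hκ2', hw2⟩ := S.swap.window_lower
  have hneg : S.swap.h = -S.h := rfl
  have hμ : S.swap.μ = S.μ := rfl
  have hP : S.swap.P = S.P := rfl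
  simp only [hneg, hμ, hP, neg_neg] at hw2
  set K : ℝ := max K1 K2 with hKdef
  have hK1' : 1 ≤ K := hK1.trans (le_max_left _ _)
  obtain ⟨B, hB⟩ := exists_nat_gt (max 2 (max (Λ1 / c1) (Λ2 / c2)))
  have hB2 : 2 ≤ B := by
    exact_mod_cast ((le_max_left (2 : ℝ) _).trans hB.le)
  have hsep1 : Λ1 < c1 * B := by
    have := ((le_max_left (Λ1 / c1) _).trans (le_max_right (2 : ℝ) _)).trans_lt hB
    rw [div_lt_iff₀ hc1] at this
    linarith
  have hsep2 : Λ2 < c2 * B := by
    have := ((le_max_right _ (Λ2 / c2)).trans (le_max_right (2 : ℝ) _)).trans_lt hB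
    rw [div_lt_iff₀ hc2] at this
    linarith
  set M : ℝ → ℝ≥0∞ := fun x => capMean S.μ S.h x + capMean S.μ (-S.h) x with hM
  have hMtop : ∀ x, M x ≠ ⊤ := fun x =>
    ENNReal.add_ne_top.2 ⟨capMean_ne_top hbP x, capMean_ne_top hbM x⟩
  set T : ℝ → ℝ≥0∞ := fun x => tailE S.μ S.h x + tailE S.μ (-S.h) x with hT
  -- the level of a height scale
  have hBone : ∀ j, (1 : ℝ) ≤ ((B ^ j : ℕ) : ℝ) := fun j => by
    exact_mod_cast Nat.one_le_pow j B (by omega)
  have hex : ∀ j : ℕ, ∃ t : ℕ, 1 ≤ t ∧ M t ≤ ENNReal.ofReal ((t : ℝ) / (K * (B ^ j : ℕ))) := by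
    intro j
    have hKB : (0 : ℝ) < K * (B ^ j : ℕ) := mul_pos (by linarith) (by linarith [hBone j])
    have hε : (0 : ℝ) < 1 / (2 * (K * (B ^ j : ℕ))) := by positivity
    obtain ⟨X, hX⟩ := eventually_atTop.1 ((capMean_sublinear (μ := S.μ) (h := S.h) hbP hε).and
      (capMean_sublinear (μ := S.μ) (h := -S.h) hbM hε))
    obtain ⟨t, ht⟩ := exists_nat_ge (max X 1)
    refine ⟨t, by exact_mod_cast (le_max_right X 1).trans ht, ?_⟩
    obtain ⟨h1, h2⟩ := hX t ((le_max_left _ _).trans ht)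
    refine (add_le_add h1 h2).trans (le_of_eq ?_)
    rw [← ENNReal.ofReal_add (by positivity) (by positivity)]
    congr 1
    field_simp
    ring
  classical
  let u : ℕ → ℕ := fun j => Nat.find (hex j)
  have huspec : ∀ j, 1 ≤ u j ∧ M (u j) ≤ ENNReal.ofReal ((u j : ℝ) / (K * (B ^ j : ℕ))) :=
    fun j => Nat.find_spec (hex j)
  have humono : ∀ j, u j ≤ u (j + 1) := by
    intro j
    refine Nat.find_min' _ ⟨(huspec (j + 1)).1,
      (huspec (j + 1)).2.trans (ENNReal.ofReal_le_ofReal ?_)⟩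
    refine div_le_div_of_nonneg_left (Nat.cast_nonneg _)
      (mul_pos (by linarith) (by linarith [hBone j])) ?_
    refine mul_le_mul_of_nonneg_left ?_ (by linarith)
    exact_mod_cast Nat.pow_le_pow_right (by omega) (Nat.le_succ j)
  have hMone : ∀ x : ℝ, 1 ≤ x → 1 ≤ M x := fun x hx => (one_le_capMean hbP hx).trans le_self_add
  have hulow : ∀ j, K * (B ^ j : ℕ) ≤ (u j : ℝ) := by
    intro j
    have h1 := (hMone (u j) (by exact_mod_cast (huspec j).1)).trans (huspec j).2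
    rw [ENNReal.one_le_ofReal, le_div_iff₀ (by positivity)] at h1
    linarith
  have huup : ∀ j, ENNReal.ofReal (u j : ℝ)
      ≤ ENNReal.ofReal (2 * K * (B ^ j : ℕ)) * M (u j) := by
    intro j
    have hKB : 1 ≤ K * ((B ^ j : ℕ) : ℝ) := by
      have : (1 : ℝ) ≤ ((B ^ j : ℕ) : ℝ) := by exact_mod_cast Nat.one_le_pow j B (by omega)
      nlinarith
    have hu1 := hMone (u j) (by exact_mod_cast (huspec j).1)
    rcases Nat.lt_or_ge (u j) 2 with hsmall | hbig
    · calc ENNReal.ofReal (u j : ℝ) ≤ ENNReal.ofReal (2 * K * (B ^ j : ℕ)) * 1 := by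
            rw [mul_one]
            refine ENNReal.ofReal_le_ofReal ?_
            have : (u j : ℝ) ≤ 1 := by exact_mod_cast (show u j ≤ 1 by omega)
            nlinarith
        _ ≤ _ := mul_le_mul' le_rfl hu1
    · have hnot := Nat.find_min (hex j) (show u j - 1 < u j by omega)
      rw [not_and, not_le] at hnot
      have h1 := hnot (by omega)
      have h2 : M ((u j - 1 : ℕ) : ℝ) ≤ M (u j) :=
        add_le_add (capMean_mono (by exact_mod_cast Nat.sub_le _ _))
          (capMean_mono (by exact_mod_cast Nat.sub_le _ _))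
      refine le_trans ?_ (mul_le_mul' le_rfl (h1.le.trans h2))
      rw [← ENNReal.ofReal_mul (by positivity)]
      refine ENNReal.ofReal_le_ofReal ?_
      rw [Nat.cast_sub (by omega), Nat.cast_one]
      have e : 2 * K * ((B ^ j : ℕ) : ℝ) * (((u j : ℝ) - 1) / (K * ((B ^ j : ℕ) : ℝ)))
          = 2 * ((u j : ℝ) - 1) := by field_simp
      rw [e]
      have : (2 : ℝ) ≤ u j := by exact_mod_cast hbig
      linarith
  -- the summable increments
  set a : ℕ → ℝ≥0∞ := fun j => ((B ^ j : ℕ) : ℝ≥0∞) * T (u j) with ha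
  have hasum : ∑' j, a j ≠ ⊤ := by
    obtain ⟨j0, hj0⟩ := exists_nat_ge (max (N1 : ℝ) N2)
    set Z : ℝ≥0∞ := (2 * d : ℝ≥0∞) / κ1 + (2 * d : ℝ≥0∞) * (2 * S.meanH)
      + ((2 * d : ℝ≥0∞) / κ2 + (2 * d : ℝ≥0∞) * (2 * S.swap.meanH)) with hZ
    have hd2 : (2 * d : ℝ≥0∞) ≠ ⊤ := ENNReal.mul_ne_top (by norm_num) (ENNReal.natCast_ne_top d)
    have hZtop : Z ≠ ⊤ :=
      ENNReal.add_ne_top.2 ⟨ENNReal.add_ne_top.2 ⟨ENNReal.div_ne_top hd2 hκ1,
          ENNReal.mul_ne_top hd2 (ENNReal.mul_ne_top (by norm_num) S.meanH_ne_top)⟩,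
        ENNReal.add_ne_top.2 ⟨ENNReal.div_ne_top hd2 hκ2,
          ENNReal.mul_ne_top hd2 (ENNReal.mul_ne_top (by norm_num) S.swap.meanH_ne_top)⟩⟩
    have htop : ∀ j, a j ≠ ⊤ := fun j => ENNReal.mul_ne_top (ENNReal.natCast_ne_top _)
      (ENNReal.add_ne_top.2 ⟨ne_top_of_le_ne_top ENNReal.one_ne_top (S.tailE_le_one _),
        ne_top_of_le_ne_top ENNReal.one_ne_top (S.tailE_neg_le_one _)⟩)
    refine ne_top_of_le_ne_top
      (ENNReal.add_ne_top.2 ⟨ENNReal.sum_ne_top.2 fun j (_ : j ∈ range j0) => htop j, hZtop⟩) ?_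
    rw [ENNReal.tsum_eq_iSup_nat]
    refine iSup_le fun J => ?_
    have hpt : ∀ j ∈ (range J).filter (fun j => j0 ≤ j), a j ≤
        ((2 * d : ℝ≥0∞) / κ1 * S.P (MaxWin S.h (c1 * (B ^ j : ℕ)) (Λ1 * (B ^ j : ℕ)))
          + (2 * d : ℝ≥0∞) * (((B ^ j : ℕ) : ℝ≥0∞) * tailH S.μ S.h (B ^ j : ℕ)))
        + ((2 * d : ℝ≥0∞) / κ2 * S.P (MaxWin (-S.h) (c2 * (B ^ j : ℕ)) (Λ2 * (B ^ j : ℕ)))
          + (2 * d : ℝ≥0∞) * (((B ^ j : ℕ) : ℝ≥0∞) * tailH S.μ (-S.h) (B ^ j : ℕ))) := by
      intro j hj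
      have hjj : j0 ≤ j := (mem_filter.1 hj).2
      have hjB : j ≤ B ^ j := (Nat.lt_pow_self (by omega)).le
      have hN1' : N1 ≤ B ^ j := by
        have : (N1 : ℝ) ≤ j0 := (le_max_left _ _).trans hj0
        have : N1 ≤ j0 := by exact_mod_cast this
        omega
      have hN2' : N2 ≤ B ^ j := by
        have : (N2 : ℝ) ≤ j0 := (le_max_right _ _).trans hj0
        have : N2 ≤ j0 := by exact_mod_cast this
        omega
      have hu1 : (1 : ℝ) ≤ u j := by exact_mod_cast (huspec j).1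
      have hcP : capMean S.μ S.h (u j) ≤ ENNReal.ofReal ((u j : ℝ) / (K * (B ^ j : ℕ))) :=
        le_self_add.trans (huspec j).2
      have hcM : capMean S.μ (-S.h) (u j) ≤ ENNReal.ofReal ((u j : ℝ) / (K * (B ^ j : ℕ))) :=
        le_add_self.trans (huspec j).2
      have h1 := hw1 K (u j) (B ^ j) (le_max_left _ _) hu1 hN1' hcP hcM
      have h2 := hw2 K (u j) (B ^ j) (le_max_right _ _) hu1 hN2' hcM hcP
      simp only [ha, hT, mul_add]
      refine add_le_add ?_ ?_
      · refine (ENNReal.mul_le_mul_iff_right hκ1 hκ1').1 (h1.trans (le_of_eq ?_))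
        rw [mul_add, ← mul_assoc κ1 ((2 * d : ℝ≥0∞) / κ1), ENNReal.mul_div_cancel hκ1 hκ1']
        ring
      · refine (ENNReal.mul_le_mul_iff_right hκ2 hκ2').1 (h2.trans (le_of_eq ?_))
        rw [mul_add, ← mul_assoc κ2 ((2 * d : ℝ≥0∞) / κ2), ENNReal.mul_div_cancel hκ2 hκ2']
        ring
    rw [← sum_filter_add_sum_filter_not (range J) (fun j => j0 ≤ j), add_comm]
    refine add_le_add (sum_le_sum_of_subset fun j hj => ?_) ((sum_le_sum hpt).trans ?_)
    · simp only [mem_filter, not_le] at hj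
      exact mem_range.2 hj.2
    simp only [sum_add_distrib, ← mul_sum]
    refine add_le_add (add_le_add ?_ ?_) (add_le_add ?_ ?_)
    · exact mul_le_of_le_one_right' (S.maxWin_sum hΛ1.le (by omega) hsep1 _)
    · exact mul_le_mul' le_rfl
        ((sum_le_sum_of_subset (filter_subset _ _)).trans (S.tailH_sum hB2 J))
    · exact mul_le_of_le_one_right' (S.swap.maxWin_sum hΛ2.le (by omega) hsep2 _)
    · exact mul_le_mul' le_rfl
        ((sum_le_sum_of_subset (filter_subset _ _)).trans (S.swap.tailH_sum hB2 J))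
  -- telescoping
  set D : ℝ≥0∞ := ENNReal.ofReal (2 * K * B) with hD
  have hD' : ∀ j, M (u (j + 1)) ≤ M (u j) + D * a j * M (u (j + 1)) := by
    intro j
    have hle : (u j : ℝ) ≤ u (j + 1) := by exact_mod_cast humono j
    refine le_trans (b := M (u j) + ENNReal.ofReal (u (j + 1) : ℝ) * T (u j)) ?_ (add_le_add le_rfl ?_)
    · simp only [hM, hT, mul_add]
      refine (add_le_add (capMean_le_add hle) (capMean_le_add hle)).trans ?_
      have hsub : ENNReal.ofReal ((u (j + 1) : ℝ) - u j) ≤ ENNReal.ofReal (u (j + 1) : ℝ) :=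
        ENNReal.ofReal_le_ofReal (by linarith [(Nat.cast_nonneg (u j) : (0 : ℝ) ≤ u j)])
      rw [add_add_add_comm]
      gcongr
    · refine (mul_le_mul' (huup (j + 1)) le_rfl).trans (le_of_eq ?_)
      rw [pow_succ, Nat.cast_mul, show 2 * K * (((B ^ j : ℕ) : ℝ) * (B : ℝ))
        = (2 * K * B) * ((B ^ j : ℕ) : ℝ) by ring, ENNReal.ofReal_mul (by positivity),
        ENNReal.ofReal_natCast, ← hD, ha]
      ring
  have htend := ENNReal.Tendsto.const_mul (a := D) (ENNReal.tendsto_sum_nat_add a hasum)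
    (Or.inr ENNReal.ofReal_ne_top)
  rw [mul_zero] at htend
  obtain ⟨j1, hj1⟩ := (htend.eventually
    (eventually_le_nhds (show (0 : ℝ≥0∞) < 2⁻¹ by simp))).exists
  have hMmono : ∀ i k, M (u (i + j1)) ≤ M (u (i + k + j1)) := by
    intro i k
    induction k with
    | zero => exact le_rfl
    | succ k ih =>
      refine ih.trans ?_
      have h1 : (u (i + k + j1) : ℝ) ≤ u (i + (k + 1) + j1) := by
        have := humono (i + k + j1)
        rw [show i + k + j1 + 1 = i + (k + 1) + j1 by omega] at this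
        exact_mod_cast this
      exact add_le_add (capMean_mono h1) (capMean_mono h1)
  have hbound : ∀ k, M (u (k + j1)) ≤ 2 * M (u j1) := by
    intro k
    have h1 : ∀ i ≤ k,
        M (u (i + j1)) ≤ M (u j1) + (∑ x ∈ range i, D * a (x + j1)) * M (u (k + j1)) := by
      intro i hi
      induction i with
      | zero => simp
      | succ i ih =>
        rw [show i + 1 + j1 = i + j1 + 1 by omega, sum_range_succ, add_mul, ← add_assoc]
        refine (hD' (i + j1)).trans (add_le_add (ih (by omega)) (mul_le_mul' le_rfl ?_))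
        have := hMmono (i + 1) (k - (i + 1))
        rwa [show i + 1 + j1 = i + j1 + 1 by omega, show i + 1 + (k - (i + 1)) = k by omega] at this
    have h2 : M (u (k + j1)) ≤ M (u j1) + 2⁻¹ * M (u (k + j1)) := by
      refine (h1 k le_rfl).trans (add_le_add le_rfl (mul_le_mul' ?_ le_rfl))
      rw [← mul_sum]
      exact (mul_le_mul' le_rfl (ENNReal.sum_le_tsum _)).trans hj1
    have h3 : 2⁻¹ * M (u (k + j1)) + 2⁻¹ * M (u (k + j1))
        ≤ M (u j1) + 2⁻¹ * M (u (k + j1)) := by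
      rw [← add_mul, ENNReal.inv_two_add_inv_two, one_mul]
      exact h2
    have h4 := ENNReal.le_of_add_le_add_right
      (ENNReal.mul_ne_top (by norm_num) (hMtop _)) h3
    calc M (u (k + j1)) = 2 * (2⁻¹ * M (u (k + j1))) := by
          rw [← mul_assoc, ENNReal.mul_inv_cancel (by norm_num) (by norm_num), one_mul]
      _ ≤ _ := mul_le_mul' le_rfl h4
  refine ⟨2 * M (u j1), ENNReal.mul_ne_top (by norm_num) (hMtop _), fun x => ?_⟩
  obtain ⟨k, hk⟩ := exists_nat_ge x
  refine le_trans ?_ (hbound k)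
  have h1 : x ≤ (u (k + j1) : ℝ) := by
    refine hk.trans (le_trans ?_ (hulow (k + j1)))
    have h5 : (k : ℝ) ≤ ((B ^ (k + j1) : ℕ) : ℝ) := by
      exact_mod_cast (Nat.le_add_right k j1).trans (Nat.lt_pow_self (by omega)).le
    nlinarith [(Nat.cast_nonneg (B ^ (k + j1)) : (0 : ℝ) ≤ _)]
  exact add_le_add (capMean_mono h1) (capMean_mono h1)

/-- The mean extent of one block. -/
noncomputable def meanExt (μ : Measure (Row d)) (h : Site d →+ ℝ) : ℝ≥0∞ :=
  ∑' π, bwgt μ h π * ((ext π : ℕ) : ℝ≥0∞)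

/-- Both sided transience: the mean extent of a block is finite on either side. -/
theorem Setup.meanExt_ne_top (S : Setup d) : meanExt S.μ S.h ≠ ⊤ := by
  obtain ⟨M, hM, hle⟩ := S.capMean_bounded
  refine ne_top_of_le_ne_top hM ?_
  rw [meanExt, ENNReal.tsum_eq_iSup_sum]
  refine iSup_le fun s => ?_
  refine le_trans ?_ (le_self_add.trans (hle (∑ π ∈ s, (ext π : ℝ))))
  refine le_trans (sum_le_sum fun π hπ => ?_) (ENNReal.sum_le_tsum s)
  refine mul_le_mul' le_rfl ?_
  rw [← ENNReal.ofReal_natCast]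
  refine ENNReal.ofReal_le_ofReal (le_min le_rfl ?_)
  exact single_le_sum (f := fun π => (ext π : ℝ)) (fun _ _ => Nat.cast_nonneg _) hπ

end Vale.Agent.P147
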