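import Mathlib
import Vale.Agent.P147.MeanCross

/-!
# P147: the law of large numbers along the blocks

Conditioned on `Esc h` the successive blocks are pairwise independent with law `bwgt μ h`.
When the mean extent of a block is finite, the strong law gives an asymptotic direction.
-/

namespace Vale.Agent.P147

open MeasureTheory Finset Filter ProbabilityTheory
open scoped ENNReal Topology

variable {d : ℕ} {μ : Measure (Row d)} [IsProbabilityMeasure μ] {P : Measure (Traj d)}
  {h : Site d →+ ℝ}

open Classical in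
/-- The first `n` blocks of a trajectory, a default value if there are none. -/
noncomputable def blkList (h : Site d →+ ℝ) (n : ℕ) (t : Traj d) : List (List (Step d)) :=
  if hex : ∃ ws, ws.length = n ∧ (∀ π ∈ ws, IsBlock h π) ∧ t ∈ blockEvent h ws then hex.choose
  else []

/-- The block number `k` of a trajectory, counted from zero. -/
noncomputable def blk (h : Site d →+ ℝ) (k : ℕ) (t : Traj d) : List (Step d) :=
  (blkList h (k + 1) t).getD k []

/-- The trajectory splits into blocks for ever. -/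
def AllBlocks (h : Site d →+ ℝ) : Set (Traj d) :=
  {t | ∀ n, t ∈ chainEvent h n fun _ => True}

/-- The conditioned law. -/
noncomputable def escLaw (P : Measure (Traj d)) (h : Site d →+ ℝ) : Measure (Traj d) :=
  (P (Esc h))⁻¹ • P.restrict (Esc h)

theorem blkList_eq {n : ℕ} {ws : List (List (Step d))} {t : Traj d} (hl : ws.length = n)
    (hws : ∀ π ∈ ws, IsBlock h π) (ht : t ∈ blockEvent h ws) : blkList h n t = ws := by
  have hex : ∃ vs, vs.length = n ∧ (∀ π ∈ vs, IsBlock h π) ∧ t ∈ blockEvent h vs :=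
    ⟨ws, hl, hws, ht⟩
  rw [blkList, dif_pos hex]
  obtain ⟨a, b, c⟩ := hex.choose_spec
  exact blockEvent_unique (a.trans hl.symm) b hws c ht

theorem blockEvent_append_left : ∀ {u v : List (List (Step d))} {t : Traj d},
    (∀ π ∈ v, IsBlock h π) → t ∈ blockEvent h (u ++ v) → t ∈ blockEvent h u := by
  intro u
  induction u with
  | nil =>
    intro v t hv ht
    refine ⟨?_, ?_⟩
    · exact mem_cyl.2 fun k hk => absurd hk (by simp)
    · have hesc := blockEvent_subset hv ht
      exact hesc
  | cons π u ih =>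
    intro v t hv ht
    rw [List.cons_append, mem_blockEvent_cons] at ht
    exact mem_blockEvent_cons.2 ⟨ht.1, ih hv ht.2⟩

theorem blk_eq {ws : List (List (Step d))} (hws : ∀ π ∈ ws, IsBlock h π) {t : Traj d}
    (ht : t ∈ blockEvent h ws) {k : ℕ} (hk : k < ws.length) : blk h k t = ws.getD k [] := by
  have hsplit : ws = ws.take (k + 1) ++ ws.drop (k + 1) := (List.take_append_drop _ _).symm
  have h1 : t ∈ blockEvent h (ws.take (k + 1)) := by
    rw [hsplit] at ht
    exact blockEvent_append_left (fun π hπ => hws π (List.mem_of_mem_drop hπ)) ht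
  rw [blk, blkList_eq (by simp; omega) (fun π hπ => hws π (List.mem_of_mem_take hπ)) h1]
  simp [List.getD_eq_getElem?_getD, List.getElem?_take]

theorem measurableSet_blk (k : ℕ) (A : Set (List (Step d))) :
    MeasurableSet {t | blk h k t ∈ A} := by
  classical
  set C : Set (Traj d) := chainEvent h (k + 1) fun ws => ws.getD k [] ∈ A
  set D : Set (Traj d) := chainEvent h (k + 1) fun _ => True
  have e : {t | blk h k t ∈ A} = C ∪ if ([] : List (Step d)) ∈ A then Dᶜ else ∅ := by
    ext t
    by_cases hD : t ∈ D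
    · obtain ⟨ws, hl, hb, -, ht⟩ := mem_chainEvent.1 hD
      have hblk := blk_eq hb ht (k := k) (by omega)
      have hC : t ∈ C ↔ ws.getD k [] ∈ A := by
        refine ⟨fun hm => ?_, fun hm => mem_chainEvent.2 ⟨ws, hl, hb, hm, ht⟩⟩
        obtain ⟨vs, hl', hb', hA, ht'⟩ := mem_chainEvent.1 hm
        rwa [blockEvent_unique (hl.trans hl'.symm) hb hb' ht ht']
      by_cases h0 : ([] : List (Step d)) ∈ A <;> simp [h0, hD, hC, hblk]
    · have hblk : blk h k t = [] := by
        have hex : ¬ ∃ ws, ws.length = k + 1 ∧ (∀ π ∈ ws, IsBlock h π) ∧ t ∈ blockEvent h ws :=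
          fun ⟨ws, a, b, c⟩ => hD (mem_chainEvent.2 ⟨ws, a, b, trivial, c⟩)
        rw [blk, blkList, dif_neg hex]
        rfl
      have hC : t ∉ C := fun hm => by
        obtain ⟨vs, hl', hb', -, ht'⟩ := mem_chainEvent.1 hm
        exact hD (mem_chainEvent.2 ⟨vs, hl', hb', trivial, ht'⟩)
      by_cases h0 : ([] : List (Step d)) ∈ A <;> simp [h0, hD, hC, hblk]
  rw [e]
  refine (measurableSet_chainEvent _ _ _).union ?_
  split_ifs
  · exact (measurableSet_chainEvent _ _ _).compl
  · exact MeasurableSet.empty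

theorem measurable_blk (φ : List (Step d) → ℝ) (k : ℕ) :
    Measurable fun t => φ (blk h k t) := fun S _ => measurableSet_blk k (φ ⁻¹' S)

open Classical in
theorem IsAnnealed.allBlocks_null (hP : IsAnnealed μ P) (hd : P (Esc h) ≠ 0) :
    P (Esc h \ AllBlocks h) = 0 := by
  haveI := hP.1
  have e : Esc h \ AllBlocks h ⊆ ⋃ n, Esc h \ chainEvent h n fun _ => True := by
    intro t ⟨ht, hn⟩
    simp only [AllBlocks, Set.mem_setOf_eq, not_forall] at hn
    obtain ⟨n, hn⟩ := hn
    exact Set.mem_iUnion.2 ⟨n, ht, hn⟩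
  refine measure_mono_null e (measure_iUnion_null fun n => ?_)
  rw [measure_sdiff (fun t ht => by
      obtain ⟨ws, -, hb, -, ht'⟩ := mem_chainEvent.1 ht
      exact blockEvent_subset hb ht')
    (measurableSet_chainEvent _ _ _).nullMeasurableSet (measure_ne_top _ _),
    hP.measure_chainEvent]
  simp [ex_const (hP.tsum_bwgt hd)]

theorem IsAnnealed.isProbability_escLaw (hP : IsAnnealed μ P) (hd : P (Esc h) ≠ 0) :
    IsProbabilityMeasure (escLaw P h) := by
  haveI := hP.1
  exact ⟨by simp [escLaw, ENNReal.inv_mul_cancel hd (measure_ne_top _ _)]⟩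

open Classical in
/-- The law of finitely many blocks under the conditioned measure. -/
theorem IsAnnealed.escLaw_blocks (hP : IsAnnealed μ P) (hd : P (Esc h) ≠ 0) (n : ℕ)
    (F : List (List (Step d)) → Prop) {A : Set (Traj d)} (hA : MeasurableSet A)
    (hAF : ∀ ws, ws.length = n → (∀ π ∈ ws, IsBlock h π) → ∀ t ∈ blockEvent h ws,
      (t ∈ A ↔ F ws)) :
    escLaw P h A = ex μ h n fun ws => if F ws then 1 else 0 := by
  haveI := hP.1
  have e : P (A ∩ Esc h) = P (chainEvent h n F) := by
    refine le_antisymm ?_ (measure_mono fun t ht => ?_)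
    · refine (measure_mono (t := chainEvent h n F ∪ (Esc h \ AllBlocks h)) fun t ht => ?_).trans
        ((measure_union_le _ _).trans (by rw [hP.allBlocks_null hd, add_zero]))
      by_cases hall : t ∈ AllBlocks h
      · obtain ⟨ws, hl, hb, -, ht'⟩ := mem_chainEvent.1 (hall n)
        exact .inl (mem_chainEvent.2 ⟨ws, hl, hb, (hAF ws hl hb t ht').1 ht.1, ht'⟩)
      · exact .inr ⟨ht.2, hall⟩
    · obtain ⟨ws, hl, hb, hF, ht'⟩ := mem_chainEvent.1 ht
      exact ⟨(hAF ws hl hb t ht').2 hF, blockEvent_subset hb ht'⟩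
  rw [escLaw, Measure.smul_apply, smul_eq_mul, Measure.restrict_apply hA, e,
    hP.measure_chainEvent, ← mul_assoc, ENNReal.inv_mul_cancel hd (measure_ne_top _ _), one_mul]

open Classical in
theorem ex_getD (hb : ∑' π, bwgt μ h π = 1) (k : ℕ) (A : Set (List (Step d))) :
    ex μ h (k + 1) (fun ws => if ws.getD k [] ∈ A then 1 else 0)
      = ∑' π, bwgt μ h π * (if π ∈ A then 1 else 0) := by
  rw [ex_append k 1, ex_congr_of (G := fun _ => ∑' π, bwgt μ h π * if π ∈ A then 1 else 0),
    ex_const hb]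
  intro u hu _
  rw [ex_succ]
  refine tsum_congr fun π => ?_
  simp [List.getD_eq_getElem?_getD, ← hu]

open Classical in
theorem IsAnnealed.blk_law (hP : IsAnnealed μ P) (hd : P (Esc h) ≠ 0) (k : ℕ)
    (A : Set (List (Step d))) :
    escLaw P h {t | blk h k t ∈ A} = ∑' π, bwgt μ h π * (if π ∈ A then 1 else 0) := by
  rw [hP.escLaw_blocks hd (k + 1) (fun ws => ws.getD k [] ∈ A) (measurableSet_blk k A),
    ex_getD (hP.tsum_bwgt hd)]
  intro ws hl hb t ht
  simp only [Set.mem_setOf_eq, blk_eq hb ht (k := k) (by omega)]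

open Classical in
theorem IsAnnealed.blk_indep (hP : IsAnnealed μ P) (hd : P (Esc h) ≠ 0) {i j : ℕ} (hij : i < j)
    (A B : Set (List (Step d))) :
    escLaw P h ({t | blk h i t ∈ A} ∩ {t | blk h j t ∈ B})
      = escLaw P h {t | blk h i t ∈ A} * escLaw P h {t | blk h j t ∈ B} := by
  have hb := hP.tsum_bwgt hd
  rw [hP.escLaw_blocks hd (j + 1) (fun ws => ws.getD i [] ∈ A ∧ ws.getD j [] ∈ B)
    ((measurableSet_blk i A).inter (measurableSet_blk j B)), hP.blk_law hd, hP.blk_law hd,
    ← ex_getD hb i A, ← ex_getD hb (j - (i + 1)) B,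
    show j + 1 = (i + 1) + (j - (i + 1) + 1) by omega, ex_append, ← ex_mul_const]
  · refine ex_congr_of fun u hu _ => ?_
    rw [← ex_const_mul]
    refine ex_congr_of fun v hv _ => ?_
    have e1 : (u ++ v).getD i [] = u.getD i [] := List.getD_append _ _ _ _ (by omega)
    have e2 : (u ++ v).getD j [] = v.getD (j - (i + 1)) [] := by
      rw [List.getD_append_right _ _ _ _ (by omega), hu]
    rw [e1, e2]
    by_cases hA : u.getD i [] ∈ A <;> by_cases hB : v.getD (j - (i + 1)) [] ∈ B <;>
      simp only [hA, hB, and_self, and_false, false_and, if_true, if_false, one_mul, mul_one,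
        zero_mul, mul_zero]
  · intro ws hl hb' t ht
    simp only [Set.mem_inter_iff, Set.mem_setOf_eq, blk_eq hb' ht (k := i) (by omega),
      blk_eq hb' ht (k := j) (by omega)]

theorem abs_coord_le_ext (i : Fin d) (π : List (Step d)) :
    |((disp π) i : ℝ)| ≤ (ext π : ℝ) :=
  (abs_apply_le_nrm _ i).trans (by exact_mod_cast nrm_disp_le_ext π)

open Classical in
/-- A finite mean extent makes functions dominated by the extent integrable. -/
theorem IsAnnealed.integrable_blk (hP : IsAnnealed μ P) (hd : P (Esc h) ≠ 0)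
    (hext : meanExt μ h ≠ ⊤) {φ : List (Step d) → ℝ} {C : ℝ} (hC : 0 ≤ C)
    (hφ : ∀ π, |φ π| ≤ C * (ext π : ℝ)) :
    Integrable (fun t => φ (blk h 0 t)) (escLaw P h) := by
  refine ⟨(measurable_blk φ 0).aestronglyMeasurable, ?_⟩
  rw [hasFiniteIntegral_iff_norm]
  calc ∫⁻ t, ENNReal.ofReal ‖φ (blk h 0 t)‖ ∂escLaw P h
      ≤ ∫⁻ t, ∑' π, Set.indicator {t | blk h 0 t ∈ ({π} : Set (List (Step d)))}
          (fun _ => ENNReal.ofReal C * (ext π : ℝ≥0∞)) t ∂escLaw P h := by
        refine lintegral_mono fun t => ?_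
        refine le_trans ?_ (ENNReal.le_tsum (blk h 0 t))
        rw [Set.indicator_of_mem (show t ∈ {s | blk h 0 s ∈ ({blk h 0 t} : Set (List (Step d)))}
          from rfl), ← ENNReal.ofReal_natCast, ← ENNReal.ofReal_mul hC]
        exact ENNReal.ofReal_le_ofReal (by simpa using hφ (blk h 0 t))
    _ = ENNReal.ofReal C * meanExt μ h := by
        rw [lintegral_tsum fun π =>
          (measurable_const.indicator (measurableSet_blk 0 _)).aemeasurable,
          meanExt, ← ENNReal.tsum_mul_left]
        refine tsum_congr fun π => ?_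
        rw [lintegral_indicator_const (measurableSet_blk 0 _), hP.blk_law hd,
          tsum_eq_single π fun ρ hρ => by simp [hρ]]
        simp [mul_comm, mul_left_comm]
    _ < ⊤ := ENNReal.mul_lt_top ENNReal.ofReal_lt_top (lt_top_iff_ne_top.2 hext)

/-- The strong law along the blocks. -/
theorem IsAnnealed.blk_slln (hP : IsAnnealed μ P) (hd : P (Esc h) ≠ 0)
    (hext : meanExt μ h ≠ ⊤) {φ : List (Step d) → ℝ} {C : ℝ} (hC : 0 ≤ C)
    (hφ : ∀ π, |φ π| ≤ C * (ext π : ℝ)) :
    ∀ᵐ t ∂escLaw P h, Tendsto (fun n : ℕ => (∑ i ∈ range n, φ (blk h i t)) / n) atTop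
      (𝓝 (∫ t, φ (blk h 0 t) ∂escLaw P h)) := by
  refine strong_law_ae_real (fun i t => φ (blk h i t)) (hP.integrable_blk hd hext hC hφ) ?_ ?_
  · intro i j hne
    refine indepFun_iff_measure_inter_preimage_eq_mul.2 fun S T _ _ => ?_
    rcases lt_or_gt_of_ne hne with hlt | hgt
    · exact hP.blk_indep hd hlt (φ ⁻¹' S) (φ ⁻¹' T)
    · rw [Set.inter_comm, mul_comm]
      exact hP.blk_indep hd hgt (φ ⁻¹' T) (φ ⁻¹' S)
  · intro i
    refine ⟨(measurable_blk φ i).aemeasurable, (measurable_blk φ 0).aemeasurable, ?_⟩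
    ext S hS
    rw [Measure.map_apply (measurable_blk φ i) hS, Measure.map_apply (measurable_blk φ 0) hS]
    exact (hP.blk_law hd i (φ ⁻¹' S)).trans (hP.blk_law hd 0 (φ ⁻¹' S)).symm

end Vale.Agent.P147
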