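import Mathlib
import Vale.Agent.P147.Defs

/-!
# P147: entropy of laws on the lattice

`ent p` is the entropy of `p`, `addLaw p k` the law of an independent sum.  The key fact is
`bad_add_ent_le`: adding an independent summand raises the entropy at least by `L - 1` times the
probability that the sum reveals the summand by more than `exp L`.
-/

namespace Vale.Agent.P147

open Finset
open scoped ENNReal

variable {d : ℕ}

/-- Minus the logarithm of a probability. -/
noncomputable def nlog (x : ℝ≥0∞) : ℝ≥0∞ := ENNReal.ofReal (-Real.log x.toReal)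

/-- The entropy of a law. -/
noncomputable def ent (p : Site d → ℝ≥0∞) : ℝ≥0∞ := ∑' x, p x * nlog (p x)

/-- The law of the sum of two independent vectors. -/
noncomputable def addLaw (p k : Site d → ℝ≥0∞) (x : Site d) : ℝ≥0∞ := ∑' a, p a * k (x - a)

/-- The point mass at the origin. -/
noncomputable def unitLaw (x : Site d) : ℝ≥0∞ := if x = 0 then 1 else 0

/-- The pointwise Gibbs inequality, with a gain on the revealing set. -/
theorem gibbs_pt {k q : ℝ≥0∞} (hk : k ≤ 1) (hq : q ≤ 1) (hkq : k ≠ 0 → q ≠ 0) (L : ℝ)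
    (bad : Prop) [Decidable bad] (hbad : bad → ENNReal.ofReal (Real.exp L) * q < k) :
    k * nlog k + k + (if bad then ENNReal.ofReal (L - 1) * k else 0) ≤ k * nlog q + q := by
  by_cases hk0 : k = 0
  · subst hk0
    simp
  have hq0 := hkq hk0
  have hkt : k ≠ ⊤ := ne_top_of_le_ne_top ENNReal.one_ne_top hk
  have hqt : q ≠ ⊤ := ne_top_of_le_ne_top ENNReal.one_ne_top hq
  obtain ⟨K, hK, rfl⟩ : ∃ K : ℝ, 0 < K ∧ k = ENNReal.ofReal K :=
    ⟨k.toReal, ENNReal.toReal_pos hk0 hkt, (ENNReal.ofReal_toReal hkt).symm⟩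
  obtain ⟨Q, hQ, rfl⟩ : ∃ Q : ℝ, 0 < Q ∧ q = ENNReal.ofReal Q :=
    ⟨q.toReal, ENNReal.toReal_pos hq0 hqt, (ENNReal.ofReal_toReal hqt).symm⟩
  have hK1 : K ≤ 1 := ENNReal.ofReal_le_one.1 hk
  have hQ1 : Q ≤ 1 := ENNReal.ofReal_le_one.1 hq
  have hlK : 0 ≤ -Real.log K := by linarith [Real.log_nonpos hK.le hK1]
  have hlQ : 0 ≤ -Real.log Q := by linarith [Real.log_nonpos hQ.le hQ1]
  simp only [nlog, ENNReal.toReal_ofReal hK.le, ENNReal.toReal_ofReal hQ.le,
    ← ENNReal.ofReal_mul hK.le]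
  have hbase : K * -Real.log K + K ≤ K * -Real.log Q + Q := by
    have h := mul_le_mul_of_nonneg_left (Real.log_le_sub_one_of_pos (div_pos hQ hK)) hK.le
    rw [Real.log_div hQ.ne' hK.ne', mul_sub, mul_sub, mul_one,
      mul_div_cancel₀ Q hK.ne'] at h
    linarith
  split_ifs with hb
  · rw [← ENNReal.ofReal_add (by positivity) hQ.le, ← ENNReal.ofReal_add (by positivity) hK.le]
    rcases le_or_gt L 1 with hL | hL
    · rw [ENNReal.ofReal_of_nonpos (show L - 1 ≤ 0 by linarith), zero_mul, add_zero]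
      exact ENNReal.ofReal_le_ofReal hbase
    rw [← ENNReal.ofReal_mul (by linarith), ← ENNReal.ofReal_add (by positivity)
      (mul_nonneg (by linarith) hK.le)]
    refine ENNReal.ofReal_le_ofReal ?_
    have h := hbad hb
    rw [← ENNReal.ofReal_mul (Real.exp_pos L).le, ENNReal.ofReal_lt_ofReal_iff hK] at h
    have h' := Real.log_lt_log (mul_pos (Real.exp_pos L) hQ) h
    rw [Real.log_mul (Real.exp_pos L).ne' hQ.ne', Real.log_exp] at h'
    nlinarith [mul_le_mul_of_nonneg_left h'.le hK.le]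
  · rw [add_zero, ← ENNReal.ofReal_add (by positivity) hQ.le,
      ← ENNReal.ofReal_add (by positivity) hK.le]
    exact ENNReal.ofReal_le_ofReal hbase

theorem le_one_of_tsum {p : Site d → ℝ≥0∞} (hp : ∑' x, p x = 1) (x : Site d) : p x ≤ 1 :=
  hp ▸ ENNReal.le_tsum x

theorem tsum_addLaw_mul (p k : Site d → ℝ≥0∞) (F : Site d → ℝ≥0∞) :
    ∑' x, addLaw p k x * F x = ∑' a, ∑' v, p a * k v * F (a + v) := by
  simp only [addLaw, ← ENNReal.tsum_mul_right]
  rw [ENNReal.tsum_comm]
  refine tsum_congr fun a => ?_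
  rw [← (Equiv.addRight a).tsum_eq fun x => p a * k (x - a) * F x]
  refine tsum_congr fun v => ?_
  simp [add_comm v a]

theorem tsum_addLaw (p k : Site d → ℝ≥0∞) :
    ∑' x, addLaw p k x = (∑' a, p a) * ∑' v, k v := by
  have h := tsum_addLaw_mul p k fun _ => 1
  simp only [mul_one] at h
  simp only [h, ENNReal.tsum_mul_left, ENNReal.tsum_mul_right]

theorem le_addLaw (p k : Site d → ℝ≥0∞) (a v : Site d) : p a * k v ≤ addLaw p k (a + v) := by
  refine le_trans (le_of_eq ?_) (ENNReal.le_tsum a)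
  rw [add_sub_cancel_left]

theorem addLaw_comm (p k : Site d → ℝ≥0∞) : addLaw p k = addLaw k p := by
  funext x
  rw [addLaw, ← (Equiv.subLeft x).tsum_eq, addLaw]
  refine tsum_congr fun a => ?_
  simp [mul_comm]

theorem addLaw_assoc (p k l : Site d → ℝ≥0∞) :
    addLaw (addLaw p k) l = addLaw p (addLaw k l) := by
  funext x
  change ∑' s, addLaw p k s * l (x - s) = ∑' a, p a * addLaw k l (x - a)
  rw [tsum_addLaw_mul p k fun s => l (x - s)]
  refine tsum_congr fun a => ?_
  simp only [addLaw, ← ENNReal.tsum_mul_left, sub_sub, mul_assoc]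

theorem addLaw_unit (p : Site d → ℝ≥0∞) : addLaw unitLaw p = p := by
  funext x
  rw [addLaw, tsum_eq_single 0 fun a ha => by simp [unitLaw, ha]]
  simp [unitLaw]

theorem tsum_unitLaw : ∑' x : Site d, unitLaw x = 1 := by
  rw [tsum_eq_single (0 : Site d) fun a ha => by simp [unitLaw, ha]]
  simp [unitLaw]

theorem addLaw_left_comm (p k l : Site d → ℝ≥0∞) :
    addLaw p (addLaw k l) = addLaw k (addLaw p l) := by
  rw [← addLaw_assoc, addLaw_comm p k, addLaw_assoc]

/-- Adding an independent summand raises the entropy by the revealed mass. -/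
theorem bad_add_ent_le {p k : Site d → ℝ≥0∞} (hp : ∑' x, p x = 1) (hk : ∑' x, k x = 1) (L : ℝ) :
    ent k + ENNReal.ofReal (L - 1) * ∑' a, ∑' v, p a *
        (if ENNReal.ofReal (Real.exp L) * addLaw p k (a + v) < k v then k v else 0)
      ≤ ent (addLaw p k) := by
  classical
  set q := addLaw p k with hq
  have hq1 : ∑' x, q x = 1 := by rw [hq, tsum_addLaw, hp, hk, one_mul]
  have pt : ∀ a v, p a * (k v * nlog (k v) + k v
      + ENNReal.ofReal (L - 1) * (if ENNReal.ofReal (Real.exp L) * q (a + v) < k v then k v else 0))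
      ≤ p a * (k v * nlog (q (a + v)) + q (a + v)) := by
    intro a v
    by_cases ha : p a = 0
    · simp [ha]
    refine mul_le_mul' le_rfl ?_
    rw [mul_ite, mul_zero]
    refine gibbs_pt (le_one_of_tsum hk v) (le_one_of_tsum hq1 _) (fun hv h0 => ?_) L _ id
    exact mul_ne_zero ha hv (nonpos_iff_eq_zero.1 (h0 ▸ le_addLaw p k a v))
  have hsum := ENNReal.tsum_le_tsum fun a => ENNReal.tsum_le_tsum fun v => pt a v
  have e1 : ∑' a, ∑' v, p a * (k v * nlog (q (a + v))) = ent q := by
    rw [ent]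
    conv_rhs => rw [tsum_addLaw_mul p k fun x => nlog (q x)]
    simp only [mul_assoc]
  have e2 : ∑' a, ∑' v, p a * q (a + v) = 1 := by
    have h1 : ∀ a, ∑' v, q (a + v) = 1 := fun a => by
      rw [← hq1, ← (Equiv.addLeft a).tsum_eq q]; rfl
    simp only [ENNReal.tsum_mul_left, h1, mul_one, hp]
  have e3 : ∑' a, ∑' v, p a * (k v * nlog (k v)) = ent k := by
    simp only [ent, ENNReal.tsum_mul_left, ENNReal.tsum_mul_right, hp, one_mul]
  have e4 : ∑' a, ∑' v, p a * k v = 1 := by
    simp only [ENNReal.tsum_mul_left, hk, mul_one, hp]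
  simp only [mul_add, ENNReal.tsum_add, e1, e2, e3, e4] at hsum
  have e5 : ∑' a, ∑' v, p a * (ENNReal.ofReal (L - 1) *
      (if ENNReal.ofReal (Real.exp L) * q (a + v) < k v then k v else 0))
      = ENNReal.ofReal (L - 1) * ∑' a, ∑' v, p a *
        (if ENNReal.ofReal (Real.exp L) * q (a + v) < k v then k v else 0) := by
    simp only [← ENNReal.tsum_mul_left]
    exact tsum_congr fun a => tsum_congr fun v => mul_left_comm _ _ _
  rw [e5, add_right_comm] at hsum
  exact (ENNReal.add_le_add_iff_right ENNReal.one_ne_top).1 hsum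

/-- Entropy does not decrease under independent addition. -/
theorem ent_le_addLaw {p k : Site d → ℝ≥0∞} (hp : ∑' x, p x = 1) (hk : ∑' x, k x = 1) :
    ent k ≤ ent (addLaw p k) := le_self_add.trans (bad_add_ent_le hp hk 1)

/-- Entropy is at most any weight plus the partition sum of that weight. -/
theorem ent_le_weight {p : Site d → ℝ≥0∞} (hp : ∑' x, p x = 1) {w : Site d → ℝ}
    (hw : ∀ x, 0 ≤ w x) : ent p ≤ ∑' x, p x * ENNReal.ofReal (w x)
      + ∑' x, ENNReal.ofReal (Real.exp (-w x)) := by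
  classical
  have pt : ∀ x, p x * nlog (p x) ≤
      p x * ENNReal.ofReal (w x) + ENNReal.ofReal (Real.exp (-w x)) := by
    intro x
    have h := gibbs_pt (le_one_of_tsum hp x)
      (show ENNReal.ofReal (Real.exp (-w x)) ≤ 1 from
        ENNReal.ofReal_le_one.2 (Real.exp_le_one_iff.2 (by linarith [hw x])))
      (fun _ => (ENNReal.ofReal_pos.2 (Real.exp_pos _)).ne') 0 False (by simp)
    simp only [if_false, add_zero] at h
    refine le_trans le_self_add (h.trans (le_of_eq ?_))
    rw [nlog, ENNReal.toReal_ofReal (Real.exp_pos _).le, Real.log_exp, neg_neg]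
  refine (ENNReal.tsum_le_tsum pt).trans ?_
  rw [ENNReal.tsum_add]

/-- Entropy is concave. -/
theorem sum_ent_le_ent_sum {ι : Type*} [Fintype ι] (w : ι → ℝ≥0∞) (k : ι → Site d → ℝ≥0∞)
    (hw : ∑ i, w i = 1) (hk : ∀ i, ∑' x, k i x = 1) :
    ∑ i, w i * ent (k i) ≤ ent fun x => ∑ i, w i * k i x := by
  classical
  set q : Site d → ℝ≥0∞ := fun x => ∑ i, w i * k i x with hq
  have hq1 : ∑' x, q x = 1 := by
    rw [hq, Summable.tsum_finsetSum fun i _ => ENNReal.summable]
    simp only [ENNReal.tsum_mul_left, hk, mul_one, hw]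
  have pt : ∀ i x, w i * (k i x * nlog (k i x) + k i x) ≤ w i * (k i x * nlog (q x) + q x) := by
    intro i x
    by_cases hi : w i = 0
    · simp [hi]
    refine mul_le_mul' le_rfl ?_
    have h := gibbs_pt (le_one_of_tsum (hk i) x) (le_one_of_tsum hq1 x) (fun hx h0 =>
      mul_ne_zero hi hx (Finset.sum_eq_zero_iff.1 h0 i (mem_univ i))) 0 False (by simp)
    simpa only [if_false, add_zero] using h
  have hsum : ∑ i, ∑' x, w i * (k i x * nlog (k i x) + k i x)
      ≤ ∑ i, ∑' x, w i * (k i x * nlog (q x) + q x) :=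
    sum_le_sum fun i _ => ENNReal.tsum_le_tsum fun x => pt i x
  simp only [ENNReal.tsum_mul_left, ENNReal.tsum_add, hk, hq1, mul_add, sum_add_distrib, mul_one,
    hw] at hsum
  refine (ENNReal.add_le_add_iff_right ENNReal.one_ne_top).1 (hsum.trans (le_of_eq ?_))
  congr 1
  rw [ent]
  simp only [← ENNReal.tsum_mul_left]
  rw [← Summable.tsum_finsetSum fun i _ => ENNReal.summable]
  refine tsum_congr fun x => ?_
  simp only [hq, sum_mul, mul_assoc]

theorem tsum_conv {ν : Site d → ℝ≥0∞} (hν : ∑' x, ν x = 1) (n : ℕ) :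
    ∑' x, conv ν n x = 1 := by
  induction n with
  | zero => exact tsum_unitLaw
  | succ n ih =>
    change ∑' x, addLaw ν (conv ν n) x = 1
    rw [tsum_addLaw, hν, ih, one_mul]

theorem conv_succ (ν : Site d → ℝ≥0∞) (n : ℕ) : conv ν (n + 1) = addLaw ν (conv ν n) := rfl

theorem conv_add (ν : Site d → ℝ≥0∞) (m n : ℕ) :
    conv ν (m + n) = addLaw (conv ν m) (conv ν n) := by
  induction m with
  | zero =>
    rw [zero_add]
    exact (addLaw_unit (conv ν n)).symm
  | succ m ih => rw [Nat.succ_add, conv_succ, ih, conv_succ, addLaw_assoc]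

theorem ent_conv_mono {ν : Site d → ℝ≥0∞} (hν : ∑' x, ν x = 1) {m n : ℕ} (h : m ≤ n) :
    ent (conv ν m) ≤ ent (conv ν n) := by
  obtain ⟨k, rfl⟩ := Nat.exists_eq_add_of_le h
  rw [Nat.add_comm m k, conv_add]
  exact ent_le_addLaw (tsum_conv hν k) (tsum_conv hν m)

end Vale.Agent.P147
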