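import Mathlib
import Vale.Agent.P147.WindowBound
import Vale.Agent.P147.EntBasic

/-!
# P147: the entropy window bound

No assumption on the number of sites of a block is used.  Chains of a fixed number of blocks have
one expected prefix, so at most `J` competing chains start at each site outside probability
`1 / J`; where the middle displacement is not revealed by the total one, the meeting costs at
most `exp L` times a single backtrack probability.
-/

namespace Vale.Agent.P147

open MeasureTheory Finset Filter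
open scoped ENNReal Topology

variable {d : ℕ}

/-- Chains of exactly `N` blocks. -/
def Chains (h : Site d →+ ℝ) (N : ℕ) : Set (List (List (Step d))) :=
  {ws | ws.length = N ∧ ∀ π ∈ ws, IsBlock h π}

open Classical in
/-- The number of chains of `N` blocks which are prefixes of a path. -/
noncomputable def rankN (h : Site d →+ ℝ) (N : ℕ) (π : List (Step d)) : ℝ≥0∞ :=
  ∑' ws : Chains h N, if ws.1.flatten <+: π then 1 else 0

/-- Chains with at most `J` competing prefixes. -/
def CandN (h : Site d →+ ℝ) (N J : ℕ) : Set (List (List (Step d))) :=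
  {ws | ws ∈ Chains h N ∧ rankN h N ws.flatten ≤ J}

/-- A trajectory starts with at most `J` candidates. -/
theorem tsum_candN_indicator_le (h : Site d →+ ℝ) (N J : ℕ) (t : Traj d) :
    ∑' ws : CandN h N J, (cyl ws.1.flatten).indicator (fun _ => (1 : ℝ≥0∞)) t ≤ J := by
  classical
  rw [ENNReal.tsum_eq_iSup_sum]
  refine iSup_le fun s => ?_
  set s' := s.filter fun ws => t ∈ cyl ws.1.flatten with hs'
  have hsum : ∑ ws ∈ s, (cyl ws.1.flatten).indicator (fun _ => (1 : ℝ≥0∞)) t = ∑ ws ∈ s', 1 := by
    rw [hs', sum_filter]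
    exact sum_congr rfl fun ws _ => by simp [Set.indicator_apply]
  rw [hsum]
  rcases s'.eq_empty_or_nonempty with he | hne
  · simp [he]
  obtain ⟨top, htop, hmax⟩ := s'.exists_max_image (fun ws => ws.1.flatten.length) hne
  refine le_trans ?_ top.2.2
  let emb : CandN h N J ↪ Chains h N :=
    ⟨fun ws => ⟨ws.1, ws.2.1⟩,
      fun a b hab => Subtype.ext (congrArg (fun w : Chains h N => w.1) hab)⟩
  calc ∑ _ws ∈ s', (1 : ℝ≥0∞)
      = ∑ ws ∈ s'.map emb, if ws.1.flatten <+: top.1.flatten then (1 : ℝ≥0∞) else 0 := by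
        rw [sum_map]
        refine sum_congr rfl fun ws hws => ?_
        rw [if_pos]
        exact isPrefix_of_mem_cyl (mem_filter.1 hws).2 (mem_filter.1 htop).2 (hmax ws hws)
    _ ≤ rankN h N top.1.flatten := ENNReal.sum_le_tsum _

variable {μ : Measure (Row d)} [IsProbabilityMeasure μ] {h : Site d →+ ℝ}

/-- Averaging a function of the displacement of `n` blocks. -/
theorem ex_disp_fun (n : ℕ) (F : Site d → ℝ≥0∞) :
    ex μ h n (fun ws => F (disp ws.flatten)) = ∑' x, conv (blockLaw μ h) n x * F x := by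
  classical
  calc ex μ h n (fun ws => F (disp ws.flatten))
      = ex μ h n fun ws => ∑' x, (if disp ws.flatten = x then 1 else 0) * F x :=
        ex_congr_of fun ws _ _ => by
          rw [tsum_eq_single (disp ws.flatten) fun x hx => by rw [if_neg (Ne.symm hx), zero_mul],
            if_pos rfl, one_mul]
    _ = _ := by
        rw [ex_tsum]
        exact tsum_congr fun x => by rw [ex_mul_const, ex_disp_eq_conv]

/-- Averaging over chains is summing over chains. -/
theorem ex_eq_tsum_chains (N : ℕ) (F : List (List (Step d)) → ℝ≥0∞) :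
    ex μ h N F = ∑' ws : Chains h N, pw μ 0 ws.1.flatten * F ws.1 := by
  classical
  rw [ex_eq_tsum, tsum_subtype (Chains h N) fun ws => pw μ 0 ws.flatten * F ws]
  refine tsum_congr fun ws => ?_
  by_cases hm : ws ∈ Chains h N
  · rw [Set.indicator_of_mem hm, if_pos hm.1, pw_flatten hm.2]
  · rw [Set.indicator_of_notMem hm]
    split_ifs with hl
    · rw [bprod_eq_zero fun hb => hm ⟨hl, hb⟩, zero_mul]
    · rfl

variable [NeZero d] {P : Measure (Traj d)}

/-- Candidates whose cylinders lie in `E` weigh at most `J` times the probability of `E`. -/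
theorem tsum_candN_qw_le (h : Site d →+ ℝ) (N J : ℕ) (ω : Env d) (x : Site d)
    {E : Set (Traj d)} (hE : MeasurableSet E) {T : Set (List (List (Step d)))}
    (hT : ∀ ws ∈ T, cyl ws.flatten ⊆ E) :
    ∑' ws : CandN h N J, T.indicator (fun ws => qw ω x ws.flatten) ws.1 ≤ J * qP ω x E := by
  classical
  let f : CandN h N J → Traj d → ℝ≥0∞ := fun ws =>
    if ws.1 ∈ T then (cyl ws.1.flatten).indicator (fun _ => 1) else fun _ => 0
  have hf : ∀ ws, T.indicator (fun ws => qw ω x ws.flatten) ws.1 = ∫⁻ t, f ws t ∂qP ω x := by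
    intro ws
    by_cases hm : ws.1 ∈ T
    · rw [Set.indicator_of_mem hm]
      simp only [f, if_pos hm]
      rw [lintegral_indicator_const (measurableSet_cyl _), one_mul, qP_cyl]
    · simp [f, hm]
  have hfm : ∀ ws, Measurable (f ws) := fun ws => by
    simp only [f]
    split_ifs
    · exact measurable_const.indicator (measurableSet_cyl _)
    · exact measurable_const
  rw [tsum_congr hf, ← lintegral_tsum fun ws => (hfm ws).aemeasurable]
  calc ∫⁻ t, ∑' ws, f ws t ∂qP ω x
      ≤ ∫⁻ t, E.indicator (fun _ => (J : ℝ≥0∞)) t ∂qP ω x := by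
        refine lintegral_mono fun t => ?_
        by_cases ht : t ∈ E
        · rw [Set.indicator_of_mem ht]
          refine le_trans (ENNReal.tsum_le_tsum fun ws => ?_) (tsum_candN_indicator_le h N J t)
          by_cases hm : ws.1 ∈ T <;> simp [f, hm]
        · rw [Set.indicator_of_notMem ht]
          refine le_of_eq (ENNReal.tsum_eq_zero.2 fun ws => ?_)
          by_cases hm : ws.1 ∈ T
          · simp [f, hm, Set.indicator_of_notMem fun h' => ht (hT _ hm h')]
          · simp [f, hm]
    _ = _ := lintegral_indicator_const hE _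

omit [NeZero d] in
open Classical in
/-- Chains with more than `J` competitors have mass at most `1 / (J P(Esc))`. -/
theorem IsAnnealed.trimN_le (hP : IsAnnealed μ P) (hd : P (Esc h) ≠ 0) (N J : ℕ) (hJ : 0 < J) :
    ex μ h N (fun γ => if γ ∈ CandN h N J then 0 else 1) ≤ (P (Esc h))⁻¹ / J := by
  haveI := hP.1
  rw [ex_eq_tsum_chains]
  let count : Traj d → ℝ≥0∞ := fun t =>
    ∑' ws : Chains h N, (cyl ws.1.flatten).indicator (fun _ => (1 : ℝ≥0∞)) t
  have hcm : Measurable count :=
    Measurable.ennreal_tsum fun ws => measurable_const.indicator (measurableSet_cyl _)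
  have hmean : ∫⁻ t, count t ∂P = 1 := by
    simp only [count]
    rw [lintegral_tsum fun ws : Chains h N =>
      ((measurable_const (a := (1 : ℝ≥0∞))).indicator (measurableSet_cyl _)).aemeasurable]
    simp only [lintegral_indicator_const (measurableSet_cyl _), one_mul, hP.2]
    have h1 := (ex_eq_tsum_chains (μ := μ) (h := h) N fun _ => 1).symm.trans
      (ex_const (hP.tsum_bwgt hd) N 1)
    simpa using h1
  have hmark : (J : ℝ≥0∞) * P {t | (J : ℝ≥0∞) ≤ count t} ≤ 1 :=
    hmean ▸ mul_meas_ge_le_lintegral₀ hcm.aemeasurable _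
  let E : Chains h N → Set (Traj d) := fun ws =>
    if ws.1 ∈ CandN h N J then ∅ else blockEvent h ws.1
  have hsub : (⋃ ws, E ws) ⊆ {t | (J : ℝ≥0∞) ≤ count t} := by
    refine Set.iUnion_subset fun ws t ht => ?_
    simp only [E] at ht
    split_ifs at ht with hc
    · exact absurd ht (Set.notMem_empty t)
    have hlt : (J : ℝ≥0∞) ≤ rankN h N ws.1.flatten := le_of_not_ge fun hle => hc ⟨ws.2, hle⟩
    refine hlt.trans (ENNReal.tsum_le_tsum fun vs => ?_)
    split_ifs with hpre
    · obtain ⟨rest, hrest⟩ := hpre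
      rw [Set.indicator_of_mem]
      refine mem_cyl.2 fun k hk => ?_
      have hk' : k < (vs.1.flatten ++ rest).length := by rw [List.length_append]; omega
      rw [(mem_cyl.1 ht.1) k (hrest ▸ hk')]
      simp only [← hrest, List.getElem_append_left hk]
    · exact bot_le
  have hEsum : P (Esc h) * (∑' ws : Chains h N,
      pw μ 0 ws.1.flatten * if ws.1 ∈ CandN h N J then 0 else 1) ≤ P (⋃ ws, E ws) := by
    rw [← ENNReal.tsum_mul_left]
    refine le_trans (ENNReal.tsum_le_tsum fun ws => ?_)
      (tsum_meas_le_meas_iUnion_of_disjoint₀ P (fun ws => ?_) fun p q hne => ?_)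
    · simp only [E]
      split_ifs
      · simp
      · rw [mul_one, hP.measure_blockEvent ws.2.2, pw_flatten ws.2.2, mul_comm]
    · simp only [E]
      split_ifs
      exacts [nullMeasurableSet_empty, (measurableSet_blockEvent _).nullMeasurableSet]
    · refine (Set.disjoint_left.2 fun t h1 h2 => hne ?_).aedisjoint
      simp only [E] at h1 h2
      split_ifs at h1 with hc1
      · exact absurd h1 (Set.notMem_empty t)
      split_ifs at h2 with hc2
      · exact absurd h2 (Set.notMem_empty t)
      exact Subtype.ext (blockEvent_unique (p.2.1.trans q.2.1.symm) p.2.2 q.2.2 h1 h2)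
  have hJ0 : (J : ℝ≥0∞) ≠ 0 := by simp; omega
  rw [ENNReal.le_div_iff_mul_le (Or.inl hJ0) (Or.inl (ENNReal.natCast_ne_top J)), mul_comm,
    ENNReal.le_inv_iff_mul_le, mul_assoc, mul_comm _ (P (Esc h))]
  exact (mul_le_mul' le_rfl (hEsum.trans (measure_mono hsub))).trans hmark

/-- Candidates whose upper part meets bad sites. -/
theorem IsAnnealed.candN_bad_le (hP : IsAnnealed μ P) (N J : ℕ) (r : ℝ) :
    ∑' ws : CandN h N J, ∫⁻ ω, qw ω 0 ws.1.flatten *
        @ite _ (∃ k < ws.1.flatten.length, r ≤ h (disp (ws.1.flatten.take k)) ∧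
          qP ω (disp (ws.1.flatten.take k)) (Up h) < 2⁻¹) (Classical.dec _) 1 0 ∂envLaw μ
      ≤ 2 * J * P (Reach h r \ Up h) := by
  classical
  have hmeas : ∀ ws : CandN h N J, Measurable fun ω : Env d => qw ω 0 ws.1.flatten *
      @ite _ (∃ k < ws.1.flatten.length, r ≤ h (disp (ws.1.flatten.take k)) ∧
        qP ω (disp (ws.1.flatten.take k)) (Up h) < 2⁻¹) (Classical.dec _) 1 0 := by
    intro ws
    refine (measurable_qw _ 0).mul (Measurable.ite ?_ measurable_const measurable_const)
    set π := ws.1.flatten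
    have : {ω : Env d | ∃ k < π.length, r ≤ h (disp (π.take k)) ∧
        qP ω (disp (π.take k)) (Up h) < 2⁻¹}
        = ⋃ k : {k // k < π.length ∧ r ≤ h (disp (π.take k))},
          {ω | qP ω (disp (π.take k.1)) (Up h) < 2⁻¹} := by ext ω; simp [and_assoc]
    rw [this]
    exact MeasurableSet.iUnion fun k =>
      measurableSet_lt (measurable_qP (measurableSet_up h) _) measurable_const
  rw [← lintegral_tsum fun ws => (hmeas ws).aemeasurable,
    ← hP.lintegral_qP 0 ((measurableSet_reach h r).diff (measurableSet_up h)),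
    ← lintegral_const_mul _ (measurable_qP ((measurableSet_reach h r).diff (measurableSet_up h)) 0)]
  refine lintegral_mono fun ω => ?_
  set Z : Set (Site d) := {z | r ≤ h z ∧ qP ω z (Up h) < 2⁻¹}
  set E : Set (Traj d) := {t | ∃ k, 0 + site t k ∈ Z} with hE
  have hEm : MeasurableSet E := by
    have : E = ⋃ k, (fun t : Traj d => site t k) ⁻¹' {z | 0 + z ∈ Z} := by
      ext t; simp [hE]
    rw [this]
    exact MeasurableSet.iUnion fun k => measurable_site k (Set.to_countable _).measurableSet
  let T : Set (List (List (Step d))) := {ws | ∃ k < ws.flatten.length,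
    r ≤ h (disp (ws.flatten.take k)) ∧ qP ω (disp (ws.flatten.take k)) (Up h) < 2⁻¹}
  have hT : ∀ ws ∈ T, cyl ws.flatten ⊆ E := by
    rintro ws ⟨k, hk, h1, h2⟩ t ht
    refine ⟨k, ?_⟩
    rw [zero_add, site_of_mem_cyl ht hk.le]
    exact ⟨h1, h2⟩
  calc ∑' ws : CandN h N J, qw ω 0 ws.1.flatten * _
      = ∑' ws : CandN h N J, T.indicator (fun ws => qw ω 0 ws.flatten) ws.1 :=
        tsum_congr fun ws => by simp [T, Set.indicator_apply]
    _ ≤ J * qP ω 0 E := tsum_candN_qw_le h N J ω 0 hEm hT
    _ ≤ 2 * J * qP ω 0 (Reach h r \ Up h) := by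
        rw [mul_comm (2 : ℝ≥0∞), mul_assoc]
        gcongr
        have hc : ∀ z ∈ Z, 2⁻¹ ≤ qP ω z (Up h)ᶜ := by
          intro z hz
          rw [prob_compl_eq_one_sub (measurableSet_up h)]
          refine le_trans (le_of_eq ?_) (tsub_le_tsub_left hz.2.le 1)
          exact ENNReal.one_sub_inv_two.symm
        have hvis : (2 : ℝ≥0∞)⁻¹ * qP ω 0 E ≤ qP ω 0 (E ∩ (Up h)ᶜ) :=
          qP_visit_le ω 0 Z _ (measurableSet_up h).compl
            (fun n t => not_congr (shiftT_mem_up_iff h n t)) _ hc
        calc qP ω 0 E = 2 * (2⁻¹ * qP ω 0 E) := by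
              rw [← mul_assoc, ENNReal.mul_inv_cancel two_ne_zero ENNReal.ofNat_ne_top, one_mul]
          _ ≤ 2 * qP ω 0 (E ∩ (Up h)ᶜ) := by gcongr
          _ ≤ _ := by
              gcongr
              rintro t ⟨⟨k, hk⟩, hn⟩
              rw [zero_add] at hk
              exact ⟨⟨k, hk.1⟩, hn⟩

open Classical in
/-- Meetings with unrevealed offsets: two single-walk backtrack probabilities. -/
theorem IsAnnealed.pair_main_le (hP : IsAnnealed μ P) (N J : ℕ) (r : ℝ) (z : Site d)
    (k Q : Site d → ℝ≥0∞) (hk : ∑' x, k x = 1) (hQ : ∑' y, Q y = 1) (C : ℝ≥0∞) :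
    ∑' γ : CandN h N J, ∑' x,
      (if k x ≤ C * Q (disp γ.1.flatten + x) ∧ r ≤ h (z + x) then
        pw μ 0 γ.1.flatten * (k x * P (HitsBefore
          (fun ρ => -(h (disp γ.1.flatten) + h (z + x)) + r ≤ h (disp ρ)) 0
          (deps (-(disp γ.1.flatten + (z + x))) γ.1.flatten))) else 0)
      ≤ 2 * J * P (Reach h r \ Up h) + 2 * C * J * P (Reach (-h) r ∩ Up h) := by
  set b : Env d → ℝ≥0∞ := fun ω => qP ω 0 (Reach (-h) r ∩ Up h) with hb
  have hUm := measurableSet_up (d := d) h
  have hRU := (measurableSet_reach (-h) r).inter hUm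
  have hbm : Measurable b := measurable_qP hRU 0
  let bad : CandN h N J → Site d → Env d → ℝ≥0∞ := fun ws u ω =>
    qw ω (-u) ws.1.flatten *
      (if ∃ j < ws.1.flatten.length, r ≤ h (disp (ws.1.flatten.take j)) ∧
        qP ω (-u + disp (ws.1.flatten.take j)) (Up h) < 2⁻¹ then 1 else 0)
  have hbadm : ∀ ws u, Measurable (bad ws u) := by
    intro ws u
    refine (measurable_qw _ _).mul (Measurable.ite ?_ measurable_const measurable_const)
    set π := ws.1.flatten
    have : {ω : Env d | ∃ j < π.length, r ≤ h (disp (π.take j)) ∧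
        qP ω (-u + disp (π.take j)) (Up h) < 2⁻¹}
        = ⋃ j : {j // j < π.length ∧ r ≤ h (disp (π.take j))},
          {ω | qP ω (-u + disp (π.take j.1)) (Up h) < 2⁻¹} := by
      ext ω; simp [and_assoc]
    rw [this]
    exact MeasurableSet.iUnion fun j => measurableSet_lt (measurable_qP hUm _) measurable_const
  let bint : CandN h N J → ℝ≥0∞ := fun ws => ∫⁻ ω, qw ω 0 ws.1.flatten *
      @ite _ (∃ j < ws.1.flatten.length, r ≤ h (disp (ws.1.flatten.take j)) ∧
        qP ω (disp (ws.1.flatten.take j)) (Up h) < 2⁻¹) (Classical.dec _) 1 0 ∂envLaw μ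
  have point : ∀ (γ : CandN h N J) (x : Site d) (ω : Env d), r ≤ h (z + x) →
      qw ω (-(disp γ.1.flatten + (z + x))) γ.1.flatten * qP ω 0 (HitsBefore
          (fun ρ => -(h (disp γ.1.flatten) + h (z + x)) + r ≤ h (disp ρ)) 0
          (deps (-(disp γ.1.flatten + (z + x))) γ.1.flatten))
        ≤ bad γ (disp γ.1.flatten + (z + x)) ω
          + 2 * (qw ω (-(disp γ.1.flatten + (z + x))) γ.1.flatten * b ω) := by
    intro γ x ω hv
    set π := γ.1.flatten with hπ
    set v := z + x with hvd
    set a := -(disp π + v) with ha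
    set Z : Set (Site d) := {y | h y ≤ -r ∧ 2⁻¹ ≤ qP ω y (Up h)}
    by_cases hbad : ∃ j < π.length, r ≤ h (disp (π.take j)) ∧
        qP ω (a + disp (π.take j)) (Up h) < 2⁻¹
    · refine le_trans ?_ le_self_add
      simp only [bad, ← hπ, ← ha, if_pos hbad, mul_one]
      exact mul_le_of_le_one_right' prob_le_one
    refine le_trans ?_ le_add_self
    rw [mul_left_comm]
    refine mul_le_mul' le_rfl ?_
    have hsub : HitsBefore (fun ρ => -(h (disp π) + h v) + r ≤ h (disp ρ)) 0 (deps a π)
        ⊆ {t | ∃ k, 0 + site t k ∈ Z} := by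
      rintro t ⟨k, hk, hkeep⟩
      refine ⟨k, ?_⟩
      rw [zero_add] at hk ⊢
      obtain ⟨j, hj, hje⟩ := mem_deps.1 hk
      have hlev : -(h (disp π) + h v) + r ≤ h (site t k) := by
        have h0 := hkeep k le_rfl
        have hs : disp (pre t k) = site t k := by
          have h' := site_of_mem_cyl (mem_cyl_ofFn_self k t) le_rfl
          rw [List.take_length, List.length_ofFn] at h'
          exact h'.symm
        simpa [hs] using h0
      have h1 : h (site t k) = -(h (disp π)) - h v + h (disp (π.take j)) := by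
        rw [← hje, ha, map_add, map_neg, map_add]; ring
      have h2 := (flatten_range γ.2.1.2 hj).2
      refine ⟨by linarith, ?_⟩
      by_contra! hlow
      refine hbad ⟨j, hj, by linarith, ?_⟩
      rwa [hje]
    have hvis : (2 : ℝ≥0∞)⁻¹ * qP ω 0 {t | ∃ k, 0 + site t k ∈ Z}
        ≤ qP ω 0 ({t | ∃ k, 0 + site t k ∈ Z} ∩ Up h) :=
      qP_visit_le ω 0 Z _ hUm (shiftT_mem_up_iff h) _ fun y hy => hy.2
    calc qP ω 0 (HitsBefore _ 0 (deps a π)) ≤ qP ω 0 {t | ∃ k, 0 + site t k ∈ Z} :=
          measure_mono hsub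
      _ = 2 * (2⁻¹ * qP ω 0 {t | ∃ k, 0 + site t k ∈ Z}) := by
          rw [← mul_assoc, ENNReal.mul_inv_cancel two_ne_zero ENNReal.ofNat_ne_top, one_mul]
      _ ≤ 2 * qP ω 0 ({t | ∃ k, 0 + site t k ∈ Z} ∩ Up h) := by gcongr
      _ ≤ 2 * b ω := by
          refine mul_le_mul' le_rfl (measure_mono ?_)
          rintro t ⟨⟨k, hk⟩, ht⟩
          rw [zero_add] at hk
          refine ⟨⟨k, ?_⟩, ht⟩
          rw [AddMonoidHom.neg_apply]
          linarith [hk.1]
  let G : CandN h N J → Site d → ℝ≥0∞ := fun γ y =>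
    Q y * ∫⁻ ω, qw ω (-(y + z)) γ.1.flatten * b ω ∂envLaw μ
  have hterm : ∀ (γ : CandN h N J) (x : Site d),
      (if k x ≤ C * Q (disp γ.1.flatten + x) ∧ r ≤ h (z + x) then
        pw μ 0 γ.1.flatten * (k x * P (HitsBefore
          (fun ρ => -(h (disp γ.1.flatten) + h (z + x)) + r ≤ h (disp ρ)) 0
          (deps (-(disp γ.1.flatten + (z + x))) γ.1.flatten))) else 0)
      ≤ k x * bint γ + 2 * C * G γ (disp γ.1.flatten + x) := by
    intro γ x
    split_ifs with hg
    swap
    · exact bot_le
    rw [mul_left_comm, ← hP.lintegral_qw_mul_hit (-(disp γ.1.flatten + (z + x))) 0]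
    refine (mul_le_mul' le_rfl (lintegral_mono fun ω => point γ x ω hg.2)).trans ?_
    have hm : Measurable fun ω => qw ω (-(disp γ.1.flatten + (z + x))) γ.1.flatten * b ω :=
      (measurable_qw _ _).mul hbm
    rw [lintegral_add_left (hbadm _ _), mul_add, lintegral_const_mul 2 hm]
    refine add_le_add (le_of_eq ?_) ?_
    · refine congrArg (k x * ·) ?_
      have hs := lintegral_qw_bad_shift (μ := μ) (h := h) (-(disp γ.1.flatten + (z + x)))
        γ.1.flatten fun j => r ≤ h (disp (γ.1.flatten.take j))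
      simp only [bad, bint]
      convert hs using 6
    · simp only [G]
      rw [show disp γ.1.flatten + x + z = disp γ.1.flatten + (z + x) by abel]
      calc k x * (2 * _) ≤ C * Q (disp γ.1.flatten + x) * (2 * _) := mul_le_mul' hg.1 le_rfl
        _ = _ := by ring
  have hG : ∑' γ, ∑' y, G γ y ≤ J * P (Reach (-h) r ∩ Up h) := by
    rw [ENNReal.tsum_comm]
    calc ∑' y, ∑' γ, G γ y ≤ ∑' y, Q y * (J * P (Reach (-h) r ∩ Up h)) := by
          refine ENNReal.tsum_le_tsum fun y => ?_
          simp only [G]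
          rw [ENNReal.tsum_mul_left]
          refine mul_le_mul' le_rfl ?_
          rw [← lintegral_tsum (f := fun (γ : CandN h N J) ω =>
            qw ω (-(y + z)) γ.1.flatten * b ω) fun γ => ((measurable_qw _ _).mul hbm).aemeasurable,
            ← hP.lintegral_qP 0 hRU, ← lintegral_const_mul _ hbm]
          refine lintegral_mono fun ω => ?_
          rw [ENNReal.tsum_mul_right]
          refine mul_le_mul' ?_ le_rfl
          refine le_trans (le_of_eq (tsum_congr fun γ => by simp))
            ((tsum_candN_qw_le h N J ω (-(y + z)) (E := Set.univ) MeasurableSet.univ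
              (T := Set.univ) fun _ _ => Set.subset_univ _).trans ?_)
          exact mul_le_of_le_one_right' prob_le_one
      _ = _ := by rw [ENNReal.tsum_mul_right, hQ, one_mul]
  refine (ENNReal.tsum_le_tsum fun γ => ENNReal.tsum_le_tsum fun x => hterm γ x).trans ?_
  simp only [ENNReal.tsum_add, ENNReal.tsum_mul_left, ENNReal.tsum_mul_right, hk, one_mul]
  refine add_le_add (hP.candN_bad_le N J r) ?_
  have hre : ∀ γ : CandN h N J, ∑' x, G γ (disp γ.1.flatten + x) = ∑' y, G γ y := fun γ =>
    (Equiv.addLeft (disp γ.1.flatten)).tsum_eq (G γ)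
  rw [tsum_congr hre, mul_assoc (2 * C)]
  exact mul_le_mul' le_rfl hG

omit [IsProbabilityMeasure μ] in
open Classical in
/-- The window bound for one scale, all error terms explicit. -/
theorem Setup.ent_window (S : Setup d) {Kb : ℝ≥0∞}
    (hback : ∀ G r : ℝ, 0 ≤ G →
      S.P (Esc (-S.h) ∩ {t | ∃ k k', k ≤ k' ∧ G < (-S.h) (site t k) ∧
        (-S.h) (site t k') ≤ G - r}) ≤ Kb * ENNReal.ofReal (G + 3) * S.tailM r)
    (c : ℝ) (hc : 0 < c) (B : ℝ) (m J : ℕ) (hJ : 0 < J) (L : ℝ) (x₀ : ℝ≥0∞)
    (hfin : ent (conv (blockLaw S.μ S.h) m) ≠ ⊤)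
    (hD : ent (conv (blockLaw S.μ S.h) (4 * m))
      ≤ ent (conv (blockLaw S.μ S.h) m) + ENNReal.ofReal (L - 1) * x₀)
    (hL : 1 < L) (z : Site d) (hz1 : -(c * m / 2) ≤ S.h z) (hz2 : S.h z < 0) :
    ex S.μ S.h (2 * m) (fun V => ex S.μ S.h m fun M =>
        S.P (Esc (-S.h) ∩ Hits z (deps (-disp (V ++ M).flatten) V.flatten))) ≤
      ex S.μ S.h m (fun U => if S.h (disp U.flatten) < c * m then 1 else 0)
      + ex S.μ S.h m (fun M => if S.h (disp M.flatten) < c * m then 1 else 0)
      + ex S.μ S.h (3 * m) (fun γ => if B * m < S.h (disp γ.flatten) then 1 else 0)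
      + ex S.μ S.h m (fun M => if B * m < S.h (disp M.flatten) then 1 else 0)
      + Kb * ENNReal.ofReal (2 * (B * m) + 3) * S.tailM (c * m / 2)
      + (S.P (Esc S.h))⁻¹ / J + S.P (Esc (-S.h)) * x₀
      + (2 * J * S.P (Reach S.h (c * m / 2) \ Up S.h)
        + 2 * ENNReal.ofReal (Real.exp L) * J * S.P (Reach (-S.h) (c * m / 2) ∩ Up S.h)) := by
  haveI := S.ann.1
  have hb := S.ann.tsum_bwgt S.escP
  have hν : ∑' x, blockLaw S.μ S.h x = 1 := tsum_blockLaw hb
  set h := S.h with hh
  set r : ℝ := c * m / 2 with hr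
  set k := conv (blockLaw S.μ h) m with hk
  set Q := conv (blockLaw S.μ h) (4 * m) with hQ
  set C := ENNReal.ofReal (Real.exp L) with hC
  set E := Esc (-h) with hE
  set bt0 := Kb * ENNReal.ofReal (2 * (B * m) + 3) * S.tailM r with hbt0
  let eU : List (List (Step d)) → ℝ≥0∞ := fun U =>
    if h (disp U.flatten) < c * m then 1 else 0
  let eM : Site d → ℝ≥0∞ := fun x => if h x < c * m then 1 else 0
  let eH : List (List (Step d)) → ℝ≥0∞ := fun γ =>
    if B * m < h (disp γ.flatten) then 1 else 0
  let eH' : Site d → ℝ≥0∞ := fun x => if B * m < h x then 1 else 0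
  let eT : List (List (Step d)) → ℝ≥0∞ := fun γ => if γ ∈ CandN h (3 * m) J then 0 else 1
  let eB : List (List (Step d)) → Site d → ℝ≥0∞ := fun γ x =>
    if C * Q (disp γ.flatten + x) < k x then S.P E else 0
  let eG : List (List (Step d)) → Site d → ℝ≥0∞ := fun γ x =>
    if γ ∈ CandN h (3 * m) J ∧ k x ≤ C * Q (disp γ.flatten + x) ∧ r ≤ h (z + x) then
      S.P (HitsBefore (fun ρ => -(h (disp γ.flatten) + h (z + x)) + r ≤ h (disp ρ)) 0
        (deps (-(disp γ.flatten + (z + x))) γ.flatten)) else 0
  let F : List (List (Step d)) → Site d → ℝ≥0∞ := fun V x =>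
    S.P (E ∩ Hits 0 (deps (-(disp V.flatten + (z + x))) V.flatten))
  have pt : ∀ U V : List (List (Step d)), U.length = m → (∀ π ∈ U, IsBlock h π) →
      V.length = 2 * m → (∀ π ∈ V, IsBlock h π) → ∀ x, F V x ≤
        eU U + eM x + eH (U ++ V) + eH' x + bt0 + eT (U ++ V) + eB (U ++ V) x
          + eG (U ++ V) x := by
    intro U V hUl hU hVl hV x
    have h1 : F V x ≤ 1 := prob_le_one
    by_cases a1 : h (disp U.flatten) < c * m
    · calc F V x ≤ eU U := by simp only [eU, if_pos a1]; exact h1
        _ ≤ _ := by simp only [add_assoc]; exact le_self_add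
    by_cases a2 : h x < c * m
    · calc F V x ≤ eM x := by simp only [eM, if_pos a2]; exact h1
        _ ≤ eU U + eM x := le_add_self
        _ ≤ _ := by simp only [add_assoc]; gcongr; exact le_self_add
    by_cases a3 : B * m < h (disp (U ++ V).flatten)
    · calc F V x ≤ eH (U ++ V) := by simp only [eH, if_pos a3]; exact h1
        _ ≤ eU U + eM x + eH (U ++ V) := le_add_self
        _ ≤ _ := by simp only [add_assoc]; gcongr; exact le_self_add
    by_cases a4 : B * m < h x
    · calc F V x ≤ eH' x := by simp only [eH', if_pos a4]; exact h1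
        _ ≤ eU U + eM x + eH (U ++ V) + eH' x := le_add_self
        _ ≤ _ := by simp only [add_assoc]; gcongr; exact le_self_add
    by_cases a5 : C * Q (disp (U ++ V).flatten + x) < k x
    · calc F V x ≤ eB (U ++ V) x := by
            simp only [eB, if_pos a5]
            exact measure_mono Set.inter_subset_left
        _ ≤ _ := le_trans le_add_self le_self_add
    set γ := U ++ V with hγ
    set v := z + x with hv
    set u := disp γ.flatten + v with hu
    have hγd : disp γ.flatten = disp U.flatten + disp V.flatten := by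
      rw [hγ, List.flatten_append, disp_append]
    have hvh : r ≤ h v := by
      rw [hv, map_add, hr]; linarith [not_lt.1 a2]
    set lam := -(h (disp γ.flatten) + h v) + r with hlam
    have hF : F V x ≤ bt0 + S.P (HitsBefore (fun ρ => lam ≤ h (disp ρ)) 0
        (deps (-u) γ.flatten)) := by
      refine le_trans (measure_mono (Set.inter_subset_inter_right _ ?_))
        ((meas_filter_hits_le h S.P (deps (-u) γ.flatten) lam
          (-(h (disp γ.flatten) + h v) + h (disp U.flatten)) r
          (by rw [hlam]; linarith [not_lt.1 a1])).trans (add_le_add ?_ le_rfl))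
      · rintro t ⟨i, hi⟩
        refine ⟨i, mem_filter.2 ⟨?_, ?_⟩⟩
        · rw [hγ, List.flatten_append, deps_append]
          refine mem_union_right _ ?_
          rwa [show -u + disp U.flatten = -(disp V.flatten + v) by rw [hu, hγd]; abel]
        · obtain ⟨j, hj, hje⟩ := mem_deps.1 hi
          rw [← hje]
          simp only [map_add, map_neg, hγd, hv]
          linarith [(flatten_range hV hj).1]
      · have hγ0 : 0 ≤ h (disp U.flatten) := flatten_disp_nonneg hU
        have hV0 : 0 ≤ h (disp V.flatten) := flatten_disp_nonneg hV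
        refine (hback (-lam) r (by rw [hlam, hγd, map_add]; linarith [not_lt.1 a1])).trans ?_
        rw [hbt0]
        gcongr
        have hvx : h v = h z + h x := by rw [hv, map_add]
        linarith [not_lt.1 a3, not_lt.1 a4, show 0 ≤ r by rw [hr]; positivity]
    refine hF.trans ?_
    have hle : S.P (HitsBefore (fun ρ => lam ≤ h (disp ρ)) 0 (deps (-u) γ.flatten))
        ≤ eT γ + eB γ x + eG γ x := by
      by_cases hc' : γ ∈ CandN h (3 * m) J
      · have hb' := not_lt.1 a5
        refine le_trans (le_of_eq ?_) le_add_self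
        simp only [eG]
        rw [if_pos ⟨hc', hb', by rw [← hv]; exact hvh⟩]
      · refine le_trans prob_le_one ?_
        simp only [eT, if_neg hc', add_assoc]
        exact le_self_add
    calc bt0 + S.P (HitsBefore (fun ρ => lam ≤ h (disp ρ)) 0 (deps (-u) γ.flatten))
        ≤ bt0 + (eT γ + eB γ x + eG γ x) := add_le_add le_rfl hle
      _ = bt0 + eT γ + eB γ x + eG γ x := by simp only [add_assoc]
      _ ≤ _ := by
          gcongr
          exact le_add_self
  have hsh : ∀ V M : List (List (Step d)),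
      Hits z (deps (-disp (V ++ M).flatten) V.flatten)
        = Hits 0 (deps (-(disp V.flatten + (z + disp M.flatten))) V.flatten) := by
    intro V M
    have h1 := hits_translate (0 : Site d) V.flatten z
      (-(disp V.flatten + (z + disp M.flatten)))
    rwa [zero_add, show -(disp V.flatten + (z + disp M.flatten)) + z
      = -disp (V ++ M).flatten by rw [List.flatten_append, disp_append]; abel] at h1
  have hk1 : ∑' x, k x = 1 := tsum_conv hν m
  have hQ1 : ∑' x, Q x = 1 := tsum_conv hν _
  have hLHS : ex S.μ h (2 * m) (fun V => ex S.μ h m fun M =>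
        S.P (E ∩ Hits z (deps (-disp (V ++ M).flatten) V.flatten)))
      = ex S.μ h m fun _ => ex S.μ h (2 * m) fun V => ∑' x, k x * F V x := by
    rw [ex_const hb]
    refine ex_congr_of fun V _ _ => ?_
    rw [hk, ← ex_disp_fun]
    exact ex_congr_of fun M _ _ => by simp only [F, hsh]
  have hbad : ex S.μ h (3 * m) (fun γ => ∑' x, k x * eB γ x) ≤ S.P E * x₀ := by
    have h1 := bad_add_ent_le (tsum_conv hν (3 * m)) hk1 L
    rw [hk, ← conv_add, show 3 * m + m = 4 * m by ring, ← hQ, ← hk] at h1
    have h2 := (ENNReal.add_le_add_iff_left hfin).1 (h1.trans hD)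
    have hL0 : ENNReal.ofReal (L - 1) ≠ 0 := by simpa using hL
    rw [show (fun γ : List (List (Step d)) => ∑' x, k x * eB γ x)
      = fun γ => S.P E * (fun a => ∑' x, if C * Q (a + x) < k x then k x else 0) (disp γ.flatten) from
        funext fun γ => by
          rw [← ENNReal.tsum_mul_left]
          exact tsum_congr fun x => by simp only [eB]; split_ifs <;> simp [mul_comm],
      ex_const_mul]
    refine mul_le_mul' le_rfl (le_trans (le_of_eq ?_)
      ((ENNReal.mul_le_mul_iff_right hL0 ENNReal.ofReal_ne_top).1 h2))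
    refine (ex_disp_fun (μ := S.μ) (h := h) (3 * m)
      (fun a => ∑' x, if C * Q (a + x) < k x then k x else 0)).trans ?_
    simp only [← ENNReal.tsum_mul_left, hC]
  have hgood : ex S.μ h (3 * m) (fun γ => ∑' x, k x * eG γ x)
      ≤ 2 * J * S.P (Reach h r \ Up h) + 2 * C * J * S.P (Reach (-h) r ∩ Up h) := by
    refine le_trans (le_of_eq ?_) (S.ann.pair_main_le (h := h) (3 * m) J r z k Q hk1 hQ1 C)
    rw [ex_eq_tsum_chains]
    let Φ : List (List (Step d)) → ℝ≥0∞ := fun γ => pw S.μ 0 γ.flatten * ∑' x, k x * eG γ x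
    change ∑' γ : Chains h (3 * m), Φ γ.1 = _
    rw [tsum_subtype (Chains h (3 * m)) Φ]
    let Ψ : List (List (Step d)) → ℝ≥0∞ := fun γ => ∑' x,
      (if k x ≤ C * Q (disp γ.flatten + x) ∧ r ≤ h (z + x) then
        pw S.μ 0 γ.flatten * (k x * S.P (HitsBefore
          (fun ρ => -(h (disp γ.flatten) + h (z + x)) + r ≤ h (disp ρ)) 0
          (deps (-(disp γ.flatten + (z + x))) γ.flatten))) else 0)
    change _ = ∑' γ : CandN h (3 * m) J, Ψ γ.1
    rw [tsum_subtype (CandN h (3 * m) J) Ψ]
    refine tsum_congr fun γ => ?_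
    by_cases hc' : γ ∈ CandN h (3 * m) J
    · rw [Set.indicator_of_mem hc'.1, Set.indicator_of_mem hc']
      simp only [Φ, Ψ, eG, hc', true_and, mul_ite, mul_zero, ← ENNReal.tsum_mul_left]
    · rw [Set.indicator_of_notMem hc']
      by_cases hch : γ ∈ Chains h (3 * m)
      · rw [Set.indicator_of_mem hch]
        simp [Φ, eG, hc']
      · rw [Set.indicator_of_notMem hch]
  calc ex S.μ h (2 * m) (fun V => ex S.μ h m fun M =>
        S.P (E ∩ Hits z (deps (-disp (V ++ M).flatten) V.flatten)))
      = ex S.μ h m fun _ => ex S.μ h (2 * m) fun V => ∑' x, k x * F V x := hLHS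
    _ ≤ ex S.μ h m fun U => ex S.μ h (2 * m) fun V => ∑' x, k x *
          (eU U + eM x + eH (U ++ V) + eH' x + bt0 + eT (U ++ V) + eB (U ++ V) x
            + eG (U ++ V) x) :=
        ex_mono_of fun U hUl hU => ex_mono_of fun V hVl hV =>
          ENNReal.tsum_le_tsum fun x => mul_le_mul' le_rfl (pt U V hUl hU hVl hV x)
    _ ≤ _ := by
        have fold : ∀ G : List (List (Step d)) → ℝ≥0∞,
            (ex S.μ h m fun U => ex S.μ h (2 * m) fun V => G (U ++ V)) = ex S.μ h (3 * m) G := by
          intro G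
          rw [show 3 * m = m + 2 * m by ring, ex_append]
        simp only [mul_add, ENNReal.tsum_add, ENNReal.tsum_mul_right, hk1, one_mul, ex_add,
          ex_const hb, fold (fun γ => eH γ), fold (fun γ => eT γ),
          fold (fun γ => ∑' x, k x * eB γ x), fold (fun γ => ∑' x, k x * eG γ x)]
        have g1 : ∑' x, k x * eM x
            = ex S.μ h m fun M => if h (disp M.flatten) < c * m then 1 else 0 := by
          rw [hk, ← ex_disp_fun]
        have g2 : ∑' x, k x * eH' x
            = ex S.μ h m fun M => if B * m < h (disp M.flatten) then 1 else 0 := by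
          rw [hk, ← ex_disp_fun]
        simp only [eU, eH, g1, g2]
        gcongr
        exact S.ann.trimN_le S.escP (3 * m) J hJ

end Vale.Agent.P147
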