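import Mathlib
import Vale.Agent.P147.Atoms

/-!
# P147: forced disjoint prefixes and the base of the recursion

The ascending walk is forced to start with `k` straight steps below the top point, the descending
one with lateral blocks until it is below them.  As `k` grows the two fresh continuations start
far from each other, so they avoid any fixed number of blocks with probability close to one.
-/

namespace Vale.Agent.P147

open MeasureTheory Finset Filter
open scoped ENNReal Topology

variable {d : ℕ}

theorem disp_flatten_replicate (j : ℕ) (g : List (Step d)) :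
    disp (List.replicate j g).flatten = j • disp g := by
  induction j with
  | zero => simp
  | succ j ih =>
    rw [List.replicate_succ, List.flatten_cons, disp_append, ih, succ_nsmul']

theorem take_flatten_replicate (j : ℕ) (g : List (Step d)) {m : ℕ}
    (hm : m < (List.replicate j g).flatten.length) :
    ∃ q < j, ∃ r < g.length,
      disp ((List.replicate j g).flatten.take m) = q • disp g + disp (g.take r) := by
  induction j generalizing m with
  | zero => simp at hm
  | succ j ih =>
    rw [List.replicate_succ, List.flatten_cons] at hm ⊢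
    by_cases h1 : m < g.length
    · exact ⟨0, by omega, m, h1, by
        simp [List.take_append, show m - g.length = 0 by omega]⟩
    · obtain ⟨q, hq, r, hr, e⟩ := ih (m := m - g.length) (by
        rw [List.length_append] at hm; omega)
      exact ⟨q + 1, by omega, r, hr, by
        rw [List.take_append, List.take_of_length_le (by omega), disp_append, e, add_nsmul,
          one_nsmul]
        abel⟩

variable {μ : Measure (Row d)} {h : Site d →+ ℝ}

theorem ex_ge_replicate (π : List (Step d)) : ∀ (k : ℕ) (F : List (List (Step d)) → ℝ≥0∞),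
    bwgt μ h π ^ k * F (List.replicate k π) ≤ ex μ h k F
  | 0, F => by simp
  | k + 1, F => by
    rw [ex_succ]
    refine le_trans ?_ (ENNReal.le_tsum π)
    rw [pow_succ', mul_assoc, List.replicate_succ]
    exact mul_le_mul' le_rfl (ex_ge_replicate π k fun ws => F (π :: ws))

/-- Dominated convergence for expectations over blocks. -/
theorem ex_tendsto_zero (hb : ∑' π, bwgt μ h π = 1) (n : ℕ)
    (F : ℕ → List (List (Step d)) → ℝ≥0∞) (hF1 : ∀ k ws, F k ws ≤ 1)
    (hF : ∀ ws, Tendsto (fun k => F k ws) atTop (𝓝 0)) :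
    Tendsto (fun k => ex μ h n (F k)) atTop (𝓝 0) := by
  classical
  set a : List (List (Step d)) → ℝ≥0∞ := fun ws => if ws.length = n then bprod μ h ws else 0
    with ha
  have hex : ∀ G, ex μ h n G = ∑' ws, a ws * G ws := fun G => by
    rw [ex_eq_tsum]
    exact tsum_congr fun ws => by simp only [ha]; split_ifs <;> simp
  have hsum : ∑' ws, a ws = 1 := by
    have := hex fun _ => 1
    rw [ex_const hb] at this
    simpa using this.symm
  have hne : ∀ ws, a ws ≠ ⊤ := fun ws =>
    ne_top_of_le_ne_top ENNReal.one_ne_top ((ENNReal.le_tsum ws).trans hsum.le)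
  rw [ENNReal.tendsto_nhds_zero]
  intro ε hε
  obtain ⟨s, hs⟩ := (ENNReal.tendsto_nhds_zero.1
    (ENNReal.tendsto_tsum_compl_atTop_zero (f := a) (by rw [hsum]; exact ENNReal.one_ne_top))
    (ε / 2) (ENNReal.half_pos hε.ne')).exists
  have hfin : Tendsto (fun k => ∑ ws ∈ s, a ws * F k ws) atTop (𝓝 0) := by
    have : Tendsto (fun k => ∑ ws ∈ s, a ws * F k ws) atTop (𝓝 (∑ ws ∈ s, a ws * 0)) :=
      tendsto_finsetSum _ fun ws _ => ENNReal.Tendsto.const_mul (hF ws) (.inr (hne ws))
    simpa using this
  filter_upwards [ENNReal.tendsto_nhds_zero.1 hfin (ε / 2) (ENNReal.half_pos hε.ne')] with k hk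
  rw [hex, ← ENNReal.sum_add_tsum_compl s fun ws => a ws * F k ws, ← ENNReal.add_halves ε]
  exact add_le_add hk ((ENNReal.tsum_le_tsum fun ws => mul_le_of_le_one_right' (hF1 k _)).trans hs)

variable [IsProbabilityMeasure μ] {P : Measure (Traj d)}

omit [IsProbabilityMeasure μ] in
/-- Starting points which leave every finite set, of bounded height, are hit from nowhere. -/
theorem IsAnnealed.hits_tendsto_zero (hP : IsAnnealed μ P) (D : ℕ → Site d)
    (hD : ∀ k, 0 ≤ h (D k)) (i : Fin d) (hi : ∀ B : ℤ, ∀ᶠ k in atTop, B < |D k i|)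
    (W : Finset (Site d)) :
    Tendsto (fun k => P (Esc h ∩ Hits (D k) W)) atTop (𝓝 0) := by
  have := hP.1
  set E : ℕ → Set (Traj d) := fun k => Esc h ∩ Hits (D k) W with hE
  set U : ℕ → Set (Traj d) := fun m => ⋃ k, ⋃ (_ : m ≤ k), E k with hU
  have hanti : Antitone U := fun a b hab t ht => by
    simp only [hU, Set.mem_iUnion] at ht ⊢
    obtain ⟨k, hk, h'⟩ := ht
    exact ⟨k, hab.trans hk, h'⟩
  have hempty : ⋂ m, U m = ∅ := by
    refine Set.eq_empty_iff_forall_notMem.2 fun t ht => ?_
    simp only [hU, Set.mem_iInter, Set.mem_iUnion] at ht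
    obtain ⟨k₀, -, h0⟩ := ht 0
    obtain ⟨N, hN⟩ := eventually_atTop.1
      (h0.1.2.eventually_gt_atTop (∑ w ∈ W, |h w|))
    obtain ⟨K, hK⟩ := eventually_atTop.1 (hi (∑ w ∈ W, ∑ m ∈ range N, |(w - site t m) i|))
    obtain ⟨k, hk, -, m, hm⟩ := ht K
    have hmN : m < N := by
      by_contra! hle
      have h1 := hN m hle
      have h2 := single_le_sum (f := fun w => |h w|) (fun w _ => abs_nonneg _) hm
      simp only [map_add] at h2
      linarith [le_abs_self (h (D k) + h (site t m)), hD k]
    refine absurd (hK k hk) (not_lt.2 ?_)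
    refine le_trans (le_trans (le_of_eq ?_) (single_le_sum
      (f := fun m' => |(D k + site t m - site t m') i|) (fun _ _ => abs_nonneg _)
      (mem_range.2 hmN))) (single_le_sum (f := fun w => ∑ m' ∈ range N, |(w - site t m') i|)
        (fun _ _ => sum_nonneg fun _ _ => abs_nonneg _) hm)
    simp
  have hlim : Tendsto (fun m => P (U m)) atTop (𝓝 0) := by
    have := tendsto_measure_iInter_atTop (μ := P) (s := U)
      (fun m => (MeasurableSet.iUnion fun k => MeasurableSet.iUnion fun _ =>
        (measurableSet_esc h).inter (measurableSet_hits _ _)).nullMeasurableSet)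
      hanti ⟨0, measure_ne_top _ _⟩
    rwa [hempty, measure_empty] at this
  exact tendsto_of_tendsto_of_tendsto_of_le_of_le tendsto_const_nhds hlim (fun _ => bot_le)
    fun m => measure_mono fun t ht => Set.mem_iUnion₂.2 ⟨m, le_rfl, ht⟩

omit [IsProbabilityMeasure μ] in
theorem topSites_append_replicate {e : Step d} {y : Site d} (ws : List (List (Step d))) (k : ℕ)
    (hy : y ∈ topSites (ws ++ List.replicate k [e])) :
    y + k • vec e ∈ topSites ws ∨ ∃ r < k, y + k • vec e = r • vec e := by
  have hF : ∀ r, disp (List.replicate r e) = r • vec e := fun r => by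
    simp [disp, List.map_replicate, List.sum_replicate]
  rw [topSites, List.flatten_append, List.flatten_replicate_singleton, disp_append, hF,
    deps_append, mem_union] at hy
  rcases hy with hy | hy <;> obtain ⟨m, hm, rfl⟩ := mem_deps.1 hy
  · exact .inl (mem_deps.2 ⟨m, hm, by abel⟩)
  · rw [List.length_replicate] at hm
    refine .inr ⟨m, hm, ?_⟩
    rw [List.take_replicate, min_eq_left hm.le, hF]
    abel

theorem Setup.base (S : Setup d) (n₀ : ℕ) (ε : ℝ≥0∞) (hε : ε ≠ 0) :
    ∃ (D : Site d) (k : ℕ) (c : ℝ≥0∞), c ≠ 0 ∧ S.h D < 0 ∧ -1 ≤ S.h D ∧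
      S.P (Esc (-S.h)) ≤ S.avoid D n₀ + ε ∧
      ∀ n, c * S.avoid D n ≤ S.avoid 0 (n + k) := by
  have := S.ann.1
  obtain ⟨i, -, hi, -, -⟩ := exists_two_axes S.three S.e₀.1
  obtain ⟨b, hb⟩ := exists_sign (-S.h) i
  have hve : S.h (vec S.e₀) = 1 := S.he₀
  obtain ⟨g, hg, hgi', -, hpre⟩ := exists_lateral (e := (S.e₀.1, !S.e₀.2)) hb
    (by rw [AddMonoidHom.neg_apply, vec_not, map_neg, Prod.mk.eta, hve]; norm_num) hi
  have hgi : disp g i = vec (i, b) i := hgi'
  set δ := (-S.h) (disp g) with hδ
  have hδ0 : 0 < δ := hg.pos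
  have hσ : vec (i, b) i = 1 ∨ vec (i, b) i = -1 := by
    rw [vec_apply_sign]; cases b <;> simp
  have hvei : vec S.e₀ i = 0 := vec_apply_ne hi
  set jn : ℕ → ℕ := fun k => ⌊(k : ℝ) / δ⌋₊ + 1 with hjn
  have hj1 : ∀ k : ℕ, (k : ℝ) < jn k * δ := fun k => by
    have := Nat.lt_floor_add_one ((k : ℝ) / δ)
    rw [div_lt_iff₀ hδ0] at this
    simpa [hjn] using this
  have hj2 : ∀ (k q : ℕ), q < jn k → (q : ℝ) * δ ≤ k := fun k q hq => by
    have h1 : (q : ℝ) ≤ (k : ℝ) / δ :=
      (Nat.cast_le.2 (Nat.lt_succ_iff.1 hq)).trans (Nat.floor_le (by positivity))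
    rwa [le_div_iff₀ hδ0] at h1
  set Dk : ℕ → Site d := fun k => jn k • disp g + k • vec S.e₀ with hDk
  have h4 : S.h (disp g) = -δ := by rw [hδ, AddMonoidHom.neg_apply, neg_neg]
  have hhD : ∀ k, (-S.h) (Dk k) = jn k * δ - k := fun k => by
    simp only [hDk, AddMonoidHom.neg_apply, map_add, map_nsmul]
    simp only [nsmul_eq_mul, h4, hve]
    ring
  have hfar : ∀ B : ℤ, ∀ᶠ k in atTop, B < |Dk k i| := by
    intro B
    obtain ⟨K, hK⟩ := exists_nat_ge (δ * B)
    refine eventually_atTop.2 ⟨K, fun k hk => ?_⟩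
    have h1 : (B : ℝ) < jn k := by
      have := hj1 k
      have : (K : ℝ) ≤ k := by exact_mod_cast hk
      by_contra! hle
      have := mul_le_mul_of_nonneg_right hle hδ0.le
      linarith
    have h2 : |Dk k i| = (jn k : ℤ) := by
      simp only [hDk, Pi.add_apply, Pi.smul_apply, hgi, hvei]
      rcases hσ with h | h <;> simp [h]
    rw [h2]
    exact_mod_cast h1
  have hlim : Tendsto (fun k => ex S.μ S.h n₀ fun ws =>
      S.P (Esc (-S.h) ∩ Hits (Dk k) (topSites ws))) atTop (𝓝 0) :=
    ex_tendsto_zero (S.ann.tsum_bwgt S.escP) n₀ _ (fun k ws => prob_le_one) fun ws =>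
      S.ann.hits_tendsto_zero Dk (fun k => by rw [hhD]; linarith [hj1 k]) i hfar _
  obtain ⟨k, hk⟩ := (ENNReal.tendsto_nhds_zero.1 hlim ε (pos_iff_ne_zero.2 hε)).exists
  set ρs := List.replicate (jn k) g with hρs
  have hblk : ∀ π ∈ ρs, IsBlock (-S.h) π := fun π hπ => (List.eq_of_mem_replicate hπ) ▸ hg
  have hδ1 : δ ≤ 1 := by
    have hl := List.length_pos_iff.2 hg.1
    have h0 := (hpre (g.length - 1) (by omega)).1
    have hsum : disp g = disp (g.take (g.length - 1)) + vec (g[g.length - 1]'(by omega)) := by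
      have h1 := List.take_succ_eq_append_getElem (show g.length - 1 < g.length by omega)
      rw [show g.length - 1 + 1 = g.length by omega, List.take_length] at h1
      have h2 := congrArg disp h1
      rw [disp_append, disp_cons, disp_nil, add_zero] at h2
      exact h2
    rw [hδ, hsum, map_add, h0, zero_add, AddMonoidHom.neg_apply]
    linarith [(abs_le.1 (S.unit (g[g.length - 1]'(by omega)))).1]
  refine ⟨Dk k, k, bwgt S.μ S.h [S.e₀] ^ k * bprod S.μ (-S.h) ρs, ?_, ?_, ?_, ?_, fun n => ?_⟩
  · refine mul_ne_zero (pow_ne_zero _ (S.bwgt_ne_zero (isBlock_singleton (by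
      rw [hve]; exact one_pos)))) ?_
    rw [← pw_flatten hblk]
    exact pw_pos S.μ S.ell _ _
  · have := hhD k
    rw [AddMonoidHom.neg_apply] at this
    linarith [hj1 k]
  · have := hhD k
    rw [AddMonoidHom.neg_apply] at this
    have h1 := hj2 k (jn k - 1) (by simp [hjn])
    have h2 : ((jn k - 1 : ℕ) : ℝ) = (jn k : ℝ) - 1 := by simp [hjn]
    rw [h2] at h1
    linarith
  · calc S.P (Esc (-S.h)) = ex S.μ S.h n₀ fun _ => S.P (Esc (-S.h)) :=
          (ex_const (S.ann.tsum_bwgt S.escP) _ _).symm
      _ = S.avoid (Dk k) n₀ + ex S.μ S.h n₀ fun ws =>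
            S.P (Esc (-S.h) ∩ Hits (Dk k) (topSites ws)) := by
          rw [Setup.avoid, ← ex_add]
          refine ex_congr_of fun ws _ _ => ?_
          rw [add_comm, measure_inter_add_sdiff _ (measurableSet_hits _ _)]
      _ ≤ _ := by gcongr
  · rw [Setup.avoid, Setup.avoid, ex_append n k, ← ex_const_mul]
    refine ex_mono_of fun ws _ hws => ?_
    refine le_trans ?_ (ex_ge_replicate [S.e₀] k _)
    rw [mul_assoc]
    refine mul_le_mul' le_rfl ?_
    rw [Set.sdiff_eq, ← S.ann.measure_flatten_inter hblk (measurableSet_hits _ _).compl]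
    refine measure_mono fun t ht => ⟨?_, ?_⟩
    · exact blockEvent_subset hblk ⟨ht.1, ht.2.1⟩
    rintro ⟨m, hm⟩
    rw [zero_add] at hm
    have hdρ : disp ρs.flatten = jn k • disp g := disp_flatten_replicate _ _
    have hyr : ∀ r : ℕ, site t m + k • vec S.e₀ = r • vec S.e₀ →
        S.h (site t m) = (r : ℝ) - k ∧ site t m i = 0 := fun r hr => by
      have e1 := congrArg S.h hr
      have e2 := congrFun hr i
      simp only [map_add, map_nsmul] at e1
      simp only [nsmul_eq_mul, hve, mul_one] at e1
      simp [hvei] at e2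
      exact ⟨by linarith, e2⟩
    rcases lt_or_ge m ρs.flatten.length with hlt | hge
    · obtain ⟨q, hq, r, hr, hqr⟩ := take_flatten_replicate _ _ hlt
      rw [← site_of_mem_cyl ht.1 hlt.le] at hqr
      obtain ⟨hr0, hri⟩ := hpre r hr
      rw [AddMonoidHom.neg_apply] at hr0
      have hh : S.h (site t m) = -(q * δ) := by
        rw [hqr, map_add, map_nsmul, hδ, AddMonoidHom.neg_apply, nsmul_eq_mul]; linarith
      rcases topSites_append_replicate ws k hm with hm1 | ⟨r', hr', hm2⟩
      · obtain ⟨l, hl, hle⟩ := mem_deps.1 hm1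
        have h1 := congrArg S.h hle
        simp only [map_add, map_neg, map_nsmul] at h1
        simp only [nsmul_eq_mul, hve, mul_one] at h1
        linarith [(flatten_range hws hl).2, hj2 k q hq]
      · obtain ⟨h1, h2⟩ := hyr r' hm2
        rw [hqr] at h2
        simp only [Pi.add_apply, Pi.smul_apply] at h2
        simp only [hgi, nsmul_eq_mul] at h2
        have hq0 : q = 0 := by
          rcases hri with ⟨he, -⟩ | he <;> rw [he] at h2 <;> rcases hσ with h' | h' <;>
            rw [h'] at h2 <;> simp at h2 <;> omega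
        have : (r' : ℝ) < k := by exact_mod_cast hr'
        rw [hq0] at hh
        simp at hh
        linarith
    · have hs : site t m = disp ρs.flatten
          + site (shiftT ρs.flatten.length t) (m - ρs.flatten.length) := by
        rw [← List.take_length (l := ρs.flatten), ← site_of_mem_cyl ht.1 le_rfl,
          List.take_length, ← site_shiftT, Nat.add_sub_cancel' hge]
      rcases topSites_append_replicate ws k hm with hm1 | ⟨r', -, hm2⟩
      · refine ht.2.2 ⟨m - ρs.flatten.length, ?_⟩
        rw [hs, hdρ, add_right_comm] at hm1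
        exact hm1
      · have h1 := (hyr r' hm2).1
        have h2 := ht.2.1.1 (m - ρs.flatten.length)
        rw [hs, hdρ, map_add, map_nsmul, nsmul_eq_mul] at h1
        rw [AddMonoidHom.neg_apply] at h2
        rw [h4, mul_neg] at h1
        linarith [hj1 k, (Nat.cast_nonneg r' : (0 : ℝ) ≤ r')]

end Vale.Agent.P147
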