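import Mathlib
import Vale.Agent.P147.Ident

/-!
# P147: a walk which is bounded above in a direction escapes to `-∞` in that direction
-/

namespace Vale.Agent.P147

open MeasureTheory Finset Filter
open scoped ENNReal Topology

variable {d : ℕ}

theorem ae_qw_ne_zero {μ : Measure (Row d)} [IsProbabilityMeasure μ] (hμ : Elliptic μ)
    (π : List (Step d)) (x : Site d) : ∀ᵐ ω ∂envLaw μ, qw ω x π ≠ 0 := by
  induction π generalizing x with
  | nil => simp [qw]
  | cons e π ih =>
    have hx : ∀ᵐ ω ∂envLaw μ, 0 < (ω x).1 e :=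
      (measurePreserving_eval_infinitePi (fun _ : Site d => μ) x).quasiMeasurePreserving.ae
        (hμ.mono fun q hq => hq e)
    filter_upwards [hx, ih (x + vec e)] with ω h1 h2
    simp only [qw, mul_ne_zero_iff]
    exact ⟨by simpa [ENNReal.ofReal_eq_zero] using h1, h2⟩

theorem disp_replicate (n : ℕ) (e : Step d) : disp (List.replicate n e) = n • vec e := by
  simp [disp, List.map_replicate, List.sum_replicate]

/-- Bounded above by `B` and at the origin infinitely often. -/
def RecBdd (h : Site d →+ ℝ) (B : ℝ) : Set (Traj d) :=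
  {t | ∀ k, h (site t k) ≤ B} ∩ {t | ∀ n, ∃ k, n ≤ k ∧ site t k = 0}

theorem measurableSet_bddBy (h : Site d →+ ℝ) (B : ℝ) :
    MeasurableSet {t : Traj d | ∀ k, h (site t k) ≤ B} := by
  rw [Set.ofPred_forall]
  exact MeasurableSet.iInter fun k =>
    measurableSet_le ((measurable_of_countable h).comp (measurable_site k)) measurable_const

theorem measurableSet_recBdd (h : Site d →+ ℝ) (B : ℝ) : MeasurableSet (RecBdd h B) := by
  refine (measurableSet_bddBy h B).inter ?_
  have : {t : Traj d | ∀ n, ∃ k, n ≤ k ∧ site t k = 0}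
      = ⋂ n, ⋃ k : {k : ℕ // n ≤ k}, (fun t => site t k.1) ⁻¹' {0} := by
    ext t
    simp only [Set.mem_ofPred_eq, Set.mem_iInter, Set.mem_iUnion, Set.mem_preimage,
      Set.mem_singleton_iff, Subtype.exists, exists_prop]
  rw [this]
  exact MeasurableSet.iInter fun n => MeasurableSet.iUnion fun k =>
    measurable_site _ (measurableSet_singleton _)

theorem shiftT_mem_recBdd {h : Site d →+ ℝ} {B : ℝ} {t : Traj d} {n : ℕ} (ht : t ∈ RecBdd h B)
    (hn : site t n = 0) : shiftT n t ∈ RecBdd h B := by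
  have e : ∀ k, site (shiftT n t) k = site t (n + k) := fun k => by
    rw [site_shiftT, hn, zero_add]
  refine ⟨fun k => by rw [e]; exact ht.1 _, fun m => ?_⟩
  obtain ⟨k, hk, hk0⟩ := ht.2 (n + m)
  exact ⟨k - n, by omega, by rw [e, Nat.add_sub_cancel' (by omega)]; exact hk0⟩

variable [NeZero d]

/-- In an environment which allows a straight path above `B`, recurrence below `B` is null. -/
theorem qP_recBdd_eq_zero {h : Site d →+ ℝ} {e : Step d} (he : h (vec e) = 1) {B : ℝ} {K : ℕ}
    (hK : B < K) (ω : Env d) (x : Site d) (hω : qw ω x (List.replicate K e) ≠ 0) :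
    qP ω x (RecBdd h B) = 0 := by
  classical
  set ρ := List.replicate K e with hρ
  set G := RecBdd h B with hG
  have hGm : MeasurableSet G := measurableSet_recBdd h B
  set a := qP ω x G with ha
  let I := {f : Fin K → Step d // List.ofFn f ≠ ρ}
  let S : I → Set (List (Step d)) := fun f => StopHit (fun _ => True) (disp (List.ofFn f.1)) {0}
  have hcov : G ⊆ ⋃ f : I, ⋃ σ : S f,
      cyl (List.ofFn f.1 ++ σ.1) ∩ shiftT (List.ofFn f.1 ++ σ.1).length ⁻¹' G := by
    intro t ht
    have hne : pre t K ≠ ρ := by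
      intro heq
      have hc := mem_cyl_ofFn_self K t
      have hs := site_of_mem_cyl hc (k := K) (by simp)
      rw [List.take_of_length_le (by simp)] at hs
      have hb := ht.1 K
      rw [hs, show (List.ofFn fun k : Fin K => t k) = ρ from heq, hρ, disp_replicate, map_nsmul,
        he, nsmul_eq_mul, mul_one] at hb
      linarith
    obtain ⟨k, hk, hk0⟩ := ht.2 K
    have hmem : shiftT K t ∈ {s : Traj d | ∃ k, disp (pre t K) + site s k ∈ ({0} : Set (Site d))
        ∧ ∀ j ≤ k, (fun _ => True) (pre s j)} := by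
      refine ⟨k - K, ?_, fun _ _ => trivial⟩
      have hc := mem_cyl_ofFn_self K t
      have hs := site_of_mem_cyl hc (k := K) (by simp)
      rw [List.take_of_length_le (by simp)] at hs
      rw [Set.mem_singleton_iff, show disp (pre t K) = site t K from hs.symm, ← site_shiftT,
        Nat.add_sub_cancel' hk, hk0]
    have hmem' := (Set.ext_iff.1 (setOf_hits_eq (fun _ => True) (disp (pre t K)) {0}) _).1 hmem
    obtain ⟨σ, hσ⟩ := Set.mem_iUnion.1 hmem'
    refine Set.mem_iUnion₂.2 ⟨⟨fun i => t i, hne⟩, σ, ?_⟩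
    have hcyl : t ∈ cyl (pre t K ++ σ.1) := by
      rw [cyl_append]
      refine ⟨mem_cyl_ofFn_self K t, ?_⟩
      simpa [pre] using hσ
    refine ⟨hcyl, shiftT_mem_recBdd ht ?_⟩
    show site t (pre t K ++ σ.1).length = 0
    rw [site_of_mem_cyl hcyl le_rfl, List.take_length, disp_append]
    exact σ.2.1
  have hσ : ∀ f : I, ∑' σ : S f, qw ω (x + disp (List.ofFn f.1)) σ.1 ≤ 1 := by
    intro f
    simp only [← qP_cyl]
    rw [← measure_iUnion (stopHit_disjoint _ _ _) fun σ => measurableSet_cyl _]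
    exact prob_le_one
  have hsum : ∑' f : I, qw ω x (List.ofFn f.1) ≤ 1 - qw ω x ρ := by
    simp only [← qP_cyl]
    rw [← measure_iUnion (fun f g hne => cyl_disjoint_of_length_eq (by simp)
      fun hh => hne (Subtype.ext (List.ofFn_inj.1 hh))) fun f => measurableSet_cyl _]
    refine (measure_mono (t := (cyl ρ)ᶜ) (Set.iUnion_subset fun f => ?_)).trans ?_
    · exact Set.subset_compl_iff_disjoint_right.2
        (cyl_disjoint_of_length_eq (by simp [hρ]) f.2)
    · rw [prob_compl_eq_one_sub (measurableSet_cyl _)]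
  have hle : a ≤ (1 - qw ω x ρ) * a := by
    calc a ≤ ∑' f : I, ∑' σ : S f, qP ω x
          (cyl (List.ofFn f.1 ++ σ.1) ∩ shiftT (List.ofFn f.1 ++ σ.1).length ⁻¹' G) :=
        (measure_mono hcov).trans ((measure_iUnion_le _).trans
          (ENNReal.tsum_le_tsum fun f => measure_iUnion_le _))
      _ = ∑' f : I, qw ω x (List.ofFn f.1)
            * ((∑' σ : S f, qw ω (x + disp (List.ofFn f.1)) σ.1) * a) := by
          refine tsum_congr fun f => ?_
          rw [← ENNReal.tsum_mul_right, ← ENNReal.tsum_mul_left]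
          refine tsum_congr fun σ => ?_
          rw [qP_cyl_inter ω x _ hGm, qw_append, mul_assoc]
          congr 3
          rw [disp_append, show disp (List.ofFn f.1) + disp σ.1 = 0 from σ.2.1, add_zero]
      _ ≤ ∑' f : I, qw ω x (List.ofFn f.1) * a := by
          gcongr with f
          exact mul_le_of_le_one_left' (hσ f)
      _ ≤ _ := by rw [ENNReal.tsum_mul_right]; gcongr
  by_contra h0
  have h1 : (1 - qw ω x ρ) * a < 1 * a :=
    ENNReal.mul_lt_mul_left h0 (measure_ne_top _ _)
      (ENNReal.sub_lt_self ENNReal.one_ne_top one_ne_zero hω)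
  rw [one_mul] at h1
  exact absurd hle (not_le.2 h1)

/-! ## Fresh sites -/

/-- The path ends at level at least `j` and the straight path of length `K` from there is fresh. -/
def GoodEnd (h : Site d →+ ℝ) (e : Step d) (j : ℝ) (K : ℕ) (π : List (Step d)) : Prop :=
  j ≤ h (disp π) ∧ ∀ i < K, disp π + i • vec e ∉ deps 0 π

/-- The path ends at the `n`th good time (counted with spacing `K`) and stays below `B`. -/
def Stage (h : Site d →+ ℝ) (e : Step d) (j : ℝ) (K : ℕ) (B : ℝ) : ℕ → List (Step d) → Prop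
  | 0, π => GoodEnd h e j K π ∧ ∀ l < π.length, ¬ GoodEnd h e j K (π.take l)
  | n + 1, π => (GoodEnd h e j K π ∧ ∀ l ≤ π.length, h (disp (π.take l)) ≤ B) ∧
      ∃ σ, Stage h e j K B n σ ∧ σ <+: π ∧ σ.length + K ≤ π.length ∧
        ∀ l, σ.length + K ≤ l → l < π.length → ¬ GoodEnd h e j K (π.take l)

omit [NeZero d] in
theorem Stage.goodEnd {h : Site d →+ ℝ} {e : Step d} {j : ℝ} {K : ℕ} {B : ℝ} {n : ℕ}
    {π : List (Step d)} (hπ : Stage h e j K B n π) : GoodEnd h e j K π := by
  cases n with
  | zero => exact hπ.1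
  | succ n => exact hπ.1.1

omit [NeZero d] in
theorem mem_cyl_of_prefix {σ π : List (Step d)} (hp : σ <+: π) {t : Traj d} (ht : t ∈ cyl π) :
    t ∈ cyl σ := by
  obtain ⟨r, rfl⟩ := hp
  rw [cyl_append] at ht
  exact ht.1

omit [NeZero d] in
theorem length_pre (t : Traj d) (n : ℕ) : (pre t n).length = n := List.length_ofFn

omit [NeZero d] in
theorem disp_pre (t : Traj d) (n : ℕ) : disp (pre t n) = site t n := by
  have h1 := site_of_mem_cyl (mem_cyl_ofFn_self n t) le_rfl
  rw [List.take_length, List.length_ofFn] at h1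
  exact h1.symm

omit [NeZero d] in
theorem take_pre (t : Traj d) {l n : ℕ} (hl : l ≤ n) : (pre t n).take l = pre t l :=
  (pre_of_mem_cyl (mem_cyl_ofFn_self n t) (by simpa using hl)).symm

omit [NeZero d] in
theorem pre_eq_of_mem_cyl {π : List (Step d)} {t : Traj d} (ht : t ∈ cyl π) :
    pre t π.length = π := by
  rw [pre_of_mem_cyl ht le_rfl, List.take_length]

omit [NeZero d] in
theorem Stage.eq_of_cyl {h : Site d →+ ℝ} {e : Step d} {j : ℝ} {K : ℕ} {B : ℝ} :
    ∀ {n : ℕ} {π ρ : List (Step d)}, Stage h e j K B n π → Stage h e j K B n ρ →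
      ∀ {t : Traj d}, t ∈ cyl π → t ∈ cyl ρ → π = ρ := by
  intro n
  induction n with
  | zero =>
    intro π ρ hπ hρ t h1 h2
    rcases lt_trichotomy π.length ρ.length with hl | hl | hl
    · refine absurd hπ.1 ?_
      rw [← pre_eq_of_mem_cyl h1, pre_of_mem_cyl h2 hl.le]
      exact hρ.2 _ hl
    · rw [← pre_eq_of_mem_cyl h1, ← pre_eq_of_mem_cyl h2, hl]
    · refine absurd hρ.1 ?_
      rw [← pre_eq_of_mem_cyl h2, pre_of_mem_cyl h1 hl.le]
      exact hπ.2 _ hl
  | succ n ih =>
    intro π ρ hπ hρ t h1 h2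
    obtain ⟨σ, hσ, hσp, hσl, hσf⟩ := hπ.2
    obtain ⟨τ, hτ, hτp, hτl, hτf⟩ := hρ.2
    obtain rfl := ih hσ hτ (mem_cyl_of_prefix hσp h1) (mem_cyl_of_prefix hτp h2)
    rcases lt_trichotomy π.length ρ.length with hl | hl | hl
    · refine absurd hπ.goodEnd ?_
      rw [← pre_eq_of_mem_cyl h1, pre_of_mem_cyl h2 hl.le]
      exact hτf _ hσl hl
    · rw [← pre_eq_of_mem_cyl h1, ← pre_eq_of_mem_cyl h2, hl]
    · refine absurd hρ.goodEnd ?_
      rw [← pre_eq_of_mem_cyl h2, pre_of_mem_cyl h1 hl.le]
      exact hσf _ hτl hl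

variable {μ : Measure (Row d)} [IsProbabilityMeasure μ] {P : Measure (Traj d)} {h : Site d →+ ℝ}

omit [NeZero d] in
/-- Infinitely many good times below `B` have probability zero. -/
theorem IsAnnealed.goodEnd_null (hP : IsAnnealed μ P) (hμ : Elliptic μ) {e : Step d}
    (he : h (vec e) = 1) {j B : ℝ} {K : ℕ} (hK : B < j + K) :
    P ({t | ∀ k, h (site t k) ≤ B} ∩
      {t | ∀ m, ∃ τ, m ≤ τ ∧ GoodEnd h e j K (pre t τ)}) = 0 := by
  classical
  have := hP.1
  set T := {t : Traj d | ∀ k, h (site t k) ≤ B} ∩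
    {t | ∀ m, ∃ τ, m ≤ τ ∧ GoodEnd h e j K (pre t τ)} with hT
  set ρ := List.replicate K e with hρ
  set c := pw μ 0 ρ with hc
  let Q : ℕ → Set (List (Step d)) := fun n => {π | Stage h e j K B n π}
  set S : ℕ → ℝ≥0∞ := fun n => P (⋃ π : Q n, cyl π.1) with hS
  have hQd : ∀ n, Pairwise fun π σ : Q n => Disjoint (cyl π.1) (cyl σ.1) := fun n π σ hne =>
    Set.disjoint_left.2 fun t h1 h2 => hne (Subtype.ext (Stage.eq_of_cyl π.2 σ.2 h1 h2))
  have hmem : ∀ n, T ⊆ ⋃ π : Q n, cyl π.1 := by
    rintro n t ⟨hb, hg⟩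
    simp only [Set.mem_iUnion]
    induction n with
    | zero =>
      obtain ⟨τ₀, -, hτ₀⟩ := hg 0
      have hex : ∃ τ, GoodEnd h e j K (pre t τ) := ⟨τ₀, hτ₀⟩
      refine ⟨⟨pre t (Nat.find hex), ⟨Nat.find_spec hex, fun l hl => ?_⟩⟩,
        mem_cyl_ofFn_self _ t⟩
      have hl' : l < Nat.find hex := by rwa [length_pre] at hl
      rw [take_pre t hl'.le]
      exact Nat.find_min hex hl'
    | succ n ih =>
      obtain ⟨⟨σ, hσ⟩, htσ⟩ := ih
      obtain ⟨τ₀, hτ₀, hg₀⟩ := hg (σ.length + K)
      have hex : ∃ τ, σ.length + K ≤ τ ∧ GoodEnd h e j K (pre t τ) := ⟨τ₀, hτ₀, hg₀⟩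
      obtain ⟨hge, hgood⟩ := Nat.find_spec hex
      refine ⟨⟨pre t (Nat.find hex), ⟨⟨hgood, fun l hl => ?_⟩, σ, hσ, ?_, ?_,
        fun l hl hl' => ?_⟩⟩, mem_cyl_ofFn_self _ t⟩
      · rw [length_pre] at hl
        rw [take_pre t hl, disp_pre]; exact hb l
      · rw [List.prefix_iff_eq_take, take_pre t (by omega), pre_eq_of_mem_cyl htσ]
      · rw [length_pre]; exact hge
      · have hl'' : l < Nat.find hex := by rwa [length_pre] at hl'
        rw [take_pre t hl''.le]
        exact fun hbad => Nat.find_min hex hl'' ⟨hl, hbad⟩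
  have hS0 : S 0 ≤ 1 := prob_le_one
  have hfac : ∀ n (σ : Q n), P (cyl (σ.1 ++ ρ)) = P (cyl σ.1) * c := by
    intro n σ
    rw [hP.2, hP.2, pw_append_of_disjoint, pw_start μ (0 + disp σ.1) ρ]
    refine Finset.disjoint_right.2 fun y hy => ?_
    obtain ⟨i, hi, rfl⟩ := mem_deps.1 hy
    rw [hρ, List.length_replicate] at hi
    rw [hρ, List.take_replicate, min_eq_left hi.le, disp_replicate, zero_add]
    exact (Stage.goodEnd σ.2).2 i hi
  have hstep : ∀ n, S (n + 1) ≤ (1 - c) * S n := by
    intro n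
    calc S (n + 1) ≤ P (⋃ σ : Q n, cyl σ.1 \ cyl (σ.1 ++ ρ)) := by
          refine measure_mono (Set.iUnion_subset fun π t ht => ?_)
          obtain ⟨⟨-, hb⟩, σ, hσ, hσp, hσl, -⟩ := π.2
          refine Set.mem_iUnion.2 ⟨⟨σ, hσ⟩, mem_cyl_of_prefix hσp ht, fun hbad => ?_⟩
          have h1 := hb (σ.length + K) hσl
          rw [← site_of_mem_cyl ht hσl,
            show σ.length + K = (σ ++ ρ).length by simp [hρ],
            site_of_mem_cyl hbad le_rfl, List.take_length, disp_append, hρ, disp_replicate,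
            map_add, map_nsmul, he, nsmul_eq_mul, mul_one] at h1
          linarith [(Stage.goodEnd hσ).1]
      _ = ∑' σ : Q n, P (cyl σ.1 \ cyl (σ.1 ++ ρ)) :=
          measure_iUnion (fun σ τ hne => (hQd n hne).mono Set.sdiff_subset Set.sdiff_subset)
            fun σ => (measurableSet_cyl _).diff (measurableSet_cyl _)
      _ = ∑' σ : Q n, (1 - c) * P (cyl σ.1) := by
          refine tsum_congr fun σ => ?_
          rw [measure_sdiff (by rw [cyl_append]; exact Set.inter_subset_left)
            (measurableSet_cyl _).nullMeasurableSet (measure_ne_top _ _), hfac n σ,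
            ENNReal.sub_mul (fun _ _ => measure_ne_top _ _), one_mul, mul_comm c]
      _ = _ := by
          rw [ENNReal.tsum_mul_left, hS]
          simp only [measure_iUnion (hQd n) fun σ => measurableSet_cyl _]
  have hpow : ∀ n, S n ≤ (1 - c) ^ n := by
    intro n
    induction n with
    | zero => simpa using hS0
    | succ n ih => rw [pow_succ']; exact (hstep n).trans (by gcongr)
  have hc0 : c ≠ 0 := pw_pos μ hμ _ _
  exact le_antisymm (ge_of_tendsto' (ENNReal.tendsto_pow_atTop_nhds_zero_of_lt_one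
    (ENNReal.sub_lt_self ENNReal.one_ne_top one_ne_zero hc0))
    fun n => (measure_mono (hmem n)).trans (hpow n)) bot_le

/-- Almost surely a walk bounded above in the direction `h` tends to `-∞` there. -/
theorem IsAnnealed.confined_null (hP : IsAnnealed μ P) (hμ : Elliptic μ) {e : Step d}
    (he : h (vec e) = 1) :
    P ({t | BddAbove (Set.range fun k => h (site t k))} \ Up (-h)) = 0 := by
  classical
  have := hP.1
  have hrec : ∀ B : ℕ, P (RecBdd h (B : ℝ)) = 0 := by
    intro B
    have hm : MeasurableSet (RecBdd h (B : ℝ)) := measurableSet_recBdd h _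
    rw [← hP.lintegral_qP 0 hm, lintegral_eq_zero_iff (measurable_qP hm 0)]
    filter_upwards [ae_qw_ne_zero hμ (List.replicate (B + 1) e) 0] with ω hω
    exact qP_recBdd_eq_zero he (by push_cast; linarith) ω 0 hω
  refine measure_mono_null (t := (⋃ (B : ℕ) (n : ℕ) (v : Fin n → Step d),
      cyl (List.ofFn v) ∩ shiftT n ⁻¹' RecBdd h (B : ℝ)) ∪
    ⋃ (B : ℕ) (j : ℤ), {t | ∀ k, h (site t k) ≤ (B : ℝ)} ∩
      {t | ∀ m, ∃ τ, m ≤ τ ∧
        GoodEnd h e (j : ℝ) (((B : ℤ) - j).toNat + 1) (pre t τ)}) ?_ ?_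
  · rintro t ⟨hbd, hnot⟩
    obtain ⟨b, hb⟩ := hbd
    have hb' : ∀ k, h (site t k) ≤ b := fun k => hb ⟨k, rfl⟩
    by_cases hio : ∃ x, ∀ n, ∃ k, n ≤ k ∧ site t k = x
    · left
      obtain ⟨x, hx⟩ := hio
      obtain ⟨n, -, hn⟩ := hx 0
      obtain ⟨B, hB⟩ := exists_nat_ge (b - h x)
      simp only [Set.mem_iUnion]
      refine ⟨B, n, fun i => t i, mem_cyl_ofFn_self n t, fun k => ?_, fun m => ?_⟩
      · have h1 := hb' (n + k)
        rw [site_shiftT, map_add, hn] at h1
        linarith
      · obtain ⟨k, hk, hk0⟩ := hx (n + m)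
        refine ⟨k - n, by omega, ?_⟩
        have h1 := site_shiftT t n (k - n)
        rw [Nat.add_sub_cancel' (by omega), hk0, hn] at h1
        simpa using h1.symm
    · right
      push Not at hio
      obtain ⟨B, hB⟩ := exists_nat_ge b
      have hBk : ∀ k, h (site t k) ≤ (B : ℝ) := fun k => (hb' k).trans hB
      -- the highest level above which infinitely many times are spent
      let V : ℤ → Set ℕ := fun j => {k | (j : ℝ) ≤ h (site t k)}
      obtain ⟨a, ha⟩ : ∃ a : ℤ, (V a).Infinite := by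
        by_contra! hfin
        refine hnot (tendsto_atTop.2 fun r => ?_)
        obtain ⟨a, ha⟩ := exists_int_lt (-r)
        obtain ⟨N, hN⟩ := (hfin a).bddAbove
        refine eventually_atTop.2 ⟨N + 1, fun k hk => ?_⟩
        rw [AddMonoidHom.neg_apply]
        by_contra! hlt
        have : k ≤ N := hN (show (a : ℝ) ≤ h (site t k) by linarith)
        omega
      obtain ⟨j, hj, hmax⟩ := Int.exists_greatest_of_bdd (P := fun j => (V j).Infinite)
        ⟨B, fun z hz => by
          obtain ⟨k, hk⟩ := hz.nonempty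
          have h1 : (z : ℝ) ≤ ((B : ℤ) : ℝ) := by push_cast; exact le_trans hk (hBk k)
          exact_mod_cast h1⟩ ⟨a, ha⟩
      obtain ⟨N, hN⟩ : BddAbove (V (j + 1)) :=
        (Set.not_infinite.1 fun hinf => absurd (hmax _ hinf) (by omega)).bddAbove
      set K := ((B : ℤ) - j).toNat + 1 with hK
      simp only [Set.mem_iUnion]
      refine ⟨B, j, hBk, fun m => ?_⟩
      have hfib : ∀ x, {k | site t k = x}.Finite := fun x => by
        obtain ⟨n, hn⟩ := hio x
        exact (Set.finite_Iio n).subset fun k hk => not_le.1 fun hle => hn k hle hk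
      have himg : (site t '' V j).Infinite := fun hfin => hj <|
        (hfin.biUnion fun x _ => hfib x).subset fun k hk =>
          Set.mem_biUnion (Set.mem_image_of_mem _ hk) rfl
      let F : Finset (Site d) :=
        (range (max m (N + 1)) ×ˢ range (K + 1)).image fun p => site t p.1 - p.2 • vec e
      obtain ⟨z, ⟨k, hkV, rfl⟩, hz⟩ := himg.exists_notMem_finset F
      have hex : ∃ τ, site t τ = site t k := ⟨k, rfl⟩
      have hτ := Nat.find_spec hex
      set τ := Nat.find hex with hτdef
      have hout : ∀ k', k' < max m (N + 1) → ∀ i ≤ K, site t k ≠ site t k' - i • vec e :=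
        fun k' hk' i hi heq => hz (mem_image.2 ⟨(k', i),
          mem_product.2 ⟨mem_range.2 hk', mem_range.2 (by omega)⟩, heq.symm⟩)
      have hτge : max m (N + 1) ≤ τ := not_lt.1 fun hlt => hout τ hlt 0 (by omega) (by simp [hτ])
      have hdisp : disp (pre t τ) = site t τ := disp_pre t τ
      refine ⟨τ, by omega, ?_, fun i hi hbad => ?_⟩
      · rw [hdisp, hτ]; exact hkV
      · rw [hdisp, hτ] at hbad
        obtain ⟨l, hl, heq⟩ := mem_deps.1 hbad
        have hl' : l < τ := by rwa [length_pre] at hl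
        rw [zero_add, take_pre t hl'.le, disp_pre] at heq
        rcases Nat.eq_zero_or_pos i with rfl | hi0
        · exact Nat.find_min hex hl' (by simpa using heq)
        rcases lt_or_ge l (max m (N + 1)) with hlo | hhi
        · exact hout l hlo i hi.le (by rw [heq]; simp)
        · have h1 := congrArg h heq
          rw [map_add, map_nsmul, he, nsmul_eq_mul, mul_one] at h1
          have h2 : (1 : ℝ) ≤ i := by exact_mod_cast hi0
          have h3 : (j : ℝ) ≤ h (site t k) := hkV
          have : l ≤ N := hN (show ((j + 1 : ℤ) : ℝ) ≤ h (site t l) by push_cast; linarith)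
          omega
  · refine measure_union_null ?_ ?_
    · refine measure_iUnion_null fun B => measure_iUnion_null fun n => measure_iUnion_null fun v =>
        le_antisymm ?_ bot_le
      have h1 := hP.measure_cyl_inter_le (List.ofFn v) _ (measurableSet_recBdd h (B : ℝ))
      rw [List.length_ofFn, hrec B] at h1
      exact h1
    · refine measure_iUnion_null fun B => measure_iUnion_null fun j => hP.goodEnd_null hμ he ?_
      have h1 : (B : ℝ) - j ≤ ((((B : ℤ) - j).toNat : ℕ) : ℝ) := by
        have h2 := Int.self_le_toNat ((B : ℤ) - j)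
        exact_mod_cast h2
      push_cast
      linarith

end Vale.Agent.P147
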