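import Mathlib
import Vale.Agent.P147.Moments

/-!
# P147: linear range along a sequence of times already gives finite mean block sites
-/

namespace Vale.Agent.P147

open MeasureTheory Finset Filter
open scoped ENNReal Topology

variable {d : ℕ}

/-- Escape with a range which is linear in the height along infinitely many times. -/
def LinEscFreq {d : ℕ} (h : Site d →+ ℝ) : Set (Traj d) :=
  {t | Tendsto (fun k => h (site t k)) atTop atTop ∧
    ∃ c : ℝ, 0 < c ∧ ∃ᶠ n in atTop, c * (((Finset.range n).image (site t)).card : ℝ) ≤ h (site t n)}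

theorem linEsc_subset_freq (h : Site d →+ ℝ) : LinEsc h ⊆ LinEscFreq h :=
  fun _ ⟨h1, c, hc, h2⟩ => ⟨h1, c, hc, h2.frequently⟩

/-- An initial run of the list has average above `lam`. -/
def HeadBad {α : Type*} (φ : α → ℝ) (lam : ℝ) (l : List α) : Prop :=
  ∃ k ≤ l.length, lam * k < ((l.take k).map φ).sum

open Classical in
/-- The number of starting places of runs with average above `lam`. -/
noncomputable def numBad {α : Type*} (φ : α → ℝ) (lam : ℝ) : List α → ℕ
  | [] => 0
  | a :: l => (if HeadBad φ lam (a :: l) then 1 else 0) + numBad φ lam l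

/-- The rising sun inequality. -/
theorem numBad_mul_le {α : Type*} (φ : α → ℝ) {lam : ℝ} (hlam : 0 ≤ lam) :
    ∀ l : List α, (∀ a ∈ l, 0 ≤ φ a) → lam * numBad φ lam l ≤ (l.map φ).sum := by
  intro l
  induction hn : l.length using Nat.strong_induction_on generalizing l with
  | _ n ih =>
    intro hpos
    cases l with
    | nil => simp [numBad]
    | cons a l =>
      by_cases hb : HeadBad φ lam (a :: l)
      · obtain ⟨k, hk, hlt⟩ := hb
        have hk0 : 0 < k := Nat.pos_of_ne_zero fun h0 => by simp [h0] at hlt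
        have hdrop : ∀ (j : ℕ) (l' : List α),
            numBad φ lam l' ≤ j + numBad φ lam (l'.drop j) := by
          intro j
          induction j with
          | zero => simp
          | succ j ihj =>
            intro l'
            cases l' with
            | nil => simp [numBad]
            | cons b l' =>
              simp only [numBad, List.drop_succ_cons]
              have := ihj l'
              split_ifs <;> omega
        have h1 : (numBad φ lam (a :: l) : ℝ) ≤ k + numBad φ lam ((a :: l).drop k) := by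
          exact_mod_cast hdrop k (a :: l)
        have h2 := ih ((a :: l).drop k).length (by rw [List.length_drop]; omega) _ rfl
          fun b hb => hpos b (List.drop_subset k _ hb)
        have h3 : ((a :: l).map φ).sum
            = (((a :: l).take k).map φ).sum + (((a :: l).drop k).map φ).sum := by
          rw [← List.sum_append, ← List.map_append, List.take_append_drop]
        have h4 := mul_le_mul_of_nonneg_left h1 hlam
        linarith
      · have h2 := ih l.length (by simp [← hn]) l rfl fun b hb => hpos b (by simp [hb])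
        simp only [numBad, if_neg hb, zero_add, List.map_cons, List.sum_cons]
        linarith [hpos a (by simp)]

theorem HeadBad.append {α : Type*} {φ : α → ℝ} {lam : ℝ} {l : List α} (hb : HeadBad φ lam l)
    (r : List α) : HeadBad φ lam (l ++ r) := by
  obtain ⟨k, hk, hlt⟩ := hb
  exact ⟨k, by rw [List.length_append]; omega, by rwa [List.take_append_of_le_length hk]⟩

variable {μ : Measure (Row d)} {h : Site d →+ ℝ}

theorem disp_flatten (ws : List (List (Step d))) :
    h (disp ws.flatten) = (ws.map fun π => h (disp π)).sum := by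
  induction ws with
  | nil => simp
  | cons π ws ih => rw [List.flatten_cons, disp_append, map_add, ih, List.map_cons, List.sum_cons]

variable [IsProbabilityMeasure μ]

omit [IsProbabilityMeasure μ] in
open Classical in
/-- Maximal inequality for the averages of iid block heights. -/
theorem ex_headBad_le (hb : ∑' π, bwgt μ h π = 1) {lam : ℝ} (hlam : 0 < lam) (n : ℕ) :
    ex μ h n (fun ws => if HeadBad (fun π => h (disp π)) lam ws then 1 else 0)
      ≤ 2 * (∑' π, bwgt μ h π * ENNReal.ofReal (h (disp π))) / ENNReal.ofReal lam := by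
  set EH := ∑' π, bwgt μ h π * ENNReal.ofReal (h (disp π)) with hEH
  set φ : List (Step d) → ℝ := fun π => h (disp π) with hφ
  set p := ex μ h n (fun ws => if HeadBad φ lam ws then 1 else 0) with hp
  have hmono : ∀ m, n ≤ m → p ≤ ex μ h m (fun ws => if HeadBad φ lam ws then 1 else 0) := by
    intro m hm
    obtain ⟨r, rfl⟩ := Nat.exists_eq_add_of_le hm
    rw [ex_append]
    refine ex_mono fun u => ?_
    split_ifs with hu
    · refine (ex_const hb r 1).ge.trans (ex_mono fun v => ?_)
      rw [if_pos (hu.append v)]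
    · exact bot_le
  have hsum : ∀ i : ℕ, (i : ℝ≥0∞) * p ≤ ex μ h (n + i) (fun ws => (numBad φ lam ws : ℝ≥0∞)) := by
    intro i
    induction i with
    | zero => simp
    | succ i ih =>
      have hnum : ∀ π ws, (numBad φ lam (π :: ws) : ℝ≥0∞)
          = (if HeadBad φ lam (π :: ws) then 1 else 0) + (numBad φ lam ws : ℝ≥0∞) := fun π ws => by
        simp only [numBad, Nat.cast_add]
        split_ifs <;> simp
      rw [← Nat.add_assoc, ex_succ]
      simp only [hnum, ex_add, mul_add, ENNReal.tsum_add]
      rw [ENNReal.tsum_mul_right, hb, one_mul, Nat.cast_succ, add_one_mul, add_comm]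
      refine add_le_add ?_ ih
      exact (hmono (n + i + 1) (by omega)).trans_eq (ex_succ _ _)
  have hup : ∀ m, ex μ h m (fun ws => (numBad φ lam ws : ℝ≥0∞)) * ENNReal.ofReal lam ≤ m * EH := by
    intro m
    rw [← ex_mul_const, hEH, ← ex_height hb m]
    refine ex_mono_of fun ws _ hws => ?_
    rw [← ENNReal.ofReal_natCast, ← ENNReal.ofReal_mul (by positivity), mul_comm, disp_flatten]
    exact ENNReal.ofReal_le_ofReal (numBad_mul_le φ hlam.le ws fun π hπ => (hws π hπ).pos.le)
  rw [ENNReal.le_div_iff_mul_le (Or.inl (by simpa using hlam)) (Or.inl ENNReal.ofReal_ne_top)]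
  rcases Nat.eq_zero_or_pos n with rfl | hn
  · have : p = 0 := by simp [hp, HeadBad]
    simp [this]
  refine (ENNReal.mul_le_mul_iff_right (a := (n : ℝ≥0∞)) (by simp; omega) (by simp)).1 ?_
  calc (n : ℝ≥0∞) * (p * ENNReal.ofReal lam) = (n : ℝ≥0∞) * p * ENNReal.ofReal lam := by ring
    _ ≤ ((n + n : ℕ) : ℝ≥0∞) * EH := (mul_le_mul' (hsum n) le_rfl).trans (hup _)
    _ = (n : ℝ≥0∞) * (2 * EH) := by push_cast; ring

omit [IsProbabilityMeasure μ] in
open Classical in
theorem exists_small_sites_geometric (hb : ∑' π, bwgt μ h π = 1) (htop : meanSites μ h = ⊤)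
    (A : ℕ) : ∃ q : ℝ≥0∞, q < 1 ∧
      ∀ n : ℕ, ex μ h n (fun ws => if sitesSum ws ≤ n * A then 1 else 0) ≤ q ^ n := by
  obtain ⟨s, hs⟩ : ∃ s : Finset (List (Step d)),
      ((2 * A : ℕ) : ℝ≥0∞) < ∑ π ∈ s, bwgt μ h π * (deps 0 π).card := by
    have : ((2 * A : ℕ) : ℝ≥0∞) < meanSites μ h := htop ▸ (ENNReal.natCast_lt_top _)
    rw [meanSites, ENNReal.tsum_eq_iSup_sum] at this
    exact lt_iSup_iff.1 this
  obtain ⟨M, hM⟩ : ∃ M : ℕ, M = (∑ π ∈ s, (deps 0 π).card) + A + 2 := ⟨_, rfl⟩
  set f : List (Step d) → ℕ := fun π => min (deps 0 π).card M with hf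
  obtain ⟨r, hr⟩ : ∃ r : ℝ, r = 1 - 1 / (M : ℝ) := ⟨_, rfl⟩
  have hM2 : (2 : ℝ) ≤ M := by exact_mod_cast (show 2 ≤ M by omega)
  have hM0 : (0 : ℝ) < M := by linarith
  have hr0 : 0 < r := by
    have : 1 / (M : ℝ) < 1 := by rw [div_lt_one hM0]; linarith
    linarith
  have hr1 : r ≤ 1 := by
    have : 0 ≤ 1 / (M : ℝ) := by positivity
    linarith
  set ρ : ℝ≥0∞ := ∑' π, bwgt μ h π * ENNReal.ofReal (r ^ f π) with hρ
  set S : ℝ≥0∞ := ∑' π, bwgt μ h π * ENNReal.ofReal ((f π : ℝ) / (2 * M)) with hS
  have hbern : ∀ k : ℕ, k ≤ M → r ^ k + (k : ℝ) / (2 * M) ≤ 1 := by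
    intro k
    induction k with
    | zero => simp
    | succ k ih =>
      intro hk
      have h1 := ih (by omega)
      have h2 : (k : ℝ) + 1 ≤ M := by exact_mod_cast hk
      have h3 : r * r ^ k ≤ r * (1 - (k : ℝ) / (2 * M)) :=
        mul_le_mul_of_nonneg_left (by linarith) hr0.le
      have h4 : r * (1 - (k : ℝ) / (2 * M)) + ((k : ℝ) + 1) / (2 * M)
          = 1 - (M - k) / (2 * M ^ 2) := by
        rw [hr]; field_simp; ring
      have h5 : 0 ≤ ((M : ℝ) - k) / (2 * M ^ 2) := div_nonneg (by linarith) (by positivity)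
      rw [pow_succ']
      push_cast
      linarith
  have hρS : ρ + S ≤ 1 := by
    rw [hρ, hS, ← ENNReal.tsum_add, ← hb]
    refine ENNReal.tsum_le_tsum fun π => ?_
    rw [← mul_add, ← ENNReal.ofReal_add (by positivity) (by positivity)]
    exact mul_le_of_le_one_right' (ENNReal.ofReal_le_one.2 (hbern _ (min_le_right _ _)))
  have hSA : ENNReal.ofReal ((A : ℝ) / M) < S := by
    refine lt_of_lt_of_le ?_ (ENNReal.sum_le_tsum s)
    have e1 : ENNReal.ofReal ((A : ℝ) / M)
        = ((2 * A : ℕ) : ℝ≥0∞) * ENNReal.ofReal (1 / (2 * M)) := by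
      rw [← ENNReal.ofReal_natCast, ← ENNReal.ofReal_mul (by positivity)]
      congr 1
      push_cast
      field_simp
    have e2 : ∀ π ∈ s, bwgt μ h π * ENNReal.ofReal ((f π : ℝ) / (2 * M))
        = bwgt μ h π * (deps 0 π).card * ENNReal.ofReal (1 / (2 * M)) := by
      intro π hπ
      have h1 : (deps 0 π).card ≤ ∑ π ∈ s, (deps 0 π).card :=
        single_le_sum (f := fun π => (deps 0 π).card) (fun _ _ => Nat.zero_le _) hπ
      have h2 : f π = (deps 0 π).card := min_eq_left (by omega)
      rw [h2, mul_assoc, ← ENNReal.ofReal_natCast, ← ENNReal.ofReal_mul (by positivity), mul_one_div]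
    rw [sum_congr rfl e2, ← sum_mul, e1]
    exact ENNReal.mul_lt_mul_left (by simp [hM0]) ENNReal.ofReal_ne_top hs
  have hρlt : ρ < ENNReal.ofReal (r ^ A) := by
    have hρtop : ρ ≠ ⊤ := ne_top_of_le_ne_top ENNReal.one_ne_top (le_self_add.trans hρS)
    have h1 := (ENNReal.add_lt_add_left hρtop hSA).trans_le hρS
    have h2 : ρ < 1 - ENNReal.ofReal ((A : ℝ) / M) := lt_tsub_iff_right.2 h1
    refine h2.trans_le ?_
    rw [← ENNReal.ofReal_one, ← ENNReal.ofReal_sub _ (by positivity)]
    refine ENNReal.ofReal_le_ofReal ?_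
    have h3 := one_add_mul_le_pow (a := -(1 / (M : ℝ))) (by
      have : 1 / (M : ℝ) ≤ 1 := by rw [div_le_one hM0]; linarith
      linarith) A
    have h4 : r ^ A = (1 + -(1 / (M : ℝ))) ^ A := by rw [hr]; ring
    rw [h4]
    refine le_trans (le_of_eq ?_) h3
    ring
  set q := ρ / ENNReal.ofReal (r ^ A) with hq
  have hc0 : ENNReal.ofReal (r ^ A) ≠ 0 := by simp [pow_pos hr0]
  have hq1 : q < 1 := by
    rw [hq, ENNReal.div_lt_iff (Or.inl hc0) (Or.inl ENNReal.ofReal_ne_top), one_mul]
    exact hρlt
  have hle : ∀ n : ℕ, ex μ h n (fun ws => if sitesSum ws ≤ n * A then 1 else 0) ≤ q ^ n := by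
    intro n
    have h1 : ex μ h n (fun ws => if sitesSum ws ≤ n * A then 1 else 0)
        * ENNReal.ofReal (r ^ A) ^ n ≤ ρ ^ n := by
      rw [← ex_mul_const, hρ, ← ex_prod]
      refine ex_mono fun ws => ?_
      split_ifs with hle
      · have e1 : (ws.map fun π => ENNReal.ofReal (r ^ f π)).prod
            = ENNReal.ofReal (r ^ (ws.map f).sum) := by
          induction ws with
          | nil => simp
          | cons a ws ih => simp [pow_add, ENNReal.ofReal_mul (pow_nonneg hr0.le _), ih (by
              simp only [sitesSum, List.map_cons, List.sum_cons] at hle ⊢; omega)]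
        have e2 : (ws.map f).sum ≤ A * n := by
          refine le_trans ?_ (hle.trans_eq (mul_comm _ _))
          exact List.sum_le_sum fun π _ => min_le_left _ _
        rw [e1, one_mul, ← ENNReal.ofReal_pow (by positivity), ← pow_mul]
        exact ENNReal.ofReal_le_ofReal (pow_le_pow_of_le_one hr0.le hr1 e2)
      · simp
    rw [hq, ENNReal.div_eq_inv_mul, mul_pow, ← ENNReal.inv_pow, ← ENNReal.div_eq_inv_mul,
      ENNReal.le_div_iff_mul_le (Or.inl (pow_ne_zero _ hc0))
        (Or.inl (ENNReal.pow_ne_top ENNReal.ofReal_ne_top))]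
    exact h1
  exact ⟨q, hq1, hle⟩

/-- Every escaping trajectory outside a null set has a decomposition into `n` blocks. -/
theorem IsAnnealed.noBlocks_null {P : Measure (Traj d)} (hP : IsAnnealed μ P) (hd : P (Esc h) ≠ 0)
    (n : ℕ) : P (Esc h \ ⋃ ws : {ws : List (List (Step d)) | ws.length = n ∧ ∀ π ∈ ws, IsBlock h π},
      blockEvent h ws.1) = 0 := by
  have h1 := hP.measure_le_ex hd n (G := Esc h \ ⋃ ws : {ws : List (List (Step d)) |
      ws.length = n ∧ ∀ π ∈ ws, IsBlock h π}, blockEvent h ws.1) Set.sdiff_subset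
    ((measurableSet_esc h).diff (MeasurableSet.iUnion fun ws => measurableSet_blockEvent _))
    (fun _ => 0) fun ws hl hws t ht =>
      (ht.1.2 (Set.mem_iUnion.2 ⟨⟨ws, hl, hws⟩, ht.2⟩)).elim
  rw [ex_const (hP.tsum_bwgt hd), zero_mul] at h1
  exact le_antisymm h1 bot_le

omit [IsProbabilityMeasure μ] in
theorem blockEvent_take {ws : List (List (Step d))} (hws : ∀ π ∈ ws, IsBlock h π) {t : Traj d}
    (ht : t ∈ blockEvent h ws) (N : ℕ) : t ∈ blockEvent h (ws.take N) := by
  induction ws generalizing t N with
  | nil => simpa using ht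
  | cons π ws ih =>
    cases N with
    | zero =>
      rw [List.take_zero]
      refine ⟨by simp, ?_⟩
      have h0 : shiftT 0 t = t := rfl
      simpa [h0] using blockEvent_subset hws ht
    | succ N =>
      rw [List.take_succ_cons, mem_blockEvent_cons]
      rw [mem_blockEvent_cons] at ht
      exact ⟨ht.1, ih (fun q hq => hws q (by simp [hq])) ht.2 N⟩

theorem IsAnnealed.meanSites_ne_top_freq {μ : Measure (Row d)} [IsProbabilityMeasure μ]
    {P : Measure (Traj d)} {h : Site d →+ ℝ} (hP : IsAnnealed μ P) (hμ : Elliptic μ)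
    (hu : UnitSteps h) {e : Step d} (he : h (vec e) = 1) (hlin : P (LinEscFreq h) ≠ 0) :
    P (Esc h) ≠ 0 ∧ meanSites μ h ≠ ⊤ := by
  classical
  have := hP.1
  have hd : P (Esc h) ≠ 0 :=
    hP.esc_pos fun h0 => hlin (measure_mono_null (fun t ht => ht.1) h0)
  refine ⟨hd, fun htop => hlin ?_⟩
  have hb := hP.tsum_bwgt hd
  set EH := ∑' π, bwgt μ h π * ENNReal.ofReal (h (disp π)) with hEH
  have hEHtop : EH ≠ ⊤ := hP.meanHeight_ne_top hd hu he (by
    rw [bwgt, if_pos (isBlock_singleton (by rw [he]; norm_num))]; exact pw_pos μ hμ _ _)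
  let T : ℕ → Type := fun n =>
    {ws : List (List (Step d)) // ws.length = n ∧ ∀ π ∈ ws, IsBlock h π}
  -- trajectories with frequent linear range
  let G : ℕ → Set (Traj d) := fun J => Esc h ∩
    {t | ∀ N, ∃ n, N ≤ n ∧ ((((range n).image (site t)).card : ℕ) : ℝ) ≤ (J : ℝ) * h (site t n)}
  have hGm : ∀ J, MeasurableSet (G J) := by
    intro J
    refine (measurableSet_esc h).inter ?_
    have hm : ∀ n, Measurable fun t : Traj d =>
        ((((range n).image (site t)).card : ℕ) : ℝ) := by
      intro n
      have heq : (fun t : Traj d => ((((range n).image (site t)).card : ℕ) : ℝ))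
          = (fun v : Fin n → Site d => (((univ.image v).card : ℕ) : ℝ))
            ∘ fun t (i : Fin n) => site t i := by
        funext t
        simp only [Function.comp_apply]
        congr 2
        ext y
        simp only [mem_image, mem_range, mem_univ, true_and]
        exact ⟨fun ⟨k, hk, e⟩ => ⟨⟨k, hk⟩, e⟩, fun ⟨k, e⟩ => ⟨k, k.2, e⟩⟩
      rw [heq]
      exact (measurable_of_countable _).comp (measurable_pi_lambda _ fun i => measurable_site i)
    have : {t : Traj d | ∀ N, ∃ n, N ≤ n ∧
        ((((range n).image (site t)).card : ℕ) : ℝ) ≤ (J : ℝ) * h (site t n)}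
        = ⋂ N, ⋃ n : {n : ℕ // N ≤ n}, {t | ((((range n.1).image (site t)).card : ℕ) : ℝ)
            ≤ (J : ℝ) * h (site t n.1)} := by
      ext t; simp only [Set.mem_ofPred_eq, Set.mem_iInter, Set.mem_iUnion, Subtype.exists,
        exists_prop]
    rw [this]
    exact MeasurableSet.iInter fun N => MeasurableSet.iUnion fun n => measurableSet_le (hm n.1)
      (((measurable_of_countable h).comp (measurable_site n.1)).const_mul _)
  have hG0 : ∀ J, P (G J) = 0 := by
    intro J
    -- the trajectories with some average height above `B` and those with few sites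
    let U : ℕ → ℕ → Set (Traj d) := fun B n => ⋃ (N : ℕ) (_ : N ≤ n) (ws : T N)
      (_ : (B : ℝ) * N < h (disp ws.1.flatten)), blockEvent h ws.1
    let V : ℕ → ℕ → Set (Traj d) := fun A N => ⋃ (ws : T N) (_ : sitesSum ws.1 ≤ N * A),
      blockEvent h ws.1
    have hU : ∀ B : ℕ, 0 < B → P (⋃ n, U B n) ≤ 2 * EH / B := by
      intro B hB
      have hmono : Monotone (U B) := fun a b hab t ht => by
        simp only [U, Set.mem_iUnion] at ht ⊢
        obtain ⟨N, hN, rest⟩ := ht
        exact ⟨N, hN.trans hab, rest⟩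
      rw [hmono.measure_iUnion]
      refine iSup_le fun n => ?_
      have hsub : U B n ⊆ Esc h := Set.iUnion_subset fun N => Set.iUnion_subset fun _ =>
        Set.iUnion_subset fun ws => Set.iUnion_subset fun _ => blockEvent_subset ws.2.2
      have hmeas : MeasurableSet (U B n) := MeasurableSet.iUnion fun N => MeasurableSet.iUnion
        fun _ => MeasurableSet.iUnion fun ws => MeasurableSet.iUnion
          fun _ => measurableSet_blockEvent _
      refine (hP.measure_le_ex hd n hsub hmeas
        (fun ws => if HeadBad (fun π => h (disp π)) (B : ℝ) ws then 1 else 0) ?_).trans ?_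
      · rintro ws hl hws t ⟨ht, htb⟩
        simp only [U, Set.mem_iUnion] at ht
        obtain ⟨N, hN, ⟨vs, hvl, hvs⟩, hbad, htv⟩ := ht
        have heq : vs = ws.take N := blockEvent_unique
          (by rw [hvl, List.length_take, hl, min_eq_left hN]) hvs
          (fun q hq => hws q (List.take_subset _ _ hq)) htv (blockEvent_take hws htb N)
        rw [if_pos]
        refine ⟨N, hl ▸ hN, ?_⟩
        rw [← disp_flatten, ← heq]
        exact hbad
      · calc _ ≤ 2 * EH / ENNReal.ofReal (B : ℝ) * 1 :=
              mul_le_mul' (ex_headBad_le hb (by exact_mod_cast hB) n) prob_le_one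
          _ = _ := by rw [mul_one, ENNReal.ofReal_natCast]
    have hV : ∀ A N, P (V A N)
        ≤ ex μ h N fun ws => if sitesSum ws ≤ N * A then 1 else 0 := by
      intro A N
      have hsub : V A N ⊆ Esc h :=
        Set.iUnion_subset fun ws => Set.iUnion_subset fun _ => blockEvent_subset ws.2.2
      refine ((hP.measure_le_ex hd N hsub (MeasurableSet.iUnion fun ws => MeasurableSet.iUnion
        fun _ => measurableSet_blockEvent _) (fun ws => if sitesSum ws ≤ N * A then 1 else 0)
        ?_).trans (mul_le_of_le_one_right' prob_le_one))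
      rintro ws hl hws t ⟨ht, htb⟩
      simp only [V, Set.mem_iUnion] at ht
      obtain ⟨⟨vs, hvl, hvs⟩, hsmall, htv⟩ := ht
      obtain rfl := blockEvent_unique (hvl.trans hl.symm) hvs hws htv htb
      rw [if_pos hsmall]
    have hbound : ∀ B N₀ : ℕ, 0 < B →
        P (G J) ≤ 2 * EH / B + ∑' k, P (V (2 * (J * B)) (k + N₀)) := by
      intro B N₀ hB
      set Z := ⋃ n, Esc h \ ⋃ ws : {ws : List (List (Step d)) |
        ws.length = n ∧ ∀ π ∈ ws, IsBlock h π}, blockEvent h ws.1 with hZ
      have hZ0 : P Z = 0 := measure_iUnion_null fun n => hP.noBlocks_null hd n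
      refine le_trans (measure_mono (t := Z ∪ ((⋃ n, U B n)
        ∪ ⋃ k, V (2 * (J * B)) (k + N₀))) fun t ht => ?_) ?_
      · obtain ⟨hte, hfreq⟩ := ht
        by_cases htZ : t ∈ Z
        · exact Or.inl htZ
        right
        by_cases hbad : t ∈ ⋃ n, U B n
        · exact Or.inl hbad
        right
        have hdec : ∀ N, ∃ ws : T N, t ∈ blockEvent h ws.1 := fun N => by
          by_contra hno
          refine htZ (Set.mem_iUnion.2 ⟨N, hte, fun hm => hno ?_⟩)
          obtain ⟨ws, hw⟩ := Set.mem_iUnion.1 hm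
          exact ⟨⟨ws.1, ws.2⟩, hw⟩
        choose W hW using hdec
        obtain ⟨n, hn, hle⟩ := hfreq ((W (N₀ + 1)).1.flatten.length)
        have hex : ∃ N, n < (W N).1.flatten.length := ⟨n + 1, by
          have := length_le_flatten_of_blocks (W (n + 1)).2.2
          rw [(W (n + 1)).2.1] at this
          omega⟩
        have hlen : ∀ a b, a ≤ b → (W a).1.flatten.length ≤ (W b).1.flatten.length := by
          intro a b hab
          have heq : (W a).1 = (W b).1.take a := blockEvent_unique
            (by rw [List.length_take, (W a).2.1, (W b).2.1, min_eq_left hab]) (W a).2.2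
            (fun q hq => (W b).2.2 q (List.take_subset _ _ hq)) (hW a)
            (blockEvent_take (W b).2.2 (hW b) a)
          rw [heq]
          conv_rhs => rw [← List.take_append_drop a (W b).1]
          rw [List.flatten_append, List.length_append]
          omega
        set N1 := Nat.find hex with hN1
        have hN1s : n < (W N1).1.flatten.length := Nat.find_spec hex
        have hN1gt : N₀ + 1 < N1 := by
          by_contra! hle'
          have := hlen N1 (N₀ + 1) hle'
          omega
        set N := N1 - 1 with hN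
        have hNn : (W N).1.flatten.length ≤ n := not_lt.1 (Nat.find_min hex (by omega))
        refine Set.mem_iUnion.2 ⟨N - N₀, Set.mem_iUnion₂.2 ?_⟩
        rw [Nat.sub_add_cancel (by omega)]
        refine ⟨W N, ?_, hW N⟩
        -- range from below, height from above
        have hcard : sitesSum (W N).1 ≤ ((range n).image (site t)).card := by
          rw [← card_deps_flatten (W N).2.2, ← image_site_eq_deps (hW N).1]
          exact card_le_card (image_subset_image (range_subset_range.2 hNn))
        have hh : h (site t n) ≤ (B : ℝ) * N1 := by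
          rw [site_of_mem_cyl (hW N1).1 hN1s.le]
          refine (flatten_range (W N1).2.2 hN1s).2.le.trans ?_
          by_contra! hgt
          refine hbad (Set.mem_iUnion.2 ⟨N1, ?_⟩)
          simp only [U, Set.mem_iUnion]
          exact ⟨N1, le_rfl, W N1, hgt, hW N1⟩
        have h1 : (sitesSum (W N).1 : ℝ) ≤ (J : ℝ) * ((B : ℝ) * N1) :=
          (Nat.cast_le.2 hcard).trans (hle.trans (mul_le_mul_of_nonneg_left hh (Nat.cast_nonneg J)))
        have h2 : sitesSum (W N).1 ≤ J * (B * N1) := by exact_mod_cast h1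
        calc sitesSum (W N).1 ≤ J * (B * N1) := h2
          _ ≤ J * (B * (2 * N)) := Nat.mul_le_mul_left _ (Nat.mul_le_mul_left _ (by omega))
          _ = N * (2 * (J * B)) := by ring
      · refine (measure_union_le _ _).trans ?_
        rw [hZ0, zero_add]
        exact (measure_union_le _ _).trans (add_le_add (hU B hB) (measure_iUnion_le _))
    refine le_antisymm (ENNReal.le_of_forall_pos_le_add fun ε hε _ => ?_) bot_le
    rw [zero_add]
    have hε2 : (ε : ℝ≥0∞) / 2 ≠ 0 := by simp [hε.ne']
    obtain ⟨B, hB⟩ := ENNReal.exists_nat_gt (r := 2 * EH / ((ε : ℝ≥0∞) / 2))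
      (ENNReal.div_ne_top (ENNReal.mul_ne_top (by norm_num) hEHtop) hε2)
    have hBpos : 0 < B := by
      rcases Nat.eq_zero_or_pos B with rfl | hpos
      · simp at hB
      · exact hpos
    obtain ⟨q, hq1, hq⟩ := exists_small_sites_geometric hb htop (2 * (J * B))
    have hsum : ∑' k, P (V (2 * (J * B)) k) ≠ ⊤ := by
      refine ne_top_of_le_ne_top ?_ (ENNReal.tsum_le_tsum fun k => (hV _ k).trans (hq k))
      rw [ENNReal.tsum_geometric, ne_eq, ENNReal.inv_eq_top, tsub_eq_zero_iff_le, not_le]
      exact hq1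
    obtain ⟨N₀, hN₀⟩ := ((ENNReal.tendsto_sum_nat_add (fun k => P (V (2 * (J * B)) k)) hsum)
      |>.eventually (eventually_le_nhds (pos_iff_ne_zero.2 hε2))).exists
    refine (hbound B N₀ hBpos).trans ?_
    rw [← ENNReal.add_halves (ε : ℝ≥0∞)]
    refine add_le_add ?_ hN₀
    rw [ENNReal.div_le_iff (by simp; omega) (by simp)]
    exact ((ENNReal.div_lt_iff (Or.inl hε2) (Or.inl (by simp [ENNReal.div_eq_top]))).1 hB).le.trans_eq
      (mul_comm _ _)
  refine measure_mono_null (t := ⋃ (m : ℕ) (v : Fin m → Step d),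
    cyl (List.ofFn v) ∩ shiftT m ⁻¹' ⋃ J, G J) (fun t ht => ?_) ?_
  · obtain ⟨htt, c, hc, hfr⟩ := ht
    obtain ⟨N0, hN0⟩ := eventually_atTop.1 (htt.eventually_ge_atTop (h (site t 0)))
    obtain ⟨m, -, hmin⟩ := (range (N0 + 1)).exists_min_image (fun k => h (site t k)) (by simp)
    have hglob : ∀ k, h (site t m) ≤ h (site t k) := by
      intro k
      rcases lt_or_ge k (N0 + 1) with hk | hk
      · exact hmin k (mem_range.2 hk)
      · exact (hmin 0 (by simp)).trans (hN0 k (by omega))
    have hk : ∀ k, h (site (shiftT m t) k) = h (site t (m + k)) - h (site t m) := by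
      intro k; rw [site_shiftT, map_add]; ring
    obtain ⟨J, hJ⟩ := exists_nat_ge (2 / c)
    refine Set.mem_iUnion₂.2 ⟨m, fun k => t k, mem_cyl_ofFn_self m t,
      Set.mem_iUnion.2 ⟨J, ⟨fun k => ?_, ?_⟩, fun N => ?_⟩⟩
    · rw [hk]; linarith [hglob (m + k)]
    · refine tendsto_atTop.2 fun r => ?_
      obtain ⟨i, hi⟩ := eventually_atTop.1 (htt.eventually_ge_atTop (r + h (site t m)))
      exact eventually_atTop.2 ⟨i, fun k hk' => by rw [hk]; linarith [hi (m + k) (by omega)]⟩
    · obtain ⟨n, hn1, hn2, hn3⟩ := (hfr.and_eventually ((eventually_ge_atTop (m + N)).and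
        (htt.eventually_ge_atTop (2 * |h (site t m)|)))).exists
      refine ⟨n - m, by omega, ?_⟩
      obtain ⟨j, rfl⟩ : ∃ j, n = m + j := ⟨n - m, by omega⟩
      rw [Nat.add_sub_cancel_left]
      have hcard : ((range j).image (site (shiftT m t))).card
          ≤ ((range (m + j)).image (site t)).card := by
        refine card_le_card_of_injOn (fun y => site t m + y) (fun y hy => ?_)
          fun y _ z _ hyz => by simpa using hyz
        simp only [coe_image, coe_range, Set.mem_image, Set.mem_Iio] at hy ⊢
        obtain ⟨k, hk', rfl⟩ := hy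
        exact ⟨m + k, by omega, site_shiftT t m k⟩
      have hcard' : (((range j).image (site (shiftT m t))).card : ℝ)
          ≤ ((range (m + j)).image (site t)).card := by exact_mod_cast hcard
      rw [div_le_iff₀ hc] at hJ
      rw [hk]
      have h3 := mul_le_mul_of_nonneg_left hcard' hc.le
      nlinarith [abs_nonneg (h (site t m)), le_abs_self (h (site t m)),
        Nat.cast_nonneg (α := ℝ) J]
  · refine measure_iUnion_null fun m => measure_iUnion_null fun v => le_antisymm ?_ bot_le
    have h1 := hP.measure_cyl_inter_le (List.ofFn v) _ (MeasurableSet.iUnion hGm)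
    rw [List.length_ofFn] at h1
    exact h1.trans_eq (measure_iUnion_null hG0)

end Vale.Agent.P147
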