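import Mathlib
import Vale.Agent.P147.Ex

/-!
# P147: velocities on one side are deterministic

Conditioned on `Esc h`, the blocks are independent, so events unaffected by forgetting finitely
many steps are trivial on `Esc h`.  Hence at most one velocity `w` has `0 < l ⬝ w`.
-/

namespace Vale.Agent.P147

open MeasureTheory Finset Filter
open scoped ENNReal Topology

variable {d : ℕ}

/-- The trajectory has limiting velocity `v`. -/
def Vel (v : Fin d → ℝ) : Set (Traj d) :=
  {t | ∀ i, Tendsto (fun n : ℕ => (site t n i : ℝ) / n) atTop (𝓝 (v i))}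

/-- The coordinate `i` eventually grows faster than `q n`. -/
def Faster (i : Fin d) (q : ℚ) : Set (Traj d) :=
  {t | ∃ r : ℚ, q < r ∧ ∀ᶠ k : ℕ in atTop, (r : ℝ) * k ≤ (site t k i : ℝ)}

theorem measurableSet_faster (i : Fin d) (q : ℚ) : MeasurableSet (Faster (d := d) i q) := by
  have : Faster (d := d) i q = ⋃ r : {r : ℚ // q < r}, ⋃ n, ⋂ k : {k : ℕ // n ≤ k},
      {t | (r.1 : ℝ) * k.1 ≤ (site t k.1 i : ℝ)} := by
    ext t
    simp [Faster]
  rw [this]
  refine MeasurableSet.iUnion fun r => MeasurableSet.iUnion fun n => MeasurableSet.iInter fun k =>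
    measurableSet_le measurable_const ?_
  exact (measurable_of_countable fun x : Site d => (x i : ℝ)).comp (measurable_site k.1)

theorem site_shiftT_apply (t : Traj d) (n k : ℕ) (i : Fin d) :
    (site t (n + k) i : ℝ) = (site t n i : ℝ) + (site (shiftT n t) k i : ℝ) := by
  rw [site_shiftT, Pi.add_apply, Int.cast_add]

theorem shiftT_mem_faster_iff (i : Fin d) (q : ℚ) (n : ℕ) (t : Traj d) :
    shiftT n t ∈ Faster i q ↔ t ∈ Faster i q := by
  constructor
  · rintro ⟨r, hr, hev⟩
    refine ⟨(q + r) / 2, by linarith, ?_⟩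
    have hlt : ((((q + r) / 2 : ℚ)) : ℝ) < r := by exact_mod_cast (by linarith : (q + r) / 2 < r)
    obtain ⟨N, hN⟩ := eventually_atTop.1 hev
    obtain ⟨M, hM⟩ := exists_nat_ge
      (((((q + r) / 2 : ℚ)) * (n : ℝ) - site t n i) / (r - (((q + r) / 2 : ℚ)) : ℝ))
    refine eventually_atTop.2 ⟨n + N + M, fun m hm => ?_⟩
    obtain ⟨k, rfl⟩ : ∃ k, m = n + k := ⟨m - n, by omega⟩
    rw [div_le_iff₀ (by linarith)] at hM
    rw [site_shiftT_apply]
    have h1 := hN k (by omega)
    have h2 : (M : ℝ) ≤ k := by exact_mod_cast (by omega : M ≤ k)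
    have h3 := mul_le_mul_of_nonneg_left h2
      (by linarith : (0 : ℝ) ≤ r - (((q + r) / 2 : ℚ)))
    push_cast at *
    nlinarith
  · rintro ⟨r, hr, hev⟩
    refine ⟨(q + r) / 2, by linarith, ?_⟩
    have hlt : ((((q + r) / 2 : ℚ)) : ℝ) < r := by exact_mod_cast (by linarith : (q + r) / 2 < r)
    obtain ⟨N, hN⟩ := eventually_atTop.1 hev
    obtain ⟨M, hM⟩ := exists_nat_ge
      (((site t n i : ℝ) - r * n) / (r - (((q + r) / 2 : ℚ)) : ℝ))
    refine eventually_atTop.2 ⟨N + M, fun k hk => ?_⟩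
    rw [div_le_iff₀ (by linarith)] at hM
    have h1 := hN (n + k) (by omega)
    rw [site_shiftT_apply] at h1
    have h2 : (M : ℝ) ≤ k := by exact_mod_cast (by omega : M ≤ k)
    have h3 := mul_le_mul_of_nonneg_left h2
      (by linarith : (0 : ℝ) ≤ r - (((q + r) / 2 : ℚ)))
    push_cast at *
    nlinarith

theorem mem_faster_iff {t : Traj d} {v : Fin d → ℝ} (ht : t ∈ Vel v) (i : Fin d) (q : ℚ) :
    t ∈ Faster i q ↔ (q : ℝ) < v i := by
  constructor
  · rintro ⟨r, hr, hev⟩
    refine lt_of_lt_of_le (by exact_mod_cast hr : (q : ℝ) < r) (ge_of_tendsto (ht i) ?_)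
    filter_upwards [hev, eventually_gt_atTop 0] with k hk hk0
    rwa [le_div_iff₀ (by exact_mod_cast hk0)]
  · intro hq
    obtain ⟨r, hr1, hr2⟩ := exists_rat_btwn hq
    refine ⟨r, by exact_mod_cast hr1, ?_⟩
    filter_upwards [(ht i).eventually (eventually_ge_nhds hr2), eventually_gt_atTop 0] with k hk hk0
    rwa [le_div_iff₀ (by exact_mod_cast hk0)] at hk

theorem shiftT_mem_vel {t : Traj d} {v : Fin d → ℝ} (ht : t ∈ Vel v) (n : ℕ) :
    shiftT n t ∈ Vel v := by
  intro i
  have h1 : Tendsto (fun k : ℕ => (site t (n + k) i : ℝ) / ((n + k : ℕ) : ℝ)) atTop (𝓝 (v i)) := by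
    exact ((ht i).comp (tendsto_add_atTop_nat n)).congr fun k => by
      simp [add_comm n]
  have h2 : Tendsto (fun k : ℕ => (1 : ℝ) + n / (k : ℝ)) atTop (𝓝 1) := by
    simpa using (tendsto_const_div_atTop_nhds_zero_nat (n : ℝ)).const_add 1
  have h3 := (h1.mul h2).sub (tendsto_const_div_atTop_nhds_zero_nat (site t n i : ℝ))
  simp only [mul_one, sub_zero] at h3
  refine h3.congr' ?_
  filter_upwards [eventually_gt_atTop 0] with k hk
  have hk' : (0 : ℝ) < k := by exact_mod_cast hk
  rw [site_shiftT_apply]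
  push_cast
  field_simp
  ring

theorem tendsto_height_div {t : Traj d} {v : Fin d → ℝ} (l : Fin d → ℝ) (ht : t ∈ Vel v) :
    Tendsto (fun k : ℕ => height l (site t k) / k) atTop (𝓝 (∑ i, l i * v i)) := by
  refine (tendsto_finsetSum _ fun i _ => (ht i).const_mul (l i)).congr fun k => ?_
  simp only [height, AddMonoidHom.coe_mk, ZeroHom.coe_mk, sum_div, mul_div_assoc]

theorem tendsto_height_of_vel {t : Traj d} {v : Fin d → ℝ} (l : Fin d → ℝ) (ht : t ∈ Vel v)
    (hv : 0 < ∑ i, l i * v i) : Tendsto (fun k => height l (site t k)) atTop atTop := by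
  refine ((tendsto_height_div l ht).pos_mul_atTop hv tendsto_natCast_atTop_atTop).congr' ?_
  filter_upwards [eventually_gt_atTop 0] with k hk
  have hk' : (0 : ℝ) < k := by exact_mod_cast hk
  field_simp

variable {h : Site d →+ ℝ}

theorem length_le_flatten' {ws : List (List (Step d))} (hws : ∀ π ∈ ws, IsBlock h π) :
    ws.length ≤ ws.flatten.length := by
  induction ws with
  | nil => simp
  | cons π ws ih =>
    rw [List.flatten_cons, List.length_append, List.length_cons]
    have := ih fun q hq => hws q (by simp [hq])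
    have := List.length_pos_iff.2 (hws π (by simp)).1
    omega

/-- After its last minimum an escaping trajectory is in `Esc`. -/
theorem exists_shiftT_mem_esc {t : Traj d}
    (ht : Tendsto (fun k => h (site t k)) atTop atTop) : ∃ n, shiftT n t ∈ Esc h := by
  obtain ⟨N, hN⟩ := eventually_atTop.1 (ht.eventually_ge_atTop (h (site t 0)))
  obtain ⟨n, hn, hmin⟩ := (range (N + 1)).exists_min_image (fun k => h (site t k)) (by simp)
  have hglob : ∀ k, h (site t n) ≤ h (site t k) := by
    intro k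
    rcases lt_or_ge k (N + 1) with hk | hk
    · exact hmin k (mem_range.2 hk)
    · exact (hmin 0 (by simp)).trans (hN k (by omega))
  have hk : ∀ k, h (site (shiftT n t) k) = h (site t (n + k)) - h (site t n) := by
    intro k; rw [site_shiftT, map_add]; ring
  refine ⟨n, fun k => ?_, tendsto_atTop.2 fun r => ?_⟩
  · rw [hk]; linarith [hglob (n + k)]
  · obtain ⟨m, hm⟩ := eventually_atTop.1 (ht.eventually_ge_atTop (r + h (site t n)))
    refine eventually_atTop.2 ⟨m, fun k hk' => ?_⟩
    rw [hk]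
    linarith [hm (n + k) (by omega)]

variable {μ : Measure (Row d)} [IsProbabilityMeasure μ] {P : Measure (Traj d)}

theorem IsAnnealed.measure_shift_null (hP : IsAnnealed μ P) {B : Set (Traj d)}
    (hB : MeasurableSet B) (h0 : P B = 0) : P {t | ∃ n, shiftT n t ∈ B} = 0 := by
  refine measure_mono_null (t := ⋃ (n : ℕ) (f : Fin n → Step d),
    cyl (List.ofFn f) ∩ shiftT n ⁻¹' B) (fun t ⟨n, hn⟩ => ?_) ?_
  · exact Set.mem_iUnion₂.2 ⟨n, fun k => t k, mem_cyl_ofFn_self n t, hn⟩
  · refine measure_iUnion_null fun n => measure_iUnion_null fun f => ?_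
    have := hP.measure_cyl_inter_le (List.ofFn f) B hB
    simp only [List.length_ofFn, h0, nonpos_iff_eq_zero] at this
    exact this

/-- An event that forgets finitely many steps is trivial on `Esc h`. -/
theorem IsAnnealed.esc_zero_one (hP : IsAnnealed μ P) (hd : P (Esc h) ≠ 0) {G : Set (Traj d)}
    (hG : MeasurableSet G) (hinv : ∀ n t, shiftT n t ∈ G ↔ t ∈ G) :
    P (Esc h ∩ G) = 0 ∨ P (Esc h \ G) = 0 := by
  have : IsProbabilityMeasure P := hP.1
  have hE := measurableSet_esc h
  have key : ∀ π : List (Step d),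
      P (Esc h) * P (cyl π ∩ (Esc h ∩ G)) = P (Esc h ∩ G) * P (cyl π ∩ Esc h) := by
    intro π
    rw [hP.measure_eq_ex hd π.length (G := cyl π ∩ (Esc h ∩ G))
        (fun t ht => ht.2.1) ((measurableSet_cyl π).inter (hE.inter hG)),
      hP.measure_eq_ex hd π.length (G := cyl π ∩ Esc h)
        (fun t ht => ht.2) ((measurableSet_cyl π).inter hE),
      ← ENNReal.tsum_mul_left, ← ENNReal.tsum_mul_left]
    refine tsum_congr fun ⟨ws, hl, hws⟩ => ?_
    by_cases hne : (cyl π ∩ blockEvent h ws).Nonempty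
    · obtain ⟨s, hs, hsb⟩ := hne
      have hlen : π.length ≤ ws.flatten.length := hl ▸ length_le_flatten' hws
      have hsub : blockEvent h ws ⊆ cyl π := fun t ht => mem_cyl.2 fun k hk => by
        rw [(mem_cyl.1 ht.1) k (by omega), ← (mem_cyl.1 hsb.1) k (by omega)]
        exact (mem_cyl.1 hs) k hk
      have e1 : cyl π ∩ (Esc h ∩ G) ∩ blockEvent h ws
          = cyl ws.flatten ∩ shiftT ws.flatten.length ⁻¹' (Esc h ∩ G) := by
        ext t
        refine ⟨fun ⟨⟨_, _, hg⟩, hc, hs⟩ => ⟨hc, hs, (hinv _ t).2 hg⟩,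
          fun ⟨hc, hs, hg⟩ => ?_⟩
        exact ⟨⟨hsub ⟨hc, hs⟩, blockEvent_subset hws ⟨hc, hs⟩, (hinv _ t).1 hg⟩, hc, hs⟩
      have e2 : cyl π ∩ Esc h ∩ blockEvent h ws = blockEvent h ws :=
        Set.inter_eq_right.2 fun t ht => ⟨hsub ht, blockEvent_subset hws ht⟩
      rw [e1, e2, hP.measure_flatten_inter hws hG, hP.measure_blockEvent hws]
      ring
    · have e0 : ∀ X : Set (Traj d), X ⊆ cyl π → X ∩ blockEvent h ws = ∅ := fun X hX =>
        Set.eq_empty_iff_forall_notMem.2 fun t ht => hne ⟨t, hX ht.1, ht.2⟩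
      simp [e0 _ Set.inter_subset_left]
  have : IsFiniteMeasure (P (Esc h) • P.restrict (Esc h ∩ G)) :=
    Measure.smul_finite _ (measure_ne_top _ _)
  have : IsFiniteMeasure (P (Esc h ∩ G) • P.restrict (Esc h)) :=
    Measure.smul_finite _ (measure_ne_top _ _)
  have heq : P (Esc h) • P.restrict (Esc h ∩ G) = P (Esc h ∩ G) • P.restrict (Esc h) := by
    refine le_antisymm (measure_le_of_cyl fun π => ?_) (measure_le_of_cyl fun π => ?_) <;>
      simp only [Measure.smul_apply, smul_eq_mul, Measure.restrict_apply (measurableSet_cyl π),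
        key, le_refl]
  have hz := congrArg (fun m : Measure (Traj d) => m Gᶜ) heq
  simp only [Measure.smul_apply, smul_eq_mul, Measure.restrict_apply hG.compl] at hz
  have hempty : Gᶜ ∩ (Esc h ∩ G) = ∅ :=
    Set.eq_empty_iff_forall_notMem.2 fun t ht => ht.1 ht.2.2
  rw [hempty, measure_empty, mul_zero, Set.inter_comm Gᶜ, ← Set.sdiff_eq] at hz
  exact mul_eq_zero.1 hz.symm

/-- Almost surely there is at most one velocity with positive `l`-component. -/
theorem IsAnnealed.velocity_unique_pos (hP : IsAnnealed μ P) (l : Fin d → ℝ) :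
    ∃ v, ∀ᵐ t ∂P, ∀ w, t ∈ Vel w → 0 < ∑ i, l i * w i → w = v := by
  classical
  by_cases hd : P (Esc (height l)) = 0
  · refine ⟨0, ?_⟩
    rw [ae_iff]
    refine measure_mono_null (fun t ht => ?_) (hP.measure_shift_null (measurableSet_esc _) hd)
    simp only [Set.mem_setOf_eq, not_forall] at ht
    obtain ⟨w, hw, hpos, -⟩ := ht
    exact exists_shiftT_mem_esc (tendsto_height_of_vel l hw hpos)
  let Bad : Set (Traj d) := ⋃ iq : Fin d × ℚ,
    if P (Esc (height l) ∩ Faster iq.1 iq.2) = 0 then Esc (height l) ∩ Faster iq.1 iq.2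
      else Esc (height l) \ Faster iq.1 iq.2
  have hBm : MeasurableSet Bad := by
    refine MeasurableSet.iUnion fun iq => ?_
    split_ifs
    · exact (measurableSet_esc _).inter (measurableSet_faster _ _)
    · exact MeasurableSet.diff (measurableSet_esc _) (measurableSet_faster _ _)
  have hB0 : P Bad = 0 := by
    refine measure_iUnion_null fun iq => ?_
    split_ifs with hc
    · exact hc
    · exact (hP.esc_zero_one hd (measurableSet_faster _ _)
        (fun n t => shiftT_mem_faster_iff iq.1 iq.2 n t)).resolve_left hc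
  have hN := hP.measure_shift_null hBm hB0
  have hsame : ∀ t₁ t₂ : Traj d, ∀ w₁ w₂, t₁ ∈ Vel w₁ → 0 < ∑ i, l i * w₁ i →
      t₂ ∈ Vel w₂ → 0 < ∑ i, l i * w₂ i → (∀ n, shiftT n t₁ ∉ Bad) → (∀ n, shiftT n t₂ ∉ Bad) →
      w₁ = w₂ := by
    intro t₁ t₂ w₁ w₂ h1 p1 h2 p2 g1 g2
    obtain ⟨n₁, e1⟩ := exists_shiftT_mem_esc (tendsto_height_of_vel l h1 p1)
    obtain ⟨n₂, e2⟩ := exists_shiftT_mem_esc (tendsto_height_of_vel l h2 p2)
    funext i
    have hiff : ∀ q : ℚ, (q : ℝ) < w₁ i ↔ (q : ℝ) < w₂ i := by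
      intro q
      rw [← mem_faster_iff (shiftT_mem_vel h1 n₁) i q, ← mem_faster_iff (shiftT_mem_vel h2 n₂) i q]
      have a1 := g1 n₁
      have a2 := g2 n₂
      simp only [Bad, Set.mem_iUnion, not_exists] at a1 a2
      have b1 := a1 (i, q)
      have b2 := a2 (i, q)
      split_ifs at b1 b2 <;> simp_all
    by_contra hne
    rcases lt_or_gt_of_ne hne with hlt | hlt <;> obtain ⟨q, hq1, hq2⟩ := exists_rat_btwn hlt
    · exact absurd ((hiff q).2 hq2) (not_lt.2 hq1.le)
    · exact absurd ((hiff q).1 hq2) (not_lt.2 hq1.le)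
  by_cases hex : ∃ t w, (∀ n, shiftT n t ∉ Bad) ∧ t ∈ Vel w ∧ 0 < ∑ i, l i * w i
  · obtain ⟨t₀, v, g0, hv, hvp⟩ := hex
    refine ⟨v, ?_⟩
    rw [ae_iff]
    refine measure_mono_null (fun t ht => ?_) hN
    simp only [Set.mem_setOf_eq, not_forall] at ht
    obtain ⟨w, hw, hwp, hne⟩ := ht
    by_contra hgood
    simp only [Set.mem_setOf_eq, not_exists] at hgood
    exact hne (hsame t t₀ w v hw hwp hv hvp hgood g0)
  · refine ⟨0, ?_⟩
    rw [ae_iff]
    refine measure_mono_null (fun t ht => ?_) hN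
    simp only [Set.mem_setOf_eq, not_forall] at ht
    obtain ⟨w, hw, hwp, -⟩ := ht
    by_contra hgood
    simp only [Set.mem_setOf_eq, not_exists] at hgood
    exact hex ⟨t, w, hgood, hw, hwp⟩

end Vale.Agent.P147
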