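import Mathlib
import Vale.Agent.P147.WindowBound
import Vale.Agent.P147.FinalArg
import Vale.Agent.P147.Base
import Vale.Agent.P147.Atoms
import Vale.Agent.P147.Recursion
import Vale.Agent.P147.Confine
import Vale.Agent.P147.MomentsFreq
import Vale.Agent.P147.Velocity

/-!
# P147: linear range on one side forces escape to that side

`ChainBounds` collects the three facts on candidate chains proved in `Bins` and `PhiSq`.
-/

namespace Vale.Agent.P147

open MeasureTheory Finset Filter
open scoped ENNReal Topology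

variable {d : ℕ}

/-- The facts on candidate chains used by the window bound. -/
def ChainBounds (S : Setup d) : Prop :=
  (∃ C : ℝ≥0∞, C ≠ ⊤ ∧ ∀ R : ℝ, ∑' ws : Bin S.h R, pw S.μ 0 ws.1.flatten ≤ C) ∧
  (∃ C : ℝ≥0∞, C ≠ ⊤ ∧ ∀ R : ℝ, 0 ≤ R → ∀ M J K : ℕ, 0 < M → 0 < J → 0 < K →
    ∑' ws : Bin S.h R, @ite _ (ws.1 ∈ Cand S.h R M J) (Classical.dec _) 0 (pw S.μ 0 ws.1.flatten)
      ≤ C * (ENNReal.ofReal (R + 1) / M + 1 / K + K / J)) ∧
  (∃ C : ℝ≥0∞, C ≠ ⊤ ∧
    ∀ (R : ℝ) (M J : ℕ) (κ : Site d → ℝ≥0∞) (A : ℝ≥0∞) (s w : ℝ), 0 ≤ R → 0 ≤ w →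
      ∑' x, κ x ≤ 1 → (∀ x, κ x ≤ A) → (∀ x, κ x ≠ 0 → s ≤ S.h x ∧ S.h x ≤ s + w) →
      ∫⁻ ω, phi S.h R M J κ ω ^ 2 ∂envLaw S.μ
        ≤ C * ((J : ℝ≥0∞) ^ 2 + J * A * M * ENNReal.ofReal (w + 1)))

theorem Setup.false_of_chainBounds (S : Setup d) (hB : ChainBounds S) : False := by
  classical
  have hne : NeZero d := ⟨by have := S.three; omega⟩
  obtain ⟨⟨Cb, hCb, hbin⟩, ⟨Ct, hCt, htrim⟩, ⟨Cp, hCp, hphi⟩⟩ := hB
  obtain ⟨c, C, hc, hC, hmid⟩ := S.middle_span
  let ε : ℕ → ℝ≥0∞ := fun m =>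
    ⨆ (z : Site d) (_ : -(c * m / 2) ≤ S.h z) (_ : S.h z < 0),
      ex S.μ S.h (2 * m) (fun V => ex S.μ S.h m fun M =>
        S.P (Esc (-S.h) ∩ Hits z (deps (-disp (V ++ M).flatten) V.flatten)))
  have hε : Tendsto ε atTop (𝓝 0) := by
    refine ENNReal.tendsto_nhds_zero.2 fun η hη => ?_
    filter_upwards [S.window_bound hCb hbin hCt htrim hCp hphi hc hC
      (fun n hn => by convert hmid n hn using 5) (η := η) hη.ne'] with m hm
    exact iSup_le fun z => iSup_le fun h1 => iSup_le fun h2 => hm z h1 h2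
  have hε' : ∀ᶠ m in atTop, ε m / S.P (Esc (-S.h)) ≤ ENNReal.ofReal (19 / 120) := by
    have h0 := ENNReal.Tendsto.div_const hε (Or.inr S.escM)
    rw [ENNReal.zero_div] at h0
    exact h0.eventually (eventually_le_nhds (by simp))
  refine S.false_of (c := c / 2) (by linarith) hε' hC
    (K := (S.meanH + 1) * (bwgt S.μ (-S.h) [S.e₁])⁻¹)
    (ENNReal.mul_ne_top (ENNReal.add_ne_top.2
      ⟨S.meanH_ne_top, ENNReal.one_ne_top⟩)
      (ENNReal.inv_ne_top.2 S.bwgt_e₁_ne_zero)) S.base ?_
  obtain ⟨N, hN⟩ := exists_nat_gt (2 / c)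
  filter_upwards [eventually_ge_atTop N, eventually_gt_atTop 0] with m hm hm0 D hD hD1
  have hm' : (2 : ℝ) / c < m := lt_of_lt_of_le hN (by exact_mod_cast hm)
  rw [div_lt_iff₀ hc] at hm'
  have ha : c / 2 * (m : ℝ) = c * m / 2 := by ring
  rw [ha]
  refine S.recursion_core D hD m (c * m / 2) (ε m) (C / m) (fun z hz1 hz2 => ?_) ?_
  · rw [min_eq_left (by linarith)] at hz1
    exact le_iSup_of_le z (le_iSup_of_le hz1 (le_iSup_of_le hz2 le_rfl))
  · refine le_trans (ex_mono fun M => ?_) (hmid m hm0)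
    have hcm : (0 : ℝ) ≤ c * m := by positivity
    split_ifs <;> first | exact le_rfl | exact zero_le_one | linarith

/-- Reflecting the height. -/
theorem up_inter_up_neg (h : Site d →+ ℝ) : Up h ∩ Up (-h) = ∅ := by
  refine Set.eq_empty_iff_forall_notMem.2 fun t ⟨h1, h2⟩ => ?_
  obtain ⟨k, hk1, hk2⟩ := ((Filter.Tendsto.eventually_ge_atTop h1 1).and
    (Filter.Tendsto.eventually_ge_atTop h2 1)).exists
  rw [AddMonoidHom.neg_apply] at hk2
  linarith

variable {μ : Measure (Row d)} [IsProbabilityMeasure μ] {P : Measure (Traj d)}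

/-- A linear range on the side `+` forces escape to that side, for a normalised height. -/
theorem IsAnnealed.up_eq_one_of_chainBounds (hP : IsAnnealed μ P) (hμ : Elliptic μ) (hd : 3 ≤ d)
    (hCB : ∀ S : Setup d, meanSites S.μ S.h ≠ ⊤ → ChainBounds S) {h : Site d →+ ℝ} (hu : UnitSteps h) {e : Step d}
    (he : h (vec e) = 1) (hlin : P (LinEscFreq h) ≠ 0) : P (Up h) = 1 := by
  have := hP.1
  have : NeZero d := ⟨by omega⟩
  obtain ⟨hplus, hsites⟩ := hP.meanSites_ne_top_freq hμ hu he hlin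
  have hminus : P (Esc (-h)) = 0 := by
    by_contra hne
    let S : Setup d :=
      { μ := μ, prob := inferInstance, ell := hμ, P := P, ann := hP, h := h, three := hd,
        unit := hu, e₀ := e, he₀ := he, escP := hplus, escM := hne }
    exact S.false_of_chainBounds (hCB S hsites)
  have hdown : P (Up (-h)) = 0 :=
    measure_mono_null (fun t ht => exists_shiftT_mem_esc ht)
      (hP.measure_shift_null (measurableSet_esc _) hminus)
  have hosc : P (⋂ r : ℕ, Reach h r \ Up h) = 0 := by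
    refine le_antisymm ?_ bot_le
    exact ge_of_tendsto (hP.reach_not_up hplus)
      (Eventually.of_forall fun r => measure_mono (Set.iInter_subset _ r))
  have hconf := hP.confined_null hμ he
  have hcompl : P (Up h)ᶜ = 0 := by
    refine measure_mono_null (fun t ht => ?_)
      (measure_union_null (measure_union_null hconf hdown) hosc)
    by_cases hb : BddAbove (Set.range fun k => h (site t k))
    · by_cases hup : t ∈ Up (-h)
      · exact .inl (.inr hup)
      · exact .inl (.inl ⟨hb, hup⟩)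
    · refine .inr (Set.mem_iInter.2 fun r => ⟨?_, ht⟩)
      rw [not_bddAbove_iff] at hb
      obtain ⟨_, ⟨k, rfl⟩, hk⟩ := hb (r : ℝ)
      exact ⟨k, hk.le⟩
  rwa [prob_compl_eq_zero_iff (measurableSet_up h)] at hcompl

/-- The same for every nonzero linear functional. -/
theorem IsAnnealed.up_height_eq_one_of_chainBounds (hP : IsAnnealed μ P) (hμ : Elliptic μ)
    (hd : 3 ≤ d) (hCB : ∀ S : Setup d, meanSites S.μ S.h ≠ ⊤ → ChainBounds S) {l : Fin d → ℝ} (hl : l ≠ 0)
    (hlin : P (LinEscFreq (height l)) ≠ 0) : P (Up (height l)) = 1 := by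
  obtain ⟨i₁, hi₁⟩ := Function.ne_iff.1 hl
  obtain ⟨i, -, hmax⟩ := (univ : Finset (Fin d)).exists_max_image (fun i => |l i|)
    ⟨i₁, mem_univ _⟩
  have hM : 0 < |l i| := lt_of_lt_of_le (abs_pos.2 hi₁) (hmax i₁ (mem_univ _))
  set l' : Fin d → ℝ := fun j => l j / |l i| with hl'
  have hscale : ∀ x : Site d, height l' x = height l x / |l i| := fun x => by
    simp only [height, AddMonoidHom.coe_mk, ZeroHom.coe_mk, sum_div, hl', div_mul_eq_mul_div]
  have hvec : ∀ (m : Fin d → ℝ) (e : Step d),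
      height m (vec e) = m e.1 * (if e.2 then 1 else -1) := by
    intro m e
    rcases e with ⟨j, _ | _⟩ <;> simp [height, vec, Pi.single_apply]
  have hu : UnitSteps (height l') := fun e => by
    rw [hvec, abs_mul, hl']
    have h1 : abs (l e.1 / abs (l i)) ≤ 1 := by
      rw [abs_div, abs_abs, div_le_one hM]; exact hmax _ (mem_univ _)
    cases e.2 <;> simpa using h1
  have he : height l' (vec ((i, decide (0 ≤ l i)) : Step d)) = 1 := by
    rw [hvec, hl']
    by_cases h0 : 0 ≤ l i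
    · rw [decide_eq_true h0, abs_of_nonneg h0] at *
      simp [div_self (ne_of_gt hM)]
    · rw [decide_eq_false h0]
      rw [abs_of_neg (not_le.1 h0)] at hM ⊢
      simp [div_neg, div_self (ne_of_lt (not_le.1 h0))]
  have hlin' : LinEscFreq (height l) ⊆ LinEscFreq (height l') := by
    rintro t ⟨h1, c, hc, h2⟩
    refine ⟨?_, c / |l i|, div_pos hc hM, ?_⟩
    · simp only [hscale]; exact h1.atTop_div_const hM
    · refine h2.mono fun n hn => ?_
      rw [hscale, div_mul_eq_mul_div]
      exact div_le_div_of_nonneg_right hn hM.le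
  have hup : Up (height l') = Up (height l) := by
    ext t
    simp only [Up, Set.mem_setOf_eq, hscale]
    exact Filter.tendsto_div_const_atTop_of_pos hM
  rw [← hup]
  exact hP.up_eq_one_of_chainBounds hμ hd hCB hu he fun h0 =>
    hlin (measure_mono_null hlin' h0)

/-- A velocity gives linear range. -/
theorem vel_subset_linEsc (l v : Fin d → ℝ) (hv : 0 < ∑ i, l i * v i) :
    Vel v ⊆ LinEsc (height l) := by
  intro t ht
  refine ⟨tendsto_height_of_vel l ht hv, (∑ i, l i * v i) / 2, by linarith, ?_⟩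
  filter_upwards [(tendsto_height_div l ht).eventually
    (eventually_ge_nhds (show (∑ i, l i * v i) / 2 < ∑ i, l i * v i by linarith)),
    eventually_gt_atTop 0] with n hn hn0
  rw [le_div_iff₀ (by exact_mod_cast hn0)] at hn
  refine le_trans ?_ hn
  refine mul_le_mul_of_nonneg_left ?_ (by linarith)
  exact_mod_cast card_image_le.trans_eq (card_range n)

theorem sum_mul_self_pos {v : Fin d → ℝ} (hv : v ≠ 0) : 0 < ∑ i, v i * v i := by
  obtain ⟨i, hi⟩ := Function.ne_iff.1 hv
  exact sum_pos' (fun j _ => mul_self_nonneg _) ⟨i, mem_univ _, mul_self_pos.2 hi⟩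

/-- Two nonzero velocities of positive probability are equal. -/
theorem IsAnnealed.velocity_eq_of_chainBounds (hP : IsAnnealed μ P) (hμ : Elliptic μ) (hd : 3 ≤ d)
    (hCB : ∀ S : Setup d, meanSites S.μ S.h ≠ ⊤ → ChainBounds S) {v w : Fin d → ℝ} (hv : v ≠ 0) (hw : w ≠ 0)
    (hPv : P (Vel v) ≠ 0) (hPw : P (Vel w) ≠ 0) : v = w := by
  have := hP.1
  rcases lt_or_ge 0 (∑ i, v i * w i) with hs | hs
  · obtain ⟨u, hu⟩ := hP.velocity_unique_pos v
    have hget : ∀ x, P (Vel x) ≠ 0 → 0 < ∑ i, v i * x i → x = u := fun x hx hpos => by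
      by_contra hne
      refine hx (measure_mono_null ?_ (ae_iff.1 hu))
      exact fun t ht hgood => hne (hgood x ht hpos)
    rw [hget v hPv (sum_mul_self_pos hv), hget w hPw hs]
  · set l : Fin d → ℝ := fun i => v i - w i with hl
    have h1 : 0 < ∑ i, l i * v i := by
      have : ∑ i, l i * v i = (∑ i, v i * v i) - ∑ i, v i * w i := by
        rw [← sum_sub_distrib]; exact sum_congr rfl fun i _ => by simp only [hl]; ring
      rw [this]; linarith [sum_mul_self_pos hv]
    have h2 : 0 < ∑ i, (-l) i * w i := by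
      have : ∑ i, (-l) i * w i = (∑ i, w i * w i) - ∑ i, v i * w i := by
        rw [← sum_sub_distrib]
        exact sum_congr rfl fun i _ => by simp only [hl, Pi.neg_apply]; ring
      rw [this]; linarith [sum_mul_self_pos hw]
    have hl0 : l ≠ 0 := fun h0 => by simp [h0] at h1
    have hup := hP.up_height_eq_one_of_chainBounds hμ hd hCB hl0
      fun h0 => hPv (measure_mono_null
        ((vel_subset_linEsc l v h1).trans (linEsc_subset_freq _)) h0)
    have hneg : Vel w ⊆ (Up (height l))ᶜ := by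
      intro t ht hmem
      have h3 : t ∈ Up (height (-l)) := tendsto_height_of_vel (-l) ht h2
      have hh : height (-l) = -height l := by ext x; simp [height, sum_neg_distrib]
      rw [hh] at h3
      exact (Set.eq_empty_iff_forall_notMem.1 (up_inter_up_neg (height l))) t ⟨hmem, h3⟩
    exact absurd (measure_mono_null hneg
      ((prob_compl_eq_zero_iff (measurableSet_up _)).2 hup)) hPw

/-- Almost surely there is at most one nonzero velocity. -/
theorem IsAnnealed.velocity_unique_of_chainBounds (hP : IsAnnealed μ P) (hμ : Elliptic μ)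
    (hd : 3 ≤ d) (hCB : ∀ S : Setup d, meanSites S.μ S.h ≠ ⊤ → ChainBounds S) :
    ∃ v, ∀ᵐ t ∂P, ∀ w, t ∈ Vel w → w ≠ 0 → w = v := by
  classical
  let l : Step d → Fin d → ℝ := fun e => Pi.single e.1 (if e.2 then 1 else -1)
  choose v hv using fun e => hP.velocity_unique_pos (l e)
  have hcase : ∀ w : Fin d → ℝ, w ≠ 0 → ∃ e, 0 < ∑ i, l e i * w i := by
    intro w hw
    obtain ⟨i, hi⟩ := Function.ne_iff.1 hw
    rcases lt_or_gt_of_ne hi with h | h
    · refine ⟨(i, false), ?_⟩
      simp [l, Pi.single_apply]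
      simpa using h
    · refine ⟨(i, true), ?_⟩
      simp [l, Pi.single_apply]
      simpa using h
  have hgood : ∀ᵐ t ∂P, ∀ e, (∀ w, t ∈ Vel w → 0 < ∑ i, l e i * w i → w = v e) ∧
      (P (Vel (v e)) = 0 → t ∉ Vel (v e)) := by
    refine ae_all_iff.2 fun e => ?_
    filter_upwards [hv e, show ∀ᵐ t ∂P, P (Vel (v e)) = 0 → t ∉ Vel (v e) by
      by_cases h0 : P (Vel (v e)) = 0
      · filter_upwards [measure_eq_zero_iff_ae_notMem.1 h0] with t ht _ using ht
      · exact Eventually.of_forall fun t h1 => absurd h1 h0] with t h1 h2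
    exact ⟨h1, h2⟩
  by_cases hex : ∃ w : Fin d → ℝ, w ≠ 0 ∧ P (Vel w) ≠ 0
  · obtain ⟨u, hu0, hu⟩ := hex
    refine ⟨u, ?_⟩
    filter_upwards [hgood] with t ht w hw hw0
    obtain ⟨e, he⟩ := hcase w hw0
    have := (ht e).1 w hw he
    refine hP.velocity_eq_of_chainBounds hμ hd hCB hw0 hu0 (fun h0 => ?_) hu
    exact (ht e).2 (this ▸ h0) (this ▸ hw)
  · refine ⟨0, ?_⟩
    filter_upwards [hgood] with t ht w hw hw0
    obtain ⟨e, he⟩ := hcase w hw0
    have := (ht e).1 w hw he
    push Not at hex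
    exact absurd (this ▸ hw) ((ht e).2 (this ▸ hex w hw0))

end Vale.Agent.P147
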