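import Mathlib
import Vale.Agent.P147.EntWindow
import Vale.Agent.P147.MainArg

/-!
# P147: slow entropy growth on one side forces escape to that side
-/

namespace Vale.Agent.P147

open MeasureTheory Finset Filter
open scoped ENNReal Topology

variable {d : ℕ}

/-- Over a factor four the entropy of the block sums gains little compared with the logarithm of
the probability that an escaping walk dips linearly deep. -/
def EntropyCrit (μ : Measure (Row d)) (P : Measure (Traj d)) (h : Site d →+ ℝ) : Prop :=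
  ∀ c : ℝ, 0 < c → ∀ ε : ℝ≥0∞, ε ≠ 0 → ∀ᶠ m : ℕ in atTop, ∃ L : ℝ, 1 < L ∧
    ent (conv (blockLaw μ h) m) ≠ ⊤ ∧
    ent (conv (blockLaw μ h) (4 * m))
      ≤ ent (conv (blockLaw μ h) m) + ENNReal.ofReal (L - 1) * ε ∧
    ENNReal.ofReal (Real.exp L) * P (Reach (-h) (c * m) ∩ Up h) ≤ ε

/-- The tail of a linearly growing level tends to zero. -/
theorem tendsto_reach_scaled {P : Measure (Traj d)} {h : Site d →+ ℝ} {U : Set (Traj d)}
    (hlim : Tendsto (fun r : ℕ => P (Reach h r ∩ U)) atTop (𝓝 0)) {a : ℝ} (ha : 0 < a) :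
    Tendsto (fun m : ℕ => P (Reach h (a * m) ∩ U)) atTop (𝓝 0) := by
  have hfl : Tendsto (fun m : ℕ => ⌊a * (m : ℝ)⌋₊) atTop atTop :=
    tendsto_nat_floor_atTop.comp (tendsto_natCast_atTop_atTop.const_mul_atTop ha)
  refine tendsto_of_tendsto_of_tendsto_of_le_of_le tendsto_const_nhds (hlim.comp hfl)
    (fun _ => bot_le) fun m => measure_mono fun t ⟨⟨k, hk⟩, hn⟩ => ⟨⟨k, ?_⟩, hn⟩
  exact le_trans (Nat.floor_le (by positivity)) hk

open Classical in
/-- The window bound, with the revealed mass kept relative to the escape probability. -/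
theorem Setup.window_bound_rel [NeZero d] (S : Setup d) {x₀ : ℝ≥0∞}
    {c : ℝ} (hc : 0 < c) (hcrit : ∀ ε : ℝ≥0∞, ε ≠ 0 → ∀ᶠ m : ℕ in atTop, ∃ L : ℝ, 1 < L ∧
      ent (conv (blockLaw S.μ S.h) m) ≠ ⊤ ∧
      ent (conv (blockLaw S.μ S.h) (4 * m))
        ≤ ent (conv (blockLaw S.μ S.h) m) + ENNReal.ofReal (L - 1) * x₀ ∧
      ENNReal.ofReal (Real.exp L) * S.P (Reach (-S.h) (c / 2 * m) ∩ Up S.h) ≤ ε)
    {C : ℝ≥0∞} (hC : C ≠ ⊤)
    (hmid : ∀ n : ℕ, 0 < n →
      ex S.μ S.h n (fun M => if S.h (disp M.flatten) < c * n then 1 else 0) ≤ C / n)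
    {η : ℝ≥0∞} (hη : η ≠ 0) :
    ∀ᶠ m : ℕ in atTop, ∀ z : Site d, -(c * m / 2) ≤ S.h z → S.h z < 0 →
      ex S.μ S.h (2 * m) (fun V => ex S.μ S.h m fun M =>
        S.P (Esc (-S.h) ∩ Hits z (deps (-disp (V ++ M).flatten) V.flatten)))
          ≤ η + S.P (Esc (-S.h)) * x₀ := by
  haveI := S.ann.1
  obtain ⟨Kb, hKb, hback⟩ := S.backtrack_le
  set τ := η / 16 with hτdef
  have hτ : τ ≠ 0 := ENNReal.div_ne_zero.2 ⟨hη, by norm_num⟩
  obtain ⟨B, hB, hBle⟩ := exists_nat_div_le (a := 3 * S.meanH)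
    (ENNReal.mul_ne_top (by norm_num) S.meanH_ne_top) hτ
  obtain ⟨J, hJ, hJle⟩ := exists_nat_div_le (a := (S.P (Esc S.h))⁻¹)
    (ENNReal.inv_ne_top.2 S.escP) hτ
  set ε := τ / (2 * J + 1) with hεdef
  have hJ1 : (2 * (J : ℝ≥0∞) + 1) ≠ ⊤ := by simp [ENNReal.mul_ne_top]
  have hε : ε ≠ 0 := ENNReal.div_ne_zero.2 ⟨hτ, hJ1⟩
  have hεJ : 2 * (J : ℝ≥0∞) * ε ≤ τ := by
    calc 2 * (J : ℝ≥0∞) * ε ≤ (2 * J + 1) * ε := mul_le_mul' le_self_add le_rfl
      _ = τ := ENNReal.mul_div_cancel (by simp) hJ1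
  have hc2 : 0 < c / 2 := by linarith
  have hev : ∀ {f : ℕ → ℝ≥0∞}, Tendsto f atTop (𝓝 0) → ∀ᶠ m in atTop, f m ≤ τ := fun hf =>
    hf.eventually (eventually_le_nhds (pos_iff_ne_zero.2 hτ))
  have l1 : Tendsto (fun m : ℕ => C / (m : ℝ≥0∞)) atTop (𝓝 0) := by
    simpa using ENNReal.Tendsto.const_div ENNReal.tendsto_nat_nhds_top (Or.inr hC)
  have l2 : Tendsto (fun m : ℕ => Kb * ENNReal.ofReal (2 * (B : ℝ) + 3)
      * ((m : ℝ≥0∞) * S.tailM (c / 2 * m))) atTop (𝓝 0) := by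
    have h0 := ENNReal.Tendsto.const_mul (S.tendsto_mul_tailM hc2)
      (a := Kb * ENNReal.ofReal (2 * (B : ℝ) + 3)) (Or.inr (by simp [ENNReal.mul_ne_top, hKb]))
    simpa using h0
  have l3 : Tendsto (fun m : ℕ => 2 * (J : ℝ≥0∞) * S.P (Reach S.h (c / 2 * m) \ Up S.h))
      atTop (𝓝 0) := by
    have h0 := ENNReal.Tendsto.const_mul (a := 2 * (J : ℝ≥0∞))
      (tendsto_reach_scaled (h := S.h) (U := (Up S.h)ᶜ) (S.ann.reach_not_up S.escP) hc2)
      (Or.inr (by simp [ENNReal.mul_ne_top]))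
    rw [mul_zero] at h0
    exact h0
  filter_upwards [hev l1, hev l2, hev l3, hcrit ε hε, eventually_gt_atTop 0]
    with m e1 e2 e3 e4 hm
  intro z hz1 hz2
  obtain ⟨L, hL, hfin, hD, hexp⟩ := e4
  have hm' : (0 : ℝ) < m := by exact_mod_cast hm
  have hmne : (m : ℝ≥0∞) ≠ 0 := by simp; omega
  have hrw : c * (m : ℝ) / 2 = c / 2 * m := by ring
  refine (S.ent_window hback c hc B m J hJ L x₀ hfin hD hL z hz1 hz2).trans ?_
  have hlow := (hmid m hm).trans e1
  have hhigh : ∀ n : ℕ, n ≤ 3 * m →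
      ex S.μ S.h n (fun γ => if (B : ℝ) * m < S.h (disp γ.flatten) then 1 else 0) ≤ τ := by
    intro n hn
    refine (S.high_le n (show 0 < (B : ℝ) * m by positivity)).trans (le_trans ?_ hBle)
    rw [ENNReal.ofReal_mul (Nat.cast_nonneg B), ENNReal.ofReal_natCast, ENNReal.ofReal_natCast,
      ← Setup.meanH]
    calc (n : ℝ≥0∞) * S.meanH / ((B : ℝ≥0∞) * m)
        ≤ ((3 * m : ℕ) : ℝ≥0∞) * S.meanH / ((B : ℝ≥0∞) * m) := by gcongr
      _ = 3 * S.meanH * m / ((B : ℝ≥0∞) * m) := by push_cast; ring_nf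
      _ = _ := ENNReal.mul_div_mul_right _ _ hmne (ENNReal.natCast_ne_top m)
  have hbt : Kb * ENNReal.ofReal (2 * ((B : ℝ) * m) + 3) * S.tailM (c * m / 2) ≤ τ := by
    refine le_trans ?_ e2
    rw [hrw, mul_assoc Kb, mul_assoc Kb, ← mul_assoc (ENNReal.ofReal (2 * (B : ℝ) + 3))]
    gcongr
    rw [← ENNReal.ofReal_natCast m, ← ENNReal.ofReal_mul (by positivity)]
    refine ENNReal.ofReal_le_ofReal ?_
    nlinarith [show (1 : ℝ) ≤ m by exact_mod_cast hm]
  have hup : 2 * (J : ℝ≥0∞) * S.P (Reach S.h (c * m / 2) \ Up S.h) ≤ τ := by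
    rw [hrw]; exact e3
  have hdown : 2 * ENNReal.ofReal (Real.exp L) * J
      * S.P (Reach (-S.h) (c * m / 2) ∩ Up S.h) ≤ τ := by
    rw [hrw]
    calc _ = 2 * (J : ℝ≥0∞) *
        (ENNReal.ofReal (Real.exp L) * S.P (Reach (-S.h) (c / 2 * m) ∩ Up S.h)) := by ring
      _ ≤ 2 * J * ε := mul_le_mul' le_rfl hexp
      _ ≤ τ := hεJ
  calc _ ≤ τ + τ + τ + τ + τ + τ + S.P (Esc (-S.h)) * x₀ + (τ + τ) := by
        gcongr
        exacts [hhigh _ le_rfl, hhigh _ (by omega)]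
    _ = 8 * τ + S.P (Esc (-S.h)) * x₀ := by ring
    _ ≤ 16 * τ + S.P (Esc (-S.h)) * x₀ := by gcongr; norm_num
    _ = η + S.P (Esc (-S.h)) * x₀ := by
        rw [hτdef, mul_comm (16 : ℝ≥0∞), ENNReal.div_mul_cancel (by norm_num) (by norm_num)]

open Classical in
/-- The window bound needed by the recursion. -/
theorem Setup.window_bound_ent [NeZero d] (S : Setup d) (hcrit : EntropyCrit S.μ S.P S.h)
    {c : ℝ} (hc : 0 < c) {C : ℝ≥0∞} (hC : C ≠ ⊤)
    (hmid : ∀ n : ℕ, 0 < n →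
      ex S.μ S.h n (fun M => if S.h (disp M.flatten) < c * n then 1 else 0) ≤ C / n)
    {η : ℝ≥0∞} (hη : η ≠ 0) :
    ∀ᶠ m : ℕ in atTop, ∀ z : Site d, -(c * m / 2) ≤ S.h z → S.h z < 0 →
      ex S.μ S.h (2 * m) (fun V => ex S.μ S.h m fun M =>
        S.P (Esc (-S.h) ∩ Hits z (deps (-disp (V ++ M).flatten) V.flatten))) ≤ η := by
  haveI := S.ann.1
  set x₀ := min (η / 2) 1 with hx
  have hx0 : x₀ ≠ 0 := by simp [hx, hη]
  have hc2 : 0 < c / 2 := by linarith
  filter_upwards [S.window_bound_rel (x₀ := x₀) hc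
    (fun ε hε => ((hcrit (c / 2) hc2 (min ε x₀) (by simp [hε, hx0]))).mono
      fun m ⟨L, h1, h2, h3, h4⟩ => ⟨L, h1, h2, h3.trans (add_le_add le_rfl
        (mul_le_mul' le_rfl (min_le_right _ _))), h4.trans (min_le_left _ _)⟩) hC hmid
    (η := η / 2) (ENNReal.div_ne_zero.2 ⟨hη, by norm_num⟩)] with m hm z h1 h2
  refine (hm z h1 h2).trans ?_
  calc η / 2 + S.P (Esc (-S.h)) * x₀ ≤ η / 2 + 1 * (η / 2) :=
        add_le_add le_rfl (mul_le_mul' prob_le_one (min_le_left _ _))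
    _ = η := by rw [one_mul, ENNReal.add_halves]

/-- Slow entropy growth on the ascending side is incompatible with descending escape. -/
theorem Setup.false_of_entropyCrit (S : Setup d) (hcrit : EntropyCrit S.μ S.P S.h) : False := by
  classical
  have hne : NeZero d := ⟨by have := S.three; omega⟩
  obtain ⟨c, C, hc, hC, hmid⟩ := S.middle_span
  let ε : ℕ → ℝ≥0∞ := fun m =>
    ⨆ (z : Site d) (_ : -(c * m / 2) ≤ S.h z) (_ : S.h z < 0),
      ex S.μ S.h (2 * m) (fun V => ex S.μ S.h m fun M =>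
        S.P (Esc (-S.h) ∩ Hits z (deps (-disp (V ++ M).flatten) V.flatten)))
  have hε : Tendsto ε atTop (𝓝 0) := by
    refine ENNReal.tendsto_nhds_zero.2 fun η hη => ?_
    filter_upwards [S.window_bound_ent hcrit hc hC
      (fun n hn => by convert hmid n hn using 5) (η := η) hη.ne'] with m hm
    exact iSup_le fun z => iSup_le fun h1 => iSup_le fun h2 => hm z h1 h2
  have hε' : ∀ᶠ m in atTop, ε m / S.P (Esc (-S.h)) ≤ ENNReal.ofReal (19 / 120) := by
    have h0 := ENNReal.Tendsto.div_const hε (Or.inr S.escM)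
    rw [ENNReal.zero_div] at h0
    exact h0.eventually (eventually_le_nhds (by simp))
  refine S.false_of (c := c / 2) (by linarith) hε' hC
    (K := (S.meanH + 1) * (bwgt S.μ (-S.h) [S.e₁])⁻¹)
    (ENNReal.mul_ne_top (ENNReal.add_ne_top.2 ⟨S.meanH_ne_top, ENNReal.one_ne_top⟩)
      (ENNReal.inv_ne_top.2 S.bwgt_e₁_ne_zero)) S.base ?_
  obtain ⟨N, hN⟩ := exists_nat_gt (2 / c)
  filter_upwards [eventually_ge_atTop N, eventually_gt_atTop 0] with m hm hm0 D hD hD1
  have hm' : (2 : ℝ) / c < m := lt_of_lt_of_le hN (by exact_mod_cast hm)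
  rw [div_lt_iff₀ hc] at hm'
  have ha : c / 2 * (m : ℝ) = c * m / 2 := by ring
  rw [ha]
  refine S.recursion_core D hD m (c * m / 2) (ε m) (C / m) (fun z hz1 hz2 => ?_) ?_
  · rw [min_eq_left (by linarith)] at hz1
    exact le_iSup_of_le z (le_iSup_of_le hz1 (le_iSup_of_le hz2 le_rfl))
  · refine le_trans (ex_mono fun M => ?_) (hmid m hm0)
    have hcm : (0 : ℝ) ≤ c * m := by positivity
    split_ifs <;> first | exact le_rfl | exact zero_le_one | linarith

variable {μ : Measure (Row d)} [IsProbabilityMeasure μ] {P : Measure (Traj d)}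

/-- An impossible downward escape forces escape upwards. -/
theorem IsAnnealed.up_eq_one_of_escM_null (hP : IsAnnealed μ P) (hμ : Elliptic μ) (hd : 3 ≤ d)
    {h : Site d →+ ℝ} {e : Step d} (he : h (vec e) = 1) (hplus : P (Esc h) ≠ 0)
    (hminus : P (Esc (-h)) = 0) : P (Up h) = 1 := by
  have := hP.1
  have : NeZero d := ⟨by omega⟩
  have hdown : P (Up (-h)) = 0 :=
    measure_mono_null (fun t ht => exists_shiftT_mem_esc ht)
      (hP.measure_shift_null (measurableSet_esc _) hminus)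
  have hosc : P (⋂ r : ℕ, Reach h r \ Up h) = 0 := by
    refine le_antisymm ?_ bot_le
    exact ge_of_tendsto (hP.reach_not_up hplus)
      (Eventually.of_forall fun r => measure_mono (Set.iInter_subset _ r))
  have hconf := hP.confined_null hμ he
  have hcompl : P (Up h)ᶜ = 0 := by
    refine measure_mono_null (fun t ht => ?_)
      (measure_union_null (measure_union_null hconf hdown) hosc)
    by_cases hb : BddAbove (Set.range fun k => h (site t k))
    · by_cases hup : t ∈ Up (-h)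
      · exact .inl (.inr hup)
      · exact .inl (.inl ⟨hb, hup⟩)
    · refine .inr (Set.mem_iInter.2 fun r => ⟨?_, ht⟩)
      rw [not_bddAbove_iff] at hb
      obtain ⟨_, ⟨k, rfl⟩, hk⟩ := hb (r : ℝ)
      exact ⟨k, hk.le⟩
  rwa [prob_compl_eq_zero_iff (measurableSet_up h)] at hcompl

/-- Slow entropy growth on one side gives the zero-one law, for a normalised height. -/
theorem IsAnnealed.up_eq_one_of_entropyCrit (hP : IsAnnealed μ P) (hμ : Elliptic μ) (hd : 3 ≤ d)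
    {h : Site d →+ ℝ} (hu : UnitSteps h) {e : Step d} (he : h (vec e) = 1)
    (hplus : P (Esc h) ≠ 0) (hcrit : EntropyCrit μ P h) : P (Up h) = 1 := by
  refine hP.up_eq_one_of_escM_null hμ hd he hplus ?_
  by_contra hne
  let S : Setup d :=
    { μ := μ, prob := inferInstance, ell := hμ, P := P, ann := hP, h := h, three := hd,
      unit := hu, e₀ := e, he₀ := he, escP := hplus, escM := hne }
  exact S.false_of_entropyCrit hcrit

end Vale.Agent.P147
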