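import Mathlib
import Vale.Agent.P147.AxisBlocks
import Vale.Agent.P147.EntMain

/-!
# P147: a finite mean extent gives an asymptotic direction

If the mean extent of a block of the height `height l` is finite then, on escape upwards, every
coordinate divided by the height converges to a deterministic number.
-/

namespace Vale.Agent.P147

open MeasureTheory Finset Filter ProbabilityTheory
open scoped ENNReal Topology

variable {d : ℕ} {μ : Measure (Row d)} [IsProbabilityMeasure μ] {P : Measure (Traj d)}
  {h : Site d →+ ℝ}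

/-- The walk has the asymptotic direction `v`, measured against the height. -/
def Ratio (h : Site d →+ ℝ) (v : Fin d → ℝ) : Set (Traj d) :=
  {t | ∀ i, Tendsto (fun k : ℕ => (site t k i : ℝ) / h (site t k)) atTop (𝓝 (v i))}

theorem abs_height_le (l : Fin d → ℝ) (x : Site d) :
    |height l x| ≤ (∑ i, |l i|) * (nrm x : ℝ) := by
  simp only [height, AddMonoidHom.coe_mk, ZeroHom.coe_mk]
  refine (abs_sum_le_sum_abs _ _).trans ?_
  rw [sum_mul]
  refine sum_le_sum fun i _ => ?_
  rw [abs_mul]
  exact mul_le_mul_of_nonneg_left (abs_apply_le_nrm x i) (abs_nonneg _)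

theorem allBlocks_spec {t : Traj d} (ht : t ∈ AllBlocks h) (n : ℕ) :
    (blkList h n t).length = n ∧ (∀ π ∈ blkList h n t, IsBlock h π) ∧
      t ∈ blockEvent h (blkList h n t) := by
  obtain ⟨ws, hl, hb, -, ht'⟩ := mem_chainEvent.1 (ht n)
  rw [blkList_eq hl hb ht']
  exact ⟨hl, hb, ht'⟩

theorem blkList_succ {t : Traj d} (ht : t ∈ AllBlocks h) (n : ℕ) :
    blkList h (n + 1) t = blkList h n t ++ [blk h n t] := by
  obtain ⟨hl, hb, hev⟩ := allBlocks_spec ht (n + 1)
  have hsplit : blkList h (n + 1) t
      = (blkList h (n + 1) t).take n ++ (blkList h (n + 1) t).drop n :=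
    (List.take_append_drop _ _).symm
  have hev' : t ∈ blockEvent h ((blkList h (n + 1) t).take n) := by
    rw [hsplit] at hev
    exact blockEvent_append_left (fun π hπ => hb π (List.mem_of_mem_drop hπ)) hev
  rw [blkList_eq (n := n) (by simp [hl]) (fun π hπ => hb π (List.mem_of_mem_take hπ)) hev', blk,
    List.getD_eq_getElem _ _ (by omega), List.take_append_getElem (by omega)]
  exact (List.take_of_length_le (by omega)).symm

theorem blk_isBlock {t : Traj d} (ht : t ∈ AllBlocks h) (n : ℕ) : IsBlock h (blk h n t) :=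
  (allBlocks_spec ht (n + 1)).2.1 _ (by rw [blkList_succ ht n]; simp)

theorem site_in_block {t : Traj d} (ht : t ∈ AllBlocks h) (n j : ℕ)
    (hj : j ≤ (blk h n t).length) :
    site t ((blkList h n t).flatten.length + j)
      = (∑ i ∈ range n, disp (blk h i t)) + disp ((blk h n t).take j) := by
  have hdisp : ∀ m, disp (blkList h m t).flatten = ∑ i ∈ range m, disp (blk h i t) := by
    intro m
    induction m with
    | zero =>
      have h0 := (allBlocks_spec ht 0).1
      rw [List.length_eq_zero_iff.1 h0]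
      simp [disp]
    | succ m ih => simp [blkList_succ ht m, List.flatten_append, disp_append, ih, sum_range_succ]
  obtain ⟨-, -, hev⟩ := allBlocks_spec ht (n + 1)
  have hc := hev.1
  rw [blkList_succ ht n, List.flatten_append, List.flatten_singleton] at hc
  rw [site_of_mem_cyl hc (by rw [List.length_append]; omega), List.take_length_add_append,
    disp_append, hdisp]

theorem flatten_length_succ {t : Traj d} (ht : t ∈ AllBlocks h) (n : ℕ) :
    (blkList h (n + 1) t).flatten.length
      = (blkList h n t).flatten.length + (blk h n t).length := by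
  simp [blkList_succ ht n, List.flatten_append, List.length_append]

/-- The block which contains a given time. -/
theorem exists_block_index {t : Traj d} (ht : t ∈ AllBlocks h) :
    ∃ N : ℕ → ℕ, Tendsto N atTop atTop ∧ ∀ k, ∃ j ≤ (blk h (N k) t).length,
      site t k = (∑ i ∈ range (N k), disp (blk h i t)) + disp ((blk h (N k) t).take j) := by
  classical
  set T : ℕ → ℕ := fun n => (blkList h n t).flatten.length with hT
  have hgrow : ∀ n, n ≤ T n := fun n => by
    have h1 := length_le_flatten (allBlocks_spec ht n).2.1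
    rwa [(allBlocks_spec ht n).1] at h1
  have hmono : Monotone T := monotone_nat_of_le_succ fun n => by
    simp only [hT, flatten_length_succ ht n]; omega
  have hT0 : T 0 = 0 := by
    simp [hT, List.length_eq_zero_iff.1 (allBlocks_spec ht 0).1]
  have hex : ∀ k, ∃ n, T n ≤ k ∧ k < T (n + 1) := by
    intro k
    have hx : ∃ n, k < T (n + 1) := ⟨k, by have := hgrow (k + 1); omega⟩
    refine ⟨Nat.find hx, ?_, Nat.find_spec hx⟩
    rcases hn : Nat.find hx with _ | m
    · rw [hT0]; exact Nat.zero_le _
    · exact not_lt.1 (Nat.find_min hx (show m < Nat.find hx by omega))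
  choose N hlo hhi using hex
  refine ⟨N, ?_, fun k => ?_⟩
  · refine tendsto_atTop.2 fun m => eventually_atTop.2 ⟨T m, fun k hk => ?_⟩
    by_contra! hlt
    have h1 := hhi k
    have h2 := hmono (show N k + 1 ≤ m by omega)
    omega
  · have h1 : (blkList h (N k) t).flatten.length ≤ k := hlo k
    have h2 : k < (blkList h (N k + 1) t).flatten.length := hhi k
    rw [flatten_length_succ ht] at h2
    refine ⟨k - (blkList h (N k) t).flatten.length, by omega, ?_⟩
    rw [← site_in_block ht (N k) _ (by omega), Nat.add_sub_cancel' h1]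

/-- A summand of a converging average is negligible. -/
theorem tendsto_summand {u : ℕ → ℝ} {e : ℝ}
    (hu : Tendsto (fun n : ℕ => (∑ i ∈ range n, u i) / n) atTop (𝓝 e)) :
    Tendsto (fun n : ℕ => u n / n) atTop (𝓝 0) := by
  have h1 : Tendsto (fun n : ℕ => (∑ i ∈ range (n + 1), u i) / ((n + 1 : ℕ) : ℝ)) atTop (𝓝 e) :=
    hu.comp (tendsto_add_atTop_nat 1)
  have h2 : Tendsto (fun n : ℕ => 1 + 1 / (n : ℝ)) atTop (𝓝 1) := by
    simpa using (tendsto_const_div_atTop_nhds_zero_nat (1 : ℝ)).const_add 1
  have h3 := (h1.mul h2).sub hu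
  rw [mul_one, sub_self] at h3
  refine h3.congr' ?_
  filter_upwards [eventually_gt_atTop 0] with n hn
  have hn' : (0 : ℝ) < n := by exact_mod_cast hn
  rw [sum_range_succ]
  push_cast
  field_simp
  ring

/-- An additive function along the trajectory, divided by the number of blocks. -/
theorem tendsto_along {t : Traj d} (g : Site d →+ ℝ) {C : ℝ}
    (hg : ∀ x, |g x| ≤ C * (nrm x : ℝ)) (hC : 0 ≤ C) {N : ℕ → ℕ} (hN : Tendsto N atTop atTop)
    (hsite : ∀ k, ∃ j ≤ (blk h (N k) t).length,
      site t k = (∑ i ∈ range (N k), disp (blk h i t)) + disp ((blk h (N k) t).take j))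
    {a e : ℝ}
    (ha : Tendsto (fun n : ℕ => (∑ i ∈ range n, g (disp (blk h i t))) / n) atTop (𝓝 a))
    (he : Tendsto (fun n : ℕ => (∑ i ∈ range n, (ext (blk h i t) : ℝ)) / n) atTop (𝓝 e)) :
    Tendsto (fun k : ℕ => g (site t k) / (N k : ℝ)) atTop (𝓝 a) := by
  have h1 := ha.comp hN
  have h2 : Tendsto (fun k : ℕ => C * ((ext (blk h (N k) t) : ℝ) / (N k : ℝ))) atTop (𝓝 0) := by
    simpa using ((tendsto_summand he).comp hN).const_mul C
  have h3 : Tendsto (fun k : ℕ => g (site t k) / (N k : ℝ)
      - (∑ i ∈ range (N k), g (disp (blk h i t))) / (N k : ℝ)) atTop (𝓝 0) := by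
    refine squeeze_zero_norm (fun k => ?_) h2
    obtain ⟨j, hj, hk⟩ := hsite k
    rw [Real.norm_eq_abs, hk, map_add, map_sum, ← sub_div, add_sub_cancel_left, abs_div,
      Nat.abs_cast, ← mul_div_assoc]
    gcongr
    refine (hg _).trans ?_
    gcongr
    exact_mod_cast nrm_take_le_ext _ hj
  simpa using h3.add h1

theorem measurableSet_allBlocks : MeasurableSet (AllBlocks h) := by
  have : AllBlocks h = ⋂ n, chainEvent h n fun _ => True := by ext t; simp [AllBlocks]
  rw [this]
  exact MeasurableSet.iInter fun n => measurableSet_chainEvent _ _ _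

/-- The coordinate `i` as an additive functional. -/
def coord (i : Fin d) : Site d →+ ℝ where
  toFun x := (x i : ℝ)
  map_zero' := by simp
  map_add' x y := by simp

/-- A finite mean extent gives an asymptotic direction on `Esc`. -/
theorem IsAnnealed.esc_ratio (hP : IsAnnealed μ P) (l : Fin d → ℝ)
    (hd : P (Esc (height l)) ≠ 0) (hext : meanExt μ (height l) ≠ ⊤) :
    ∃ v : Fin d → ℝ, ∀ᵐ t ∂P, t ∈ Esc (height l) → t ∈ Ratio (height l) v := by
  haveI := hP.1
  haveI := hP.isProbability_escLaw hd
  set ν := escLaw P (height l) with hν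
  set C : ℝ := ∑ i, |l i| with hC
  have hC0 : 0 ≤ C := sum_nonneg fun i _ => abs_nonneg _
  have hHb : ∀ π : List (Step d), |height l (disp π)| ≤ C * (ext π : ℝ) := fun π =>
    (abs_height_le l _).trans (by gcongr; exact_mod_cast nrm_disp_le_ext π)
  have hall : ∀ᵐ t ∂ν, t ∈ AllBlocks (height l) := by
    rw [ae_iff, hν, escLaw, Measure.smul_apply]
    have e : {t | t ∉ AllBlocks (height l)} = (AllBlocks (height l))ᶜ := rfl
    rw [e, Measure.restrict_apply measurableSet_allBlocks.compl, Set.inter_comm,
      ← Set.sdiff_eq, hP.allBlocks_null hd, smul_zero]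
  set b : ℝ := ∫ t, height l (disp (blk (height l) 0 t)) ∂ν with hb
  have hbpos : 0 < b := by
    have hpos : ∀ᵐ t ∂ν, 0 < height l (disp (blk (height l) 0 t)) :=
      hall.mono fun t ht => (blk_isBlock ht 0).pos
    have hnn : 0 ≤ᵐ[ν] fun t => height l (disp (blk (height l) 0 t)) :=
      hpos.mono fun t ht => ht.le
    refine (integral_nonneg_of_ae hnn).lt_of_ne' fun h0 => ?_
    have hz := (integral_eq_zero_iff_of_nonneg_ae hnn
      (hP.integrable_blk (φ := fun π => height l (disp π)) hd hext hC0 hHb)).1 h0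
    obtain ⟨t, h1, h2⟩ := (hpos.and hz).exists
    exact h1.ne' h2
  refine ⟨fun i => (∫ t, ((disp (blk (height l) 0 t)) i : ℝ) ∂ν) / b, ?_⟩
  have hmain : ∀ᵐ t ∂ν, t ∈ Ratio (height l)
      fun i => (∫ t, ((disp (blk (height l) 0 t)) i : ℝ) ∂ν) / b := by
    have hX := ae_all_iff.2 fun i : Fin d =>
      hP.blk_slln (φ := fun π => ((disp π) i : ℝ)) (C := 1) hd hext zero_le_one
        fun π => by rw [one_mul]; exact abs_coord_le_ext i π
    filter_upwards [hall, hX,
      hP.blk_slln (φ := fun π => height l (disp π)) hd hext hC0 hHb,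
      hP.blk_slln (φ := fun π => (ext π : ℝ)) (C := 1) hd hext zero_le_one
        fun π => by simp] with t ht hX' hH hE
    intro i
    obtain ⟨N, hN, hsite⟩ := exists_block_index ht
    have h1 := tendsto_along (coord i) (C := 1)
      (fun x => by rw [one_mul]; exact abs_apply_le_nrm x i) zero_le_one hN hsite (hX' i) hE
    have h2 := tendsto_along (height l) (abs_height_le l) hC0 hN hsite hH hE
    refine (h1.div h2 hbpos.ne').congr' ?_
    filter_upwards [hN.eventually_gt_atTop 0] with k hk
    have hk' : ((N k : ℕ) : ℝ) ≠ 0 := by exact_mod_cast (show N k ≠ 0 by omega)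
    rw [Pi.div_apply, div_div_div_cancel_right₀ hk']
    rfl
  rw [hν, escLaw, ae_iff, Measure.smul_apply, smul_eq_mul, mul_eq_zero,
    or_iff_right (ENNReal.inv_ne_zero.2 (measure_ne_top _ _)), ← ae_iff] at hmain
  exact (ae_restrict_iff' (measurableSet_esc _)).1 hmain

/-- The asymptotic direction holds on escape upwards. -/
theorem IsAnnealed.up_ratio (hP : IsAnnealed μ P) (l : Fin d → ℝ)
    (hd : P (Esc (height l)) ≠ 0) (hext : meanExt μ (height l) ≠ ⊤) :
    ∃ v : Fin d → ℝ, ∀ᵐ t ∂P, t ∈ Up (height l) → t ∈ Ratio (height l) v := by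
  obtain ⟨v, hv⟩ := hP.esc_ratio l hd hext
  refine ⟨v, ?_⟩
  set h := height l with hh
  have hbad : P (toMeasurable P {t | ¬ (t ∈ Esc h → t ∈ Ratio h v)}) = 0 := by
    rw [measure_toMeasurable]; exact ae_iff.1 hv
  rw [ae_iff]
  refine measure_mono_null (fun t ht => ?_)
    (hP.measure_shift_null (measurableSet_toMeasurable _ _) hbad)
  rw [Set.mem_setOf_eq, Classical.not_imp] at ht
  obtain ⟨n, hn⟩ := exists_shiftT_mem_esc (h := h) ht.1
  refine ⟨n, subset_toMeasurable _ _ fun hr => ht.2 fun i => ?_⟩
  have hlim := hr hn i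
  have hy : Tendsto (fun k => h (site (shiftT n t) k)) atTop atTop := hn.2
  have h1 : Tendsto (fun k : ℕ => (site t n i : ℝ) / h (site (shiftT n t) k)
      + (site (shiftT n t) k i : ℝ) / h (site (shiftT n t) k)) atTop (𝓝 (v i)) := by
    simpa using (hy.const_div_atTop (site t n i : ℝ)).add hlim
  have h2 : Tendsto (fun k : ℕ => h (site t n) / h (site (shiftT n t) k) + 1) atTop (𝓝 1) := by
    simpa using (hy.const_div_atTop (h (site t n))).add_const 1
  have h3 := h1.div h2 one_ne_zero
  rw [div_one] at h3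
  refine (tendsto_add_atTop_iff_nat (f := fun k : ℕ => (site t k i : ℝ) / h (site t k)) n).1 ?_
  refine h3.congr' ?_
  filter_upwards [hy.eventually_gt_atTop 0] with k hk
  rw [Pi.div_apply, add_comm k n, site_shiftT_apply, site_shiftT, map_add, ← add_div,
    div_add_one hk.ne', div_div_div_cancel_right₀ hk.ne']

end Vale.Agent.P147
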