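import Mathlib
import Vale.Agent.P147.Blocks
import Vale.Agent.P147.WinDefs

/-!
# P147: moments of the position at the first cut time

On `Esc h` the first positive cut time is the first regeneration time of the direction `h`.
-/

namespace Vale.Agent.P147

open MeasureTheory Finset
open scoped ENNReal

variable {d : ℕ}

/-- `n` is the first positive cut time. -/
def FirstCut (h : Site d →+ ℝ) (t : Traj d) (n : ℕ) : Prop :=
  0 < n ∧ IsCut h t n ∧ ∀ m, 0 < m → m < n → ¬ IsCut h t m

/-- The sum of the `α`-th powers of the coordinates. -/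
noncomputable def coordPow (α : ℝ) (x : Site d) : ℝ≥0∞ :=
  ∑ i, ENNReal.ofReal (|(x i : ℝ)| ^ α)

/-- The `α`-th moment of the position at the first cut time, on the event `Esc h`. -/
noncomputable def cutMoment (P : Measure (Traj d)) (h : Site d →+ ℝ) (α : ℝ) : ℝ≥0∞ :=
  ∫⁻ t, ∑' n, (Esc h ∩ {t | FirstCut h t n}).indicator (fun t => coordPow α (site t n)) t ∂P

end Vale.Agent.P147
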