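import Mathlib
import Vale.Agent.P147.EntBasic
import Vale.Agent.P147.LocalBinom

/-!
# P147: upper bounds for the entropy of sums of iid lattice vectors

A positive moment gives `O(log n)`, a second moment gives `(d / 2) log n + O(1)`.
-/

namespace Vale.Agent.P147

open Finset
open scoped ENNReal

variable {d : ℕ}

theorem tsum_pi_prod (n : ℕ) (g : Fin n → ℤ → ℝ≥0∞) :
    ∑' x : Fin n → ℤ, ∏ i, g i (x i) = ∏ i, ∑' j, g i j := by
  induction n with
  | zero => simp
  | succ n ih =>
    rw [Fin.prod_univ_succ, ← ih fun i => g i.succ, ← (Fin.consEquiv fun _ => ℤ).tsum_eq,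
      ENNReal.tsum_prod', ← ENNReal.tsum_mul_right]
    refine tsum_congr fun j => ?_
    rw [← ENNReal.tsum_mul_left]
    refine tsum_congr fun x => ?_
    simp [Fin.consEquiv, Fin.prod_univ_succ]

/-- A product weight with bounded one dimensional sums. -/
theorem tsum_exp_neg_le (f : Fin d → ℤ → ℝ) {N : ℝ} (hN : 1 ≤ N)
    (hf : ∀ i (j : ℤ), Real.exp (-f i j) ≤ √N / (N + (j : ℝ) ^ 2)) :
    ∑' x : Site d, ENNReal.ofReal (Real.exp (-∑ i, f i (x i))) ≤ ENNReal.ofReal 10 ^ d := by
  calc ∑' x : Site d, ENNReal.ofReal (Real.exp (-∑ i, f i (x i)))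
      = ∑' x : Site d, ∏ i, ENNReal.ofReal (Real.exp (-f i (x i))) := by
        refine tsum_congr fun x => ?_
        rw [← ENNReal.ofReal_prod_of_nonneg fun i _ => (Real.exp_pos _).le, ← Real.exp_sum,
          sum_neg_distrib]
    _ = ∏ i, ∑' j, ENNReal.ofReal (Real.exp (-f i j)) :=
        tsum_pi_prod d fun i j => ENNReal.ofReal (Real.exp (-f i j))
    _ ≤ ∏ _i : Fin d, ENNReal.ofReal 10 := by
        refine prod_le_prod' fun i _ => le_trans (ENNReal.tsum_le_tsum fun j =>
          ENNReal.ofReal_le_ofReal (hf i j)) ?_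
        simpa using tsum_envelope_le hN 0
    _ = _ := by simp

variable {ν : Site d → ℝ≥0∞}

/-- A subadditive weight grows at most linearly. -/
theorem conv_subadd_le (hν : ∑' x, ν x = 1) (F : Site d → ℝ≥0∞) (h0 : F 0 = 0)
    (hadd : ∀ a b, F (a + b) ≤ F a + F b) (n : ℕ) :
    ∑' x, conv ν n x * F x ≤ n * ∑' x, ν x * F x := by
  induction n with
  | zero =>
    rw [Nat.cast_zero, zero_mul, nonpos_iff_eq_zero]
    refine ENNReal.tsum_eq_zero.2 fun x => ?_
    by_cases hx : x = 0 <;> simp [conv, hx, h0]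
  | succ n ih =>
    rw [conv_succ, tsum_addLaw_mul]
    refine (ENNReal.tsum_le_tsum fun a => ENNReal.tsum_le_tsum fun v =>
      mul_le_mul' le_rfl (hadd a v)).trans ?_
    simp only [mul_add, ENNReal.tsum_add, mul_assoc, ENNReal.tsum_mul_left]
    have e1 : ∑' a, ν a * ∑' v, conv ν n v * F a = ∑' a, ν a * F a :=
      tsum_congr fun a => by rw [ENNReal.tsum_mul_right, tsum_conv hν, one_mul]
    rw [e1, ENNReal.tsum_mul_right, hν, one_mul, Nat.cast_succ, add_mul, one_mul, add_comm]
    exact add_le_add ih le_rfl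

theorem sum_ofReal_log_rpow {α : ℝ} (hα : 0 < α) (hα1 : α ≤ 1) {n : ℕ} (hn : 0 < n) {y : ℝ}
    (hy : 0 ≤ y) : ENNReal.ofReal (2 * Real.log (1 + y)) ≤ ENNReal.ofReal (2 / α * Real.log n)
      + ENNReal.ofReal (2 / α) * ((1 + ENNReal.ofReal (y ^ α)) / n) := by
  have hn' : (0 : ℝ) < n := by exact_mod_cast hn
  set a : ℝ := (n : ℝ) ^ (1 / α) with ha
  have ha0 : 0 < a := Real.rpow_pos_of_pos hn' _
  have haα : a ^ α = n := by
    rw [ha, ← Real.rpow_mul hn'.le, one_div_mul_cancel hα.ne', Real.rpow_one]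
  have h1 := Real.log_le_rpow_div (show 0 ≤ (1 + y) / a by positivity) hα
  rw [Real.log_div (by linarith) ha0.ne', Real.div_rpow (by linarith) ha0.le, haα] at h1
  have hla : Real.log a = 1 / α * Real.log n := by rw [ha, Real.log_rpow hn']
  have h2 : (1 + y) ^ α ≤ 1 + y ^ α := by
    simpa using Real.rpow_add_le_add_rpow zero_le_one hy hα.le hα1
  have h3 : 2 * Real.log (1 + y) ≤ 2 / α * Real.log n + 2 / α * ((1 + y ^ α) / n) := by
    have h4 : (1 + y) ^ α / n / α ≤ (1 + y ^ α) / n / α := by gcongr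
    rw [hla] at h1
    have e : 2 / α * ((1 + y ^ α) / n) = 2 * ((1 + y ^ α) / n / α) := by ring
    have e' : 2 / α * Real.log n = 2 * (1 / α * Real.log n) := by ring
    rw [e, e']
    linarith
  refine (ENNReal.ofReal_le_ofReal h3).trans (le_trans ENNReal.ofReal_add_le ?_)
  rw [ENNReal.ofReal_mul (show (0 : ℝ) ≤ 2 / α by positivity) (q := (1 + y ^ α) / n),
    ENNReal.ofReal_div_of_pos hn', ENNReal.ofReal_natCast,
    ENNReal.ofReal_add zero_le_one (Real.rpow_nonneg hy α), ENNReal.ofReal_one]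

/-- A positive moment makes the entropy at most logarithmic. -/
theorem ent_conv_le_log (hν : ∑' x, ν x = 1) {α : ℝ} (hα : 0 < α) (hα1 : α ≤ 1)
    (hmom : ∀ i, ∑' x, ν x * ENNReal.ofReal (|(x i : ℝ)| ^ α) ≠ ⊤) :
    ∃ C : ℝ≥0∞, C ≠ ⊤ ∧ ∀ n : ℕ, 0 < n →
      ent (conv ν n) ≤ ENNReal.ofReal (2 * d / α * Real.log n) + C := by
  set M : Fin d → ℝ≥0∞ := fun i => ∑' x, ν x * ENNReal.ofReal (|(x i : ℝ)| ^ α) with hM
  refine ⟨(∑ i, ENNReal.ofReal (2 / α) * (1 + M i)) + ENNReal.ofReal 10 ^ d, ?_, fun n hn => ?_⟩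
  · exact ENNReal.add_ne_top.2 ⟨ENNReal.sum_ne_top.2 fun i _ => ENNReal.mul_ne_top
      ENNReal.ofReal_ne_top (ENNReal.add_ne_top.2 ⟨ENNReal.one_ne_top, hmom i⟩),
      ENNReal.pow_ne_top ENNReal.ofReal_ne_top⟩
  set p := conv ν n
  have hp : ∑' x, p x = 1 := tsum_conv hν n
  have hn1 : (1 : ℝ) ≤ n := by exact_mod_cast hn
  refine (ent_le_weight hp (w := fun x => ∑ i, 2 * Real.log (1 + |(x i : ℝ)|))
    fun x => sum_nonneg fun i _ => mul_nonneg zero_le_two
      (Real.log_nonneg (by linarith [abs_nonneg (x i : ℝ)]))).trans ?_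
  rw [← add_assoc]
  refine add_le_add ?_ (tsum_exp_neg_le (fun _ j => 2 * Real.log (1 + |(j : ℝ)|)) le_rfl
    fun i j => ?_)
  swap
  · have h0 : (0 : ℝ) < 1 + |(j : ℝ)| := by linarith [abs_nonneg (j : ℝ)]
    rw [Real.sqrt_one, show -(2 * Real.log (1 + |(j : ℝ)|)) = -Real.log ((1 + |(j : ℝ)|) ^ 2) by
      rw [Real.log_pow]; norm_num, Real.exp_neg, Real.exp_log (by positivity), one_div]
    refine inv_anti₀ (by positivity) ?_
    nlinarith [sq_abs (j : ℝ), abs_nonneg (j : ℝ)]
  calc ∑' x, p x * ENNReal.ofReal (∑ i, 2 * Real.log (1 + |(x i : ℝ)|))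
      ≤ ∑' x, ∑ i : Fin d, p x * (ENNReal.ofReal (2 / α * Real.log n)
          + ENNReal.ofReal (2 / α) * ((1 + ENNReal.ofReal (|(x i : ℝ)| ^ α)) / n)) := by
        refine ENNReal.tsum_le_tsum fun x => ?_
        rw [← Finset.mul_sum (a := p x), ENNReal.ofReal_sum_of_nonneg fun i _ => mul_nonneg zero_le_two
          (Real.log_nonneg (by linarith [abs_nonneg (x i : ℝ)]))]
        exact mul_le_mul' le_rfl (sum_le_sum fun i _ =>
          sum_ofReal_log_rpow hα hα1 hn (abs_nonneg _))
    _ = ∑ i : Fin d, (ENNReal.ofReal (2 / α * Real.log n) + ENNReal.ofReal (2 / α) *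
          ((1 + ∑' x, p x * ENNReal.ofReal (|(x i : ℝ)| ^ α)) / n)) := by
        rw [Summable.tsum_finsetSum fun i _ => ENNReal.summable]
        refine sum_congr rfl fun i _ => ?_
        simp only [mul_add, ENNReal.tsum_add, ENNReal.tsum_mul_right, hp, one_mul,
          div_eq_mul_inv, add_mul]
        congr 2
        simp only [← ENNReal.tsum_mul_left, ← ENNReal.tsum_mul_right]
        exact tsum_congr fun x => by ring
    _ ≤ ∑ i : Fin d, (ENNReal.ofReal (2 / α * Real.log n)
          + ENNReal.ofReal (2 / α) * (1 + M i)) := by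
        refine sum_le_sum fun i _ => add_le_add le_rfl (mul_le_mul' le_rfl ?_)
        rw [ENNReal.div_le_iff (by simp; omega) (ENNReal.natCast_ne_top n), add_mul]
        refine add_le_add (by rw [one_mul]; exact_mod_cast hn) ?_
        rw [mul_comm]
        refine conv_subadd_le hν _ (by simp [Real.zero_rpow hα.ne']) (fun a b => ?_) n
        rw [← ENNReal.ofReal_add (by positivity) (by positivity)]
        refine ENNReal.ofReal_le_ofReal ?_
        calc |((a + b) i : ℝ)| ^ α ≤ (|(a i : ℝ)| + |(b i : ℝ)|) ^ α := by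
              refine Real.rpow_le_rpow (abs_nonneg _) ?_ hα.le
              simp only [Pi.add_apply, Int.cast_add]
              exact abs_add_le _ _
          _ ≤ _ := Real.rpow_add_le_add_rpow (abs_nonneg _) (abs_nonneg _) hα.le hα1
    _ = _ := by
        rw [sum_add_distrib, sum_const, card_univ, Fintype.card_fin, nsmul_eq_mul,
          ← ENNReal.ofReal_natCast, ← ENNReal.ofReal_mul (Nat.cast_nonneg d)]
        congr 2
        ring

/-- The second moment of the difference of two independent copies. -/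
noncomputable def gapSq (p : Site d → ℝ≥0∞) (i : Fin d) : ℝ≥0∞ :=
  ∑' x, ∑' c, p x * p c * ENNReal.ofReal (((x i : ℝ) - c i) ^ 2)

theorem gapSq_conv_le (hν : ∑' x, ν x = 1) (i : Fin d) (n : ℕ) :
    gapSq (conv ν n) i ≤ n * gapSq ν i := by
  induction n with
  | zero =>
    rw [Nat.cast_zero, zero_mul, nonpos_iff_eq_zero]
    refine ENNReal.tsum_eq_zero.2 fun x => ENNReal.tsum_eq_zero.2 fun c => ?_
    by_cases hx : x = 0 <;> by_cases hc : c = 0 <;> simp [conv, hx, hc]
  | succ n ih =>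
    set p := conv ν n with hp
    have hp1 : ∑' x, p x = 1 := tsum_conv hν n
    let S : ℝ → ℝ → ℝ≥0∞ := fun u w => ENNReal.ofReal ((u + w) ^ 2)
    let T : ℝ≥0∞ := ∑' a, ∑' b, ν a * ν b * ∑' x, ∑' c, p x * p c *
      S ((a i : ℝ) - b i) ((x i : ℝ) - c i)
    have hT : gapSq (conv ν (n + 1)) i = T := by
      simp only [gapSq, T, S, conv_succ, ← hp, mul_assoc]
      simp only [ENNReal.tsum_mul_left]
      rw [tsum_addLaw_mul]
      refine tsum_congr fun a => ?_
      simp only [mul_assoc, ENNReal.tsum_mul_left]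
      congr 1
      simp only [tsum_addLaw_mul, mul_assoc, ENNReal.tsum_mul_left]
      simp only [← ENNReal.tsum_mul_left]
      rw [ENNReal.tsum_comm]
      refine tsum_congr fun b => tsum_congr fun v => tsum_congr fun c => ?_
      rw [mul_left_comm (p v)]
      congr 3
      simp only [Pi.add_apply, Int.cast_add]
      ring_nf
    have hT' : T = ∑' a, ∑' b, ν a * ν b * ∑' x, ∑' c, p x * p c *
        S (-((a i : ℝ) - b i)) ((x i : ℝ) - c i) := by
      simp only [T]
      rw [ENNReal.tsum_comm]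
      refine tsum_congr fun a => tsum_congr fun b => ?_
      rw [mul_comm (ν a), neg_sub]
    have hS : ∀ u w : ℝ, S u w + S (-u) w
        = 2 * ENNReal.ofReal (u ^ 2) + 2 * ENNReal.ofReal (w ^ 2) := by
      intro u w
      simp only [S]
      rw [← ENNReal.ofReal_ofNat 2, ← ENNReal.ofReal_mul zero_le_two,
        ← ENNReal.ofReal_mul zero_le_two, ← ENNReal.ofReal_add (by positivity) (by positivity),
        ← ENNReal.ofReal_add (by positivity) (by positivity)]
      congr 1
      ring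
    have h2 : 2 * T = 2 * (gapSq ν i + gapSq p i) := by
      rw [two_mul]
      conv_lhs => arg 2; rw [hT']
      simp only [T, ← ENNReal.tsum_add, ← mul_add, hS]
      simp only [mul_add, ENNReal.tsum_add, gapSq]
      simp only [mul_left_comm _ (2 : ℝ≥0∞), mul_assoc, ENNReal.tsum_mul_left, ENNReal.tsum_mul_right,
        hp1, hν, one_mul]
    rw [hT, (ENNReal.mul_right_inj two_ne_zero ENNReal.ofNat_ne_top).1 h2, Nat.cast_succ, add_mul,
      one_mul, add_comm]
    exact add_le_add ih le_rfl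

/-- A second moment makes the entropy at most `(d / 2) log n` up to a constant. -/
theorem ent_conv_le_half_log (hν : ∑' x, ν x = 1)
    (hmom : ∀ i, ∑' x, ν x * ENNReal.ofReal ((x i : ℝ) ^ 2) ≠ ⊤) :
    ∃ C : ℝ≥0∞, C ≠ ⊤ ∧ ∀ n : ℕ, 0 < n →
      ent (conv ν n) ≤ ENNReal.ofReal (d / 2 * Real.log n) + C := by
  set M : Fin d → ℝ≥0∞ := fun i => ∑' x, ν x * ENNReal.ofReal ((x i : ℝ) ^ 2) with hM
  have hgap : ∀ i, gapSq ν i ≤ 2 * M i + 2 * M i := by
    intro i
    calc gapSq ν i ≤ ∑' x, ∑' c, (ν x * ν c * (2 * ENNReal.ofReal ((x i : ℝ) ^ 2))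
          + ν x * ν c * (2 * ENNReal.ofReal ((c i : ℝ) ^ 2))) := by
          refine ENNReal.tsum_le_tsum fun x => ENNReal.tsum_le_tsum fun c => ?_
          rw [← mul_add]
          refine mul_le_mul' le_rfl ?_
          rw [← ENNReal.ofReal_ofNat 2, ← ENNReal.ofReal_mul zero_le_two,
            ← ENNReal.ofReal_mul zero_le_two, ← ENNReal.ofReal_add (by positivity) (by positivity)]
          exact ENNReal.ofReal_le_ofReal (by nlinarith [sq_nonneg ((x i : ℝ) + c i)])
      _ = _ := by
          simp only [ENNReal.tsum_add, mul_left_comm _ (2 : ℝ≥0∞), mul_assoc,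
            ENNReal.tsum_mul_left, ENNReal.tsum_mul_right, hν, one_mul, hM]
  refine ⟨(∑ i, (2 * M i + 2 * M i)) + ENNReal.ofReal 10 ^ d, ?_, fun n hn => ?_⟩
  · refine ENNReal.add_ne_top.2 ⟨ENNReal.sum_ne_top.2 fun i _ => ?_,
      ENNReal.pow_ne_top ENNReal.ofReal_ne_top⟩
    exact ENNReal.add_ne_top.2
      ⟨ENNReal.mul_ne_top ENNReal.ofNat_ne_top (hmom i),
        ENNReal.mul_ne_top ENNReal.ofNat_ne_top (hmom i)⟩
  set p := conv ν n with hpdef
  have hp : ∑' x, p x = 1 := tsum_conv hν n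
  have hn1 : (1 : ℝ) ≤ n := by exact_mod_cast hn
  have hn0 : (0 : ℝ) < n := by linarith
  set l : ℤ → ℝ := fun j => Real.log (1 + (j : ℝ) ^ 2 / n) + Real.log n / 2 with hl
  set Z := ∑' x : Site d, ENNReal.ofReal (Real.exp (-∑ i, l (x i))) with hZ
  have hl0 : ∀ j, 0 ≤ l j := fun j => by
    have h1 := Real.log_nonneg (show (1 : ℝ) ≤ 1 + (j : ℝ) ^ 2 / n by
      linarith [show 0 ≤ (j : ℝ) ^ 2 / n by positivity])
    have h2 := Real.log_nonneg hn1
    simp only [hl]; linarith
  have hc : ∀ c : Site d, ent p ≤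
      ∑' x, p x * ENNReal.ofReal (∑ i, l (x i - c i)) + Z := by
    intro c
    refine (ent_le_weight hp (w := fun x => ∑ i, l (x i - c i))
      fun x => sum_nonneg fun i _ => hl0 _).trans (add_le_add le_rfl (le_of_eq ?_))
    rw [hZ, ← (Equiv.subRight c).tsum_eq
      fun x : Site d => ENNReal.ofReal (Real.exp (-∑ i, l (x i)))]
    rfl
  have havg : ent p ≤ ∑' c, p c * ∑' x, p x * ENNReal.ofReal (∑ i, l (x i - c i)) + Z := by
    calc ent p = ∑' c, p c * ent p := by rw [ENNReal.tsum_mul_right, hp, one_mul]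
      _ ≤ ∑' c, p c * (∑' x, p x * ENNReal.ofReal (∑ i, l (x i - c i)) + Z) :=
          ENNReal.tsum_le_tsum fun c => mul_le_mul' le_rfl (hc c)
      _ = _ := by simp only [mul_add, ENNReal.tsum_add, ENNReal.tsum_mul_right, hp, one_mul]
  refine havg.trans ?_
  rw [← add_assoc]
  refine add_le_add ?_ (hZ ▸ tsum_exp_neg_le (fun _ j => l j) hn1 fun i j => le_of_eq ?_)
  swap
  · simp only [hl, neg_add, Real.exp_add, Real.exp_neg,
      Real.exp_log (show (0 : ℝ) < 1 + (j : ℝ) ^ 2 / n by positivity)]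
    rw [show Real.log (n : ℝ) / 2 = Real.log (√n) by rw [Real.log_sqrt hn0.le],
      Real.exp_log (Real.sqrt_pos.2 hn0)]
    have hs : √(n : ℝ) * √n = n := Real.mul_self_sqrt hn0.le
    field_simp
    linear_combination (-1 : ℝ) * hs
  calc ∑' c, p c * ∑' x, p x * ENNReal.ofReal (∑ i, l (x i - c i))
      ≤ ∑' c, p c * ∑' x, p x * (ENNReal.ofReal (d / 2 * Real.log n)
          + ∑ i, ENNReal.ofReal (((x i : ℝ) - c i) ^ 2) / n) := by
        refine ENNReal.tsum_le_tsum fun c => mul_le_mul' le_rfl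
          (ENNReal.tsum_le_tsum fun x => mul_le_mul' le_rfl ?_)
        have h1 : ∑ i, l (x i - c i) ≤
            d / 2 * Real.log n + ∑ i, ((x i : ℝ) - c i) ^ 2 / n := by
          simp only [hl, sum_add_distrib, sum_const, card_univ, Fintype.card_fin, nsmul_eq_mul]
          have h2 : ∑ i, Real.log (1 + (((x i - c i : ℤ) : ℝ)) ^ 2 / n)
              ≤ ∑ i, ((x i : ℝ) - c i) ^ 2 / n := by
            refine sum_le_sum fun i _ => ?_
            have := Real.log_le_sub_one_of_pos
              (show (0 : ℝ) < 1 + (((x i - c i : ℤ) : ℝ)) ^ 2 / n by positivity)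
            push_cast at this ⊢
            linarith
          linarith [show (d : ℝ) * (Real.log n / 2) = d / 2 * Real.log n by ring]
        refine (ENNReal.ofReal_le_ofReal h1).trans (ENNReal.ofReal_add_le.trans ?_)
        rw [ENNReal.ofReal_sum_of_nonneg fun i _ => by positivity]
        gcongr with i
        rw [ENNReal.ofReal_div_of_pos hn0, ENNReal.ofReal_natCast]
    _ = ENNReal.ofReal (d / 2 * Real.log n) + ∑ i, gapSq p i / n := by
        simp only [mul_add, ENNReal.tsum_add, ENNReal.tsum_mul_right, hp, one_mul, mul_sum]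
        congr 1
        simp only [Summable.tsum_finsetSum fun i _ => ENNReal.summable, mul_sum]
        refine sum_congr rfl fun i _ => ?_
        simp only [gapSq, div_eq_mul_inv, ← ENNReal.tsum_mul_right, ← ENNReal.tsum_mul_left]
        rw [ENNReal.tsum_comm]
        refine tsum_congr fun x => tsum_congr fun c => ?_
        ring
    _ ≤ _ := by
        refine add_le_add le_rfl (sum_le_sum fun i _ => ?_)
        rw [ENNReal.div_le_iff (by simp; omega) (ENNReal.natCast_ne_top n), mul_comm]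
        exact (gapSq_conv_le hν i n).trans (mul_le_mul' le_rfl (hgap i))

end Vale.Agent.P147
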