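import Mathlib
import Vale.Agent.P147.EntUpper
import Vale.Agent.P147.Local

/-!
# P147: a lower bound for the entropy of sums of iid lattice vectors

Fair noise along `d` independent lattice vectors gives at least `(d / 2) log n - O(1)`.
-/

namespace Vale.Agent.P147

open Finset
open scoped ENNReal

variable {d : ℕ}

/-- A fair pair of atoms along each of `d` independent vectors, with dual functionals. -/
structure Frame (d : ℕ) where
  a : Fin d → Site d
  b : Fin d → Site d
  φ : Fin d → (Site d →+ ℤ)
  off : ∀ i j, i ≠ j → φ i (b j - a j) = 0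
  diag : ∀ i, φ i (b i - a i) ≠ 0

theorem Frame.ne (F : Frame d) (i : Fin d) : F.a i ≠ F.b i := fun h =>
  F.diag i (by rw [h, sub_self, map_zero])

/-- The law of independent fair noise along the axes listed in a word. -/
noncomputable def Frame.word (F : Frame d) (l : List (Fin d)) : Site d → ℝ≥0∞ :=
  l.foldr (fun i f => addLaw (pairLaw (F.a i) (F.b i)) f) unitLaw

theorem addLaw_iterate_eq (α f : Site d → ℝ≥0∞) (N : ℕ) (x : Site d) :
    (addLaw α)^[N] f x = (shOp α)^[N] (fun y => f (-y)) (-x) := by
  induction N generalizing x with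
  | zero => simp
  | succ N ih =>
    rw [Function.iterate_succ_apply', Function.iterate_succ_apply', addLaw, shOp]
    refine tsum_congr fun y => ?_
    rw [ih, neg_sub, neg_add_eq_sub]

theorem tsum_pairLaw {a b : Site d} (hab : a ≠ b) : ∑' x, pairLaw a b x = 1 := by
  rw [tsum_eq_sum (s := {a, b}) fun y hy => by
    simp only [mem_insert, mem_singleton, not_or] at hy
    simp [pairLaw, hy.1, hy.2], sum_pair hab]
  simp [pairLaw, ENNReal.inv_two_add_inv_two]

theorem Frame.tsum_word (F : Frame d) (l : List (Fin d)) : ∑' x, F.word l x = 1 := by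
  induction l with
  | nil => exact tsum_unitLaw
  | cons i l ih =>
    change ∑' x, addLaw _ (F.word l) x = 1
    rw [tsum_addLaw, tsum_pairLaw (F.ne i), ih, one_mul]

/-- A functional is constant on the support of noise along the other axes. -/
theorem Frame.const_of_not_mem (F : Frame d) (i : Fin d) (l : List (Fin d)) (hi : i ∉ l) :
    ∀ x y, F.word l x ≠ 0 → F.word l y ≠ 0 → F.φ i x = F.φ i y := by
  induction l with
  | nil =>
    intro x y hx hy
    by_cases h1 : x = 0
    · by_cases h2 : y = 0
      · rw [h1, h2]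
      · simp [Frame.word, unitLaw, h2] at hy
    · simp [Frame.word, unitLaw, h1] at hx
  | cons j l ih =>
    simp only [List.mem_cons, not_or] at hi
    have key : ∀ x, F.word (j :: l) x ≠ 0 → ∃ w, F.word l w ≠ 0 ∧
        F.φ i x = F.φ i w + F.φ i (F.a j) := by
      intro x hx
      change addLaw (pairLaw (F.a j) (F.b j)) (F.word l) x ≠ 0 at hx
      obtain ⟨s, hs⟩ : ∃ s, pairLaw (F.a j) (F.b j) s * F.word l (x - s) ≠ 0 := by
        by_contra hne
        push Not at hne
        exact hx (ENNReal.tsum_eq_zero.2 hne)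
      refine ⟨x - s, right_ne_zero_of_mul hs, ?_⟩
      have hs' : s = F.a j ∨ s = F.b j := by
        by_contra hne
        exact left_ne_zero_of_mul hs (if_neg hne)
      have hb : F.φ i (F.b j) = F.φ i (F.a j) := by
        have := F.off i j hi.1
        rw [map_sub, sub_eq_zero] at this
        exact this
      rcases hs' with rfl | rfl <;> simp [map_sub, hb]
    intro x y hx hy
    obtain ⟨w, hw, ew⟩ := key x hx
    obtain ⟨w', hw', ew'⟩ := key y hy
    rw [ew, ew', ih hi.2 w w' hw hw']

theorem Frame.foldr_replicate (F : Frame d) (i : Fin d) (N : ℕ) (l : List (Fin d)) :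
    F.word (List.replicate N i ++ l) = (addLaw (pairLaw (F.a i) (F.b i)))^[N] (F.word l) := by
  induction N with
  | zero => simp
  | succ N ih =>
    rw [List.replicate_succ, List.cons_append, Function.iterate_succ_apply', ← ih]
    rfl

theorem Frame.word_perm (F : Frame d) {l l' : List (Fin d)} (h : l.Perm l') :
    F.word l = F.word l' := by
  have : LeftCommutative fun (i : Fin d) (f : Site d → ℝ≥0∞) =>
      addLaw (pairLaw (F.a i) (F.b i)) f := ⟨fun i j f => addLaw_left_comm _ _ f⟩
  exact h.foldr_eq _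

/-- Noise along a new axis flattens by the central binomial weight. -/
theorem Frame.sup_iterate_le (F : Frame d) (i : Fin d) (N : ℕ) (l : List (Fin d)) (hi : i ∉ l)
    (A : ℝ≥0∞) (hA : ∀ y, F.word l y ≤ A) (x : Site d) :
    F.word (List.replicate N i ++ l) x ≤ ENNReal.ofReal (2 / √(N + 1 : ℕ)) * A := by
  rw [F.foldr_replicate, addLaw_iterate_eq, shOp_pairLaw_iterate (F.ne i), mul_sum]
  simp only [← mul_assoc, ← ofReal_bw]
  let w : ℕ → Site d := fun k => -(-x + N • F.a i + k • (F.b i - F.a i))
  have huniq : ∀ k k', F.word l (w k) ≠ 0 → F.word l (w k') ≠ 0 → k = k' := by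
    intro k k' hk hk'
    have h := F.const_of_not_mem i l hi _ _ hk hk'
    simp only [w, map_neg, map_add, neg_inj, add_right_inj, map_nsmul] at h
    simp only [nsmul_eq_mul] at h
    exact_mod_cast mul_right_cancel₀ (F.diag i) h
  by_cases hex : ∃ k ∈ range (N + 1), F.word l (w k) ≠ 0
  · obtain ⟨k, hk, hkne⟩ := hex
    rw [sum_eq_single_of_mem k hk fun k' _ hk' => by
      by_cases h : F.word l (w k') = 0
      · exact mul_eq_zero_of_right _ h
      · exact absurd (huniq k' k h hkne) hk']
    exact mul_le_mul' (ENNReal.ofReal_le_ofReal (bw_le_inv_sqrt N k)) (hA _)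
  · push Not at hex
    rw [sum_eq_zero fun k hk => mul_eq_zero_of_right _ (hex k hk)]
    exact bot_le

/-- Noise along independent axes has small atoms. -/
theorem Frame.sup_le (F : Frame d) (s : Finset (Fin d)) :
    ∀ l : List (Fin d), (∀ j ∈ l, j ∈ s) → ∀ x,
      F.word l x ≤ ∏ i ∈ s, ENNReal.ofReal (2 / √(l.count i + 1 : ℕ)) := by
  induction s using Finset.induction_on with
  | empty =>
    intro l hl x
    have : l = [] := List.eq_nil_iff_forall_not_mem.2 fun j hj => absurd (hl j hj) (notMem_empty j)
    subst this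
    simp only [Frame.word, List.foldr_nil, unitLaw, prod_empty]
    split_ifs <;> simp
  | insert i s his ih =>
    intro l hl x
    set l' := l.filter fun j => decide (j ≠ i) with hl'
    have hperm : l.Perm (List.replicate (l.count i) i ++ l') := by
      rw [List.perm_iff_count]
      intro j
      rw [List.count_append, List.count_replicate]
      by_cases hj : j = i
      · subst hj
        simp [hl', List.count_eq_zero]
      · rw [if_neg (by simpa using Ne.symm hj), zero_add, hl', List.count_filter (by simpa using hj)]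
    have hmem : ∀ j ∈ l', j ∈ s := fun j hj => by
      rw [hl', List.mem_filter] at hj
      rcases mem_insert.1 (hl j hj.1) with h | h
      · simp [h] at hj
      · exact h
    rw [F.word_perm hperm, prod_insert his]
    refine (F.sup_iterate_le i (l.count i) l' (by simp [hl']) _ (ih l' hmem) x).trans ?_
    refine mul_le_mul' le_rfl (le_of_eq (prod_congr rfl fun j hj => ?_))
    rw [hl', List.count_filter (by simp; rintro rfl; exact his hj)]

/-- The entropy of one noise word. -/
theorem Frame.ent_word_ge (F : Frame d) (l : List (Fin d)) :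
    ENNReal.ofReal (∑ i, (Real.log ((l.count i : ℝ) + 1) / 2 - Real.log 2))
      ≤ ent (F.word l) := by
  set y : ℝ := ∑ i, (Real.log ((l.count i : ℝ) + 1) / 2 - Real.log 2)
  have hp := F.tsum_word l
  have hsup : ∀ x, F.word l x ≤ ENNReal.ofReal (Real.exp (-y)) := by
    intro x
    refine (F.sup_le univ l (fun j _ => mem_univ j) x).trans (le_of_eq ?_)
    rw [← ENNReal.ofReal_prod_of_nonneg fun i _ => by positivity]
    congr 1
    rw [← sum_neg_distrib, Real.exp_sum]
    refine prod_congr rfl fun i _ => ?_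
    rw [Nat.cast_succ, neg_sub, Real.exp_sub, Real.exp_log two_pos,
      ← Real.log_sqrt (by positivity), Real.exp_log (by positivity)]
  calc ENNReal.ofReal y = ∑' x, F.word l x * ENNReal.ofReal y := by
        rw [ENNReal.tsum_mul_right, hp, one_mul]
    _ ≤ ent (F.word l) := by
        refine ENNReal.tsum_le_tsum fun x => ?_
        by_cases hx : F.word l x = 0
        · simp [hx]
        refine mul_le_mul' le_rfl (ENNReal.ofReal_le_ofReal ?_)
        have h0 := ENNReal.toReal_pos hx (ne_top_of_le_ne_top ENNReal.one_ne_top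
          (le_one_of_tsum hp x))
        have h1 := ENNReal.toReal_mono ENNReal.ofReal_ne_top (hsup x)
        rw [ENNReal.toReal_ofReal (Real.exp_pos _).le] at h1
        have h2 := Real.log_le_log h0 h1
        rw [Real.log_exp] at h2
        linarith

/-- The averaged logarithm of a binomial count, started at `t`. -/
noncomputable def binLog (θ : ℝ) : ℕ → ℕ → ℝ
  | 0, t => Real.log ((t : ℝ) + 1) / 2 - Real.log 2
  | n + 1, t => (1 - θ) * binLog θ n t + θ * binLog θ n (t + 1)

theorem binLog_eq (θ : ℝ) (n t : ℕ) : binLog θ n t = ∑ k ∈ range (n + 1),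
    (n.choose k : ℝ) * (θ ^ k * (1 - θ) ^ (n - k)
      * (Real.log (((t + k : ℕ) : ℝ) + 1) / 2 - Real.log 2)) := by
  induction n generalizing t with
  | zero => simp [binLog]
  | succ n ih =>
    rw [binLog, ih, ih, sum_choose_mul_succ n, mul_sum, mul_sum, ← sum_add_distrib]
    refine sum_congr rfl fun k hk => ?_
    have hk' : k ≤ n := Nat.lt_succ_iff.1 (mem_range.1 hk)
    rw [show n + 1 - k = n - k + 1 by omega, show n + 1 - (k + 1) = n - k by omega,
      show t + (k + 1) = t + 1 + k by omega]
    ring

theorem binLog_zero_ge {θ : ℝ} (hθ : 0 < θ) (hθ1 : θ ≤ 1) (n : ℕ) :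
    Real.log (θ * (n + 1)) / 2 - Real.log 2 ≤ binLog θ n 0 := by
  set A : ℝ := θ * (n + 1) with hA
  have hA0 : 0 < A := by rw [hA]; positivity
  set W : ℕ → ℝ := fun k => (n.choose k : ℝ) * (θ ^ k * (1 - θ) ^ (n - k)) with hW
  have hW0 : ∀ k, 0 ≤ W k := fun k => by
    simp only [hW]; have : 0 ≤ 1 - θ := by linarith
    positivity
  have hW1 : ∑ k ∈ range (n + 1), W k = 1 := by
    have h := add_pow θ (1 - θ) n
    rw [show θ + (1 - θ) = 1 by ring, one_pow] at h
    conv_rhs => rw [h]
    exact sum_congr rfl fun k _ => by simp only [hW]; ring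
  have hinv : ∑ k ∈ range (n + 1), W k * (A / ((k : ℝ) + 1)) ≤ 1 := by
    have h := add_pow θ (1 - θ) (n + 1)
    rw [show θ + (1 - θ) = 1 by ring, one_pow, sum_range_succ'] at h
    have hterm : ∀ k ∈ range (n + 1), W k * (A / ((k : ℝ) + 1))
        = θ ^ (k + 1) * (1 - θ) ^ (n + 1 - (k + 1)) * ((n + 1).choose (k + 1) : ℝ) := by
      intro k _
      have hc : ((n + 1 : ℕ) : ℝ) * (n.choose k : ℝ)
          = ((n + 1).choose (k + 1) : ℝ) * ((k + 1 : ℕ) : ℝ) := by
        exact_mod_cast Nat.add_one_mul_choose_eq n k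
      push_cast at hc
      rw [show n + 1 - (k + 1) = n - k by omega]
      simp only [hW, hA]
      field_simp
      linear_combination (θ * θ ^ k * (1 - θ) ^ (n - k)) * hc
    rw [sum_congr rfl hterm]
    have : 0 ≤ θ ^ 0 * (1 - θ) ^ (n + 1 - 0) * ((n + 1).choose 0 : ℝ) := by
      have : 0 ≤ 1 - θ := by linarith
      positivity
    linarith
  rw [binLog_eq]
  calc Real.log A / 2 - Real.log 2
      ≤ ∑ k ∈ range (n + 1), W k * ((Real.log A + 1 - A / ((k : ℝ) + 1)) / 2 - Real.log 2) := by
        have e : ∑ k ∈ range (n + 1), W k * ((Real.log A + 1 - A / ((k : ℝ) + 1)) / 2 - Real.log 2)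
            = (Real.log A / 2 + 1 / 2 - Real.log 2) * ∑ k ∈ range (n + 1), W k
              - (∑ k ∈ range (n + 1), W k * (A / ((k : ℝ) + 1))) / 2 := by
          rw [mul_sum, sum_div, ← sum_sub_distrib]
          exact sum_congr rfl fun k _ => by ring
        rw [e, hW1]
        linarith
    _ ≤ _ := by
        refine sum_le_sum fun k _ => ?_
        rw [← mul_assoc _ (θ ^ k * (1 - θ) ^ (n - k))]
        refine mul_le_mul_of_nonneg_left ?_ (hW0 k)
        simp only [zero_add]
        have h := Real.log_le_sub_one_of_pos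
          (show 0 < A / ((k : ℝ) + 1) by positivity)
        rw [Real.log_div hA0.ne' (by positivity)] at h
        linarith

/-- Fair noise along every axis makes the entropy grow like `(d / 2) log n`. -/
theorem Frame.ent_conv_ge (F : Frame d) {ν : Site d → ℝ≥0∞} (hν : ∑' x, ν x = 1)
    (ha : ∀ i, ν (F.a i) ≠ 0) (hb : ∀ i, ν (F.b i) ≠ 0) :
    ∃ θ : ℝ, 0 < θ ∧ ∀ n : ℕ,
      ENNReal.ofReal (d * (Real.log (θ * (n + 1)) / 2 - Real.log 2)) ≤ ent (conv ν n) := by
  classical
  have hνt : ∀ x, ν x ≠ ⊤ := fun x => ne_top_of_le_ne_top ENNReal.one_ne_top (le_one_of_tsum hν x)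
  set c : ℝ := ∏ i, (ν (F.a i)).toReal * (ν (F.b i)).toReal with hc
  have hc0 : 0 < c := prod_pos fun i _ =>
    mul_pos (ENNReal.toReal_pos (ha i) (hνt _)) (ENNReal.toReal_pos (hb i) (hνt _))
  have h1 : ∀ x, (ν x).toReal ≤ 1 := fun x => by
    simpa using ENNReal.toReal_mono ENNReal.one_ne_top (le_one_of_tsum hν x)
  have hci : ∀ i, c ≤ (ν (F.a i)).toReal ∧ c ≤ (ν (F.b i)).toReal := by
    intro i
    have : c ≤ (ν (F.a i)).toReal * (ν (F.b i)).toReal := by
      rw [hc, ← mul_prod_erase univ _ (mem_univ i)]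
      refine mul_le_of_le_one_right (by positivity) (prod_le_one (fun j _ => by positivity)
        fun j _ => mul_le_one₀ (h1 _) ENNReal.toReal_nonneg (h1 _))
    exact ⟨this.trans (mul_le_of_le_one_right ENNReal.toReal_nonneg (h1 _)),
      this.trans (mul_le_of_le_one_left ENNReal.toReal_nonneg (h1 _))⟩
  set θ : ℝ := min c (1 / 2) / (d + 1) with hθ
  have hθ0 : 0 < θ := by rw [hθ]; positivity
  have hθd : θ * d ≤ min c (1 / 2) := by
    rw [hθ, div_mul_eq_mul_div, div_le_iff₀ (by positivity)]
    have : (0 : ℝ) ≤ min c (1 / 2) := le_min hc0.le (by norm_num)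
    nlinarith
  have hd1 : 0 < 1 - θ * d := by linarith [min_le_right c (1 / 2)]
  have hθ1 : θ ≤ 1 := by
    rw [hθ, div_le_one (by positivity)]
    linarith [min_le_right c (1 / 2), (Nat.cast_nonneg d : (0 : ℝ) ≤ d)]
  set B : Fin d → Site d → ℝ≥0∞ := fun i => pairLaw (F.a i) (F.b i) with hB
  have hle : ∀ x, ∑ i, ENNReal.ofReal θ * B i x ≤ ν x := by
    intro x
    by_cases hx : ∃ i, x = F.a i ∨ x = F.b i
    · obtain ⟨i₀, hi₀⟩ := hx
      calc ∑ i, ENNReal.ofReal θ * B i x ≤ ∑ _i : Fin d, ENNReal.ofReal θ :=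
            sum_le_sum fun i _ => mul_le_of_le_one_right' (by
              simp only [hB, pairLaw]; split_ifs <;> simp)
        _ = ENNReal.ofReal (θ * d) := by
            rw [sum_const, card_univ, Fintype.card_fin, nsmul_eq_mul, mul_comm θ,
              ENNReal.ofReal_mul (Nat.cast_nonneg d), ENNReal.ofReal_natCast]
        _ ≤ ν x := by
            rw [← ENNReal.ofReal_toReal (hνt x)]
            refine ENNReal.ofReal_le_ofReal (hθd.trans ((min_le_left _ _).trans ?_))
            rcases hi₀ with rfl | rfl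
            exacts [(hci i₀).1, (hci i₀).2]
    · push Not at hx
      rw [sum_eq_zero fun i _ => by simp [hB, pairLaw, (hx i).1, (hx i).2]]
      exact bot_le
  set w₀ : ℝ≥0∞ := ENNReal.ofReal (1 - θ * d) with hw₀
  have hw0 : w₀ ≠ 0 := by simpa [hw₀] using hd1
  set ρ : Site d → ℝ≥0∞ := fun x => w₀⁻¹ * (ν x - ∑ i, ENNReal.ofReal θ * B i x) with hρ
  let w : Option (Fin d) → ℝ≥0∞ := fun o => o.elim w₀ fun _ => ENNReal.ofReal θ
  let k : Option (Fin d) → Site d → ℝ≥0∞ := fun o => o.elim ρ B
  have hsumB : ∑' x, ∑ i, ENNReal.ofReal θ * B i x = ENNReal.ofReal (θ * d) := by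
    rw [Summable.tsum_finsetSum fun i _ => ENNReal.summable]
    simp only [hB, ENNReal.tsum_mul_left, tsum_pairLaw (F.ne _), mul_one, sum_const, card_univ,
      Fintype.card_fin, nsmul_eq_mul]
    rw [mul_comm θ, ENNReal.ofReal_mul (Nat.cast_nonneg d), ENNReal.ofReal_natCast]
  have hρ1 : ∑' x, ρ x = 1 := by
    have h := ENNReal.tsum_add (f := fun x => ν x - ∑ i, ENNReal.ofReal θ * B i x)
      (g := fun x => ∑ i, ENNReal.ofReal θ * B i x)
    simp only [tsub_add_cancel_of_le (hle _), hν, hsumB] at h
    have hsub : ∑' x, (ν x - ∑ i, ENNReal.ofReal θ * B i x) = w₀ := by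
      rw [hw₀, ENNReal.ofReal_sub _ (by positivity), ENNReal.ofReal_one, h,
        ENNReal.add_sub_cancel_right ENNReal.ofReal_ne_top]
    simp only [hρ, ENNReal.tsum_mul_left, hsub]
    exact ENNReal.inv_mul_cancel hw0 ENNReal.ofReal_ne_top
  have hw1 : ∑ o, w o = 1 := by
    rw [Fintype.sum_option]
    simp only [w, Option.elim, sum_const, card_univ, Fintype.card_fin, nsmul_eq_mul]
    rw [hw₀, ← ENNReal.ofReal_natCast d, ← ENNReal.ofReal_mul (Nat.cast_nonneg d),
      ← ENNReal.ofReal_add hd1.le (by positivity), ← ENNReal.ofReal_one]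
    congr 1
    ring
  have hk1 : ∀ o, ∑' x, k o x = 1 := fun o => by
    rcases o with _ | i
    exacts [hρ1, tsum_pairLaw (F.ne i)]
  have hmix : ν = fun x => ∑ o, w o * k o x := by
    funext x
    rw [Fintype.sum_option]
    simp only [w, k, Option.elim, hρ, ← mul_assoc,
      ENNReal.mul_inv_cancel hw0 ENNReal.ofReal_ne_top, one_mul]
    exact (tsub_add_cancel_of_le (hle x)).symm
  have claim : ∀ (n : ℕ) (l : List (Fin d)),
      ENNReal.ofReal (∑ i, binLog θ n (l.count i)) ≤ ent (addLaw (F.word l) (conv ν n)) := by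
    intro n
    induction n with
    | zero =>
      intro l
      rw [show conv ν 0 = unitLaw from rfl, addLaw_comm, addLaw_unit]
      exact F.ent_word_ge l
    | succ n ih =>
      intro l
      have hconc := sum_ent_le_ent_sum w (fun o => addLaw (k o) (addLaw (F.word l) (conv ν n)))
        hw1 fun o => by rw [tsum_addLaw, hk1, tsum_addLaw, F.tsum_word, tsum_conv hν, one_mul,
          one_mul]
      have heq : (fun x => ∑ o, w o * addLaw (k o) (addLaw (F.word l) (conv ν n)) x)
          = addLaw (F.word l) (conv ν (n + 1)) := by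
        rw [conv_succ, addLaw_left_comm]
        funext x
        generalize addLaw (F.word l) (conv ν n) = f
        conv_rhs => rw [addLaw, hmix]
        simp only [addLaw, sum_mul, Summable.tsum_finsetSum fun i _ => ENNReal.summable,
          ← ENNReal.tsum_mul_left, mul_assoc]
      rw [heq] at hconc
      refine le_trans ?_ hconc
      have hstep : ∑ i, binLog θ (n + 1) (l.count i) = (1 - θ * d) * ∑ i, binLog θ n (l.count i)
          + ∑ j : Fin d, θ * ∑ i, binLog θ n ((j :: l).count i) := by
        have e : ∀ j : Fin d, ∑ i, binLog θ n ((j :: l).count i) = ∑ i, binLog θ n (l.count i)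
            + (binLog θ n (l.count j + 1) - binLog θ n (l.count j)) := by
          intro j
          rw [← sub_eq_iff_eq_add', ← sum_sub_distrib,
            sum_eq_single_of_mem j (mem_univ j) fun i _ hij => by
              rw [List.count_cons_of_ne (Ne.symm hij), sub_self],
            List.count_cons_self]
        simp only [e, binLog, mul_add, mul_sub, sum_add_distrib, sum_sub_distrib, sum_const,
          card_univ, Fintype.card_fin, nsmul_eq_mul, sub_mul, one_mul, ← mul_sum]
        ring
      rw [hstep, Fintype.sum_option]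
      refine ENNReal.ofReal_add_le.trans (add_le_add ?_ ?_)
      · simp only [w, k, Option.elim]
        rw [ENNReal.ofReal_mul hd1.le]
        exact mul_le_mul' le_rfl ((ih l).trans (ent_le_addLaw hρ1 (by
          rw [tsum_addLaw, F.tsum_word, tsum_conv hν, one_mul])))
      · refine le_trans (Finset.le_sum_of_subadditive ENNReal.ofReal ENNReal.ofReal_zero.le
          (fun x y => ENNReal.ofReal_add_le) _ _) (sum_le_sum fun j _ => ?_)
        simp only [w, k, Option.elim]
        rw [ENNReal.ofReal_mul hθ0.le]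
        refine mul_le_mul' le_rfl ((ih (j :: l)).trans (le_of_eq ?_))
        rw [← addLaw_assoc]
        rfl
  refine ⟨θ, hθ0, fun n => ?_⟩
  have h := claim n []
  rw [show F.word [] = unitLaw from rfl, addLaw_unit] at h
  refine le_trans (ENNReal.ofReal_le_ofReal ?_) h
  calc (d : ℝ) * (Real.log (θ * (n + 1)) / 2 - Real.log 2)
      = ∑ _i : Fin d, (Real.log (θ * (n + 1)) / 2 - Real.log 2) := by
        rw [sum_const, card_univ, Fintype.card_fin, nsmul_eq_mul]
    _ ≤ _ := sum_le_sum fun i _ => by rw [List.count_nil]; exact binLog_zero_ge hθ0 hθ1 n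

end Vale.Agent.P147
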