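import Mathlib
import Vale.Agent.P147.EntMain
import Vale.Agent.P147.EntLower
import Vale.Agent.P147.CutMoment

/-!
# P147: moment conditions on one side which force escape to that side
-/

namespace Vale.Agent.P147

open MeasureTheory Finset Filter
open scoped ENNReal Topology

variable {d : ℕ} {μ : Measure (Row d)} [IsProbabilityMeasure μ] {P : Measure (Traj d)}
  {h : Site d →+ ℝ}

/-- Moments of one block are moments at the first cut time. -/
theorem IsAnnealed.blockLaw_moment_le (hP : IsAnnealed μ P) (α : ℝ) :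
    (∑' x, blockLaw μ h x * coordPow α x) * P (Esc h) ≤ cutMoment P h α := by
  classical
  have e1 : ∑' x, blockLaw μ h x * coordPow α x = ∑' π, bwgt μ h π * coordPow α (disp π) := by
    simp only [blockLaw, ← ENNReal.tsum_mul_right, ite_mul, zero_mul]
    rw [ENNReal.tsum_comm]
    refine tsum_congr fun π => ?_
    rw [tsum_eq_single (disp π) fun y hy => by rw [if_neg (Ne.symm hy)], if_pos rfl]
  let Bl : Set (List (Step d)) := {π | IsBlock h π}
  have e2 : ∑' π, bwgt μ h π * coordPow α (disp π)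
      = ∑' π : Bl, bwgt μ h π.1 * coordPow α (disp π.1) := by
    rw [tsum_subtype Bl fun π => bwgt μ h π * coordPow α (disp π)]
    refine tsum_congr fun π => ?_
    by_cases hπ : π ∈ Bl
    · rw [Set.indicator_of_mem hπ]
    · rw [Set.indicator_of_notMem hπ]
      have : bwgt μ h π = 0 := bwgt_eq_zero hπ
      rw [this, zero_mul]
  rw [e1, e2, ← ENNReal.tsum_mul_right, cutMoment]
  have hterm : ∀ π : Bl, bwgt μ h π.1 * coordPow α (disp π.1) * P (Esc h)
      = ∫⁻ t, (blockEvent h [π.1]).indicator (fun _ => coordPow α (disp π.1)) t ∂P := by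
    intro π
    rw [lintegral_indicator_const (measurableSet_blockEvent _),
      hP.measure_blockEvent (List.forall_mem_singleton.2 π.2)]
    simp [bprod]
    ring
  rw [tsum_congr hterm, ← lintegral_tsum fun π : Bl =>
    ((measurable_const (a := coordPow α (disp π.1))).indicator
      (measurableSet_blockEvent _)).aemeasurable]
  refine lintegral_mono fun t => ?_
  by_cases hex : ∃ π : Bl, t ∈ blockEvent h [π.1]
  · obtain ⟨π, hπ⟩ := hex
    rw [tsum_eq_single π fun ρ hρ => Set.indicator_of_notMem (fun ht => hρ (Subtype.ext (by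
      simpa using blockEvent_unique (h := h) (ws := [ρ.1]) (vs := [π.1]) rfl
        (List.forall_mem_singleton.2 ρ.2) (List.forall_mem_singleton.2 π.2) ht hπ))) _, Set.indicator_of_mem hπ]
    refine le_trans ?_ (ENNReal.le_tsum π.1.length)
    have hcyl : t ∈ cyl π.1 := by simpa using hπ.1
    have hesc : shiftT π.1.length t ∈ Esc h := by simpa using hπ.2
    obtain ⟨ht, hcut⟩ := mem_esc_of_cut hcyl π.2.2.1 hesc (IsBlock.pos π.2).le
    rw [Set.indicator_of_mem (show t ∈ Esc h ∩ {t | FirstCut h t π.1.length} from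
      ⟨ht, List.length_pos_iff.2 π.2.1, hcut, fun m h0 hm => not_isCut_inside π.2 hcyl h0 hm⟩),
      site_of_mem_cyl hcyl le_rfl, List.take_length]
  · push Not at hex
    rw [ENNReal.tsum_eq_zero.2 fun π => Set.indicator_of_notMem (hex π) _]
    exact bot_le

theorem IsAnnealed.blockLaw_coord_moment (hP : IsAnnealed μ P) (hplus : P (Esc h) ≠ 0) {α : ℝ}
    (hmom : cutMoment P h α ≠ ⊤) (i : Fin d) :
    ∑' x, blockLaw μ h x * ENNReal.ofReal (|(x i : ℝ)| ^ α) ≠ ⊤ := by
  have := hP.1
  refine ne_top_of_le_ne_top (b := ∑' x, blockLaw μ h x * coordPow α x) (fun htop => hmom ?_)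
    (ENNReal.tsum_le_tsum fun x => mul_le_mul' le_rfl
      (single_le_sum (f := fun j => ENNReal.ofReal (|(x j : ℝ)| ^ α)) (fun _ _ => bot_le)
        (mem_univ i)))
  have h1 := hP.blockLaw_moment_le (h := h) α
  rw [htop, ENNReal.top_mul hplus] at h1
  exact top_le_iff.1 h1

/-- The block law has fair noise along every axis. -/
theorem exists_frame (hμ : Elliptic μ) {e : Step d} (he : h (vec e) = 1) :
    ∃ F : Frame d, (∀ i, blockLaw μ h (F.a i) ≠ 0) ∧ ∀ i, blockLaw μ h (F.b i) ≠ 0 := by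
  classical
  have hpos : ∀ {π : List (Step d)}, IsBlock h π → blockLaw μ h (disp π) ≠ 0 := by
    intro π hπ
    refine ne_of_gt (lt_of_lt_of_le (pos_iff_ne_zero.2 (show bwgt μ h π ≠ 0 by
      simp [bwgt, hπ, pw_pos μ hμ])) ?_)
    refine le_trans (le_of_eq ?_) (ENNReal.le_tsum π)
    rw [if_pos rfl]
  have he0 : 0 < h (vec e) := by rw [he]; exact one_pos
  have hlat : ∀ i : Fin d, i ≠ e.1 → ∃ g : List (Step d), IsBlock h g ∧
      (disp g i = 1 ∨ disp g i = -1) ∧ ∀ j, j ≠ i → j ≠ e.1 → disp g j = 0 := by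
    intro i hi
    obtain ⟨b, hb⟩ := exists_sign h i
    obtain ⟨g, hg, hgi, hg0, -⟩ := exists_lateral hb he0 hi
    refine ⟨g, hg, ?_, hg0⟩
    rw [show disp g i = vec (i, b) i from hgi, vec_apply_sign]
    cases b <;> simp
  choose g hg hgi hg0 using hlat
  let a : Fin d → Site d := fun _ => vec e
  let b : Fin d → Site d := fun i => if hi : i = e.1 then vec e + vec e else disp (g i hi)
  let ev : Fin d → (Site d →+ ℤ) := fun i => Pi.evalAddMonoidHom (fun _ : Fin d => ℤ) i
  let ψ : Site d →+ ℤ := ev e.1 - ∑ j ∈ univ.erase e.1,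
    (((b j - a j) e.1) * ((b j - a j) j)) • ev j
  let φ : Fin d → (Site d →+ ℤ) := fun i => if i = e.1 then ψ else ev i
  have hve : ∀ j, j ≠ e.1 → vec e j = 0 := fun j hj => vec_apply_ne hj
  have hvee : vec e e.1 = 1 ∨ vec e e.1 = -1 := by
    obtain ⟨i, s⟩ := e
    rw [vec_apply_sign]
    cases s <;> simp
  have hu0 : ∀ i j, i ≠ j → i ≠ e.1 → (b j - a j) i = 0 := by
    intro i j hij hi
    simp only [a, b, Pi.sub_apply, hve i hi, sub_zero]
    split_ifs with hj
    · simp [hve i hi]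
    · exact hg0 j hj i hij hi
  have hu1 : ∀ j, j ≠ e.1 → (b j - a j) j = 1 ∨ (b j - a j) j = -1 := by
    intro j hj
    simpa only [a, b, Pi.sub_apply, hve j hj, sub_zero, dif_neg hj] using hgi j hj
  have hψ : ∀ v : Site d, ψ v = v e.1 - ∑ j ∈ univ.erase e.1,
      (b j - a j) e.1 * (b j - a j) j * v j := fun v => by
    simp [ψ, ev, AddMonoidHom.finsetSum_apply]
  have hψu : ∀ j, j ≠ e.1 → ψ (b j - a j) = 0 := by
    intro j hj
    rw [hψ, sum_eq_single_of_mem j (mem_erase.2 ⟨hj, mem_univ j⟩) fun k hk hkj => by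
      rw [hu0 k j hkj (mem_erase.1 hk).1, mul_zero]]
    rcases hu1 j hj with h1 | h1 <;> rw [h1] <;> ring
  refine ⟨⟨a, b, φ, fun i j hij => ?_, fun i => ?_⟩, fun i => ?_, fun i => ?_⟩
  · by_cases hi : i = e.1
    · subst hi
      simpa [φ] using hψu j (Ne.symm hij)
    · simpa [φ, if_neg hi, ev] using hu0 i j hij hi
  · by_cases hi : i = e.1
    · subst hi
      simp only [φ, if_pos rfl]
      rw [hψ, sum_eq_zero fun k hk => by
        rw [hu0 k e.1 (mem_erase.1 hk).1 (mem_erase.1 hk).1, mul_zero]]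
      simp only [a, b, dif_pos rfl, add_sub_cancel_right, sub_zero]
      rcases hvee with h1 | h1 <;> omega
    · simp only [φ, if_neg hi, ev, Pi.evalAddMonoidHom_apply]
      rcases hu1 i hi with h1 | h1 <;> omega
  · simpa [a] using hpos (isBlock_singleton he0)
  · by_cases hi : i = e.1
    · have hd : disp [e, (e.1, !e.2), e, e] = vec e + vec e := by simp [vec_not]
      simpa [b, hi, hd] using hpos (isBlock_bump he)
    · simpa [b, hi] using hpos (hg i hi)

/-- A second moment at the first cut time keeps the entropy increments bounded. -/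
theorem IsAnnealed.crit_of_second_moment (hP : IsAnnealed μ P) (hμ : Elliptic μ)
    {e : Step d} (he : h (vec e) = 1) (hplus : P (Esc h) ≠ 0) (hmom : cutMoment P h 2 ≠ ⊤) :
    EntropyCrit μ P h := by
  have hν : ∑' x, blockLaw μ h x = 1 := tsum_blockLaw (hP.tsum_bwgt hplus)
  have hm2 : ∀ i, ∑' x, blockLaw μ h x * ENNReal.ofReal ((x i : ℝ) ^ 2) ≠ ⊤ := fun i => by
    have := hP.blockLaw_coord_moment hplus hmom i
    simpa [Real.rpow_two, sq_abs] using this
  obtain ⟨C, hC, hup⟩ := ent_conv_le_half_log hν hm2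
  obtain ⟨F, hFa, hFb⟩ := exists_frame hμ he
  obtain ⟨θ, hθ, hlow⟩ := F.ent_conv_ge hν hFa hFb
  intro c hc ε hε
  set K : ℝ := d / 2 * (Real.log 4 - Real.log θ) + d * Real.log 2 with hK
  set D : ℝ≥0∞ := ENNReal.ofReal K + C with hD
  have hDt : D ≠ ⊤ := ENNReal.add_ne_top.2 ⟨ENNReal.ofReal_ne_top, hC⟩
  set L : ℝ := 2 + (D / ε).toReal with hLdef
  have hL : 1 < L := by rw [hLdef]; linarith [ENNReal.toReal_nonneg (a := D / ε)]
  have hlim : Tendsto (fun m : ℕ => ENNReal.ofReal (Real.exp L) *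
      P (Reach (-h) (c * m) ∩ Up h)) atTop (𝓝 0) := by
    have h0 := ENNReal.Tendsto.const_mul (a := ENNReal.ofReal (Real.exp L))
      (tendsto_reach_scaled (hP.reach_down_up (h := h)) hc) (Or.inr ENNReal.ofReal_ne_top)
    rwa [mul_zero] at h0
  filter_upwards [hlim.eventually (eventually_le_nhds (pos_iff_ne_zero.2 hε)),
    eventually_gt_atTop 0] with m hm hm0
  refine ⟨L, hL, ne_top_of_le_ne_top (ENNReal.add_ne_top.2 ⟨ENNReal.ofReal_ne_top, hC⟩)
    (hup m hm0), ?_, hm⟩
  have hm' : (0 : ℝ) < m := by exact_mod_cast hm0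
  have hle : ent (conv (blockLaw μ h) (4 * m)) ≤ ent (conv (blockLaw μ h) m) + D := by
    refine (hup (4 * m) (by omega)).trans ?_
    have h1 : (d : ℝ) / 2 * Real.log ((4 * m : ℕ) : ℝ)
        ≤ d * (Real.log (θ * (m + 1)) / 2 - Real.log 2) + K := by
      push_cast
      rw [Real.log_mul (by norm_num) hm'.ne', Real.log_mul hθ.ne' (by positivity), hK]
      have h2 := mul_le_mul_of_nonneg_left (Real.log_le_log hm' (show (m : ℝ) ≤ m + 1 by linarith))
        (show (0 : ℝ) ≤ d / 2 by positivity)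
      linarith
    rw [hD, ← add_assoc]
    refine add_le_add ((ENNReal.ofReal_le_ofReal h1).trans
      (ENNReal.ofReal_add_le.trans (add_le_add (hlow m) le_rfl))) le_rfl
  refine hle.trans (add_le_add le_rfl ?_)
  rcases eq_or_ne ε ⊤ with rfl | hεt
  · rw [ENNReal.mul_top (by simp; linarith)]
    exact le_top
  calc D = D / ε * ε := (ENNReal.div_mul_cancel hε hεt).symm
    _ ≤ _ := by
        gcongr
        rw [← ENNReal.ofReal_toReal (ENNReal.div_ne_top hDt hε)]
        exact ENNReal.ofReal_le_ofReal (by rw [hLdef]; linarith)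

/-- Some positive moment and superpolynomially rare dips keep the criterion. -/
theorem IsAnnealed.crit_of_moment_tail (hP : IsAnnealed μ P) (hplus : P (Esc h) ≠ 0) {α : ℝ}
    (hα : 0 < α) (hmom : cutMoment P h α ≠ ⊤)
    (htail : ∀ p : ℕ, ∃ C : ℝ, ∀ r : ℝ, 0 < r →
      P (Reach (-h) r ∩ Up h) ≤ ENNReal.ofReal (C / r ^ p)) :
    EntropyCrit μ P h := by
  have hν : ∑' x, blockLaw μ h x = 1 := tsum_blockLaw (hP.tsum_bwgt hplus)
  set β := min α 1 with hβ
  have hβ0 : 0 < β := lt_min hα one_pos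
  have hmβ : ∀ i, ∑' x, blockLaw μ h x * ENNReal.ofReal (|(x i : ℝ)| ^ β) ≠ ⊤ := by
    intro i
    refine ne_top_of_le_ne_top (b := ∑' x, (blockLaw μ h x
      + blockLaw μ h x * ENNReal.ofReal (|(x i : ℝ)| ^ α))) ?_ (ENNReal.tsum_le_tsum fun x => ?_)
    · rw [ENNReal.tsum_add, hν]
      exact ENNReal.add_ne_top.2 ⟨ENNReal.one_ne_top, hP.blockLaw_coord_moment hplus hmom i⟩
    · conv_rhs => rw [← mul_one (blockLaw μ h x), mul_assoc, one_mul, ← mul_add]
      refine mul_le_mul' le_rfl ?_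
      rw [← ENNReal.ofReal_one, ← ENNReal.ofReal_add zero_le_one (by positivity)]
      refine ENNReal.ofReal_le_ofReal ?_
      rcases le_total |(x i : ℝ)| 1 with h1 | h1
      · have := Real.rpow_le_one (abs_nonneg _) h1 hβ0.le
        linarith [Real.rpow_nonneg (abs_nonneg (x i : ℝ)) α]
      · linarith [Real.rpow_le_rpow_of_exponent_le h1 (min_le_left α 1)]
  obtain ⟨C, hC, hup⟩ := ent_conv_le_log hν hβ0 (min_le_right _ _) hmβ
  intro c hc ε hε
  set ε' := min ε 1 with hε'
  have hεt : ε' ≠ ⊤ := ne_top_of_le_ne_top ENNReal.one_ne_top (min_le_right _ _)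
  set u : ℝ := ε'.toReal with hu
  have hu0 : 0 < u := ENNReal.toReal_pos (by simp [hε', hε]) hεt
  set a : ℝ := 2 * d / β with ha
  have ha0 : 0 ≤ a := by rw [ha]; positivity
  obtain ⟨p, hp⟩ := exists_nat_ge (a / u)
  obtain ⟨A, hA⟩ := htail (p + 1)
  set B : ℝ := Real.exp (1 + (C.toReal + 1) / u) * (4 : ℝ) ^ p * |A| / c ^ (p + 1) with hB
  obtain ⟨N, hN⟩ := exists_nat_gt (B / u)
  filter_upwards [eventually_ge_atTop N, eventually_gt_atTop 0] with m hmN hm0
  have hm' : (1 : ℝ) ≤ m := by exact_mod_cast hm0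
  have h4 : (1 : ℝ) ≤ 4 * m := by linarith
  set L : ℝ := 1 + (a * Real.log (4 * m) + C.toReal + 1) / u with hL
  have hnum : 0 < a * Real.log (4 * m) + C.toReal + 1 := by
    have := mul_nonneg ha0 (Real.log_nonneg h4)
    linarith [ENNReal.toReal_nonneg (a := C)]
  refine ⟨L, by rw [hL]; linarith [div_pos hnum hu0], ne_top_of_le_ne_top
    (ENNReal.add_ne_top.2 ⟨ENNReal.ofReal_ne_top, hC⟩) (hup m hm0), ?_, ?_⟩
  · refine le_trans (hup (4 * m) (by omega)) (le_trans ?_ le_add_self)
    calc ENNReal.ofReal (2 * d / β * Real.log ((4 * m : ℕ) : ℝ)) + C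
        ≤ ENNReal.ofReal (a * Real.log (4 * m) + C.toReal + 1) := by
          rw [← ENNReal.ofReal_toReal hC, ← ENNReal.ofReal_add
            (by rw [← ha]; push_cast; exact mul_nonneg ha0 (Real.log_nonneg h4))
            ENNReal.toReal_nonneg, ENNReal.toReal_ofReal ENNReal.toReal_nonneg]
          refine ENNReal.ofReal_le_ofReal ?_
          push_cast
          linarith
      _ = ENNReal.ofReal (L - 1) * ε' := by
          rw [← ENNReal.ofReal_toReal hεt, ← hu, ← ENNReal.ofReal_mul
            (by rw [hL]; linarith [div_pos hnum hu0]), hL]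
          congr 1
          field_simp
          ring
      _ ≤ _ := mul_le_mul' le_rfl (min_le_left _ _)
  · refine le_trans (mul_le_mul' le_rfl (hA (c * m) (by positivity))) ?_
    refine le_trans ?_ (min_le_left ε 1)
    rw [← hε', ← ENNReal.ofReal_toReal hεt, ← hu, ← ENNReal.ofReal_mul (Real.exp_pos L).le]
    refine ENNReal.ofReal_le_ofReal ?_
    have hexp : Real.exp L ≤ Real.exp (1 + (C.toReal + 1) / u) * ((4 : ℝ) * m) ^ p := by
      have e1 : L = 1 + (C.toReal + 1) / u + a / u * Real.log (4 * m) := by rw [hL]; ring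
      rw [e1, Real.exp_add]
      refine mul_le_mul_of_nonneg_left ?_ (Real.exp_pos _).le
      calc Real.exp (a / u * Real.log (4 * m)) ≤ Real.exp ((p : ℝ) * Real.log (4 * m)) :=
            Real.exp_le_exp.2 (mul_le_mul_of_nonneg_right hp (Real.log_nonneg h4))
        _ = _ := by rw [Real.exp_nat_mul, Real.exp_log (by positivity)]
    calc Real.exp L * (A / (c * m) ^ (p + 1))
        ≤ Real.exp L * (|A| / (c * m) ^ (p + 1)) := by gcongr; exact le_abs_self A
      _ ≤ Real.exp (1 + (C.toReal + 1) / u) * ((4 : ℝ) * m) ^ p * (|A| / (c * m) ^ (p + 1)) := by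
          gcongr
      _ = B / m := by
          rw [hB, mul_pow, mul_pow, pow_succ (m : ℝ)]
          field_simp
      _ ≤ u := by
          rw [div_le_iff₀ (by linarith)]
          rw [div_lt_iff₀ hu0] at hN
          have : (N : ℝ) ≤ m := by exact_mod_cast hmN
          nlinarith

/-- Rescaling a height. -/
theorem scale_invariance (g g' : Site d →+ ℝ) {s : ℝ} (hs : 0 < s) (hg : ∀ x, g' x = g x / s) :
    Esc g' = Esc g ∧ Up g' = Up g ∧ (∀ t n, FirstCut g' t n ↔ FirstCut g t n) ∧
      ∀ r, Reach (-g') r = Reach (-g) (r * s) := by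
  refine ⟨?_, ?_, fun t n => ?_, fun r => ?_⟩
  · ext t
    simp only [Esc, Set.mem_setOf_eq, hg, Filter.tendsto_div_const_atTop_of_pos hs,
      le_div_iff₀ hs, zero_mul]
  · ext t
    simp only [Up, Set.mem_setOf_eq, hg, Filter.tendsto_div_const_atTop_of_pos hs]
  · simp only [FirstCut, IsCut, hg, div_lt_div_iff_of_pos_right hs,
      div_le_div_iff_of_pos_right hs]
  · ext t
    simp only [Reach, Set.mem_setOf_eq, AddMonoidHom.neg_apply, hg, ← neg_div, le_div_iff₀ hs]

/-- Both criteria, for every nonzero linear functional. -/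
theorem IsAnnealed.up_eq_one_of_cut_moment (hP : IsAnnealed μ P) (hμ : Elliptic μ) (hd : 3 ≤ d)
    {l : Fin d → ℝ} (hl : l ≠ 0) (hA : P (Up (height l)) ≠ 0)
    (hcase : cutMoment P (height l) 2 ≠ ⊤ ∨ ((∃ α : ℝ, 0 < α ∧ cutMoment P (height l) α ≠ ⊤) ∧
      ∀ p : ℕ, ∃ C : ℝ, ∀ r : ℝ, 0 < r →
        P (Reach (-height l) r ∩ Up (height l)) ≤ ENNReal.ofReal (C / r ^ p))) :
    P (Up (height l)) = 1 := by
  obtain ⟨i₁, hi₁⟩ := Function.ne_iff.1 hl
  obtain ⟨i, -, hmax⟩ := (univ : Finset (Fin d)).exists_max_image (fun i => |l i|)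
    ⟨i₁, mem_univ _⟩
  have hM : 0 < |l i| := lt_of_lt_of_le (abs_pos.2 hi₁) (hmax i₁ (mem_univ _))
  set l' : Fin d → ℝ := fun j => l j / |l i| with hl'
  have hscale : ∀ x : Site d, height l' x = height l x / |l i| := fun x => by
    simp only [height, AddMonoidHom.coe_mk, ZeroHom.coe_mk, sum_div, hl', div_mul_eq_mul_div]
  have hvec : ∀ (m : Fin d → ℝ) (e : Step d),
      height m (vec e) = m e.1 * (if e.2 then 1 else -1) := by
    intro m e
    rcases e with ⟨j, _ | _⟩ <;> simp [height, vec, Pi.single_apply]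
  have hu : UnitSteps (height l') := fun e => by
    rw [hvec, abs_mul, hl']
    have h1 : abs (l e.1 / abs (l i)) ≤ 1 := by
      rw [abs_div, abs_abs, div_le_one hM]; exact hmax _ (mem_univ _)
    cases e.2 <;> simpa using h1
  have he : height l' (vec ((i, decide (0 ≤ l i)) : Step d)) = 1 := by
    rw [hvec, hl']
    by_cases h0 : 0 ≤ l i
    · rw [decide_eq_true h0, abs_of_nonneg h0] at *
      simp [div_self (ne_of_gt hM)]
    · rw [decide_eq_false h0]
      rw [abs_of_neg (not_le.1 h0)] at hM ⊢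
      simp [div_neg, div_self (ne_of_lt (not_le.1 h0))]
  obtain ⟨hE, hU, hF, hR⟩ := scale_invariance (height l) (height l') hM hscale
  have hcm : ∀ α, cutMoment P (height l') α = cutMoment P (height l) α := fun α => by
    simp only [cutMoment, hE, hF]
  rw [← hU] at hA ⊢
  have hplus : P (Esc (height l')) ≠ 0 := hP.esc_pos hA
  refine hP.up_eq_one_of_entropyCrit hμ hd hu he hplus ?_
  rcases hcase with h2 | ⟨⟨α, hα, hm⟩, htail⟩
  · exact hP.crit_of_second_moment hμ he hplus (by rw [hcm]; exact h2)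
  · refine hP.crit_of_moment_tail hplus hα (by rw [hcm]; exact hm) fun p => ?_
    obtain ⟨C, hC⟩ := htail p
    refine ⟨C / |l i| ^ p, fun r hr => ?_⟩
    rw [hR, hU]
    refine (hC (r * |l i|) (by positivity)).trans (le_of_eq ?_)
    rw [mul_pow, div_div, mul_comm (r ^ p)]

end Vale.Agent.P147
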