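import Mathlib
import Vale.Agent.P147.CrossMain
import Vale.Agent.P147.EntCor

/-!
# P147: moments below one of the first regeneration position
-/

namespace Vale.Agent.P147

open MeasureTheory Finset Filter
open scoped ENNReal Topology

variable {d : ℕ} {μ : Measure (Row d)} [IsProbabilityMeasure μ] {P : Measure (Traj d)}
  {h : Site d →+ ℝ}

open Classical in
/-- The moments at the first cut time are the moments of one block. -/
theorem IsAnnealed.cutMoment_le (hP : IsAnnealed μ P) (hd : P (Esc h) ≠ 0) (α : ℝ) :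
    cutMoment P h α ≤ P (Esc h) * ∑' π, bwgt μ h π * coordPow α (disp π) := by
  haveI := hP.1
  let Bl : Set (List (Step d)) := {π | IsBlock h π}
  let F : Bl → Traj d → ℝ≥0∞ := fun π =>
    (blockEvent h [π.1]).indicator fun _ => coordPow α (disp π.1)
  have hFm : ∀ π, Measurable (F π) := fun π =>
    measurable_const.indicator (measurableSet_blockEvent _)
  have hae : ∀ᵐ t ∂P, (∑' n, (Esc h ∩ {t | FirstCut h t n}).indicator
      (fun t => coordPow α (site t n)) t) ≤ ∑' π, F π t := by
    have hnull : ∀ᵐ t ∂P, t ∉ {t | t ∈ Esc h ∧ ∀ n, 0 < n → ¬ IsCut h t n} :=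
      measure_eq_zero_iff_ae_notMem.1 (hP.noCut_null hd)
    filter_upwards [hnull] with t ht
    by_cases hesc : t ∈ Esc h
    swap
    · refine le_trans (le_of_eq (ENNReal.tsum_eq_zero.2 fun n => ?_)) bot_le
      rw [Set.indicator_of_notMem fun hm => hesc hm.1]
    have hex : ∃ n, 0 < n ∧ IsCut h t n := by
      simp only [Set.mem_ofPred_eq, hesc, true_and, not_forall, not_not] at ht
      obtain ⟨n, hn, hc⟩ := ht
      exact ⟨n, hn, hc⟩
    set n := Nat.find hex with hn
    have hs := Nat.find_spec hex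
    rw [tsum_eq_single n fun m hm => Set.indicator_of_notMem (fun hmem => hm ?_) _]
    swap
    · obtain ⟨-, hm0, hmc, hmfirst⟩ := hmem
      refine le_antisymm ?_ (Nat.find_min' hex ⟨hm0, hmc⟩)
      by_contra! hlt
      exact hmfirst n hs.1 hlt hs.2
    set π := List.ofFn fun k : Fin n => t k with hπ
    have hlen : π.length = n := by simp [π]
    have hc : t ∈ cyl π := mem_cyl_ofFn_self n t
    have hblock : IsBlock h π := by
      refine isBlock_of_first_cut hc hesc ?_ (by rw [hlen]; exact hs.2) fun m hm0 hm hcut => ?_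
      · intro hnil
        rw [hnil, List.length_nil] at hlen
        omega
      · rw [hlen] at hm
        exact Nat.find_min hex hm ⟨hm0, hcut⟩
    refine le_trans ?_ (ENNReal.le_tsum ⟨π, hblock⟩)
    have hmem : t ∈ blockEvent h [π] := by
      refine ⟨by simpa using hc, ?_⟩
      simpa [hlen] using shiftT_mem_esc hesc hs.2
    have hsite : site t n = disp π := by
      rw [← hlen, site_of_mem_cyl hc le_rfl, List.take_length]
    rw [Set.indicator_apply]
    simp only [F, Set.indicator_of_mem hmem, hsite]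
    split_ifs <;> simp
  refine (lintegral_mono_ae hae).trans (le_of_eq ?_)
  rw [lintegral_tsum fun π => (hFm π).aemeasurable, ← ENNReal.tsum_mul_left,
    ← tsum_subtype_eq_of_support_subset (s := Bl)
      (f := fun π => P (Esc h) * (bwgt μ h π * coordPow α (disp π)))]
  · refine tsum_congr fun π => ?_
    simp only [F]
    rw [lintegral_indicator_const (measurableSet_blockEvent _),
      hP.measure_blockEvent (List.forall_mem_singleton.2 π.2)]
    simp [bprod]
    ring
  · intro π hπ
    by_contra hb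
    refine hπ ?_
    change P (Esc h) * (bwgt μ h π * coordPow α (disp π)) = 0
    rw [bwgt_eq_zero hb, zero_mul, mul_zero]

open Classical in
/-- Both sided transience: every moment below one of the extent of a block is finite. -/
theorem Setup.ext_moment (S : Setup d) {α : ℝ} (hα0 : 0 < α) (hα : α < 1) :
    ∑' π, bwgt S.μ S.h π * ENNReal.ofReal ((ext π : ℝ) ^ α) ≠ ⊤ := by
  set a : ℝ := (α + 1) / 2 with ha
  obtain ⟨C, hC⟩ := S.tail_poly (a := a) (by rw [ha]; linarith) (by rw [ha]; linarith)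
  set r : ℝ := (2 : ℝ) ^ (α - a) with hr
  have hr0 : 0 < r := Real.rpow_pos_of_pos two_pos _
  have hr1 : r < 1 :=
    Real.rpow_lt_one_of_one_lt_of_neg (by norm_num) (by rw [ha]; linarith)
  have pt : ∀ π : List (Step d), ENNReal.ofReal ((ext π : ℝ) ^ α) ≤ 1 +
      ∑' i : ℕ, ENNReal.ofReal (((2 : ℝ) ^ (i + 1)) ^ α) *
        (if (2 : ℝ) ^ i < (ext π : ℝ) then 1 else 0) := by
    intro π
    rcases le_or_gt (ext π : ℝ) 1 with h1 | h1
    · refine le_trans ?_ le_self_add
      rw [ENNReal.ofReal_le_one]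
      exact Real.rpow_le_one (by positivity) h1 hα0.le
    have hex : ∃ i : ℕ, (ext π : ℝ) ≤ (2 : ℝ) ^ (i + 1) := by
      obtain ⟨n, hn⟩ := pow_unbounded_of_one_lt (ext π : ℝ) (by norm_num : (1 : ℝ) < 2)
      exact ⟨n, hn.le.trans (pow_le_pow_right₀ (by norm_num) (Nat.le_succ n))⟩
    refine le_trans ?_ le_add_self
    refine le_trans ?_ (ENNReal.le_tsum (Nat.find hex))
    have hlow : (2 : ℝ) ^ Nat.find hex < (ext π : ℝ) := by
      rcases hj : Nat.find hex with _ | j
      · simpa using h1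
      · have := Nat.find_min hex (show j < Nat.find hex by omega)
        push Not at this
        exact this
    rw [if_pos hlow, mul_one]
    exact ENNReal.ofReal_le_ofReal
      (Real.rpow_le_rpow (by positivity) (Nat.find_spec hex) hα0.le)
  have hsum : ∀ i : ℕ, ENNReal.ofReal (((2 : ℝ) ^ (i + 1)) ^ α) * tailE S.μ S.h ((2 : ℝ) ^ i)
      ≤ ENNReal.ofReal ((2 : ℝ) ^ α * C * r ^ i) := by
    intro i
    refine (mul_le_mul' le_rfl (hC _ (one_le_pow₀ (by norm_num)))).trans (le_of_eq ?_)
    rw [← ENNReal.ofReal_mul (by positivity)]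
    congr 1
    rw [pow_succ, Real.mul_rpow (by positivity) (by norm_num), hr,
      ← Real.rpow_natCast 2 i, ← Real.rpow_natCast ((2 : ℝ) ^ (α - a)) i,
      ← Real.rpow_mul (by norm_num), ← Real.rpow_mul (by norm_num), ← Real.rpow_mul (by norm_num),
      sub_mul, Real.rpow_sub two_pos, mul_comm (i : ℝ) α, mul_comm (i : ℝ) a]
    ring
  refine ne_top_of_le_ne_top (b := 1 + ∑' i : ℕ, ENNReal.ofReal ((2 : ℝ) ^ α * C * r ^ i)) ?_ ?_
  · refine ENNReal.add_ne_top.2 ⟨ENNReal.one_ne_top, ?_⟩
    refine ne_top_of_le_ne_top (b := ∑' i : ℕ, ENNReal.ofReal ((2 : ℝ) ^ α * |C| * r ^ i)) ?_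
      (ENNReal.tsum_le_tsum fun i => ENNReal.ofReal_le_ofReal (by gcongr; exact le_abs_self C))
    rw [← ENNReal.ofReal_tsum_of_nonneg (fun i => by positivity)
      ((summable_geometric_of_lt_one hr0.le hr1).mul_left _)]
    exact ENNReal.ofReal_ne_top
  calc ∑' π, bwgt S.μ S.h π * ENNReal.ofReal ((ext π : ℝ) ^ α)
      ≤ ∑' π, bwgt S.μ S.h π * (1 + ∑' i : ℕ, ENNReal.ofReal (((2 : ℝ) ^ (i + 1)) ^ α) *
          (if (2 : ℝ) ^ i < (ext π : ℝ) then 1 else 0)) :=
        ENNReal.tsum_le_tsum fun π => mul_le_mul' le_rfl (pt π)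
    _ = 1 + ∑' i : ℕ, ENNReal.ofReal (((2 : ℝ) ^ (i + 1)) ^ α) * tailE S.μ S.h ((2 : ℝ) ^ i) := by
        simp only [mul_add, ENNReal.tsum_add, mul_one, S.ann.tsum_bwgt S.escP,
          ← ENNReal.tsum_mul_left]
        congr 1
        rw [ENNReal.tsum_comm]
        refine tsum_congr fun i => ?_
        simp only [tailE, ← ENNReal.tsum_mul_left]
        exact tsum_congr fun π => mul_left_comm _ _ _
    _ ≤ _ := add_le_add le_rfl (ENNReal.tsum_le_tsum hsum)

/-- Both sided transience: every moment below one at the first cut time is finite. -/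
theorem Setup.cutMoment_ne_top (S : Setup d) {α : ℝ} (hα0 : 0 < α) (hα : α < 1) :
    cutMoment S.P S.h α ≠ ⊤ := by
  haveI := S.ann.1
  refine ne_top_of_le_ne_top (ENNReal.mul_ne_top (measure_ne_top S.P (Esc S.h)) ?_)
    (S.ann.cutMoment_le S.escP α)
  refine ne_top_of_le_ne_top
    (b := (d : ℝ≥0∞) * ∑' π, bwgt S.μ S.h π * ENNReal.ofReal ((ext π : ℝ) ^ α))
    (ENNReal.mul_ne_top (ENNReal.natCast_ne_top d) (S.ext_moment hα0 hα)) ?_
  rw [← ENNReal.tsum_mul_left]
  refine ENNReal.tsum_le_tsum fun π => ?_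
  rw [mul_left_comm]
  refine mul_le_mul' le_rfl ?_
  calc coordPow α (disp π) ≤ ∑ _i : Fin d, ENNReal.ofReal ((ext π : ℝ) ^ α) := by
        refine sum_le_sum fun i _ => ENNReal.ofReal_le_ofReal (Real.rpow_le_rpow (abs_nonneg _)
          ((abs_apply_le_nrm _ i).trans ?_) hα0.le)
        exact_mod_cast nrm_disp_le_ext π
    _ = _ := by simp

end Vale.Agent.P147
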