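import Mathlib
import Vale.Agent.P147.AxisEsc
import Vale.Agent.P147.EntCor
import Vale.Agent.P147.CrossCor

/-!
# P147: failure of the zero-one law confines the walk to an axis

If a height escapes to both sides with positive probability then the first regeneration position
has a finite mean, one vector `v` is the asymptotic axis, and the directions failing the zero-one
law are exactly those not orthogonal to `v`.
-/

namespace Vale.Agent.P147

open MeasureTheory Finset Filter
open scoped ENNReal Topology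

variable {d : ℕ} {μ : Measure (Row d)} [IsProbabilityMeasure μ] {P : Measure (Traj d)}

theorem height_neg (l : Fin d → ℝ) : height (-l) = -height l := by
  ext x; simp [height, sum_neg_distrib]

theorem height_apply (l : Fin d → ℝ) (x : Site d) : height l x = ∑ i, l i * (x i : ℝ) := rfl

/-- A nonzero functional, rescaled to unit steps and a step of height one. -/
theorem exists_normalised {l : Fin d → ℝ} (hl : l ≠ 0) :
    ∃ (M : ℝ) (l' : Fin d → ℝ) (e : Step d), 0 < M ∧ UnitSteps (height l') ∧
      height l' (vec e) = 1 ∧ ∀ x : Site d, height l' x = height l x / M := by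
  obtain ⟨i₁, hi₁⟩ := Function.ne_iff.1 hl
  obtain ⟨i, -, hmax⟩ := (univ : Finset (Fin d)).exists_max_image (fun i => |l i|)
    ⟨i₁, mem_univ _⟩
  have hM : 0 < |l i| := lt_of_lt_of_le (abs_pos.2 hi₁) (hmax i₁ (mem_univ _))
  set l' : Fin d → ℝ := fun j => l j / |l i| with hl'
  have hvec : ∀ (m : Fin d → ℝ) (e : Step d),
      height m (vec e) = m e.1 * (if e.2 then 1 else -1) := by
    intro m e
    rcases e with ⟨j, _ | _⟩ <;> simp [height, vec, Pi.single_apply]
  refine ⟨|l i|, l', (i, decide (0 ≤ l i)), hM, fun e => ?_, ?_, fun x => ?_⟩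
  · rw [hvec, abs_mul, hl']
    have h1 : abs (l e.1 / abs (l i)) ≤ 1 := by
      rw [abs_div, abs_abs, div_le_one hM]; exact hmax _ (mem_univ _)
    cases e.2 <;> simpa using h1
  · rw [hvec, hl']
    by_cases h0 : 0 ≤ l i
    · rw [decide_eq_true h0, abs_of_nonneg h0] at *
      simp [div_self (ne_of_gt hM)]
    · rw [decide_eq_false h0]
      rw [abs_of_neg (not_le.1 h0)] at hM ⊢
      simp [div_neg, div_self (ne_of_lt (not_le.1 h0))]
  · simp only [height, AddMonoidHom.coe_mk, ZeroHom.coe_mk, sum_div, hl', div_mul_eq_mul_div]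

/-- Escape upwards needs escape without backtracking. -/
theorem IsAnnealed.esc_ne_zero (hP : IsAnnealed μ P) {h : Site d →+ ℝ} (h0 : P (Up h) ≠ 0) :
    P (Esc h) ≠ 0 := fun he =>
  h0 (measure_mono_null (fun _ ht => exists_shiftT_mem_esc ht)
    (hP.measure_shift_null (measurableSet_esc _) he))

/-- An event which forgets finitely many steps does not split an escape. -/
theorem IsAnnealed.up_no_split (hP : IsAnnealed μ P) (g : Site d →+ ℝ) {G : Set (Traj d)}
    (hG : MeasurableSet G) (hinv : ∀ n t, shiftT n t ∈ G ↔ t ∈ G) :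
    P (Up g ∩ G) = 0 ∨ P (Up g \ G) = 0 := by
  by_cases h0 : P (Esc g) = 0
  · left
    refine measure_mono_null (fun t ht => ?_) (hP.measure_shift_null (measurableSet_esc _) h0)
    exact exists_shiftT_mem_esc ht.1
  rcases hP.esc_zero_one h0 hG hinv with h1 | h1
  · left
    refine measure_mono_null (fun t ht => ?_)
      (hP.measure_shift_null ((measurableSet_esc _).inter hG) h1)
    exact (exists_shiftT_mem_esc ht.1).imp fun n hn => ⟨hn, (hinv n t).2 ht.2⟩
  · right
    refine measure_mono_null (fun t ht => ?_)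
      (hP.measure_shift_null ((measurableSet_esc g).diff hG) h1)
    exact (exists_shiftT_mem_esc ht.1).imp fun n hn => ⟨hn, fun hm => ht.2 ((hinv n t).1 hm)⟩

/-- If escape upwards is possible the walk almost surely escapes to one of the two sides. -/
theorem IsAnnealed.up_union_ae (hP : IsAnnealed μ P) (hμ : Elliptic μ) {h : Site d →+ ℝ}
    {e : Step d} (he : h (vec e) = 1) (hd : P (Esc h) ≠ 0) :
    ∀ᵐ t ∂P, t ∈ Up h ∨ t ∈ Up (-h) := by
  haveI := hP.1
  have : NeZero d := ⟨fun h0 => by have := e.1.isLt; omega⟩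
  have hosc : P (⋂ r : ℕ, Reach h r \ Up h) = 0 := by
    refine le_antisymm ?_ bot_le
    exact ge_of_tendsto (hP.reach_not_up hd)
      (Eventually.of_forall fun r => measure_mono (Set.iInter_subset _ r))
  rw [ae_iff]
  refine measure_mono_null (fun t ht => ?_)
    (measure_union_null (hP.confined_null hμ he) hosc)
  simp only [Set.mem_setOf_eq, not_or] at ht
  by_cases hb : BddAbove (Set.range fun k => h (site t k))
  · exact .inl ⟨hb, ht.2⟩
  · refine .inr (Set.mem_iInter.2 fun r => ⟨?_, ht.1⟩)
    rw [not_bddAbove_iff] at hb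
    obtain ⟨_, ⟨k, rfl⟩, hk⟩ := hb (r : ℝ)
    exact ⟨k, hk.le⟩

/-- Without downward escape, upward escape is almost sure. -/
theorem IsAnnealed.up_eq_one_of_down_null (hP : IsAnnealed μ P) (hμ : Elliptic μ) (hd : 3 ≤ d)
    {l : Fin d → ℝ} (hl : l ≠ 0) (hup : P (Up (height l)) ≠ 0)
    (hdown : P (Up (height (-l))) = 0) : P (Up (height l)) = 1 := by
  haveI := hP.1
  obtain ⟨M, l', e, hM, -, he, hsc⟩ := exists_normalised hl
  have hsc' : ∀ x, (-height l') x = (-height l) x / M := fun x => by
    rw [AddMonoidHom.neg_apply, AddMonoidHom.neg_apply, hsc, neg_div]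
  obtain ⟨-, hU, -, -⟩ := scale_invariance _ _ hM hsc
  obtain ⟨-, hU', -, -⟩ := scale_invariance _ _ hM hsc'
  rw [← hU] at hup ⊢
  rw [height_neg, ← hU'] at hdown
  refine hP.up_eq_one_of_escM_null hμ hd he (hP.esc_ne_zero hup) ?_
  exact measure_mono_null (fun t ht => ht.2) hdown

/-- The walk leaves along the axis `v` in one of the two directions. -/
def OnAxis (h : Site d →+ ℝ) (v : Fin d → ℝ) : Set (Traj d) :=
  (Up h ∪ Up (-h)) ∩ Ratio h v

theorem OnAxis.tendsto_height {h : Site d →+ ℝ} {v : Fin d → ℝ} {t : Traj d}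
    (ht : t ∈ Ratio h v) (l : Fin d → ℝ) :
    Tendsto (fun k : ℕ => height l (site t k) / h (site t k)) atTop (𝓝 (∑ i, l i * v i)) := by
  have h1 := tendsto_finset_sum univ fun i (_ : i ∈ univ) => (ht i).const_mul (l i)
  exact h1.congr fun k => by simp only [height_apply, sum_div, mul_div_assoc]

theorem up_of_ratio {h : Site d →+ ℝ} {v : Fin d → ℝ} {t : Traj d} (ht : t ∈ Ratio h v)
    (hup : t ∈ Up h) {l : Fin d → ℝ} (hpos : 0 < ∑ i, l i * v i) : t ∈ Up (height l) := by
  have h1 := (OnAxis.tendsto_height ht l).pos_mul_atTop hpos hup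
  refine h1.congr' ?_
  filter_upwards [Tendsto.eventually_gt_atTop hup 0] with k hk
  exact div_mul_cancel₀ _ hk.ne'

theorem ratio_neg {h : Site d →+ ℝ} {v : Fin d → ℝ} {t : Traj d} :
    t ∈ Ratio (-h) v ↔ t ∈ Ratio h (-v) := by
  simp only [Ratio, Set.mem_setOf_eq, AddMonoidHom.neg_apply, div_neg, Pi.neg_apply]
  refine forall_congr' fun i => ⟨fun hi => ?_, fun hi => ?_⟩
  · simpa using hi.neg
  · simpa using hi.neg

theorem up_of_onAxis_neg {h : Site d →+ ℝ} {v : Fin d → ℝ} {t : Traj d} (ht : t ∈ Ratio h v)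
    (hup : t ∈ Up (-h)) {l : Fin d → ℝ} (hpos : 0 < ∑ i, l i * v i) :
    t ∈ Up (height (-l)) := by
  refine up_of_ratio (v := -v) (ratio_neg.2 (by rwa [neg_neg])) hup ?_
  simpa using hpos

/-- The two escapes have opposite asymptotic directions. -/
theorem Setup.exists_axis (S : Setup d) {l : Fin d → ℝ} (hl : S.h = height l) :
    ∃ v : Fin d → ℝ, ∑ i, l i * v i = 1 ∧ ∀ᵐ t ∂S.P, t ∈ OnAxis S.h v := by
  haveI := S.ann.1
  have hneg : height (-l) = -S.h := by rw [height_neg, hl]
  obtain ⟨v, hv⟩ := S.ann.up_ratio l (by rw [← hl]; exact S.escP)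
    (by rw [← hl]; exact S.meanExt_ne_top)
  obtain ⟨w, hw⟩ := S.ann.up_ratio (-l) (by rw [hneg]; exact S.escM)
    (by rw [hneg]; exact S.swap.meanExt_ne_top)
  rw [← hl] at hv
  rw [hneg] at hw
  have hupP : S.P (Up S.h) ≠ 0 := fun h0 => S.escP (measure_mono_null (fun t ht => ht.2) h0)
  have hupM : S.P (Up (-S.h)) ≠ 0 := fun h0 => S.escM (measure_mono_null (fun t ht => ht.2) h0)
  have hunion := S.ann.up_union_ae S.ell S.he₀ S.escP
  have hself : ∀ (m u : Fin d → ℝ) (t : Traj d), t ∈ Ratio (height m) u → t ∈ Up (height m) →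
      ∑ i, m i * u i = 1 := by
    intro m u t hr hu
    refine tendsto_nhds_unique (OnAxis.tendsto_height hr m) ?_
    refine tendsto_const_nhds.congr' ?_
    filter_upwards [Tendsto.eventually_gt_atTop hu 0] with k hk
    rw [div_self hk.ne']
  obtain ⟨t₁, h11, h12⟩ := Frequently.exists
    ((frequently_ae_mem_iff.2 hupP).and_eventually hv)
  have hlv : ∑ i, l i * v i = 1 := hself l v t₁ (hl ▸ h12 h11) (hl ▸ h11)
  obtain ⟨t₂, h21, h22⟩ := Frequently.exists
    ((frequently_ae_mem_iff.2 hupM).and_eventually hw)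
  have hlw : ∑ i, (-l) i * w i = 1 := hself (-l) w t₂ (hneg.symm ▸ h22 h21) (hneg.symm ▸ h21)
  have hvw : v = -w := by
    by_contra hne
    obtain ⟨i, hi⟩ := Function.ne_iff.1 hne
    rw [Pi.neg_apply] at hi
    -- a functional which increases on both escapes
    set a : ℝ := (v i - w i) / 2 with ha
    set g : Fin d → ℝ := (v i + w i) • ((Pi.single i 1 : Fin d → ℝ) - a • l) with hg
    have hsum : ∀ u : Fin d → ℝ,
        ∑ j, g j * u j = (v i + w i) * (u i - a * ∑ j, l j * u j) := by
      intro u
      simp only [hg, Pi.smul_apply, Pi.sub_apply, smul_eq_mul, mul_assoc, sub_mul, ← mul_sum,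
        sum_sub_distrib, Pi.single_apply, ite_mul, one_mul, zero_mul, sum_ite_eq', mem_univ,
        if_true]
    have hne' : v i + w i ≠ 0 := fun h0 => hi (by linarith)
    have hsq : 0 < (v i + w i) * (v i + w i) := mul_self_pos.2 hne'
    have hlw' : ∑ j, l j * w j = -1 := by
      simp only [Pi.neg_apply, neg_mul, sum_neg_distrib] at hlw
      linarith
    have hgv : 0 < ∑ j, g j * v j := by rw [hsum, hlv, ha]; nlinarith
    have hgw : 0 < ∑ j, g j * w j := by rw [hsum, hlw', ha]; nlinarith
    have hall : ∀ᵐ t ∂S.P, t ∈ Up (height g) := by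
      filter_upwards [hv, hw, hunion] with t h1 h2 h3
      rcases h3 with h3 | h3
      · exact up_of_ratio (h1 h3) h3 hgv
      · exact up_of_ratio (h2 h3) h3 hgw
    rcases S.ann.up_no_split (height g) (measurableSet_up S.h) (shiftT_mem_up_iff S.h) with h0 | h0
    · refine hupP (measure_mono_null (fun t ht => ?_) (measure_union_null h0 (ae_iff.1 hall)))
      by_cases hm : t ∈ Up (height g)
      · exact .inl ⟨hm, ht⟩
      · exact .inr hm
    · refine hupM (measure_mono_null (fun t ht => ?_) (measure_union_null h0 (ae_iff.1 hall)))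
      by_cases hm : t ∈ Up (height g)
      · refine .inl ⟨hm, fun hh => ?_⟩
        exact (Set.eq_empty_iff_forall_notMem.1 (up_inter_up_neg S.h)) t ⟨hh, ht⟩
      · exact .inr hm
  refine ⟨v, hlv, ?_⟩
  filter_upwards [hv, hw, hunion] with t h1 h2 h3
  refine ⟨h3, ?_⟩
  rcases h3 with h3 | h3
  · exact h1 h3
  · have := ratio_neg.1 (h2 h3)
    rwa [← hvw] at this

/-- The two sided setting obtained from a functional with two escapes. -/
theorem IsAnnealed.exists_axis (hP : IsAnnealed μ P) (hμ : Elliptic μ) (hd : 3 ≤ d)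
    {l : Fin d → ℝ} (hl : l ≠ 0) (hp : P (Up (height l)) ≠ 0)
    (hm : P (Up (height (-l))) ≠ 0) :
    cutMoment P (height l) 1 ≠ ⊤ ∧
      ∃ v : Fin d → ℝ, ∑ i, l i * v i = 1 ∧ ∀ᵐ t ∂P, t ∈ OnAxis (height l) v := by
  haveI := hP.1
  obtain ⟨M, l', e, hM, hu, he, hsc⟩ := exists_normalised hl
  have hsc' : ∀ x, (-height l') x = (-height l) x / M := fun x => by
    rw [AddMonoidHom.neg_apply, AddMonoidHom.neg_apply, hsc, neg_div]
  obtain ⟨hE, hU, hF, -⟩ := scale_invariance _ _ hM hsc
  obtain ⟨hE', hU', -, -⟩ := scale_invariance _ _ hM hsc'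
  let S : Setup d :=
    { μ := μ, prob := inferInstance, ell := hμ, P := P, ann := hP, h := height l', three := hd,
      unit := hu, e₀ := e, he₀ := he, escP := hE ▸ hP.esc_ne_zero hp,
      escM := hE' ▸ hP.esc_ne_zero (height_neg l ▸ hm) }
  refine ⟨?_, ?_⟩
  · have e1 : cutMoment P (height l) 1 = cutMoment P (height l') 1 := by
      simp only [cutMoment, hE, hF]
    rw [e1]
    refine ne_top_of_le_ne_top (ENNReal.mul_ne_top (measure_ne_top P (Esc (height l'))) ?_)
      (hP.cutMoment_le S.escP 1)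
    refine ne_top_of_le_ne_top
      (b := (d : ℝ≥0∞) * meanExt μ (height l'))
      (ENNReal.mul_ne_top (ENNReal.natCast_ne_top d) S.meanExt_ne_top) ?_
    rw [meanExt, ← ENNReal.tsum_mul_left]
    refine ENNReal.tsum_le_tsum fun π => ?_
    rw [mul_left_comm]
    refine mul_le_mul' le_rfl ?_
    calc coordPow 1 (disp π) ≤ ∑ _i : Fin d, ((ext π : ℕ) : ℝ≥0∞) := by
          refine sum_le_sum fun i _ => ?_
          rw [Real.rpow_one, ← ENNReal.ofReal_natCast]
          exact ENNReal.ofReal_le_ofReal (abs_coord_le_ext i π)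
      _ = _ := by simp
  · obtain ⟨v, hv, hax⟩ := S.exists_axis (l := l') rfl
    refine ⟨fun i => v i / M, ?_, ?_⟩
    · obtain ⟨t₁, h1, h2⟩ := Frequently.exists
        ((frequently_ae_mem_iff.2 hp).and_eventually hax)
      have h3 : t₁ ∈ Up (height l') := by rw [hU]; exact h1
      have h4 := tendsto_nhds_unique (OnAxis.tendsto_height h2.2 l) (tendsto_const_nhds.congr' (by
        filter_upwards [Tendsto.eventually_gt_atTop h3 0] with k hk
        change M = height l (site t₁ k) / height l' (site t₁ k)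
        rw [eq_div_iff hk.ne', hsc, mul_div_cancel₀ _ hM.ne']))
      rw [sum_congr rfl fun i _ => (mul_div_assoc (l i) (v i) M).symm, ← sum_div, h4,
        div_self hM.ne']
    · filter_upwards [hax] with t ht
      refine ⟨?_, fun i => ?_⟩
      · have := ht.1
        simp only [S, hU, hU'] at this
        exact this
      · refine ((ht.2 i).div_const M).congr' ?_
        refine Eventually.of_forall fun k => ?_
        change (site t k i : ℝ) / height l' (site t k) / M = _
        rw [div_div, hsc, div_mul_cancel₀ _ hM.ne']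

/-- Not zero and not one means both sides are possible. -/
theorem IsAnnealed.both_sides (hP : IsAnnealed μ P) (hμ : Elliptic μ) (hd : 3 ≤ d)
    {l : Fin d → ℝ} (hl : l ≠ 0) (h0 : P (Up (height l)) ≠ 0) (h1 : P (Up (height l)) ≠ 1) :
    P (Up (height (-l))) ≠ 0 :=
  fun hdown => h1 (hP.up_eq_one_of_down_null hμ hd hl h0 hdown)

theorem IsAnnealed.not_one_of_down (hP : IsAnnealed μ P) (l : Fin d → ℝ)
    (hdown : P (Up (height (-l))) ≠ 0) : P (Up (height l)) ≠ 1 := by
  haveI := hP.1
  intro h1
  refine hdown (measure_mono_null ?_ ((prob_compl_eq_zero_iff (measurableSet_up _)).2 h1))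
  intro t ht hmem
  rw [height_neg] at ht
  exact (Set.eq_empty_iff_forall_notMem.1 (up_inter_up_neg (height l))) t ⟨hmem, ht⟩

/-- The axis decides every direction. -/
theorem IsAnnealed.axis_dichotomy (hP : IsAnnealed μ P) (hμ : Elliptic μ) (hd : 3 ≤ d)
    {l : Fin d → ℝ} (hl : l ≠ 0) (h0 : P (Up (height l)) ≠ 0) (h1 : P (Up (height l)) ≠ 1) :
    cutMoment P (height l) 1 ≠ ⊤ ∧ ∃ v : Fin d → ℝ, ∑ i, l i * v i = 1 ∧
      (∀ᵐ t ∂P, (t ∈ Up (height l) ∨ t ∈ Up (height (-l))) ∧ t ∈ Ratio (height l) v) ∧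
      ∀ m : Fin d → ℝ,
        (∑ i, m i * v i ≠ 0 → P (Up (height m)) ≠ 0 ∧ P (Up (height m)) ≠ 1) ∧
        (∑ i, m i * v i = 0 → P (Up (height m)) = 0) := by
  haveI := hP.1
  have hdown := hP.both_sides hμ hd hl h0 h1
  obtain ⟨hmom, v, hv, hax⟩ := hP.exists_axis hμ hd hl h0 hdown
  refine ⟨hmom, v, hv, ?_, fun m => ⟨?_, ?_⟩⟩
  · filter_upwards [hax] with t ht
    exact ⟨by simpa only [height_neg, Set.mem_union] using ht.1, ht.2⟩
  · intro hmv
    have key : ∀ n : Fin d → ℝ, 0 < ∑ i, n i * v i →
        P (Up (height n)) ≠ 0 ∧ P (Up (height (-n))) ≠ 0 := by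
      intro n hn
      refine ⟨fun hz => h0 (measure_mono_null (fun t ht => ?_)
          (measure_union_null hz (ae_iff.1 hax))),
        fun hz => hdown (measure_mono_null (fun t ht => ?_)
          (measure_union_null hz (ae_iff.1 hax)))⟩
      · by_cases hm : t ∈ OnAxis (height l) v
        · exact .inl (up_of_ratio hm.2 ht hn)
        · exact .inr hm
      · by_cases hm : t ∈ OnAxis (height l) v
        · exact .inl (up_of_onAxis_neg hm.2 (height_neg l ▸ ht) hn)
        · exact .inr hm
    rcases lt_or_gt_of_ne hmv with hneg | hpos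
    · obtain ⟨a, b⟩ := key (-m) (by simpa using hneg)
      rw [neg_neg] at b
      exact ⟨b, hP.not_one_of_down m a⟩
    · obtain ⟨a, b⟩ := key m hpos
      exact ⟨a, hP.not_one_of_down m b⟩
  · intro hmv
    by_contra hup
    have hm0 : m ≠ 0 := by
      intro hz
      refine hup ?_
      have e : Up (height m) = ∅ := by
        refine Set.eq_empty_iff_forall_notMem.2 fun t ht => ?_
        obtain ⟨k, hk⟩ := (Tendsto.eventually_gt_atTop ht 0).exists
        simp [hz, height_apply] at hk
      rw [e, measure_empty]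
    by_cases hdm : P (Up (height (-m))) = 0
    · have hone := hP.up_eq_one_of_down_null hμ hd hm0 hup hdm
      have hnull : P (Up (height m))ᶜ = 0 := (prob_compl_eq_zero_iff (measurableSet_up _)).2 hone
      rcases hP.up_no_split (height m) (measurableSet_up (height l))
        (shiftT_mem_up_iff (height l)) with hz | hz
      · refine h0 (measure_mono_null (fun t ht => ?_) (measure_union_null hz hnull))
        by_cases hm : t ∈ Up (height m)
        exacts [.inl ⟨hm, ht⟩, .inr hm]
      · refine hdown (measure_mono_null (fun t ht => ?_) (measure_union_null hz hnull))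
        by_cases hm : t ∈ Up (height m)
        · refine .inl ⟨hm, fun hh => ?_⟩
          exact (Set.eq_empty_iff_forall_notMem.1 (up_inter_up_neg (height l))) t
            ⟨hh, height_neg l ▸ ht⟩
        · exact .inr hm
    · obtain ⟨-, w, -, hw⟩ := hP.exists_axis hμ hd hm0 hup hdm
      obtain ⟨t, ht, ha, hb⟩ := Frequently.exists
        ((frequently_ae_mem_iff.2 hup).and_eventually (hax.and hw))
      have q1 := OnAxis.tendsto_height ha.2 m
      have q2 := OnAxis.tendsto_height hb.2 l
      rw [hmv] at q1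
      have q3 := q1.mul q2
      rw [zero_mul] at q3
      refine zero_ne_one (tendsto_nhds_unique q3 (tendsto_const_nhds.congr' ?_))
      have hl' : ∀ᶠ k in atTop, height l (site t k) ≠ 0 := by
        rcases ha.1 with h | h
        · exact (Tendsto.eventually_gt_atTop h 0).mono fun k hk => hk.ne'
        · refine (Tendsto.eventually_gt_atTop h 0).mono fun k hk hz => ?_
          rw [AddMonoidHom.neg_apply, hz, neg_zero] at hk
          exact lt_irrefl 0 hk
      filter_upwards [Tendsto.eventually_gt_atTop ht 0, hl'] with k hk hk'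
      field_simp

end Vale.Agent.P147
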