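import Mathlib
import Vale.Agent.P147.Setup
import Vale.Agent.P147.WinDefs
import Vale.Agent.P147.Moments
import Vale.Agent.P147.Levels

/-!
# P147: the mass of a bin of chains, and the loss of trimming it to the candidates

A chain of height about `R` has many sites only with small weight, since its expected number of
sites is linear in `R`.  It has many competing prefixes only with small weight: the true
predecessors have a bounded second moment, and the trajectory has few prefixes in the bin.
-/

namespace Vale.Agent.P147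

open MeasureTheory Finset Filter
open scoped ENNReal Topology

variable {d : ℕ}

theorem cyl_subset_of_prefix {π ρ : List (Step d)} (hp : π <+: ρ) : cyl ρ ⊆ cyl π := by
  obtain ⟨σ, rfl⟩ := hp
  rw [cyl_append]
  exact Set.inter_subset_left

/-- The number of true predecessors of a chain in a bin. -/
noncomputable def binPred (h : Site d →+ ℝ) (R : ℝ) (ws : List (List (Step d))) : ℕ := by
  classical
  exact ((range (ws.length + 1)).filter fun i =>
    R ≤ h (disp (ws.take i).flatten) ∧ h (disp (ws.take i).flatten) < R + 2).card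

variable {μ : Measure (Row d)} [IsProbabilityMeasure μ] {h : Site d →+ ℝ}

open Classical in
/-- Chains of blocks ending in a window of length two have bounded weight. -/
theorem tsum_bprod_window_le (hb : ∑' π, bwgt μ h π = 1) {e : Step d} (he : h (vec e) = 1)
    (o R : ℝ) :
    ∑' ws, (if R ≤ o + h (disp ws.flatten) ∧ o + h (disp ws.flatten) < R + 2
      then bprod μ h ws else 0) ≤ 3 * (bwgt μ h [e])⁻¹ := by
  have hsplit : ∀ ws : List (List (Step d)),
      (if R ≤ o + h (disp ws.flatten) ∧ o + h (disp ws.flatten) < R + 2 then bprod μ h ws else 0)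
        ≤ ∑ j ∈ range 3,
          bprod μ h ws * (if ⌊o + h (disp ws.flatten)⌋ = ⌊R⌋ + (j : ℤ) then 1 else 0) := by
    intro ws
    split_ifs with h1
    · set x := o + h (disp ws.flatten)
      have h2 : ⌊R⌋ ≤ ⌊x⌋ := Int.floor_le_floor h1.1
      have h3 : ⌊x⌋ ≤ ⌊R⌋ + 2 := by
        rw [← Int.lt_add_one_iff, Int.floor_lt]
        push_cast
        linarith [Int.lt_floor_add_one R, h1.2]
      obtain ⟨j, hj⟩ := Int.eq_ofNat_of_zero_le (sub_nonneg.2 h2)
      refine le_trans ?_ (single_le_sum (f := fun j : ℕ =>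
        bprod μ h ws * (if ⌊x⌋ = ⌊R⌋ + (j : ℤ) then 1 else 0)) (fun _ _ => bot_le)
        (mem_range.2 (show j < 3 by omega)))
      rw [if_pos (by omega), mul_one]
    · exact bot_le
  refine (ENNReal.tsum_le_tsum hsplit).trans ?_
  rw [Summable.tsum_finsetSum fun _ _ => ENNReal.summable]
  calc _ ≤ ∑ _j ∈ range 3, (bwgt μ h [e])⁻¹ :=
        sum_le_sum fun j _ => by
          rw [← levels_tsum_ex]
          exact tsum_ex_bin_le hb he o _
    _ = _ := by simp

open Classical in
theorem tsum_bin_le (hb : ∑' π, bwgt μ h π = 1) {e : Step d} (he : h (vec e) = 1) (R : ℝ) :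
    ∑' ws : Bin h R, pw μ 0 ws.1.flatten ≤ 3 * (bwgt μ h [e])⁻¹ := by
  refine le_trans (le_of_eq (tsum_congr fun ws => ?_))
    ((ENNReal.tsum_comp_le_tsum_of_injective Subtype.val_injective _).trans
      (tsum_bprod_window_le hb he 0 R))
  rw [zero_add, if_pos ws.2.2, pw_flatten ws.2.1]

open Classical in
/-- A function of a block and of the chain before it, summed over the blocks of a chain in a bin. -/
theorem tsum_bin_blocks_le (hb : ∑' π, bwgt μ h π = 1) {e : Step d} (he : h (vec e) = 1) (R : ℝ)
    (g : List (List (Step d)) → List (Step d) → ℝ≥0∞) :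
    ∑' ws : Bin h R, pw μ 0 ws.1.flatten *
        ∑ i : Fin ws.1.length, g (ws.1.take i) (ws.1[i.1])
      ≤ 3 * (bwgt μ h [e])⁻¹ * ∑' a, ∑' π, bprod μ h a * bwgt μ h π * g a π := by
  set q := (bwgt μ h [e])⁻¹
  let F : List (List (Step d)) × List (Step d) × List (List (Step d)) → ℝ≥0∞ := fun x =>
    bprod μ h x.1 * bwgt μ h x.2.1 * g x.1 x.2.1 *
      if R ≤ h (disp x.1.flatten) + h (disp x.2.1) + h (disp x.2.2.flatten) ∧
          h (disp x.1.flatten) + h (disp x.2.1) + h (disp x.2.2.flatten) < R + 2
        then bprod μ h x.2.2 else 0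
  let split : ((ws : Bin h R) × Fin ws.1.length) →
      List (List (Step d)) × List (Step d) × List (List (Step d)) := fun x =>
    (x.1.1.take x.2, x.1.1[x.2.1], x.1.1.drop (x.2 + 1))
  have hcut : ∀ (ws : List (List (Step d))) (i : Fin ws.length),
      ws.take i ++ ws[i.1] :: ws.drop (i + 1) = ws := fun ws i => by
    rw [← List.drop_eq_getElem_cons, List.take_append_drop]
  have hinj : Function.Injective split := by
    rintro ⟨⟨ws, hws⟩, i⟩ ⟨⟨vs, hvs⟩, j⟩ heq
    simp only [split, Prod.mk.injEq] at heq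
    have h1 : ws = vs := by rw [← hcut ws i, ← hcut vs j, heq.1, heq.2.1, heq.2.2]
    have h2 := congrArg List.length heq.1
    simp only [List.length_take] at h2
    subst h1
    have hi := i.2
    have hj := j.2
    obtain rfl : i = j := Fin.ext (by simp only at hi hj h2; omega)
    rfl
  calc ∑' ws : Bin h R, pw μ 0 ws.1.flatten * ∑ i : Fin ws.1.length, g (ws.1.take i) (ws.1[i.1])
      ≤ ∑' x, F (split x) := by
        rw [ENNReal.tsum_sigma' fun x => F (split x)]
        refine ENNReal.tsum_le_tsum fun ws => ?_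
        rw [pw_flatten ws.2.1, tsum_fintype, mul_sum]
        refine sum_le_sum fun i _ => ?_
        have hw := hcut ws.1 i
        have hh : h (disp ws.1.flatten) = h (disp (ws.1.take i.1).flatten) + h (disp ws.1[i.1]) +
            h (disp (ws.1.drop (i.1 + 1)).flatten) := by
          conv_lhs => rw [← hw]
          rw [List.flatten_append, List.flatten_cons, disp_append, disp_append, map_add, map_add,
            add_assoc]
        have hbp : bprod μ h ws.1 = bprod μ h (ws.1.take i.1) *
            (bwgt μ h ws.1[i.1] * bprod μ h (ws.1.drop (i.1 + 1))) := by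
          conv_lhs => rw [← hw]
          rw [bprod, List.map_append, List.prod_append, List.map_cons, List.prod_cons]
          rfl
        simp only [F, split]
        rw [if_pos (hh ▸ ws.2.2), hbp]
        exact le_of_eq (by ring)
    _ ≤ ∑' x, F x := ENNReal.tsum_comp_le_tsum_of_injective hinj F
    _ ≤ ∑' a, ∑' π, bprod μ h a * bwgt μ h π * g a π * (3 * q) := by
        rw [ENNReal.tsum_prod']
        refine ENNReal.tsum_le_tsum fun a => ?_
        rw [ENNReal.tsum_prod']
        refine ENNReal.tsum_le_tsum fun π => ?_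
        simp only [F]
        rw [ENNReal.tsum_mul_left]
        exact mul_le_mul' le_rfl (tsum_bprod_window_le hb he _ R)
    _ = _ := by simp only [ENNReal.tsum_mul_right]; rw [mul_comm]

open Classical in
/-- The expected number of sites of the chains in a bin is linear in the height. -/
theorem tsum_bin_sites_le (hb : ∑' π, bwgt μ h π = 1) {e : Step d} (he : h (vec e) = 1) {R : ℝ}
    (hR : 0 ≤ R) :
    ∑' ws : Bin h R, pw μ 0 ws.1.flatten * (deps 0 ws.1.flatten).card
      ≤ 15 * (bwgt μ h [e])⁻¹ * (bwgt μ h [e])⁻¹ * meanSites μ h * ENNReal.ofReal (R + 1) := by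
  set q := (bwgt μ h [e])⁻¹
  let g : List (List (Step d)) → List (Step d) → ℝ≥0∞ := fun a π =>
    if h (disp a.flatten) ≤ R + 2 then (deps 0 π).card else 0
  calc ∑' ws : Bin h R, pw μ 0 ws.1.flatten * (deps 0 ws.1.flatten).card
      ≤ ∑' ws : Bin h R, pw μ 0 ws.1.flatten *
          ∑ i : Fin ws.1.length, g (ws.1.take i) (ws.1[i.1]) := by
        refine ENNReal.tsum_le_tsum fun ws => mul_le_mul' le_rfl ?_
        rw [card_deps_flatten ws.2.1, sitesSum, ← Fin.sum_univ_getElem, Nat.cast_sum]
        simp only [List.getElem_map]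
        refine le_of_eq (Fintype.sum_equiv (finCongr (by simp)) _ _ fun i => ?_)
        have hi : i.1 < ws.1.length := by simpa using i.2
        simp only [g, finCongr_apply, Fin.val_cast]
        rw [if_pos]
        have hd : ws.1 = ws.1.take i.1 ++ ws.1.drop i.1 := (List.take_append_drop _ _).symm
        have h2 := ws.2.2.2
        rw [hd, List.flatten_append, disp_append, map_add] at h2
        linarith [flatten_disp_nonneg fun π hπ => ws.2.1 π (List.mem_of_mem_drop (i := i.1) hπ)]
    _ ≤ 3 * q * ∑' a, ∑' π, bprod μ h a * bwgt μ h π * g a π := tsum_bin_blocks_le hb he R g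
    _ = 3 * q * ((∑' a, if h (disp a.flatten) ≤ R + 2 then bprod μ h a else 0) *
          meanSites μ h) := by
        rw [← ENNReal.tsum_mul_right]
        congr 1
        refine tsum_congr fun a => ?_
        rw [meanSites, ← ENNReal.tsum_mul_left]
        refine tsum_congr fun π => ?_
        simp only [g]
        split_ifs <;> ring
    _ ≤ 3 * q * (q * ENNReal.ofReal (R + 2 + 3) * meanSites μ h) :=
        mul_le_mul' le_rfl (mul_le_mul' (tsum_bprod_le hb he (by linarith)) le_rfl)
    _ ≤ 3 * q * (q * (5 * ENNReal.ofReal (R + 1)) * meanSites μ h) := by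
        gcongr
        rw [← ENNReal.ofReal_ofNat, ← ENNReal.ofReal_mul (by norm_num)]
        exact ENNReal.ofReal_le_ofReal (by linarith)
    _ = _ := by ring

/-- A site of a chain is a site of one of its blocks. -/
theorem exists_block_of_mem_deps {x z : Site d} {ws : List (List (Step d))}
    (hz : z ∈ deps x ws.flatten) :
    ∃ i : Fin ws.length, z ∈ deps (x + disp (ws.take i).flatten) (ws[i.1]) := by
  induction ws generalizing x with
  | nil => simp at hz
  | cons π ws ih =>
    rw [List.flatten_cons, deps_append, mem_union] at hz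
    rcases hz with h1 | h1
    · exact ⟨⟨0, by simp⟩, by simpa using h1⟩
    · obtain ⟨i, hi⟩ := ih h1
      exact ⟨⟨i + 1, by simp⟩, by simpa [add_assoc] using hi⟩

open Classical in
/-- The chains in a bin have boundedly many expected sites at every height. -/
theorem tsum_bin_level_le (hb : ∑' π, bwgt μ h π = 1) {e : Step d} (he : h (vec e) = 1) (R : ℝ)
    (τ : ℤ) :
    ∑' ws : Bin h R, pw μ 0 ws.1.flatten *
        ((deps 0 ws.1.flatten).filter fun z => ⌊h z⌋ = τ).card
      ≤ 3 * (bwgt μ h [e])⁻¹ * (meanSites μ h * (bwgt μ h [e])⁻¹) := by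
  set q := (bwgt μ h [e])⁻¹
  let g : List (List (Step d)) → List (Step d) → ℝ≥0∞ := fun a π =>
    ∑ z ∈ deps 0 π, if ⌊h z + h (disp a.flatten)⌋ = τ then 1 else 0
  calc ∑' ws : Bin h R, pw μ 0 ws.1.flatten *
        ((deps 0 ws.1.flatten).filter fun z => ⌊h z⌋ = τ).card
      ≤ ∑' ws : Bin h R, pw μ 0 ws.1.flatten *
          ∑ i : Fin ws.1.length, g (ws.1.take i) (ws.1[i.1]) := by
        refine ENNReal.tsum_le_tsum fun ws => mul_le_mul' le_rfl ?_
        refine le_trans (Nat.cast_le.2 (card_le_card (t := (univ : Finset (Fin ws.1.length)).biUnion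
          fun i => (deps (disp (ws.1.take i).flatten) (ws.1[i.1])).filter fun z => ⌊h z⌋ = τ)
          fun z hz => ?_)) ?_
        · rw [mem_filter] at hz
          obtain ⟨i, hi⟩ := exists_block_of_mem_deps hz.1
          rw [zero_add] at hi
          exact mem_biUnion.2 ⟨i, mem_univ _, mem_filter.2 ⟨hi, hz.2⟩⟩
        refine (Nat.cast_le.2 card_biUnion_le).trans ?_
        rw [Nat.cast_sum]
        refine sum_le_sum fun i _ => le_of_eq ?_
        simp only [g]
        rw [sum_boole, Nat.cast_inj]
        have hsh := deps_shift (ws.1[i.1]) 0 (disp (ws.1.take i).flatten)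
        rw [zero_add] at hsh
        rw [hsh, filter_image, card_image_of_injective _ (add_left_injective _)]
        simp only [map_add]
    _ ≤ 3 * q * ∑' a, ∑' π, bprod μ h a * bwgt μ h π * g a π := tsum_bin_blocks_le hb he R g
    _ ≤ 3 * q * ∑' π, bwgt μ h π * ((deps 0 π).card * q) := by
        refine mul_le_mul' le_rfl ?_
        rw [ENNReal.tsum_comm]
        refine ENNReal.tsum_le_tsum fun π => ?_
        calc ∑' a, bprod μ h a * bwgt μ h π * g a π
            = bwgt μ h π * ∑' a, ∑ z ∈ deps 0 π,
                bprod μ h a * if ⌊h z + h (disp a.flatten)⌋ = τ then 1 else 0 := by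
              rw [← ENNReal.tsum_mul_left]
              exact tsum_congr fun a => by simp only [g, ← mul_sum]; ring
          _ ≤ _ := by
              gcongr
              rw [Summable.tsum_finsetSum fun _ _ => ENNReal.summable]
              refine (sum_le_sum (g := fun _ => q) fun z _ => ?_).trans (le_of_eq (by simp))
              rw [← levels_tsum_ex]
              exact tsum_ex_bin_le hb he (h z) τ
    _ = _ := by simp only [meanSites, ← mul_assoc, ENNReal.tsum_mul_right]

open Classical in
/-- The true predecessors in the bin have a bounded second moment. -/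
theorem tsum_bin_pred_le (hb : ∑' π, bwgt μ h π = 1) {e : Step d} (he : h (vec e) = 1) (R : ℝ) :
    ∑' ws : Bin h R, pw μ 0 ws.1.flatten * binPred h R ws.1
      ≤ 9 * (bwgt μ h [e])⁻¹ * (bwgt μ h [e])⁻¹ := by
  set q := (bwgt μ h [e])⁻¹
  let inBin : List (List (Step d)) → Prop := fun a =>
    R ≤ h (disp a.flatten) ∧ h (disp a.flatten) < R + 2
  let F : List (List (Step d)) × List (List (Step d)) → ℝ≥0∞ := fun x =>
    (if inBin x.1 then bprod μ h x.1 else 0) *
      if R ≤ h (disp x.1.flatten) + h (disp x.2.flatten) ∧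
          h (disp x.1.flatten) + h (disp x.2.flatten) < R + 2
        then bprod μ h x.2 else 0
  let split : ((ws : Bin h R) × {i : Fin (ws.1.length + 1) // inBin (ws.1.take i.1)}) →
      List (List (Step d)) × List (List (Step d)) := fun x =>
    (x.1.1.take x.2.1.1, x.1.1.drop x.2.1.1)
  have hinj : Function.Injective split := by
    rintro ⟨⟨ws, hws⟩, ⟨i, hib⟩⟩ ⟨⟨vs, hvs⟩, ⟨j, hjb⟩⟩ heq
    simp only [split, Prod.mk.injEq] at heq
    have h1 : ws = vs := by
      rw [← List.take_append_drop i.1 ws, ← List.take_append_drop j.1 vs, heq.1, heq.2]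
    have h2 := congrArg List.length heq.1
    simp only [List.length_take] at h2
    subst h1
    have hi := i.2
    have hj := j.2
    obtain rfl : i = j := Fin.ext (by simp only at hi hj h2; omega)
    rfl
  calc ∑' ws : Bin h R, pw μ 0 ws.1.flatten * binPred h R ws.1 ≤ ∑' x, F (split x) := by
        rw [ENNReal.tsum_sigma' fun x => F (split x)]
        refine ENNReal.tsum_le_tsum fun ws => ?_
        have hterm : ∀ i : {i : Fin (ws.1.length + 1) // inBin (ws.1.take i.1)},
            F (split ⟨ws, i⟩) = pw μ 0 ws.1.flatten := by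
          intro i
          have hw := List.take_append_drop i.1.1 ws.1
          have hh : h (disp ws.1.flatten) = h (disp (ws.1.take i.1.1).flatten) +
              h (disp (ws.1.drop i.1.1).flatten) := by
            conv_lhs => rw [← hw]
            rw [List.flatten_append, disp_append, map_add]
          simp only [F, split]
          rw [if_pos i.2, if_pos (hh ▸ ws.2.2), pw_flatten ws.2.1]
          conv_rhs => rw [← hw]
          rw [bprod, bprod, bprod, List.map_append, List.prod_append]
        rw [tsum_congr hterm, tsum_fintype, sum_const, card_univ, nsmul_eq_mul, mul_comm]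
        refine le_of_eq ?_
        congr 2
        rw [Fintype.card_subtype, binPred]
        exact (Finset.card_bij (fun i _ => i.1)
          (fun i hi => mem_filter.2 ⟨mem_range.2 i.2, (mem_filter.1 hi).2⟩)
          (fun i _ j _ => Fin.ext)
          (fun i hi => ⟨⟨i, mem_range.1 (mem_filter.1 hi).1⟩,
            mem_filter.2 ⟨mem_univ _, (mem_filter.1 hi).2⟩, rfl⟩)).symm
    _ ≤ ∑' x, F x := ENNReal.tsum_comp_le_tsum_of_injective hinj F
    _ ≤ ∑' a, (if inBin a then bprod μ h a else 0) * (3 * q) := by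
        rw [ENNReal.tsum_prod']
        refine ENNReal.tsum_le_tsum fun a => ?_
        simp only [F]
        rw [ENNReal.tsum_mul_left]
        exact mul_le_mul' le_rfl (tsum_bprod_window_le hb he _ R)
    _ ≤ 3 * q * (3 * q) := by
        rw [ENNReal.tsum_mul_right]
        refine mul_le_mul' (le_trans (le_of_eq ?_) (tsum_bprod_window_le hb he 0 R)) le_rfl
        simp only [zero_add, inBin]
    _ = _ := by ring

variable {P : Measure (Traj d)}

/-- Chains with few true predecessors and many competing prefixes are rare. -/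
theorem IsAnnealed.bin_rank_le (hP : IsAnnealed μ P) (hd : P (Esc h) ≠ 0) {e : Step d}
    (he : h (vec e) = 1) (R : ℝ) {J : ℕ} (hJ : 0 < J) (K : ℕ)
    {T : Set (List (List (Step d)))}
    (hT : ∀ ws ∈ T, ws ∈ Bin h R ∧ binPred h R ws ≤ K ∧ (J : ℝ≥0∞) < rank h R ws.flatten) :
    ∑' ws : T, pw μ 0 ws.1.flatten
      ≤ K * (3 * (bwgt μ h [e])⁻¹ / J) * (P (Esc h))⁻¹ := by
  classical
  haveI := hP.1
  have hb := hP.tsum_bwgt hd
  let N : Traj d → ℝ≥0∞ := fun t =>
    ∑' w : Bin h R, (cyl w.1.flatten).indicator (fun _ => (1 : ℝ≥0∞)) t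
  have hNm : Measurable N :=
    Measurable.ennreal_tsum fun w => measurable_const.indicator (measurableSet_cyl _)
  set E := {t | (J : ℝ≥0∞) ≤ N t}
  have hE : MeasurableSet E := measurableSet_le measurable_const hNm
  have hPE : P E ≤ 3 * (bwgt μ h [e])⁻¹ / J := by
    rw [ENNReal.le_div_iff_mul_le (Or.inl (by simpa using hJ.ne')) (Or.inl (by simp)), mul_comm]
    refine (mul_meas_ge_le_lintegral hNm _).trans ?_
    simp only [N]
    rw [lintegral_tsum fun w => (measurable_const.indicator (measurableSet_cyl _)).aemeasurable]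
    refine le_trans (le_of_eq (tsum_congr fun w => ?_)) (tsum_bin_le hb he R)
    rw [lintegral_indicator_const (measurableSet_cyl _), one_mul, hP.2]
  have hsub : ∀ ws : T, blockEvent h ws.1 ⊆ E := by
    intro ws t ht
    refine le_trans (hT _ ws.2).2.2.le (ENNReal.tsum_le_tsum fun w => ?_)
    split_ifs with h1
    · rw [Set.indicator_of_mem (cyl_subset_of_prefix h1 ht.1)]
    · exact bot_le
  have hmult : ∀ t, ∑' ws : T, (blockEvent h ws.1).indicator (fun _ => (1 : ℝ≥0∞)) t
      ≤ E.indicator (fun _ => (K : ℝ≥0∞)) t := by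
    intro t
    by_cases ht : t ∈ E
    swap
    · rw [Set.indicator_of_notMem ht]
      exact le_of_eq (ENNReal.tsum_eq_zero.2 fun ws =>
        Set.indicator_of_notMem (fun h' => ht (hsub ws h')) _)
    rw [Set.indicator_of_mem ht, ENNReal.tsum_eq_iSup_sum]
    refine iSup_le fun s => ?_
    set s' := s.filter fun ws => t ∈ blockEvent h ws.1 with hs'
    have hsum : ∑ ws ∈ s, (blockEvent h ws.1).indicator (fun _ => (1 : ℝ≥0∞)) t
        = ∑ ws ∈ s', 1 := by
      rw [hs', sum_filter]
      exact sum_congr rfl fun ws _ => by simp [Set.indicator_apply]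
    rw [hsum]
    rcases s'.eq_empty_or_nonempty with he' | hne
    · simp [he']
    obtain ⟨top, htop, hmax⟩ := s'.exists_max_image (fun ws => ws.1.length) hne
    have htake : ∀ ws ∈ s', ws.1 = top.1.take ws.1.length := by
      intro ws hws
      refine blockEvent_unique (by simp [hmax ws hws]) (hT _ ws.2).1.1
        (fun π hπ => (hT _ top.2).1.1 π (List.mem_of_mem_take hπ)) (mem_filter.1 hws).2 ?_
      refine blockEvent_append_subset (b := top.1.drop ws.1.length)
        (fun π hπ => (hT _ top.2).1.1 π (List.mem_of_mem_drop hπ)) ?_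
      rw [List.take_append_drop]
      exact (mem_filter.1 htop).2
    have hinjOn : Set.InjOn (fun ws : T => ws.1.length) s' := fun a ha b hb' hab =>
      Subtype.ext (by rw [htake a ha, htake b hb', show a.1.length = b.1.length from hab])
    rw [sum_const, nsmul_eq_mul, mul_one, Nat.cast_le, ← card_image_of_injOn hinjOn]
    refine le_trans ?_ (hT _ top.2).2.1
    rw [binPred]
    refine card_le_card fun i hi => ?_
    obtain ⟨ws, hws, rfl⟩ := mem_image.1 hi
    exact mem_filter.2
      ⟨mem_range.2 (Nat.lt_succ_of_le (hmax ws hws)), htake ws hws ▸ (hT _ ws.2).1.2⟩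
  rw [← div_eq_mul_inv, ENNReal.le_div_iff_mul_le (Or.inl hd) (Or.inl (measure_ne_top _ _))]
  calc (∑' ws : T, pw μ 0 ws.1.flatten) * P (Esc h)
      = ∑' ws : T, P (blockEvent h ws.1) := by
        rw [← ENNReal.tsum_mul_right]
        exact tsum_congr fun ws => by
          rw [hP.measure_blockEvent (hT _ ws.2).1.1, pw_flatten (hT _ ws.2).1.1]
    _ = ∫⁻ t, ∑' ws : T, (blockEvent h ws.1).indicator (fun _ => (1 : ℝ≥0∞)) t ∂P := by
        rw [lintegral_tsum fun ws =>
          (measurable_const.indicator (measurableSet_blockEvent _)).aemeasurable]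
        exact tsum_congr fun ws => by
          rw [lintegral_indicator_const (measurableSet_blockEvent _), one_mul]
    _ ≤ ∫⁻ t, E.indicator (fun _ => (K : ℝ≥0∞)) t ∂P := lintegral_mono hmult
    _ = K * P E := lintegral_indicator_const hE _
    _ ≤ _ := mul_le_mul' le_rfl hPE

theorem Setup.bwgt_e₀_ne_zero (S : Setup d) : bwgt S.μ S.h [S.e₀] ≠ 0 := by
  simp only [bwgt, if_pos (isBlock_singleton (S.he₀.symm ▸ zero_lt_one))]
  exact pw_pos S.μ S.ell 0 _

/-- The chains of height about `R` have bounded weight. -/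
theorem Setup.bin_mass_le (S : Setup d) : ∃ C : ℝ≥0∞, C ≠ ⊤ ∧ ∀ R : ℝ,
    ∑' ws : Bin S.h R, pw S.μ 0 ws.1.flatten ≤ C :=
  ⟨_, ENNReal.mul_ne_top (by simp) (ENNReal.inv_ne_top.2 S.bwgt_e₀_ne_zero),
    fun R => tsum_bin_le (S.ann.tsum_bwgt S.escP) S.he₀ R⟩

/-- The chains of height about `R` have boundedly many expected sites at every height. -/
theorem Setup.bin_sites_le (S : Setup d) (hs : meanSites S.μ S.h ≠ ⊤) : ∃ C : ℝ≥0∞, C ≠ ⊤ ∧ ∀ (R : ℝ) (τ : ℤ),
    ∑' ws : Bin S.h R, pw S.μ 0 ws.1.flatten *
      ((deps 0 ws.1.flatten).filter (fun z => ⌊S.h z⌋ = τ)).card ≤ C :=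
  ⟨_, ENNReal.mul_ne_top (ENNReal.mul_ne_top (by simp) (ENNReal.inv_ne_top.2 S.bwgt_e₀_ne_zero))
      (ENNReal.mul_ne_top hs (ENNReal.inv_ne_top.2 S.bwgt_e₀_ne_zero)),
    fun R τ => tsum_bin_level_le (S.ann.tsum_bwgt S.escP) S.he₀ R τ⟩

/-- The loss of keeping only the candidates. -/
theorem Setup.trim_le (S : Setup d) (hs : meanSites S.μ S.h ≠ ⊤) : ∃ C : ℝ≥0∞, C ≠ ⊤ ∧ ∀ R : ℝ, 0 ≤ R → ∀ M J K : ℕ,
    0 < M → 0 < J → 0 < K →
    ∑' ws : Bin S.h R, @ite _ (ws.1 ∈ Cand S.h R M J) (Classical.dec _) 0 (pw S.μ 0 ws.1.flatten)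
      ≤ C * (ENNReal.ofReal (R + 1) / M + 1 / K + K / J) := by
  classical
  set q := (bwgt S.μ S.h [S.e₀])⁻¹ with hq
  have hqt : q ≠ ⊤ := ENNReal.inv_ne_top.2 S.bwgt_e₀_ne_zero
  refine ⟨15 * q * q * meanSites S.μ S.h + 9 * q * q + 3 * q * (S.P (Esc S.h))⁻¹, ?_,
    fun R hR M J K hM hJ hK => ?_⟩
  · refine ENNReal.add_ne_top.2 ⟨ENNReal.add_ne_top.2 ⟨?_, ?_⟩, ?_⟩
    · exact ENNReal.mul_ne_top (ENNReal.mul_ne_top (ENNReal.mul_ne_top (by simp) hqt) hqt) hs
    · exact ENNReal.mul_ne_top (ENNReal.mul_ne_top (by simp) hqt) hqt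
    · exact ENNReal.mul_ne_top (ENNReal.mul_ne_top (by simp) hqt) (ENNReal.inv_ne_top.2 S.escP)
  have hb := S.ann.tsum_bwgt S.escP
  let T : Set (List (List (Step d))) :=
    {ws | ws ∈ Bin S.h R ∧ binPred S.h R ws ≤ K ∧ (J : ℝ≥0∞) < rank S.h R ws.flatten}
  have hM' : (M : ℝ≥0∞) ≠ 0 := by simpa using hM.ne'
  have hK' : (K : ℝ≥0∞) ≠ 0 := by simpa using hK.ne'
  calc ∑' ws : Bin S.h R, @ite _ (ws.1 ∈ Cand S.h R M J) (Classical.dec _) 0 (pw S.μ 0 ws.1.flatten)
      ≤ ∑' ws : Bin S.h R, (pw S.μ 0 ws.1.flatten * (deps 0 ws.1.flatten).card / M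
          + pw S.μ 0 ws.1.flatten * binPred S.h R ws.1 / K
          + T.indicator (fun ws => pw S.μ 0 ws.flatten) ws.1) := by
        refine ENNReal.tsum_le_tsum fun ws => ?_
        split_ifs with hc
        · exact bot_le
        by_cases h1 : M < (deps 0 ws.1.flatten).card
        · refine le_trans ?_ (le_trans le_self_add le_self_add)
          rw [ENNReal.le_div_iff_mul_le (Or.inl hM') (Or.inl (by simp))]
          exact mul_le_mul' le_rfl (Nat.cast_le.2 h1.le)
        by_cases h2 : K < binPred S.h R ws.1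
        · refine le_trans ?_ (le_trans le_add_self le_self_add)
          rw [ENNReal.le_div_iff_mul_le (Or.inl hK') (Or.inl (by simp))]
          exact mul_le_mul' le_rfl (Nat.cast_le.2 h2.le)
        refine le_trans ?_ le_add_self
        rw [Set.indicator_of_mem]
        exact ⟨ws.2, not_lt.1 h2, not_le.1 fun h3 => hc ⟨ws.2, not_lt.1 h1, h3⟩⟩
    _ = (∑' ws : Bin S.h R, pw S.μ 0 ws.1.flatten * (deps 0 ws.1.flatten).card) / M
          + (∑' ws : Bin S.h R, pw S.μ 0 ws.1.flatten * binPred S.h R ws.1) / K
          + ∑' ws : T, pw S.μ 0 ws.1.flatten := by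
        simp only [ENNReal.tsum_add, div_eq_mul_inv, ENNReal.tsum_mul_right]
        congr 1
        rw [tsum_subtype T fun ws => pw S.μ 0 ws.flatten]
        exact tsum_subtype_eq_of_support_subset fun ws hws => (Set.mem_of_indicator_ne_zero hws).1
    _ ≤ 15 * q * q * meanSites S.μ S.h * ENNReal.ofReal (R + 1) / M + 9 * q * q / K
          + K * (3 * q / J) * (S.P (Esc S.h))⁻¹ :=
        add_le_add (add_le_add (ENNReal.div_le_div_right (tsum_bin_sites_le hb S.he₀ hR) _)
          (ENNReal.div_le_div_right (tsum_bin_pred_le hb S.he₀ R) _))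
          (S.ann.bin_rank_le S.escP S.he₀ R hJ K fun ws hws => hws)
    _ = (15 * q * q * meanSites S.μ S.h) * (ENNReal.ofReal (R + 1) / M) + 9 * q * q * (1 / K)
          + 3 * q * (S.P (Esc S.h))⁻¹ * (K / J) := by
        simp only [div_eq_mul_inv, one_mul]
        ring
    _ ≤ _ := by
        rw [mul_add, mul_add]
        gcongr
        · exact le_trans le_self_add le_self_add
        · exact le_trans le_add_self le_self_add
        · exact le_add_self

end Vale.Agent.P147
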