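import Mathlib
import Vale.Agent.P147.Setup
import Vale.Agent.P147.Ident

/-!
# P147: the second moment of the arrival density

Two candidates which do not meet are independent.  If they meet, one of them keeps its full
weight, the other one the weight up to the first meeting, and its continuations weigh at most `J`.
The meeting site is pinned: the height of the offset of the two starting points lies in a band, and
the chains of a bin have boundedly many expected sites per unit of height.
-/

namespace Vale.Agent.P147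

open MeasureTheory Finset Filter
open scoped ENNReal Topology

variable {d : ℕ}

open Classical in
/-- The sites of a path at heights in `[u, u + 1)`. -/
noncomputable def binSites (h : Site d →+ ℝ) (u : ℝ) (π : List (Step d)) : ℕ :=
  ((deps 0 π).filter fun z => ⌊h z - u⌋ = 0).card

open Classical in
/-- The indicator of a window of height two. -/
noncomputable def win (h : Site d →+ ℝ) (R : ℝ) (ws : List (List (Step d))) : ℝ≥0∞ :=
  if R ≤ h (disp ws.flatten) ∧ h (disp ws.flatten) < R + 2 then 1 else 0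

theorem binSites_append (h : Site d →+ ℝ) (u : ℝ) (π ρ : List (Step d)) :
    binSites h u (π ++ ρ) ≤ binSites h u π + binSites h (u - h (disp π)) ρ := by
  classical
  simp only [binSites]
  rw [deps_append, filter_union]
  refine (card_union_le _ _).trans (Nat.add_le_add le_rfl ?_)
  rw [deps_shift ρ 0 (disp π), filter_image]
  refine card_image_le.trans (le_of_eq ?_)
  congr 1
  refine filter_congr fun z _ => ?_
  rw [map_add, show h z + h (disp π) - u = h z - (u - h (disp π)) by ring]

variable {μ : Measure (Row d)} [IsProbabilityMeasure μ] {h : Site d →+ ℝ}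

theorem tsum_bin_eq (R : ℝ) (F : List (List (Step d)) → ℝ≥0∞) :
    ∑' ws : Bin h R, pw μ 0 ws.1.flatten * F ws.1
      = ∑' n, ex μ h n fun ws => win h R ws * F ws := by
  classical
  rw [tsum_subtype (Bin h R) fun ws => pw μ 0 ws.flatten * F ws]
  simp only [ex_eq_tsum]
  rw [ENNReal.tsum_comm]
  refine tsum_congr fun ws => ?_
  rw [tsum_eq_single ws.length fun n hn => if_neg (Ne.symm hn), if_pos rfl]
  by_cases hb : ∀ π ∈ ws, IsBlock h π
  · by_cases hw : R ≤ h (disp ws.flatten) ∧ h (disp ws.flatten) < R + 2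
    · rw [Set.indicator_of_mem (show ws ∈ Bin h R from ⟨hb, hw.1, hw.2⟩), pw_flatten hb, win,
        if_pos hw, one_mul]
    · rw [Set.indicator_of_notMem (show ws ∉ Bin h R from fun hm => hw hm.2), win, if_neg hw,
        zero_mul, mul_zero]
  · rw [Set.indicator_of_notMem (show ws ∉ Bin h R from fun hm => hb hm.1), bprod_eq_zero hb,
      zero_mul]

variable (hb : ∑' π, bwgt μ h π = 1) {e : Step d} (he : h (vec e) = 1)
include hb he

theorem tsum_win_le (R : ℝ) :
    ∑' n, ex μ h n (win h R) ≤ 3 * (bwgt μ h [e])⁻¹ := by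
  classical
  calc ∑' n, ex μ h n (win h R)
      ≤ ∑' n, ∑ s ∈ Finset.Icc ⌊R⌋ (⌊R⌋ + 2), ex μ h n
          (fun ws => if ⌊0 + h (disp ws.flatten)⌋ = s then 1 else 0) := by
        refine ENNReal.tsum_le_tsum fun n => ?_
        rw [← ex_sum]
        refine ex_mono fun ws => ?_
        simp only [win]
        split_ifs with hw
        · rw [sum_eq_single_of_mem ⌊h (disp ws.flatten)⌋ (mem_Icc.2 ⟨Int.floor_le_floor hw.1,
            (Int.floor_le_floor hw.2.le).trans (by simp [Int.floor_add_ofNat])⟩)
            fun s _ hs => by simp [Ne.symm hs]]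
          simp
        · exact bot_le
    _ = ∑ s ∈ Finset.Icc ⌊R⌋ (⌊R⌋ + 2), ∑' n, ex μ h n
          (fun ws => if ⌊0 + h (disp ws.flatten)⌋ = s then 1 else 0) :=
        Summable.tsum_finsetSum fun s _ => ENNReal.summable
    _ ≤ ∑ _s ∈ Finset.Icc ⌊R⌋ (⌊R⌋ + 2), (bwgt μ h [e])⁻¹ :=
        sum_le_sum fun s _ => tsum_ex_bin_le hb he 0 s
    _ = _ := by
        rw [sum_const, Int.card_Icc, show (⌊R⌋ + 2 + 1 - ⌊R⌋).toNat = 3 by omega, nsmul_eq_mul]
        norm_num

/-- The chains of a bin have boundedly many expected sites in every unit of height. -/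
theorem tsum_win_sites_le (R u : ℝ) :
    ∑' n, ex μ h n (fun ws => win h R ws * (binSites h u ws.flatten : ℝ≥0∞))
      ≤ 3 * (bwgt μ h [e])⁻¹ * (meanSites μ h * (bwgt μ h [e])⁻¹) := by
  classical
  set Cb := 3 * (bwgt μ h [e])⁻¹ with hCb
  set g : ℝ → ℝ≥0∞ := fun u => ∑' π, bwgt μ h π * (binSites h u π : ℝ≥0∞) with hg
  have hwin : ∀ (N : ℕ) (R : ℝ), ∑ n ∈ range N, ex μ h n (win h R) ≤ Cb := fun N R =>
    (ENNReal.sum_le_tsum _).trans (tsum_win_le hb he R)
  have key : ∀ (N : ℕ) (R u : ℝ),
      ∑ n ∈ range N, ex μ h n (fun ws => win h R ws * (binSites h u ws.flatten : ℝ≥0∞))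
        ≤ Cb * ∑ i ∈ range N, ex μ h i (fun us => g (u - h (disp us.flatten))) := by
    intro N
    induction N with
    | zero => simp
    | succ N ih =>
      intro R u
      rw [sum_range_succ', sum_range_succ']
      have h0 : ex μ h 0 (fun ws => win h R ws * (binSites h u ws.flatten : ℝ≥0∞)) = 0 := by
        simp [binSites]
      rw [h0, add_zero]
      simp only [ex_succ, ex_zero, List.flatten_nil, disp_nil, map_zero, sub_zero,
        List.flatten_cons, disp_append, map_add]
      rw [← Summable.tsum_finsetSum fun i _ => ENNReal.summable,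
        ← Summable.tsum_finsetSum fun i _ => ENNReal.summable]
      simp only [← mul_sum]
      calc ∑' π, bwgt μ h π * ∑ n ∈ range N, ex μ h n (fun ws =>
            win h R (π :: ws) * (binSites h u (π ++ ws.flatten) : ℝ≥0∞))
          ≤ ∑' π, bwgt μ h π * (Cb * (binSites h u π : ℝ≥0∞)
              + Cb * ∑ i ∈ range N, ex μ h i (fun us => g (u - h (disp π) - h (disp us.flatten)))) := by
            refine ENNReal.tsum_le_tsum fun π => mul_le_mul' le_rfl ?_
            refine le_trans (sum_le_sum fun n _ => ex_mono (G := fun ws =>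
              win h (R - h (disp π)) ws * (binSites h u π : ℝ≥0∞)
                + win h (R - h (disp π)) ws * (binSites h (u - h (disp π)) ws.flatten : ℝ≥0∞))
              fun ws => ?_) ?_
            · rw [← mul_add, ← Nat.cast_add]
              refine mul_le_mul' (le_of_eq ?_) (Nat.cast_le.2 (binSites_append h u π ws.flatten))
              simp only [win, List.flatten_cons, disp_append, map_add]
              congr 1
              simp only [eq_iff_iff]
              constructor <;> rintro ⟨a, b⟩ <;> constructor <;> linarith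
            · simp only [ex_add, ex_mul_const, sum_add_distrib, ← sum_mul]
              exact add_le_add (mul_le_mul' (hwin N _) le_rfl) (ih _ _)
        _ = _ := by
            simp only [mul_add, ENNReal.tsum_add, mul_left_comm _ Cb, ENNReal.tsum_mul_left, hg,
              sub_sub]
            rw [← mul_add, ← mul_add, add_comm]
  refine ENNReal.summable.tsum_le_of_sum_range_le fun N => (key N R u).trans ?_
  refine mul_le_mul' le_rfl ((ENNReal.sum_le_tsum _).trans ?_)
  simp only [hg, ex_tsum, ex_const_mul, meanSites, ← ENNReal.tsum_mul_right]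
  rw [ENNReal.tsum_comm]
  simp only [ENNReal.tsum_mul_left]
  refine ENNReal.tsum_le_tsum fun π => ?_
  rw [mul_assoc]
  refine mul_le_mul' le_rfl ?_
  calc ∑' i, ex μ h i (fun us => (binSites h (u - h (disp us.flatten)) π : ℝ≥0∞))
      = ∑' i, ∑ z ∈ deps 0 π, ex μ h i
          (fun us => if ⌊h z - u + h (disp us.flatten)⌋ = 0 then 1 else 0) := by
        refine tsum_congr fun i => ?_
        rw [← ex_sum]
        refine ex_congr_of fun us _ _ => ?_
        rw [sum_boole, binSites]
        congr 2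
        refine filter_congr fun z _ => ?_
        rw [show h z - (u - h (disp us.flatten)) = h z - u + h (disp us.flatten) by ring]
    _ = ∑ z ∈ deps 0 π, ∑' i, ex μ h i
          (fun us => if ⌊h z - u + h (disp us.flatten)⌋ = 0 then 1 else 0) :=
        Summable.tsum_finsetSum fun z _ => ENNReal.summable
    _ ≤ ∑ _z ∈ deps 0 π, (bwgt μ h [e])⁻¹ := sum_le_sum fun z _ => tsum_ex_bin_le hb he _ 0
    _ = _ := by rw [sum_const, nsmul_eq_mul]

omit hb he

/-! ## Visits before having seen more than `M` sites -/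

/-- The path and its end have at most `M` sites. -/
def Few (M : ℕ) (l : List (Step d)) : Prop := (insert (disp l) (deps 0 l)).card ≤ M

omit [IsProbabilityMeasure μ] in
theorem tsum_visit_le (M : ℕ) (t : Traj d) :
    ∑' y : Site d, (HitsBefore (Few M) 0 {y}).indicator (fun _ => (1 : ℝ≥0∞)) t ≤ M := by
  classical
  rw [ENNReal.tsum_eq_iSup_sum]
  refine iSup_le fun T => ?_
  simp only [Set.indicator_apply]
  rw [sum_boole]
  refine Nat.cast_le.2 ?_
  set T' := T.filter fun y => t ∈ HitsBefore (Few M) 0 {y} with hT'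
  rcases T'.eq_empty_or_nonempty with he | hne
  · simp [he]
  have hk : ∀ y ∈ T', ∃ k, site t k = y ∧ ∀ j ≤ k, Few M (pre t j) := by
    intro y hy
    obtain ⟨k, h1, h2⟩ := (mem_filter.1 hy).2
    exact ⟨k, by simpa using h1, h2⟩
  choose k hk1 hk2 using hk
  obtain ⟨b, -, hmax⟩ := T'.attach.exists_max_image (fun y => k y.1 y.2) (attach_nonempty_iff.2 hne)
  have hsite : ∀ j, disp (pre t j) = site t j := fun j => by
    have h := site_of_mem_cyl (mem_cyl_ofFn_self j t) le_rfl
    rw [List.take_length, List.length_ofFn] at h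
    exact h.symm
  refine le_trans (card_le_card fun y hy => ?_) (hk2 b.1 b.2 _ le_rfl)
  rw [← hk1 y hy, mem_insert]
  rcases (hmax ⟨y, hy⟩ (mem_attach _ _)).lt_or_eq with hlt | heq
  · refine .inr (mem_deps.2 ⟨k y hy, by simpa [pre] using hlt, ?_⟩)
    rw [zero_add]
    exact (site_of_mem_cyl (mem_cyl_ofFn_self _ t) (by simpa using hlt.le)).symm
  · exact .inl (by simp only at heq; rw [hsite, heq])

theorem bin_band_le (h : Site d →+ ℝ) (u W : ℝ) (γ : List (Step d)) :
    @Finset.card (Site d) ((deps 0 γ).filter fun z => |u - h z| ≤ W)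
      ≤ ∑ s ∈ Finset.Icc ⌊u - W⌋ ⌊u + W⌋, binSites h (s : ℝ) γ := by
  classical
  simp only [binSites]
  refine le_trans (card_le_card (t := (Finset.Icc ⌊u - W⌋ ⌊u + W⌋).biUnion fun s =>
    (deps 0 γ).filter fun z => ⌊h z - (s : ℝ)⌋ = 0) fun z hz => ?_) card_biUnion_le
  obtain ⟨hz1, hz2⟩ := mem_filter.1 hz
  rw [abs_le] at hz2
  refine mem_biUnion.2 ⟨⌊h z⌋, mem_Icc.2 ⟨Int.floor_le_floor (by linarith),
    Int.floor_le_floor (by linarith)⟩, mem_filter.2 ⟨hz1, ?_⟩⟩
  simp

variable [NeZero d]

open Classical in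
/-- Meeting pairs with offsets in a band of heights. -/
theorem IsAnnealed.meet_band_le {P : Measure (Traj d)} (hP : IsAnnealed μ P) (U : ℝ≥0∞)
    (R : ℝ) (hU : ∀ u : ℝ, ∑' ws : Bin h R, pw μ 0 ws.1.flatten
      * (binSites h u ws.1.flatten : ℝ≥0∞) ≤ U) (M J : ℕ) (W : ℝ) (hW : 0 ≤ W) :
    ∑' ws' : Cand h R M J, ∑' c : Site d, ∑' ws : Cand h R M J, ∫⁻ ω,
        (if |h c| ≤ W ∧ ¬ Disjoint (deps 0 ws.1.flatten) (deps c ws'.1.flatten)
          then qw ω c ws'.1.flatten * qw ω 0 ws.1.flatten else 0) ∂envLaw μ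
      ≤ J * (M * (ENNReal.ofReal (2 * W + 2) * U)) := by
  haveI := hP.1
  set V : Site d → ℝ≥0∞ := fun y => P (HitsBefore (Few M) 0 {y}) with hV
  have step : ∀ (ws' : Cand h R M J) (c : Site d), ∑' ws : Cand h R M J, ∫⁻ ω,
      (if |h c| ≤ W ∧ ¬ Disjoint (deps 0 ws.1.flatten) (deps c ws'.1.flatten)
        then qw ω c ws'.1.flatten * qw ω 0 ws.1.flatten else 0) ∂envLaw μ
      ≤ if |h c| ≤ W then J * (pw μ 0 ws'.1.flatten *
          ∑ z ∈ deps 0 ws'.1.flatten, V (z + c)) else 0 := by
    intro ws' c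
    set γ' := ws'.1.flatten with hγ'
    by_cases hc : |h c| ≤ W
    swap
    · simp [hc]
    simp only [hc, true_and, if_true]
    let T : Set (List (List (Step d))) :=
      {ws | ws ∈ Cand h R M J ∧ ¬ Disjoint (deps 0 ws.flatten) (deps c γ')}
    have hTE : ∀ ws ∈ T, cyl ws.flatten ⊆ HitsBefore (Few M) 0 (deps c γ') := by
      rintro ws ⟨hws, hm⟩ t ht
      obtain ⟨z, hz1, hz2⟩ := Finset.not_disjoint_iff.1 hm
      obtain ⟨k, hk, rfl⟩ := mem_deps.1 hz1
      refine ⟨k, ?_, fun j hj => ?_⟩
      · rw [site_of_mem_cyl ht hk.le]; exact hz2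
      · rw [pre_of_mem_cyl ht (by omega)]
        refine (card_le_card ?_).trans hws.2.1
        refine Finset.insert_subset_iff.2 ⟨mem_deps.2 ⟨j, by omega, zero_add _⟩, ?_⟩
        conv_rhs => rw [← List.take_append_drop j ws.flatten, deps_append]
        exact subset_union_left
    calc ∑' ws : Cand h R M J, ∫⁻ ω,
          (if ¬ Disjoint (deps 0 ws.1.flatten) (deps c γ')
            then qw ω c γ' * qw ω 0 ws.1.flatten else 0) ∂envLaw μ
        = ∫⁻ ω, qw ω c γ' * ∑' ws : Cand h R M J,
            T.indicator (fun ws => qw ω 0 ws.flatten) ws.1 ∂envLaw μ := by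
          simp only [← ENNReal.tsum_mul_left]
          rw [lintegral_tsum fun ws => ?_]
          · refine tsum_congr fun ws => lintegral_congr fun ω => ?_
            by_cases hm : Disjoint (deps 0 ws.1.flatten) (deps c γ')
            · rw [if_neg (not_not.2 hm),
                Set.indicator_of_notMem (show ws.1 ∉ T from fun h' => h'.2 hm), mul_zero]
            · rw [if_pos hm, Set.indicator_of_mem (show ws.1 ∈ T from ⟨ws.2, hm⟩)]
          · refine ((measurable_qw _ _).mul ?_).aemeasurable
            by_cases hm : ws.1 ∈ T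
            · simp only [Set.indicator_of_mem hm]; exact measurable_qw _ _
            · simp only [Set.indicator_of_notMem hm]; exact measurable_const
      _ ≤ ∫⁻ ω, qw ω c γ' * (J * qP ω 0 (HitsBefore (Few M) 0 (deps c γ'))) ∂envLaw μ :=
          lintegral_mono fun ω => mul_le_mul' le_rfl
            (tsum_cand_qw_le h R M J ω 0 (measurableSet_hitsBefore _ _ _) hTE)
      _ = J * (pw μ 0 γ' * P (HitsBefore (Few M) 0 (deps c γ'))) := by
          simp only [mul_left_comm _ (J : ℝ≥0∞)]
          rw [lintegral_const_mul' _ _ (ENNReal.natCast_ne_top J),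
            hP.lintegral_qw_mul_hit c 0 γ' (Few M)]
      _ ≤ _ := by
          refine mul_le_mul' le_rfl (mul_le_mul' le_rfl ?_)
          refine (measure_mono (t := ⋃ z ∈ deps 0 γ', HitsBefore (Few M) 0 {z + c})
            fun t ht => ?_).trans (measure_biUnion_finset_le _ _)
          obtain ⟨k, hk, hkeep⟩ := ht
          rw [show deps c γ' = (deps 0 γ').image (· + c) by rw [← deps_shift, zero_add]] at hk
          obtain ⟨z, hz, hzeq⟩ := mem_image.1 hk
          exact Set.mem_iUnion₂.2 ⟨z, hz, k, mem_singleton.2 hzeq.symm, hkeep⟩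
  refine le_trans (ENNReal.tsum_le_tsum fun ws' => ENNReal.tsum_le_tsum fun c => step ws' c) ?_
  calc ∑' ws' : Cand h R M J, ∑' c : Site d,
        (if |h c| ≤ W then J * (pw μ 0 ws'.1.flatten *
          ∑ z ∈ deps 0 ws'.1.flatten, V (z + c)) else 0)
      = J * ∑' y : Site d, V y * ∑' ws' : Cand h R M J, pw μ 0 ws'.1.flatten *
          (((deps 0 ws'.1.flatten).filter fun z => |h y - h z| ≤ W).card : ℝ≥0∞) := by
        simp only [← ENNReal.tsum_mul_left]
        rw [ENNReal.tsum_comm (α := Site d)]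
        refine tsum_congr fun ws' => ?_
        set γ' := ws'.1.flatten
        calc ∑' c : Site d, (if |h c| ≤ W then J * (pw μ 0 γ' *
              ∑ z ∈ deps 0 γ', V (z + c)) else 0)
            = ∑ z ∈ deps 0 γ', ∑' c : Site d,
                (if |h c| ≤ W then J * (pw μ 0 γ' * V (z + c)) else 0) := by
              rw [← Summable.tsum_finsetSum fun z _ => ENNReal.summable]
              refine tsum_congr fun c => ?_
              split_ifs with hc <;> simp [mul_sum]
          _ = ∑ z ∈ deps 0 γ', ∑' y : Site d,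
                (if |h y - h z| ≤ W then J * (pw μ 0 γ' * V y) else 0) := by
              refine sum_congr rfl fun z _ => ?_
              rw [← (Equiv.addLeft z).tsum_eq
                (fun y => if |h y - h z| ≤ W then J * (pw μ 0 γ' * V y) else 0)]
              exact tsum_congr fun c => by simp
          _ = _ := by
              rw [← Summable.tsum_finsetSum fun z _ => ENNReal.summable]
              refine tsum_congr fun y => ?_
              rw [← sum_filter, sum_const, nsmul_eq_mul]
              ring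
    _ ≤ J * ∑' y : Site d, V y * (ENNReal.ofReal (2 * W + 2) * U) := by
        refine mul_le_mul' le_rfl (ENNReal.tsum_le_tsum fun y => mul_le_mul' le_rfl ?_)
        set I := Finset.Icc ⌊h y - W⌋ ⌊h y + W⌋
        calc ∑' ws' : Cand h R M J, pw μ 0 ws'.1.flatten *
              (((deps 0 ws'.1.flatten).filter fun z => |h y - h z| ≤ W).card : ℝ≥0∞)
            ≤ ∑' ws' : Bin h R, pw μ 0 ws'.1.flatten *
                ∑ s ∈ I, (binSites h (s : ℝ) ws'.1.flatten : ℝ≥0∞) := by
              refine le_trans (ENNReal.tsum_le_tsum fun ws' => ?_)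
                (ENNReal.tsum_comp_le_tsum_of_injective
                  (f := fun ws : Cand h R M J => (⟨ws.1, ws.2.1⟩ : Bin h R))
                  (fun a b hab => Subtype.ext (congrArg (fun w : Bin h R => w.1) hab)) _)
              refine mul_le_mul' le_rfl ?_
              rw [← Nat.cast_sum]
              exact Nat.cast_le.2 (bin_band_le h (h y) W _)
          _ = ∑ s ∈ I, ∑' ws' : Bin h R, pw μ 0 ws'.1.flatten *
                (binSites h (s : ℝ) ws'.1.flatten : ℝ≥0∞) := by
              simp only [mul_sum]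
              exact Summable.tsum_finsetSum fun s _ => ENNReal.summable
          _ ≤ ∑ _s ∈ I, U := sum_le_sum fun s _ => hU s
          _ ≤ _ := by
              rw [sum_const, nsmul_eq_mul]
              refine mul_le_mul' ?_ le_rfl
              rw [← ENNReal.ofReal_natCast]
              refine ENNReal.ofReal_le_ofReal ?_
              rw [Int.card_Icc]
              have h1 := Int.lt_floor_add_one (h y - W)
              have h2 := Int.floor_le (h y + W)
              have h3 : ⌊h y - W⌋ ≤ ⌊h y + W⌋ := Int.floor_le_floor (by linarith)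
              have h4 : ((⌊h y + W⌋ + 1 - ⌊h y - W⌋).toNat : ℝ)
                  = (⌊h y + W⌋ : ℝ) + 1 - ⌊h y - W⌋ := by
                have h5 : ((⌊h y + W⌋ + 1 - ⌊h y - W⌋).toNat : ℤ)
                    = ⌊h y + W⌋ + 1 - ⌊h y - W⌋ := Int.toNat_of_nonneg (by omega)
                exact_mod_cast h5
              rw [h4]
              linarith
    _ ≤ _ := by
        rw [ENNReal.tsum_mul_right]
        refine mul_le_mul' le_rfl (mul_le_mul' ?_ le_rfl)
        simp only [hV, ← lintegral_indicator_one (measurableSet_hitsBefore _ _ _)]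
        rw [← lintegral_tsum fun y =>
          (measurable_one.indicator (measurableSet_hitsBefore _ _ _)).aemeasurable]
        refine (lintegral_mono fun t => tsum_visit_le M t).trans_eq ?_
        rw [lintegral_const, measure_univ, mul_one]

omit [NeZero d] in
theorem lintegral_envShift (a : Site d) {F : Env d → ℝ≥0∞} (hF : Measurable F) :
    ∫⁻ ω, F (fun y => ω (y + a)) ∂envLaw μ = ∫⁻ ω, F ω ∂envLaw μ := by
  have hm : Measurable fun (ω : Env d) (y : Site d) => ω (y + a) :=
    measurable_pi_lambda _ fun y => measurable_pi_apply _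
  conv_rhs => rw [← map_shift_envLaw μ a, lintegral_map hF hm]

open Classical in
theorem Setup.phi_sq_le (S : Setup d) (hs : meanSites S.μ S.h ≠ ⊤) : ∃ C : ℝ≥0∞, C ≠ ⊤ ∧
    ∀ (R : ℝ) (M J : ℕ) (κ : Site d → ℝ≥0∞) (A : ℝ≥0∞) (s w : ℝ), 0 ≤ R → 0 ≤ w →
      ∑' x, κ x ≤ 1 → (∀ x, κ x ≤ A) → (∀ x, κ x ≠ 0 → s ≤ S.h x ∧ S.h x ≤ s + w) →
      ∫⁻ ω, phi S.h R M J κ ω ^ 2 ∂envLaw S.μ
        ≤ C * ((J : ℝ≥0∞) ^ 2 + J * A * M * ENNReal.ofReal (w + 1)) := by
  haveI := S.ann.1
  have hb := S.ann.tsum_bwgt S.escP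
  set p := (bwgt S.μ S.h [S.e₀])⁻¹ with hp
  have hpt : p ≠ ⊤ := by
    refine ENNReal.inv_ne_top.2 ?_
    simp only [bwgt, if_pos (isBlock_singleton (S.he₀.symm ▸ zero_lt_one : 0 < S.h (vec S.e₀)))]
    exact pw_pos S.μ S.ell 0 _
  set Cb := 3 * p with hCb
  set U := 3 * p * (meanSites S.μ S.h * p) with hU
  have hCbt : Cb ≠ ⊤ := ENNReal.mul_ne_top (by norm_num) hpt
  refine ⟨Cb ^ 2 + 6 * U, ENNReal.add_ne_top.2 ⟨ENNReal.pow_ne_top hCbt, ENNReal.mul_ne_top
    (by norm_num) (ENNReal.mul_ne_top hCbt (ENNReal.mul_ne_top hs hpt))⟩, ?_⟩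
  intro R M J κ A s w _ hw hκ1 hκA hκs
  set N := Cand S.h R M J with hN
  rcases Nat.eq_zero_or_pos J with hJ | hJ
  · have : IsEmpty N := ⟨fun ws => by
      have h1 : (1 : ℝ≥0∞) ≤ rank S.h R ws.1.flatten :=
        le_trans (by simp) (ENNReal.le_tsum (⟨ws.1, ws.2.1⟩ : Bin S.h R))
      have h2 := ws.2.2.2
      simp only [hJ, Nat.cast_zero, nonpos_iff_eq_zero] at h2
      simp [h2] at h1⟩
    simp [phi]
  have hmass : ∑' ws : N, pw S.μ 0 ws.1.flatten ≤ Cb := by
    refine le_trans (ENNReal.tsum_comp_le_tsum_of_injective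
      (f := fun ws : N => (⟨ws.1, ws.2.1⟩ : Bin S.h R))
      (fun a b hab => Subtype.ext (congrArg (fun w : Bin S.h R => w.1) hab))
      (fun ws : Bin S.h R => pw S.μ 0 ws.1.flatten)) ?_
    refine le_trans (le_of_eq ?_) (tsum_win_le hb S.he₀ R)
    simpa using tsum_bin_eq (μ := S.μ) (h := S.h) R fun _ => 1
  have hUb : ∀ u : ℝ, ∑' ws : Bin S.h R, pw S.μ 0 ws.1.flatten
      * (binSites S.h u ws.1.flatten : ℝ≥0∞) ≤ U := fun u => by
    rw [tsum_bin_eq R fun ws => (binSites S.h u ws.flatten : ℝ≥0∞)]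
    exact tsum_win_sites_le hb S.he₀ R u
  set a : Site d × N → Site d := fun x => -(disp x.2.1.flatten + x.1) with ha
  set g : Site d × N → Env d → ℝ≥0∞ := fun x ω => κ x.1 * qw ω (a x) x.2.1.flatten with hg
  have hgm : ∀ x, Measurable (g x) := fun x => (measurable_qw _ _).const_mul _
  have hphi : ∀ ω, phi S.h R M J κ ω = ∑' x, g x ω := fun ω => by
    rw [phi, ENNReal.tsum_prod']
  have hsq : ∀ ω, phi S.h R M J κ ω ^ 2 = ∑' x, ∑' y, g x ω * g y ω := fun ω => by
    rw [hphi, sq, ← ENNReal.tsum_mul_right]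
    simp only [← ENNReal.tsum_mul_left]
  simp only [hsq]
  rw [lintegral_tsum fun x =>
    (Measurable.ennreal_tsum fun y => (hgm x).fun_mul (hgm y)).aemeasurable]
  simp only [fun x => lintegral_tsum (μ := envLaw S.μ) (f := fun y ω => g x ω * g y ω)
    fun y => ((hgm x).fun_mul (hgm y)).aemeasurable]
  set Q : N → N → Site d → ℝ≥0∞ := fun ws ws' c => ∫⁻ ω,
      (if |S.h c| ≤ w + 2 ∧ ¬ Disjoint (deps 0 ws.1.flatten) (deps c ws'.1.flatten)
        then qw ω c ws'.1.flatten * qw ω 0 ws.1.flatten else 0) ∂envLaw S.μ with hQ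
  set f : Site d × N → ℝ≥0∞ := fun x => κ x.1 * pw S.μ 0 x.2.1.flatten with hf
  have hfsum : ∑' x, f x ≤ Cb := by
    rw [ENNReal.tsum_prod']
    simp only [hf, ENNReal.tsum_mul_left, ENNReal.tsum_mul_right]
    exact (mul_le_of_le_one_left' hκ1).trans hmass
  have hterm : ∀ x y : Site d × N, ∫⁻ ω, g x ω * g y ω ∂envLaw S.μ
      ≤ f x * f y + κ x.1 * (A * Q x.2 y.2 (a y - a x)) := by
    intro x y
    set γ := x.2.1.flatten with hγ
    set γ' := y.2.1.flatten with hγ'
    by_cases h0 : κ x.1 = 0 ∨ κ y.1 = 0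
    · rcases h0 with h0 | h0 <;> simp [hg, h0]
    push Not at h0
    by_cases hd : Disjoint (deps (a x) γ) (deps (a y) γ')
    · refine le_trans (le_of_eq ?_) le_self_add
      calc ∫⁻ ω, g x ω * g y ω ∂envLaw S.μ
          = ∫⁻ ω, κ x.1 * κ y.1 * (qw ω (a x) γ * qw ω (a y) γ') ∂envLaw S.μ :=
            lintegral_congr fun ω => by simp only [hg, hγ, hγ']; ring
        _ = κ x.1 * κ y.1 * (pw S.μ 0 γ * pw S.μ 0 γ') := by
            rw [lintegral_const_mul _ ((measurable_qw _ _).fun_mul (measurable_qw _ _)),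
              lintegral_qw_mul_qw hd]
        _ = _ := by simp only [hf, hγ, hγ']; ring
    refine le_trans ?_ le_add_self
    set c := a y - a x with hc
    have hband : |S.h c| ≤ w + 2 := by
      obtain ⟨x1, x2⟩ := hκs _ h0.1
      obtain ⟨y1, y2⟩ := hκs _ h0.2
      have bx := x.2.2.1.2
      have by' := y.2.2.1.2
      simp only [hc, ha, map_sub, map_neg, map_add]
      rw [abs_le]
      constructor <;> linarith [bx.1, bx.2, by'.1, by'.2]
    have hmeet : ¬ Disjoint (deps 0 γ) (deps c γ') := by
      intro hdis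
      refine hd ?_
      rw [show deps (a x) γ = (deps 0 γ).image (· + a x) by rw [← deps_shift, zero_add],
        show deps (a y) γ' = (deps c γ').image (· + a x) by rw [← deps_shift, hc, sub_add_cancel]]
      exact (Finset.disjoint_image (add_left_injective _)).2 hdis
    calc ∫⁻ ω, g x ω * g y ω ∂envLaw S.μ
        = ∫⁻ ω, κ x.1 * κ y.1 * (qw ω (a y) γ' * qw ω (a x) γ) ∂envLaw S.μ :=
          lintegral_congr fun ω => by simp only [hg, hγ, hγ']; ring
      _ = κ x.1 * (κ y.1 * Q x.2 y.2 c) := by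
          rw [lintegral_const_mul _ ((measurable_qw _ _).fun_mul (measurable_qw _ _)), mul_assoc]
          congr 2
          simp only [hQ, ← hγ, ← hγ', if_pos (And.intro hband hmeet)]
          rw [← lintegral_envShift (a x) ((measurable_qw γ' c).fun_mul (measurable_qw γ 0))]
          refine lintegral_congr fun ω => ?_
          rw [← qw_shift, ← qw_shift, hc, sub_add_cancel, zero_add]
      _ ≤ _ := mul_le_mul' le_rfl (mul_le_mul' (hκA _) le_rfl)
  calc ∑' x, ∑' y, ∫⁻ ω, g x ω * g y ω ∂envLaw S.μ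
      ≤ ∑' x, ∑' y, (f x * f y + κ x.1 * (A * Q x.2 y.2 (a y - a x))) :=
        ENNReal.tsum_le_tsum fun x => ENNReal.tsum_le_tsum fun y => hterm x y
    _ = (∑' x, f x) * (∑' y, f y) + ∑' (v : Site d) (ws : N),
          κ v * (A * ∑' (ws' : N) (c : Site d), Q ws ws' c) := by
        simp only [ENNReal.tsum_add, ENNReal.tsum_mul_left, ENNReal.tsum_mul_right]
        congr 1
        rw [ENNReal.tsum_prod']
        have inner : ∀ (v : Site d) (ws : N), ∑' i : Site d × N, Q ws i.2 (a i - a (v, ws))
            = ∑' (ws' : N) (c : Site d), Q ws ws' c := fun v ws => by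
          rw [ENNReal.tsum_prod', ENNReal.tsum_comm]
          refine tsum_congr fun ws' => ?_
          exact ((Equiv.addLeft (disp ws'.1.flatten)).trans ((Equiv.neg (Site d)).trans
            (Equiv.subRight (a (v, ws))))).tsum_eq (fun c => Q ws ws' c)
        simp only [inner, ENNReal.tsum_mul_left, ENNReal.tsum_mul_right]
    _ ≤ Cb ^ 2 + A * (J * (M * (ENNReal.ofReal (2 * (w + 2) + 2) * U))) := by
        refine add_le_add (by rw [sq]; exact mul_le_mul' hfsum hfsum) ?_
        simp only [ENNReal.tsum_mul_left, ENNReal.tsum_mul_right]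
        refine (mul_le_of_le_one_left' hκ1).trans (mul_le_mul' le_rfl ?_)
        refine le_trans (le_of_eq ?_) (S.ann.meet_band_le U R hUb M J (w + 2) (by linarith))
        rw [ENNReal.tsum_comm]
        exact tsum_congr fun ws' => ENNReal.tsum_comm
    _ ≤ _ := by
        have h1 : (1 : ℝ≥0∞) ≤ (J : ℝ≥0∞) ^ 2 := one_le_pow₀ (by exact_mod_cast hJ)
        have h2 : ENNReal.ofReal (2 * (w + 2) + 2) ≤ 6 * ENNReal.ofReal (w + 1) := by
          rw [show (6 : ℝ≥0∞) = ENNReal.ofReal 6 by simp, ← ENNReal.ofReal_mul (by norm_num)]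
          exact ENNReal.ofReal_le_ofReal (by linarith)
        calc Cb ^ 2 + A * (J * (M * (ENNReal.ofReal (2 * (w + 2) + 2) * U)))
            ≤ Cb ^ 2 * (J : ℝ≥0∞) ^ 2 + A * (J * (M * (6 * ENNReal.ofReal (w + 1) * U))) := by
              gcongr
              exact le_mul_of_one_le_right' h1
          _ ≤ (Cb ^ 2 * (J : ℝ≥0∞) ^ 2 + A * (J * (M * (6 * ENNReal.ofReal (w + 1) * U))))
              + (6 * U * (J : ℝ≥0∞) ^ 2 + Cb ^ 2 * (J * A * M * ENNReal.ofReal (w + 1))) :=
              le_self_add
          _ = _ := by ring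

end Vale.Agent.P147
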