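import Mathlib
import Vale.Agent.P147.CrossCor

/-!
# P147: backtracking of polynomial order `12 d` on one side gives the zero-one law

Two sided transience makes the entropy of `n` blocks grow at most like `(16 / 7) d log n` without
any assumption, so a backtrack tail of order `12 d` keeps the revealed mass below `3 / 20` of the
escape probability.
-/

namespace Vale.Agent.P147

open MeasureTheory Finset Filter
open scoped ENNReal Topology

variable {d : ℕ}

/-- Rare backtracking of order `12 d` on the ascending side is incompatible with descending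
escape. -/
theorem Setup.false_of_rate (S : Setup d) {A : ℝ}
    (htail : ∀ r : ℝ, 0 < r →
      S.P (Reach (-S.h) r ∩ Up S.h) ≤ ENNReal.ofReal (A / r ^ (12 * d))) : False := by
  classical
  have hne : NeZero d := ⟨by have := S.three; omega⟩
  haveI := S.ann.1
  have hd : (3 : ℝ) ≤ d := by exact_mod_cast S.three
  have hν : ∑' x, blockLaw S.μ S.h x = 1 := tsum_blockLaw (S.ann.tsum_bwgt S.escP)
  obtain ⟨C0, hC0, hup⟩ := ent_conv_le_log hν (show (0 : ℝ) < 7 / 8 by norm_num) (by norm_num)
    (fun i => S.ann.blockLaw_coord_moment S.escP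
      (S.cutMoment_ne_top (by norm_num) (by norm_num)) i)
  obtain ⟨F, hFa, hFb⟩ := exists_frame S.ell S.he₀
  obtain ⟨θ, hθ, hlow⟩ := F.ent_conv_ge hν hFa hFb
  obtain ⟨c, C, hc, hC, hmid⟩ := S.middle_span
  set K : ℝ := max ((16 / 7 : ℝ) * d * Real.log 4 + (d / 2 * -Real.log θ + d * Real.log 2)) 0
    with hK
  set q : ℝ := (250 / 21 : ℝ) * d with hq
  have hcrit : ∀ ε : ℝ≥0∞, ε ≠ 0 → ∀ᶠ m : ℕ in atTop, ∃ L : ℝ, 1 < L ∧
      ent (conv (blockLaw S.μ S.h) m) ≠ ⊤ ∧
      ent (conv (blockLaw S.μ S.h) (4 * m))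
        ≤ ent (conv (blockLaw S.μ S.h) m) + ENNReal.ofReal (L - 1) * ENNReal.ofReal (3 / 20) ∧
      ENNReal.ofReal (Real.exp L) * S.P (Reach (-S.h) (c / 2 * m) ∩ Up S.h) ≤ ε := by
    intro ε hε
    set L : ℕ → ℝ := fun m =>
      1 + ((25 / 14 : ℝ) * d * Real.log m + K + C0.toReal + 1) / (3 / 20) with hL
    set B : ℝ := Real.exp (1 + (K + C0.toReal + 1) / (3 / 20)) * |A| / (c / 2) ^ (12 * d) with hB
    have hexp : ∀ m : ℕ, 0 < m →
        Real.exp (L m) * (A / (c / 2 * m) ^ (12 * d)) ≤ B / (m : ℝ) ^ ((12 * d : ℕ) - q) := by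
      intro m hm
      have hm' : (0 : ℝ) < m := by exact_mod_cast hm
      have e1 : Real.exp (L m) = Real.exp (1 + (K + C0.toReal + 1) / (3 / 20)) * (m : ℝ) ^ q := by
        rw [Real.rpow_def_of_pos hm', ← Real.exp_add]
        congr 1
        simp only [hL, hq]
        ring
      calc Real.exp (L m) * (A / (c / 2 * m) ^ (12 * d))
          ≤ Real.exp (L m) * (|A| / (c / 2 * m) ^ (12 * d)) := by
            gcongr
            exact le_abs_self A
        _ = _ := by
            rw [e1, hB, mul_pow, Real.rpow_sub hm', Real.rpow_natCast]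
            field_simp
    have hlim : Tendsto (fun m : ℕ => ENNReal.ofReal (B / (m : ℝ) ^ ((12 * d : ℕ) - q)))
        atTop (𝓝 0) := by
      have hpos : 0 < ((12 * d : ℕ) : ℝ) - q := by
        rw [hq]; push_cast; linarith
      have h0 : Tendsto (fun m : ℕ => B / (m : ℝ) ^ (((12 * d : ℕ) : ℝ) - q)) atTop (𝓝 0) :=
        tendsto_const_nhds.div_atTop ((tendsto_rpow_atTop hpos).comp tendsto_natCast_atTop_atTop)
      simpa using ENNReal.tendsto_ofReal h0
    filter_upwards [hlim.eventually (eventually_le_nhds (pos_iff_ne_zero.2 hε)),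
      eventually_gt_atTop 0] with m hme hm
    have hm' : (0 : ℝ) < m := by exact_mod_cast hm
    have hm1 : (1 : ℝ) ≤ m := by exact_mod_cast hm
    have hlogm : 0 ≤ Real.log (m : ℝ) := Real.log_nonneg hm1
    have hK0 : 0 ≤ K := le_max_right _ _
    have hd0 : (0 : ℝ) ≤ (25 / 14 : ℝ) * d * Real.log m := by positivity
    refine ⟨L m, ?_, ne_top_of_le_ne_top (ENNReal.add_ne_top.2 ⟨ENNReal.ofReal_ne_top, hC0⟩)
      (hup m hm), ?_, ?_⟩
    · have : 0 < ((25 / 14 : ℝ) * d * Real.log m + K + C0.toReal + 1) / (3 / 20) := by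
        have := ENNReal.toReal_nonneg (a := C0)
        positivity
      simp only [hL]
      linarith
    · refine (hup (4 * m) (by omega)).trans ?_
      have h1 : 2 * (d : ℝ) / (7 / 8) * Real.log ((4 * m : ℕ) : ℝ)
          ≤ d * (Real.log (θ * (m + 1)) / 2 - Real.log 2)
            + ((25 / 14 : ℝ) * d * Real.log m + K) := by
        push_cast
        rw [Real.log_mul (by norm_num) hm'.ne', Real.log_mul hθ.ne' (by positivity)]
        have h2 := mul_le_mul_of_nonneg_left
          (Real.log_le_log hm' (show (m : ℝ) ≤ m + 1 by linarith))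
          (show (0 : ℝ) ≤ d / 2 by positivity)
        have h3 := le_max_left
          ((16 / 7 : ℝ) * d * Real.log 4 + (d / 2 * -Real.log θ + d * Real.log 2)) 0
        rw [← hK] at h3
        linarith
      refine (add_le_add ((ENNReal.ofReal_le_ofReal h1).trans
        (ENNReal.ofReal_add_le.trans (add_le_add (hlow m) le_rfl))) le_rfl).trans ?_
      rw [add_assoc]
      refine add_le_add le_rfl ?_
      rw [← ENNReal.ofReal_toReal hC0, ← ENNReal.ofReal_add (by linarith) ENNReal.toReal_nonneg,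
        ← ENNReal.ofReal_mul' (by norm_num)]
      refine ENNReal.ofReal_le_ofReal ?_
      simp only [hL]
      rw [add_sub_cancel_left, div_mul_cancel₀ _ (by norm_num)]
      linarith
    · refine le_trans ?_ hme
      refine (mul_le_mul' le_rfl (htail (c / 2 * m) (by positivity))).trans ?_
      rw [← ENNReal.ofReal_mul (Real.exp_pos _).le]
      exact ENNReal.ofReal_le_ofReal (hexp m hm)
  let ε : ℕ → ℝ≥0∞ := fun m =>
    ⨆ (z : Site d) (_ : -(c * m / 2) ≤ S.h z) (_ : S.h z < 0),
      ex S.μ S.h (2 * m) (fun V => ex S.μ S.h m fun M =>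
        S.P (Esc (-S.h) ∩ Hits z (deps (-disp (V ++ M).flatten) V.flatten)))
  set e := S.P (Esc (-S.h)) with he
  have hη : e * ENNReal.ofReal (1 / 120) ≠ 0 := mul_ne_zero S.escM (by simp)
  have hε : ∀ᶠ m in atTop, ε m / e ≤ ENNReal.ofReal (19 / 120) := by
    filter_upwards [S.window_bound_rel hc hcrit hC (fun n hn => by convert hmid n hn using 5)
      hη] with m hm
    refine ENNReal.div_le_of_le_mul ((iSup_le fun z => iSup_le fun h1 => iSup_le fun h2 =>
      hm z h1 h2).trans (le_of_eq ?_))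
    rw [← he, ← mul_add, ← ENNReal.ofReal_add (by norm_num) (by norm_num), mul_comm]
    norm_num
  refine S.false_of (c := c / 2) (by linarith) hε hC
    (K := (S.meanH + 1) * (bwgt S.μ (-S.h) [S.e₁])⁻¹)
    (ENNReal.mul_ne_top (ENNReal.add_ne_top.2 ⟨S.meanH_ne_top, ENNReal.one_ne_top⟩)
      (ENNReal.inv_ne_top.2 S.bwgt_e₁_ne_zero)) S.base ?_
  obtain ⟨N, hN⟩ := exists_nat_gt (2 / c)
  filter_upwards [eventually_ge_atTop N, eventually_gt_atTop 0] with m hm hm0 D hD hD1
  have hm' : (2 : ℝ) / c < m := lt_of_lt_of_le hN (by exact_mod_cast hm)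
  rw [div_lt_iff₀ hc] at hm'
  have ha : c / 2 * (m : ℝ) = c * m / 2 := by ring
  rw [ha]
  refine S.recursion_core D hD m (c * m / 2) (ε m) (C / m) (fun z hz1 hz2 => ?_) ?_
  · rw [min_eq_left (by linarith)] at hz1
    exact le_iSup_of_le z (le_iSup_of_le hz1 (le_iSup_of_le hz2 le_rfl))
  · refine le_trans (ex_mono fun M => ?_) (hmid m hm0)
    have hcm : (0 : ℝ) ≤ c * m := by positivity
    split_ifs <;> first | exact le_rfl | exact zero_le_one | linarith

variable {μ : Measure (Row d)} [IsProbabilityMeasure μ] {P : Measure (Traj d)}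

/-- A second moment, an infinite moment below one, or rare backtracking of order `12 d`. -/
theorem IsAnnealed.up_eq_one_of_regen (hP : IsAnnealed μ P) (hμ : Elliptic μ) (hd : 3 ≤ d)
    {l : Fin d → ℝ} (hl : l ≠ 0) (hA : P (Up (height l)) ≠ 0)
    (hcase : cutMoment P (height l) 2 ≠ ⊤ ∨
      (∃ α : ℝ, 0 < α ∧ α < 1 ∧ cutMoment P (height l) α = ⊤) ∨
      ∃ C : ℝ, ∀ r : ℝ, 0 < r →
        P (Reach (-height l) r ∩ Up (height l)) ≤ ENNReal.ofReal (C / r ^ (12 * d))) :
    P (Up (height l)) = 1 := by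
  obtain ⟨i₁, hi₁⟩ := Function.ne_iff.1 hl
  obtain ⟨i, -, hmax⟩ := (univ : Finset (Fin d)).exists_max_image (fun i => |l i|)
    ⟨i₁, mem_univ _⟩
  have hM : 0 < |l i| := lt_of_lt_of_le (abs_pos.2 hi₁) (hmax i₁ (mem_univ _))
  set l' : Fin d → ℝ := fun j => l j / |l i| with hl'
  have hscale : ∀ x : Site d, height l' x = height l x / |l i| := fun x => by
    simp only [height, AddMonoidHom.coe_mk, ZeroHom.coe_mk, sum_div, hl', div_mul_eq_mul_div]
  have hvec : ∀ (m : Fin d → ℝ) (e : Step d),
      height m (vec e) = m e.1 * (if e.2 then 1 else -1) := by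
    intro m e
    rcases e with ⟨j, _ | _⟩ <;> simp [height, vec, Pi.single_apply]
  have hu : UnitSteps (height l') := fun e => by
    rw [hvec, abs_mul, hl']
    have h1 : abs (l e.1 / abs (l i)) ≤ 1 := by
      rw [abs_div, abs_abs, div_le_one hM]; exact hmax _ (mem_univ _)
    cases e.2 <;> simpa using h1
  have he : height l' (vec ((i, decide (0 ≤ l i)) : Step d)) = 1 := by
    rw [hvec, hl']
    by_cases h0 : 0 ≤ l i
    · rw [decide_eq_true h0, abs_of_nonneg h0] at *
      simp [div_self (ne_of_gt hM)]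
    · rw [decide_eq_false h0]
      rw [abs_of_neg (not_le.1 h0)] at hM ⊢
      simp [div_neg, div_self (ne_of_lt (not_le.1 h0))]
  obtain ⟨hE, hU, hF, hR⟩ := scale_invariance (height l) (height l') hM hscale
  have hcm : ∀ α, cutMoment P (height l') α = cutMoment P (height l) α := fun α => by
    simp only [cutMoment, hE, hF]
  rw [← hU] at hA ⊢
  have hplus : P (Esc (height l')) ≠ 0 := hP.esc_pos hA
  rcases hcase with h2 | hcase
  · exact hP.up_eq_one_of_entropyCrit hμ hd hu he hplus
      (hP.crit_of_second_moment hμ he hplus (by rw [hcm]; exact h2))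
  refine hP.up_eq_one_of_escM_null hμ hd he hplus ?_
  by_contra hne
  let S : Setup d :=
    { μ := μ, prob := inferInstance, ell := hμ, P := P, ann := hP, h := height l', three := hd,
      unit := hu, e₀ := _, he₀ := he, escP := hplus, escM := hne }
  rcases hcase with ⟨α, hα0, hα1, hinf⟩ | ⟨C, hC⟩
  · exact S.cutMoment_ne_top hα0 hα1 ((hcm α).trans hinf)
  · refine S.false_of_rate (A := C / |l i| ^ (12 * d)) fun r hr => ?_
    change P (Reach (-height l') r ∩ Up (height l')) ≤ _
    rw [hR, hU]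
    refine (hC (r * |l i|) (by positivity)).trans (le_of_eq ?_)
    rw [mul_pow, div_div, mul_comm (r ^ (12 * d))]

end Vale.Agent.P147
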