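import Mathlib
import Vale.Agent.P147.MainArg

/-!
# P147: a velocity of positive probability has probability one

If the nonzero velocity `v` has positive probability, the walk almost surely escapes in direction
`v`, and on that escape the event of having velocity `v` is trivial.
-/

namespace Vale.Agent.P147

open MeasureTheory Finset Filter
open scoped ENNReal Topology

variable {d : ℕ}

theorem measurableSet_vel (v : Fin d → ℝ) : MeasurableSet (Vel (d := d) v) := by
  have : Vel v = ⋂ i : Fin d, {t : Traj d |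
      Tendsto (fun n : ℕ => (site t n i : ℝ) / n) atTop (𝓝 (v i))} := by
    ext t; simp [Vel]
  rw [this]
  exact MeasurableSet.iInter fun i => measurableSet_tendsto (𝓝 (v i)) fun n =>
    ((measurable_of_countable fun x : Site d => (x i : ℝ)).comp (measurable_site n)).div_const _

theorem shiftT_mem_vel_iff (n : ℕ) (t : Traj d) (v : Fin d → ℝ) :
    shiftT n t ∈ Vel v ↔ t ∈ Vel v := by
  refine ⟨fun ht i => ?_, fun ht => shiftT_mem_vel ht n⟩
  have h2 : Tendsto (fun k : ℕ => (1 : ℝ) + n / (k : ℝ)) atTop (𝓝 1) := by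
    simpa using (tendsto_const_div_atTop_nhds_zero_nat (n : ℝ)).const_add 1
  have h3 := ((ht i).add (tendsto_const_div_atTop_nhds_zero_nat (site t n i : ℝ))).div h2 one_ne_zero
  simp only [add_zero, div_one] at h3
  have h4 : Tendsto (fun k : ℕ => (site t (k + n) i : ℝ) / ((k + n : ℕ) : ℝ)) atTop (𝓝 (v i)) := by
    refine h3.congr' ?_
    filter_upwards [eventually_gt_atTop 0] with k hk
    have hk' : (0 : ℝ) < k := by exact_mod_cast hk
    rw [add_comm k n, site_shiftT_apply, Pi.div_apply]
    push_cast
    field_simp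
    ring
  exact (tendsto_add_atTop_iff_nat (f := fun k : ℕ => (site t k i : ℝ) / k) n).1 h4

variable {μ : Measure (Row d)} [IsProbabilityMeasure μ] {P : Measure (Traj d)}

/-- A nonzero velocity of positive probability is the almost sure velocity. -/
theorem IsAnnealed.vel_eq_one_of_chainBounds (hP : IsAnnealed μ P) (hμ : Elliptic μ) (hd : 3 ≤ d)
    (hCB : ∀ S : Setup d, meanSites S.μ S.h ≠ ⊤ → ChainBounds S) {v : Fin d → ℝ} (hv : v ≠ 0) (hPv : P (Vel v) ≠ 0) :
    P (Vel v) = 1 := by
  have := hP.1
  have hpos := sum_mul_self_pos hv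
  have hup := hP.up_height_eq_one_of_chainBounds hμ hd hCB hv
    fun h0 => hPv (measure_mono_null ((vel_subset_linEsc v v hpos).trans (linEsc_subset_freq _)) h0)
  set h := height v with hh
  have hdown : P (Up h)ᶜ = 0 := (prob_compl_eq_zero_iff (measurableSet_up h)).2 hup
  have hbad : ∀ {B : Set (Traj d)}, MeasurableSet B → P B = 0 →
      ∀ {X : Set (Traj d)}, (∀ t ∈ X, ∀ n, shiftT n t ∈ Esc h → shiftT n t ∈ B) → P X = 0 := by
    intro B hBm hB0 X hX
    refine measure_mono_null (fun t ht => ?_)
      (measure_union_null hdown (hP.measure_shift_null hBm hB0))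
    by_cases hmem : t ∈ Up h
    · obtain ⟨n, hn⟩ := exists_shiftT_mem_esc (h := h) hmem
      exact .inr ⟨n, hX t ht n hn⟩
    · exact .inl hmem
  have hesc : P (Esc h) ≠ 0 := fun h0 => hPv <| hbad (measurableSet_esc h) h0 fun _ _ _ hn => hn
  have hVm := measurableSet_vel v
  rcases hP.esc_zero_one hesc hVm (fun n t => shiftT_mem_vel_iff n t v) with h0 | h1
  · exact absurd (hbad ((measurableSet_esc h).inter hVm) h0
      fun t ht n hn => ⟨hn, shiftT_mem_vel ht n⟩) hPv
  · rw [← prob_compl_eq_zero_iff hVm]
    exact hbad (MeasurableSet.diff (measurableSet_esc h) hVm) h1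
      fun t ht n hn => ⟨hn, fun hmem => ht ((shiftT_mem_vel_iff n t v).1 hmem)⟩

end Vale.Agent.P147
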